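import Crest.Agent.R253.CptF_435

/-!
# R253 (helper140): limit passages at the level of entropy and covariance

* `Cv f g` : uniform exponential majorant and a.e. convergence `f k → g`;
* convergence of polynomial moments, entropy, covariance, `L¹`;
* `nrm g` : normalised density; `lim_nrm`;
* `lim_lam` : `λ_k → 0` in `exp (-(|x|²/2 + P - λ_k v_k))`, `v_k` uniformly Lipschitz;
* `DD f = 2 h(f) - 2 m - log det Cov f`, affine invariance.
-/

set_option autoImplicit false
open MeasureTheory Set Filter Topology Matrix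
open Crest.GeometryTopology.Isotropic
open Crest.Agent.R253.Cpt435

namespace Crest.Agent.R253.Lim140

variable {m : ℕ}

/-- uniform exponential majorant and a.e. convergence -/
structure Cv (f : ℕ → (Fin m → ℝ) → ℝ) (g : (Fin m → ℝ) → ℝ) : Prop where
  meas : ∀ k, Measurable (f k)
  measL : Measurable g
  nonneg : ∀ k x, 0 ≤ f k x
  nonnegL : ∀ x, 0 ≤ g x
  bound : ∃ (C c : ℝ), 0 ≤ C ∧ 0 < c ∧ ∀ k x, f k x ≤ C * Real.exp (-c * ‖x‖)
  lim : ∀ᵐ x, Tendsto (fun k => f k x) atTop (𝓝 (g x))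

namespace Cv

variable {f : ℕ → (Fin m → ℝ) → ℝ} {g : (Fin m → ℝ) → ℝ}

theorem eb (h : Cv f g) (k : ℕ) : EB (f k) := by
  obtain ⟨C, c, hC, hc, hb⟩ := h.bound
  refine ⟨h.meas k, C, c, hC, hc, fun x => ?_⟩
  rw [abs_of_nonneg (h.nonneg k x)]
  exact hb k x

theorem boundL (h : Cv f g) :
    ∃ (C c : ℝ), 0 ≤ C ∧ 0 < c ∧ (∀ k x, f k x ≤ C * Real.exp (-c * ‖x‖)) ∧
      ∀ᵐ x, g x ≤ C * Real.exp (-c * ‖x‖) := by
  obtain ⟨C, c, hC, hc, hb⟩ := h.bound
  refine ⟨C, c, hC, hc, hb, ?_⟩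
  filter_upwards [h.lim] with x hx
  exact le_of_tendsto hx (Eventually.of_forall fun k => hb k x)

/-- convergence of polynomial moments -/
theorem tendsto_ex (h : Cv f g) {ψ : (Fin m → ℝ) → ℝ} (hψ : PB ψ) :
    Tendsto (fun k => ex (f k) ψ) atTop (𝓝 (ex g ψ)) := by
  obtain ⟨C, c, hC, hc, hb⟩ := h.bound
  obtain ⟨K, hK0, hK⟩ := hψ.exp_bound (c := c / 2) (by positivity)
  refine tendsto_integral_of_dominated_convergence
    (fun x => K * C * Real.exp (-(c / 2) * ‖x‖)) ?_ ?_ ?_ ?_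
  · intro k; exact (hψ.meas.mul (h.meas k)).aestronglyMeasurable
  · exact (integrable_exp_neg_norm (by positivity)).const_mul _
  · intro k
    refine ae_of_all _ fun x => ?_
    rw [Real.norm_eq_abs, abs_mul, abs_of_nonneg (h.nonneg k x)]
    have hK' : 0 ≤ K * Real.exp (c / 2 * ‖x‖) := (abs_nonneg _).trans (hK x)
    calc |ψ x| * f k x ≤ (K * Real.exp (c / 2 * ‖x‖)) * (C * Real.exp (-c * ‖x‖)) :=
          mul_le_mul (hK x) (hb k x) (h.nonneg k x) hK'
      _ = K * C * (Real.exp (c / 2 * ‖x‖) * Real.exp (-c * ‖x‖)) := by ring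
      _ = _ := by rw [← Real.exp_add]; ring_nf
  · filter_upwards [h.lim] with x hx
    exact hx.const_mul _

theorem tendsto_integral (h : Cv f g) :
    Tendsto (fun k => ∫ x, f k x) atTop (𝓝 (∫ x, g x)) := by
  have := h.tendsto_ex (PB.const 1)
  simpa [ex] using this

/-- convergence of the entropy -/
theorem tendsto_entropy (h : Cv f g) :
    Tendsto (fun k => diffEntropy (f k)) atTop (𝓝 (diffEntropy g)) := by
  obtain ⟨C, c, hC, hc, hb⟩ := h.bound
  refine Tendsto.neg ?_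
  refine tendsto_integral_of_dominated_convergence
    (fun x => 2 * (1 + C) * Real.sqrt C * Real.exp (-(c / 2) * ‖x‖)) ?_ ?_ ?_ ?_
  · intro k
    exact ((h.meas k).mul (Real.measurable_log.comp (h.meas k))).aestronglyMeasurable
  · exact (integrable_exp_neg_norm (by positivity)).const_mul _
  · intro k
    refine ae_of_all _ fun x => ?_
    rw [Real.norm_eq_abs]
    have h1 := hb k x
    have h2 : f k x ≤ C := h1.trans (by
      have : Real.exp (-c * ‖x‖) ≤ 1 := by
        rw [Real.exp_le_one_iff]; have := norm_nonneg x; nlinarith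
      nlinarith)
    refine (abs_mul_log_le (h.nonneg k x) h2).trans ?_
    rw [mul_assoc (2 * (1 + C))]
    gcongr
    calc Real.sqrt (f k x) ≤ Real.sqrt (C * Real.exp (-c * ‖x‖)) := Real.sqrt_le_sqrt h1
      _ = _ := by
        rw [Real.sqrt_mul hC, Real.sqrt_eq_rpow (Real.exp _), ← Real.exp_mul]; ring_nf
  · filter_upwards [h.lim] with x h1
    exact (Real.continuous_mul_log.tendsto (g x)).comp h1

/-- `L¹` convergence -/
theorem tendsto_L1 (h : Cv f g) :
    Tendsto (fun k => ∫ x, |f k x - g x|) atTop (𝓝 0) := by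
  obtain ⟨C, c, hC, hc, hb, hg⟩ := h.boundL
  have key : Tendsto (fun k => ∫ x, |f k x - g x|) atTop (𝓝 (∫ _x : Fin m → ℝ, (0 : ℝ))) := by
    refine tendsto_integral_of_dominated_convergence
      (fun x => 2 * C * Real.exp (-c * ‖x‖)) ?_ ?_ ?_ ?_
    · intro k; exact (((h.meas k).sub h.measL).abs).aestronglyMeasurable
    · exact (integrable_exp_neg_norm hc).const_mul _
    · intro k
      filter_upwards [hg] with x hx
      rw [Real.norm_eq_abs, abs_abs]
      have h1 := hb k x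
      have h2 := h.nonneg k x
      have h3 := h.nonnegL x
      rw [abs_le]; constructor <;> nlinarith
    · filter_upwards [h.lim] with x hx
      have := (hx.sub_const (g x)).abs
      simpa using this
  simpa using key

/-- division by convergent constants -/
theorem div (h : Cv f g) {Z : ℕ → ℝ} {Z0 : ℝ} (hZ : ∀ k, 0 ≤ Z k)
    (hZl : Tendsto Z atTop (𝓝 Z0)) (hZ0 : 0 < Z0) :
    Cv (fun k x => f k x / Z k) (fun x => g x / Z0) := by
  obtain ⟨C, c, hC, hc, hb⟩ := h.bound
  have h1 : Tendsto (fun k => (Z k)⁻¹) atTop (𝓝 Z0⁻¹) := hZl.inv₀ hZ0.ne'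
  obtain ⟨B, hB⟩ := h1.bddAbove_range
  have hB' : ∀ k, (Z k)⁻¹ ≤ B := fun k => hB ⟨k, rfl⟩
  have hB0 : 0 ≤ B := (inv_nonneg.mpr (hZ 0)).trans (hB' 0)
  refine ⟨fun k => (h.meas k).div_const _, h.measL.div_const _,
    fun k x => div_nonneg (h.nonneg k x) (hZ k), fun x => div_nonneg (h.nonnegL x) hZ0.le,
    ⟨C * B, c, by positivity, hc, fun k x => ?_⟩, ?_⟩
  · rw [div_eq_mul_inv]
    calc f k x * (Z k)⁻¹ ≤ (C * Real.exp (-c * ‖x‖)) * B :=
          mul_le_mul (hb k x) (hB' k) (inv_nonneg.mpr (hZ k)) (by positivity)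
      _ = _ := by ring
  · filter_upwards [h.lim] with x hx
    exact hx.div hZl hZ0.ne'

end Cv

/-! ### raw second moments without log-concavity -/

theorem densCov_raw' {f : (Fin m → ℝ) → ℝ} (hf : EB f) (h1' : ∫ x, f x = 1) (i j : Fin m) :
    densCov f i j = ex f (fun x => x i * x j) - densMean f i * densMean f j := by
  rw [densCov_eq]
  have hcst : ∀ c : ℝ, ex f (fun _ => c) = c := by
    intro c; unfold ex; rw [integral_const_mul, h1', mul_one]
  have h1 : (fun x : Fin m → ℝ => (x i - densMean f i) * (x j - densMean f j)) =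
      fun x => (x i * x j - (densMean f i * x j + densMean f j * x i)) +
        densMean f i * densMean f j := by
    funext x; ring
  rw [h1, ex_add hf _ (PB.const _), hcst,
    ex_sub hf ((PB.coord i).mul (PB.coord j))
      (((PB.coord j).const_mul _).add ((PB.coord i).const_mul _)),
    ex_add hf ((PB.coord j).const_mul _) ((PB.coord i).const_mul _), ex_const_mul, ex_const_mul,
    ← densMean_eq, ← densMean_eq]
  · ring
  · exact ((PB.coord i).mul (PB.coord j)).sub
      (((PB.coord j).const_mul _).add ((PB.coord i).const_mul _))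

theorem Cv.tendsto_densCov {f : ℕ → (Fin m → ℝ) → ℝ} {g : (Fin m → ℝ) → ℝ} (h : Cv f g)
    (hg : EB g) (h1 : ∀ k, ∫ x, f k x = 1) (hg1 : ∫ x, g x = 1) (i j : Fin m) :
    Tendsto (fun k => densCov (f k) i j) atTop (𝓝 (densCov g i j)) := by
  rw [densCov_raw' hg hg1]
  simp only [fun k => densCov_raw' (h.eb k) (h1 k) i j]
  exact (h.tendsto_ex ((PB.coord i).mul (PB.coord j))).sub
    ((h.tendsto_ex (PB.coord i)).mul (h.tendsto_ex (PB.coord j)))

theorem Cv.tendsto_densMean {f : ℕ → (Fin m → ℝ) → ℝ} {g : (Fin m → ℝ) → ℝ} (h : Cv f g)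
    (i : Fin m) :
    Tendsto (fun k => densMean (f k) i) atTop (𝓝 (densMean g i)) :=
  h.tendsto_ex (PB.coord i)

/-! ### the functional -/

/-- `D(f) = 2 h(f) - 2 m - log det Cov f` -/
noncomputable def DD (f : (Fin m → ℝ) → ℝ) : ℝ :=
  2 * diffEntropy f - 2 * (m : ℝ) - Real.log (densCov f).det

theorem DD_nonneg_iff (f : (Fin m → ℝ) → ℝ) :
    0 ≤ DD f ↔ (m : ℝ) + Real.log (densCov f).det / 2 ≤ diffEntropy f := by
  unfold DD; constructor <;> intro h <;> linarith

theorem DD_eq_zero_iff (f : (Fin m → ℝ) → ℝ) :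
    DD f = 0 ↔ diffEntropy f = (m : ℝ) + Real.log (densCov f).det / 2 := by
  unfold DD; constructor <;> intro h <;> linarith

/-- affine invariance -/
theorem DD_aff {f : (Fin m → ℝ) → ℝ} (hf : LCD f) {T : Matrix (Fin m) (Fin m) ℝ}
    (hT : T.det ≠ 0) (b : Fin m → ℝ) : DD (aff f T b) = DD f := by
  have hg : LCD (aff f T b) := hf.comp_affine T hT b
  have h1 := diffEntropy_aff hf hT b
  have h2 := densCov_aff hf hT b
  have h3 : (densCov f).det = |T.det| ^ 2 * (densCov (aff f T b)).det := by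
    rw [h2, det_mul, det_mul, det_transpose, sq_abs]; ring
  have h4 : Real.log (densCov f).det
      = 2 * Real.log |T.det| + Real.log (densCov (aff f T b)).det := by
    rw [h3, Real.log_mul (by have := abs_pos.mpr hT; positivity) hg.densCov_det_pos.ne',
      Real.log_pow]
    norm_num
  unfold DD
  rw [h1, h4]; ring

/-- convergence of `DD` -/
theorem Cv.tendsto_DD {f : ℕ → (Fin m → ℝ) → ℝ} {g : (Fin m → ℝ) → ℝ} (h : Cv f g)
    (hg : LCD g) (h1 : ∀ k, ∫ x, f k x = 1) :
    Tendsto (fun k => DD (f k)) atTop (𝓝 (DD g)) := by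
  have hC : Tendsto (fun k => densCov (f k)) atTop (𝓝 (densCov g)) := by
    refine tendsto_pi_nhds.mpr fun i => tendsto_pi_nhds.mpr fun j => ?_
    exact h.tendsto_densCov hg.eb h1 hg.int1 i j
  have hdet : Tendsto (fun k => (densCov (f k)).det) atTop (𝓝 (densCov g).det) :=
    ((continuous_id.matrix_det).tendsto _).comp hC
  have hlog := (Real.continuousAt_log hg.densCov_det_pos.ne').tendsto.comp hdet
  exact ((h.tendsto_entropy.const_mul 2).sub_const _).sub hlog

/-! ### normalisation -/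

/-- the normalised density -/
noncomputable def nrm (g : (Fin m → ℝ) → ℝ) : (Fin m → ℝ) → ℝ := fun x => g x / ∫ y, g y

theorem integral_nrm {g : (Fin m → ℝ) → ℝ} (h : ∫ y, g y ≠ 0) : ∫ x, nrm g x = 1 := by
  unfold nrm
  rw [integral_div, div_self h]

theorem nrm_const_mul (g : (Fin m → ℝ) → ℝ) {c : ℝ} (hc : c ≠ 0) :
    nrm (fun x => c * g x) = nrm g := by
  funext x
  unfold nrm
  rw [integral_const_mul, mul_div_mul_left _ _ hc]

theorem LCD_nrm {g : (Fin m → ℝ) → ℝ} (hm : Measurable g) (h0 : ∀ x, 0 ≤ g x) (hl : LogC g)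
    (hZ : 0 < ∫ y, g y) : LCD (nrm g) where
  meas := hm.div_const _
  nonneg x := div_nonneg (h0 x) hZ.le
  logc := by
    have h1 := LogC.const_mul (c := (∫ y, g y)⁻¹) (inv_nonneg.mpr hZ.le) h0 hl
    have h2 : nrm g = fun x => (∫ y, g y)⁻¹ * g x := by
      funext x; unfold nrm; rw [div_eq_inv_mul]
    rw [h2]; exact h1
  int1 := integral_nrm hZ.ne'

/-- **general limit lemma** for normalised densities -/
theorem Cv.nrm {f : ℕ → (Fin m → ℝ) → ℝ} {g : (Fin m → ℝ) → ℝ} (h : Cv f g)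
    (hg : 0 < ∫ x, g x) : Cv (fun k => nrm (f k)) (nrm g) :=
  h.div (fun k => integral_nonneg (h.nonneg k)) h.tendsto_integral hg

/-! ### the quadratic potential -/

/-- `|x|²` -/
def sq (x : Fin m → ℝ) : ℝ := ∑ i, x i ^ 2

theorem sq_nonneg' (x : Fin m → ℝ) : 0 ≤ sq x := Finset.sum_nonneg fun _ _ => sq_nonneg _

theorem continuous_sq : Continuous (sq : (Fin m → ℝ) → ℝ) := by
  unfold sq; fun_prop

theorem norm_sq_le (x : Fin m → ℝ) : ‖x‖ ^ 2 ≤ sq x := by
  have h1 : ‖x‖ ≤ Real.sqrt (sq x) := by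
    rw [pi_norm_le_iff_of_nonneg (Real.sqrt_nonneg _)]
    intro i
    rw [Real.norm_eq_abs, ← Real.sqrt_sq_eq_abs]
    exact Real.sqrt_le_sqrt (Finset.single_le_sum (f := fun i => x i ^ 2)
      (fun _ _ => sq_nonneg _) (Finset.mem_univ i))
  calc ‖x‖ ^ 2 ≤ Real.sqrt (sq x) ^ 2 := by gcongr
    _ = _ := Real.sq_sqrt (sq_nonneg' x)

/-- scalar bound for the potentials -/
theorem pot_bound {r q b l : ℝ} (hq : r ^ 2 ≤ q) :
    r - (b + (l + 1) ^ 2 / 2) ≤ q / 2 - b - l * r := by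
  nlinarith [sq_nonneg (r - (l + 1))]

/-- **the limit `λ_k → 0`** -/
theorem cv_lam (P : (Fin m → ℝ) → ℝ) (hPm : Measurable P) {B : ℝ} (hPB : ∀ x, |P x| ≤ B)
    (v : ℕ → (Fin m → ℝ) → ℝ) (hvm : ∀ k, Measurable (v k)) {L : ℝ}
    (hv : ∀ k x, |v k x| ≤ L * ‖x‖) {lam : ℕ → ℝ} (hl0 : ∀ k, 0 ≤ lam k)
    (hl : Tendsto lam atTop (𝓝 0)) :
    Cv (fun k x => Real.exp (-(sq x / 2 + P x - lam k * v k x)))
      (fun x => Real.exp (-(sq x / 2 + P x))) := by
  obtain ⟨Λ, hΛ⟩ := hl.bddAbove_range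
  have hΛ' : ∀ k, lam k ≤ Λ := fun k => hΛ ⟨k, rfl⟩
  have hΛ0 : 0 ≤ Λ := (hl0 0).trans (hΛ' 0)
  have hlim : ∀ x, Tendsto (fun k => lam k * v k x) atTop (𝓝 0) := by
    intro x
    have h1 : Tendsto (fun k => lam k * (L * ‖x‖)) atTop (𝓝 0) := by
      simpa using hl.mul_const (L * ‖x‖)
    refine squeeze_zero_norm (fun k => ?_) h1
    rw [Real.norm_eq_abs, abs_mul, abs_of_nonneg (hl0 k)]
    exact mul_le_mul_of_nonneg_left (hv k x) (hl0 k)
  have hsm : Measurable (sq : (Fin m → ℝ) → ℝ) := continuous_sq.measurable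
  refine ⟨fun k => ?_, ?_, fun k x => (Real.exp_pos _).le, fun x => (Real.exp_pos _).le,
    ⟨Real.exp (B + (Λ * |L| + 1) ^ 2 / 2), 1, (Real.exp_pos _).le, one_pos, fun k x => ?_⟩,
    ae_of_all _ fun x => ?_⟩
  · exact Real.measurable_exp.comp (((hsm.div_const 2).add hPm).sub ((hvm k).const_mul _)).neg
  · exact Real.measurable_exp.comp ((hsm.div_const 2).add hPm).neg
  · rw [← Real.exp_add]
    apply Real.exp_le_exp.mpr
    have h1 := pot_bound (b := B) (norm_sq_le x)
      (l := Λ * |L|)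
    have h2 : lam k * v k x ≤ Λ * |L| * ‖x‖ := by
      calc lam k * v k x ≤ lam k * (|L| * ‖x‖) := by
            apply mul_le_mul_of_nonneg_left _ (hl0 k)
            exact (le_abs_self _).trans ((hv k x).trans
              (mul_le_mul_of_nonneg_right (le_abs_self L) (norm_nonneg x)))
        _ ≤ Λ * (|L| * ‖x‖) := mul_le_mul_of_nonneg_right (hΛ' k) (by positivity)
        _ = _ := by ring
    have h3 := (abs_le.mp (hPB x)).1
    linarith
  · have h1 : Tendsto (fun k => -(sq x / 2 + P x - lam k * v k x)) atTop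
        (𝓝 (-(sq x / 2 + P x - 0))) := ((hlim x).const_sub _).neg
    rw [sub_zero] at h1
    exact (Real.continuous_exp.tendsto _).comp h1

/-- the normalised densities do not see the constant `v_k 0` -/
theorem nrm_shift (P v : (Fin m → ℝ) → ℝ) (l c : ℝ) :
    nrm (fun x => Real.exp (-(sq x / 2 + P x - l * v x)))
      = nrm (fun x => Real.exp (-(sq x / 2 + P x - l * (v x - c)))) := by
  rw [← nrm_const_mul (fun x => Real.exp (-(sq x / 2 + P x - l * (v x - c))))
    (Real.exp_pos (l * c)).ne']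
  congr 1; funext x
  rw [← Real.exp_add]; congr 1; ring

theorem integral_exp_pos' {V : (Fin m → ℝ) → ℝ} (h : EB (fun x => Real.exp (-(V x)))) :
    0 < ∫ x, Real.exp (-(V x)) := integral_exp_pos h.integrable

/-- `λ_k → 0`, normalised form -/
theorem lim_lam (P : (Fin m → ℝ) → ℝ) (hPm : Measurable P) {B : ℝ} (hPB : ∀ x, |P x| ≤ B)
    (v : ℕ → (Fin m → ℝ) → ℝ) (hvm : ∀ k, Measurable (v k)) {L : ℝ}
    (hv : ∀ k x, |v k x - v k 0| ≤ L * ‖x‖) {lam : ℕ → ℝ} (hl0 : ∀ k, 0 ≤ lam k)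
    (hl : Tendsto lam atTop (𝓝 0)) :
    Cv (fun k => nrm (fun x => Real.exp (-(sq x / 2 + P x - lam k * v k x))))
      (nrm (fun x => Real.exp (-(sq x / 2 + P x)))) ∧
    (∀ k, ∫ x, nrm (fun x => Real.exp (-(sq x / 2 + P x - lam k * v k x))) x = 1) ∧
    0 < ∫ x, Real.exp (-(sq x / 2 + P x)) := by
  have h1 := cv_lam P hPm hPB (fun k x => v k x - v k 0) (fun k => (hvm k).sub_const _) hv hl0 hl
  have hgEB : EB (fun x : Fin m → ℝ => Real.exp (-(sq x / 2 + P x))) := by
    have h2 := cv_lam P hPm hPB (fun _ _ => 0) (fun _ => measurable_const) (L := 0)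
      (fun _ _ => by simp) (lam := fun _ => 0) (fun _ => le_rfl) tendsto_const_nhds
    have h3 := h2.eb 0
    simpa using h3
  have hpos : 0 < ∫ x, Real.exp (-(sq x / 2 + P x)) := integral_exp_pos' hgEB
  refine ⟨?_, fun k => ?_, hpos⟩
  · have h4 := h1.nrm hpos
    have h5 : (fun k => nrm (fun x => Real.exp (-(sq x / 2 + P x - lam k * v k x)))) =
        fun k => nrm (fun x => Real.exp (-(sq x / 2 + P x - lam k * (v k x - v k 0)))) := by
      funext k; exact nrm_shift P (v k) (lam k) (v k 0)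
    rw [h5]; exact h4
  · rw [nrm_shift P (v k) (lam k) (v k 0)]
    exact integral_nrm (integral_exp_pos' (h1.eb k)).ne'

end Crest.Agent.R253.Lim140
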