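import Crest.Agent.R253.DensD_970
import Crest.Agent.R253.LimLam_140
import Crest.Agent.R253.BrDefs_505

/-!
# R253: dense class, part E (helper970) : scaling to `|x|²/2 + P`, `P ∈ C_c^∞(E m)`

`p1 Q x = exp (-(sq x / 2 + Q x))`; for every log-concave density `f` there are `κ n > 0` and
`Q n` with `PDatB (Q n)` such that the scaled densities
`aff (nrm (p1 (Q n))) (κ n • 1) 0` converge to `f` (`Cv`: common majorant and a.e.), hence in `L¹`,
and `DD (nrm (p1 (Q n))) → DD f`.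
-/

set_option autoImplicit false
open MeasureTheory Set Filter Topology
open Crest.GeometryTopology.Isotropic
open scoped ENNReal NNReal ContDiff

namespace Crest.Agent.R253.Dens970

open Crest.Agent.R253.Cpt435 Crest.Agent.R253.Lim140

variable {m : ℕ}

/-- the unnormalised density of the potential `|x|²/2 + Q` (`Q` on `EuclideanSpace`) -/
noncomputable def p1 (Q : EuclideanSpace ℝ (Fin m) → ℝ) (x : Fin m → ℝ) : ℝ :=
  Real.exp (-(Lim140.sq x / 2 + Q (WithLp.toLp 2 x)))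

/-- the scaled perturbation on `EuclideanSpace` -/
noncomputable def sc (κ : ℝ) (P : (Fin m → ℝ) → ℝ) (y : EuclideanSpace ℝ (Fin m)) : ℝ :=
  P (fun i => (Real.sqrt κ)⁻¹ * y i)

theorem norm_sq_E (y : EuclideanSpace ℝ (Fin m)) : ‖y‖ ^ 2 = sq (fun i => y i) := by
  rw [EuclideanSpace.norm_sq_eq]
  simp [sq]

theorem sq_smul (a : ℝ) (x : Fin m → ℝ) : sq (fun i => a * x i) = a ^ 2 * sq x := by
  simp only [sq, Finset.mul_sum, mul_pow]

/-- `y ↦ (√κ)⁻¹ y` as a linear map to `Fin m → ℝ` -/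
noncomputable def scL (κ : ℝ) : EuclideanSpace ℝ (Fin m) →L[ℝ] (Fin m → ℝ) :=
  (Real.sqrt κ)⁻¹ • (PiLp.continuousLinearEquiv 2 ℝ (fun _ : Fin m => ℝ)).toContinuousLinearMap

theorem scL_apply (κ : ℝ) (y : EuclideanSpace ℝ (Fin m)) :
    scL κ y = fun i => (Real.sqrt κ)⁻¹ * y i := by
  funext i
  simp [scL]

theorem Nice.pDatB {κ ε : ℝ} {P : (Fin m → ℝ) → ℝ} (h : Nice κ ε P) : Br.PDatB (sc κ P) := by
  have hs : 0 < Real.sqrt κ := Real.sqrt_pos.mpr h.hκ
  have h1 : sc κ P = P ∘ (scL κ) := by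
    funext y; simp only [Function.comp, scL_apply]; rfl
  refine ⟨⟨?_, ?_⟩, ?_⟩
  · rw [h1]; exact h.smooth.comp (scL κ).contDiff
  · obtain ⟨R, hR⟩ := h.cpt.isCompact.isBounded.subset_closedBall 0
    apply HasCompactSupport.of_support_subset_isCompact
      (isCompact_closedBall (0 : EuclideanSpace ℝ (Fin m)) (Real.sqrt κ * (Real.sqrt m * R)))
    intro y hy
    have h2 : (scL κ y) ∈ tsupport P := by
      apply subset_tsupport
      rw [h1] at hy
      exact hy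
    have h3 := hR h2
    rw [Metric.mem_closedBall, dist_zero_right] at h3 ⊢
    have hR0 : 0 ≤ R := (norm_nonneg _).trans h3
    have h4 : ‖y‖ ^ 2 = κ * sq (scL κ y) := by
      rw [norm_sq_E, scL_apply, sq_smul, inv_pow, Real.sq_sqrt h.hκ.le]
      rw [← mul_assoc, mul_inv_cancel₀ h.hκ.ne', one_mul]
    have h5 := sq_le (scL κ y)
    have h6 : ‖y‖ ^ 2 ≤ (Real.sqrt κ * (Real.sqrt m * R)) ^ 2 := by
      rw [h4, mul_pow, mul_pow, Real.sq_sqrt h.hκ.le, Real.sq_sqrt (Nat.cast_nonneg m)]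
      have : ‖scL κ y‖ ^ 2 ≤ R ^ 2 := pow_le_pow_left₀ (norm_nonneg _) h3 2
      have hκ := h.hκ
      calc κ * sq (scL κ y) ≤ κ * (m * ‖scL κ y‖ ^ 2) := by gcongr
        _ ≤ κ * (m * R ^ 2) := by gcongr
    exact (pow_le_pow_iff_left₀ (norm_nonneg _) (by positivity) two_ne_zero).mp h6
  · refine ⟨ε / κ / 2, by have := h.hκ; have := h.hε; positivity, ?_⟩
    have h2 := h.conv.comp_linearMap (scL κ).toLinearMap
    rw [preimage_univ] at h2
    refine h2.congr fun y _ => ?_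
    simp only [Function.comp]
    have h4 : ‖y‖ ^ 2 = κ * sq (scL κ y) := by
      rw [norm_sq_E, scL_apply, sq_smul, inv_pow, Real.sq_sqrt h.hκ.le]
      rw [← mul_assoc, mul_inv_cancel₀ h.hκ.ne', one_mul]
    have h5 : sc κ P y = P (scL κ y) := by rw [h1]; rfl
    have hκ := h.hκ.ne'
    change κ / 2 * sq (scL κ y) + P (scL κ y) - ε / 2 * sq (scL κ y) = _
    rw [h4, h5]
    field_simp

/-- `wt κ P x = p1 (sc κ P) (√κ x)` -/
theorem wt_eq_p1 {κ : ℝ} (hκ : 0 < κ) (P : (Fin m → ℝ) → ℝ) (x : Fin m → ℝ) :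
    wt κ P x = p1 (sc κ P) (Real.sqrt κ • x) := by
  have hs : Real.sqrt κ ≠ 0 := (Real.sqrt_pos.mpr hκ).ne'
  unfold wt p1
  congr 2
  have h1 : Lim140.sq (Real.sqrt κ • x) = κ * sq x := by
    have : Lim140.sq (Real.sqrt κ • x) = sq (fun i => Real.sqrt κ * x i) := rfl
    rw [this, sq_smul, Real.sq_sqrt hκ.le]
  have h2 : sc κ P (WithLp.toLp 2 (Real.sqrt κ • x)) = P x := by
    unfold sc
    congr 1
    funext i
    simp only [Pi.smul_apply, smul_eq_mul]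
    rw [← mul_assoc, inv_mul_cancel₀ hs, one_mul]
  rw [h1, h2]; ring

theorem dens_eq_aff {κ ε : ℝ} {P : (Fin m → ℝ) → ℝ} (h : Nice κ ε P)
    (hint : Integrable (wt κ P)) :
    dens κ P = aff (nrm (p1 (sc κ P))) (Real.sqrt κ • (1 : Matrix (Fin m) (Fin m) ℝ)) 0 := by
  have hs : 0 < Real.sqrt κ := Real.sqrt_pos.mpr h.hκ
  have hdet : (Real.sqrt κ • (1 : Matrix (Fin m) (Fin m) ℝ)).det = Real.sqrt κ ^ m := by
    rw [Matrix.det_smul, Matrix.det_one, mul_one, Fintype.card_fin]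
  have hdet0 : (Real.sqrt κ • (1 : Matrix (Fin m) (Fin m) ℝ)).det ≠ 0 := by
    rw [hdet]; positivity
  have hmv : ∀ x : Fin m → ℝ, (Real.sqrt κ • (1 : Matrix (Fin m) (Fin m) ℝ)).mulVec x =
      Real.sqrt κ • x := by
    intro x; rw [Matrix.smul_mulVec, Matrix.one_mulVec]
  have hp1m : Measurable (p1 (sc κ P)) := by
    have h1 : p1 (sc κ P) = fun x => wt κ P ((Real.sqrt κ)⁻¹ • x) := by
      funext x
      rw [wt_eq_p1 h.hκ, smul_smul, mul_inv_cancel₀ hs.ne', one_smul]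
    rw [h1]
    exact h.continuous_wt.measurable.comp (measurable_const_smul _)
  have hZ : ∫ y, p1 (sc κ P) y = |(Real.sqrt κ • (1 : Matrix (Fin m) (Fin m) ℝ)).det| *
      ∫ x, wt κ P x := by
    have h2 := integral_comp_affine (p1 (sc κ P)) hp1m _ hdet0 (0 : Fin m → ℝ)
    rw [← h2, integral_const_mul]
    congr 2
    funext x
    rw [hmv, zero_add, wt_eq_p1 h.hκ]
  funext x
  have hZ0 : 0 < ∫ y, wt κ P y := integral_exp_pos hint
  have hd : 0 < |(Real.sqrt κ • (1 : Matrix (Fin m) (Fin m) ℝ)).det| := abs_pos.mpr hdet0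
  simp only [dens, aff, nrm]
  rw [hZ, hmv, zero_add, ← wt_eq_p1 h.hκ]
  field_simp

theorem Nice.lcd_p1 {κ ε : ℝ} {P : (Fin m → ℝ) → ℝ} (h : Nice κ ε P)
    (hint : Integrable (wt κ P)) : LCD (nrm (p1 (sc κ P))) := by
  have hs : 0 < Real.sqrt κ := Real.sqrt_pos.mpr h.hκ
  have h1 : p1 (sc κ P) = fun x => wt κ P ((0 : Fin m → ℝ) +
      ((Real.sqrt κ)⁻¹ • (LinearMap.id : (Fin m → ℝ) →ₗ[ℝ] (Fin m → ℝ))) x) := by
    funext x
    rw [zero_add, LinearMap.smul_apply, LinearMap.id_apply, wt_eq_p1 h.hκ, smul_smul,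
      mul_inv_cancel₀ hs.ne', one_smul]
  have hm : Measurable (p1 (sc κ P)) := by
    rw [h1]
    exact h.continuous_wt.measurable.comp
      ((measurable_const_smul ((Real.sqrt κ)⁻¹)).const_add (0 : Fin m → ℝ))
  have hl : LogC (p1 (sc κ P)) := by
    rw [h1]; exact h.logC_wt.comp_affine _ _
  have hp : ∀ x, 0 < p1 (sc κ P) x := fun x => Real.exp_pos _
  have hdet0 : (Real.sqrt κ • (1 : Matrix (Fin m) (Fin m) ℝ)).det ≠ 0 := by
    rw [Matrix.det_smul, Matrix.det_one, mul_one, Fintype.card_fin]; positivity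
  have hmv : ∀ x : Fin m → ℝ, (Real.sqrt κ • (1 : Matrix (Fin m) (Fin m) ℝ)).mulVec x =
      Real.sqrt κ • x := by
    intro x; rw [Matrix.smul_mulVec, Matrix.one_mulVec]
  have hZ : 0 < ∫ y, p1 (sc κ P) y := by
    have h2 := integral_comp_affine (p1 (sc κ P)) hm _ hdet0 (0 : Fin m → ℝ)
    rw [← h2, integral_const_mul]
    have h3 : (fun x : Fin m → ℝ => p1 (sc κ P) (0 +
        (Real.sqrt κ • (1 : Matrix (Fin m) (Fin m) ℝ)).mulVec x)) = wt κ P := by
      funext x; rw [hmv, zero_add, wt_eq_p1 h.hκ]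
    rw [h3]
    exact mul_pos (abs_pos.mpr hdet0) (integral_exp_pos hint)
  exact LCD_nrm hm (fun x => (hp x).le) hl hZ

/-- **DENSITY, scaled form.** For every log-concave density `f` there are scales `κ n > 0` and
`Q n ∈ C_c^∞` with `PDatB (Q n)` such that `f n = aff (nrm (p1 (Q n))) (κ n • 1) 0 → f`
(common majorant, a.e.), `f n → f` in `L¹`, and `DD (nrm (p1 (Q n))) → DD f`. -/
theorem exists_seq1 {f : (Fin m → ℝ) → ℝ} (hf : LCD f) :
    ∃ (κ : ℕ → ℝ) (Q : ℕ → EuclideanSpace ℝ (Fin m) → ℝ), (∀ n, 0 < κ n) ∧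
      (∀ n, Br.PDatB (Q n)) ∧ (∀ n, LCD (nrm (p1 (Q n)))) ∧
      (∀ n, LCD (aff (nrm (p1 (Q n))) (κ n • (1 : Matrix (Fin m) (Fin m) ℝ)) 0)) ∧
      Cv (fun n => aff (nrm (p1 (Q n))) (κ n • (1 : Matrix (Fin m) (Fin m) ℝ)) 0) f ∧
      Tendsto (fun n => ∫ x,
        |aff (nrm (p1 (Q n))) (κ n • (1 : Matrix (Fin m) (Fin m) ℝ)) 0 x - f x|) atTop (𝓝 0) ∧
      Tendsto (fun n => DD (nrm (p1 (Q n)))) atTop (𝓝 (DD f)) := by
  obtain ⟨κ, ε, P, C, c, hC, hc, hN, hint, hlcd, hmaj, hae, -, -, -, hL1⟩ := exists_nice_seq hf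
  have he : ∀ n, dens (κ n) (P n) = aff (nrm (p1 (sc (κ n) (P n))))
      (Real.sqrt (κ n) • (1 : Matrix (Fin m) (Fin m) ℝ)) 0 := fun n => dens_eq_aff (hN n) (hint n)
  have hCv : Cv (fun n => dens (κ n) (P n)) f :=
    ⟨fun n => (hlcd n).meas, hf.meas, fun n => (hlcd n).nonneg, hf.nonneg,
      ⟨C, c, hC.le, hc, hmaj⟩, hae⟩
  have hdet0 : ∀ n, (Real.sqrt (κ n) • (1 : Matrix (Fin m) (Fin m) ℝ)).det ≠ 0 := fun n => by
    have := Real.sqrt_pos.mpr (hN n).hκ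
    rw [Matrix.det_smul, Matrix.det_one, mul_one, Fintype.card_fin]; positivity
  refine ⟨fun n => Real.sqrt (κ n), fun n => sc (κ n) (P n),
    fun n => Real.sqrt_pos.mpr (hN n).hκ, fun n => (hN n).pDatB,
    fun n => (hN n).lcd_p1 (hint n), fun n => ?_, ?_, ?_, ?_⟩
  · rw [← he n]; exact hlcd n
  · simp only [← he]; exact hCv
  · simp only [← he]; exact hL1
  · have h1 := hCv.tendsto_DD hf (fun n => (hlcd n).int1)
    refine h1.congr fun n => ?_
    rw [he n]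
    exact DD_aff ((hN n).lcd_p1 (hint n)) (hdet0 n) 0

end Crest.Agent.R253.Dens970
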