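import Crest.Agent.R253.FamB_706

/-!
Row 253, T6 node (F) (helper706), part C: uniform constants of the family (compactness), majorant,
continuity in `B`.
-/

set_option autoImplicit false

open Set Filter
open scoped ContDiff Topology

namespace Crest.Agent.R253.Fam706

open Crest.Agent.R238 Crest.Agent.R238.Apr Crest.Agent.R253.Br

variable {n : ℕ}

/-- joint smoothness of the `x`-derivative -/
theorem joint {G : Type*} [NormedAddCommGroup G] [NormedSpace ℝ G]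
    {J : (E n →L[ℝ] E n) → E n → G}
    (hJ : ContDiff ℝ ∞ (fun p : (E n →L[ℝ] E n) × E n => J p.1 p.2)) :
    ContDiff ℝ ∞ (fun p : (E n →L[ℝ] E n) × E n => fderiv ℝ (J p.1) p.2) := by
  refine ContDiff.fderiv (f := fun p : (E n →L[ℝ] E n) × E n => J p.1) (g := fun p => p.2)
    (m := ∞) ?_ contDiff_snd (by simp)
  exact hJ.comp ((contDiff_fst.comp contDiff_fst).prodMk contDiff_snd)

theorem joint_PA {P0 : E n → ℝ} (hP : ContDiff ℝ ∞ P0) (e : ℝ) :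
    ContDiff ℝ ∞ (fun p : (E n →L[ℝ] E n) × E n => PA P0 e p.1 p.2) := by
  unfold PA
  have h1 : ContDiff ℝ ∞ (fun p : (E n →L[ℝ] E n) × E n => p.1 p.2) :=
    contDiff_fst.clm_apply contDiff_snd
  have h2 : ContDiff ℝ ∞ (fun p : (E n →L[ℝ] E n) × E n => ‖p.1 p.2‖ ^ 2) :=
    (contDiff_norm_sq ℝ).comp h1
  have h3 : ContDiff ℝ ∞ (fun p : (E n →L[ℝ] E n) × E n => ‖p.2‖ ^ 2) :=
    (contDiff_norm_sq ℝ).comp contDiff_snd
  have h4 : ContDiff ℝ ∞ (fun p : (E n →L[ℝ] E n) × E n => (chi e p.2 : ℝ)) :=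
    (chi_smooth e).comp contDiff_snd
  exact (hP.comp h1).add (h4.mul ((h2.sub h3).div_const 2))

theorem PA_smooth {P0 : E n → ℝ} (hP : ContDiff ℝ ∞ P0) (e : ℝ) (B : E n →L[ℝ] E n) :
    ContDiff ℝ ∞ (PA P0 e B) :=
  (joint_PA hP e).comp (contDiff_const.prodMk contDiff_id)

/-- radius of the support, uniform in `B` -/
theorem PA_far {P0 : E n → ℝ} (hs : HasCompactSupport P0) {b1 b2 e : ℝ} (hb1 : 0 < b1)
    (he : 0 < e) : ∃ R0 : ℝ, 0 < R0 ∧ ∀ B ∈ Bx (n := n) b1 b2, ∀ x, R0 ≤ ‖x‖ → PA P0 e B x = 0 := by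
  obtain ⟨R, hR⟩ := hs.isCompact.isBounded.subset_ball (0 : E n)
  refine ⟨max (R / b1) (Real.exp (1 / e)), lt_max_of_lt_right (Real.exp_pos _), ?_⟩
  intro B hB x hx
  have h1 : R ≤ ‖B x‖ := by
    have h2 : R / b1 ≤ ‖x‖ := (le_max_left _ _).trans hx
    rw [div_le_iff₀ hb1] at h2
    have := (hB x).1
    linarith
  have h3 : P0 (B x) = 0 := by
    refine image_eq_zero_of_notMem_tsupport fun hmem => ?_
    have := hR hmem
    rw [mem_ball_zero_iff] at this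
    linarith
  have h4 : Real.exp (1 / e) ≤ ‖x‖ := (le_max_right _ _).trans hx
  have h5 : chi e x = 0 := by
    refine chi_zero ?_
    have h6 : Real.exp (1 / e) ^ 2 ≤ ‖x‖ ^ 2 := pow_le_pow_left₀ (Real.exp_pos _).le h4 2
    have h7 : Real.exp (1 / e) ^ 2 = Real.exp (2 / e) := by
      rw [← Real.exp_nat_mul]; congr 1; push_cast; ring
    have h8 : 2 / e ≤ Real.log (1 + ‖x‖ ^ 2) := by
      rw [Real.le_log_iff_exp_le (by positivity), ← h7]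
      linarith
    rw [div_le_iff₀ he] at h8
    linarith
  unfold PA
  rw [h3, h5]; ring

theorem PA_tst {P0 : E n → ℝ} (hP : Tst P0) {b1 b2 e : ℝ} (hb1 : 0 < b1)
    (he : 0 < e) {B : E n →L[ℝ] E n} (hB : B ∈ Bx (n := n) b1 b2) : Tst (PA P0 e B) := by
  obtain ⟨R0, hR0, h⟩ := PA_far (b2 := b2) hP.supp hb1 he
  refine ⟨PA_smooth hP.smooth e B, HasCompactSupport.intro (isCompact_closedBall (0 : E n) R0)
    fun x hx => h B hB x ?_⟩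
  rw [mem_closedBall_zero_iff, not_le] at hx
  exact hx.le

theorem Bx_isClosed (b1 b2 : ℝ) : IsClosed (Bx (n := n) b1 b2) := by
  have : Bx (n := n) b1 b2 = ⋂ x : E n, {B | b1 * ‖x‖ ≤ ‖B x‖} ∩ {B | ‖B x‖ ≤ b2 * ‖x‖} := by
    ext B; simp [Bx]
  rw [this]
  refine isClosed_iInter fun x => IsClosed.inter ?_ ?_
  · exact isClosed_le continuous_const (by fun_prop)
  · exact isClosed_le (by fun_prop) continuous_const

theorem Bx_isCompact {b1 b2 : ℝ} (hb2 : 0 ≤ b2) : IsCompact (Bx (n := n) b1 b2) := by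
  have : ProperSpace (E n →L[ℝ] E n) := FiniteDimensional.proper ℝ _
  refine Metric.isCompact_of_isClosed_isBounded (Bx_isClosed b1 b2) ?_
  refine (Metric.isBounded_closedBall (x := (0 : E n →L[ℝ] E n)) (r := b2)).subset ?_
  intro B hB
  rw [mem_closedBall_zero_iff]
  exact ContinuousLinearMap.opNorm_le_bound _ hb2 fun x => (hB x).2

theorem Bx_norm_le {b1 b2 : ℝ} (hb2 : 0 ≤ b2) {B : E n →L[ℝ] E n} (hB : B ∈ Bx (n := n) b1 b2) :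
    ‖B‖ ≤ b2 := ContinuousLinearMap.opNorm_le_bound _ hb2 fun x => (hB x).2

/-- a jointly continuous function which vanishes for `‖x‖ ≥ R` is bounded on the box -/
theorem bdd_joint {b1 b2 : ℝ} (hb2 : 0 ≤ b2) {F : (E n →L[ℝ] E n) → E n → ℝ}
    (hF : Continuous (fun p : (E n →L[ℝ] E n) × E n => F p.1 p.2)) {R : ℝ}
    (hfar : ∀ B ∈ Bx (n := n) b1 b2, ∀ x, R ≤ ‖x‖ → F B x = 0) :
    ∃ C : ℝ, 0 ≤ C ∧ ∀ B ∈ Bx (n := n) b1 b2, ∀ x, |F B x| ≤ C := by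
  have hc : IsCompact ((Bx (n := n) b1 b2) ×ˢ (Metric.closedBall (0 : E n) R)) :=
    (Bx_isCompact hb2).prod (isCompact_closedBall _ _)
  obtain ⟨C, hC⟩ := hc.exists_bound_of_continuousOn hF.continuousOn
  refine ⟨max C 0, le_max_right _ _, fun B hB x => ?_⟩
  by_cases hx : R ≤ ‖x‖
  · rw [hfar B hB x hx]; simp
  · have := hC (B, x) ⟨hB, by rw [mem_closedBall_zero_iff]; exact (not_le.1 hx).le⟩
    rw [Real.norm_eq_abs] at this
    exact this.trans (le_max_left _ _)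

theorem PA_eventually {P0 : E n → ℝ} {b1 b2 e R0 : ℝ}
    (h : ∀ B ∈ Bx (n := n) b1 b2, ∀ x, R0 ≤ ‖x‖ → PA P0 e B x = 0) {B : E n →L[ℝ] E n}
    (hB : B ∈ Bx (n := n) b1 b2) {x : E n} (hx : R0 + 1 ≤ ‖x‖) :
    PA P0 e B =ᶠ[𝓝 x] fun _ => 0 := by
  have h1 : ∀ᶠ y in 𝓝 x, R0 < ‖y‖ :=
    (isOpen_lt continuous_const continuous_norm).mem_nhds (by
      show R0 < ‖x‖
      linarith)
  filter_upwards [h1] with y hy using h B hB y hy.le

theorem exists_PCB_family {P0 : E n → ℝ} (hP : Tst P0) {b1 b2 e c : ℝ} (hb1 : 0 < b1)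
    (hb : b1 ≤ b2) (he : 0 < e) (hc0 : 0 < c) (hc1 : c ≤ 1)
    (hlow : ∀ B ∈ Bx (n := n) b1 b2, ∀ x z : E n,
      c * ‖z‖ ^ 2 ≤ ‖z‖ ^ 2 + fderiv ℝ (fderiv ℝ (PA P0 e B)) x z z) :
    ∃ C2 C3 M0 M1 R0 : ℝ, ∀ B ∈ Bx (n := n) b1 b2, PCB (PA P0 e B) c C2 C3 M0 M1 R0 := by
  have hb2 : 0 ≤ b2 := hb1.le.trans hb
  obtain ⟨R0, hR0, hfar⟩ := PA_far (b2 := b2) hP.supp hb1 he
  have j0 := joint_PA hP.smooth e
  have j1 := joint (J := fun B => PA P0 e B) j0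
  have j2 := joint (J := fun B => fderiv ℝ (PA P0 e B)) j1
  have jH : ∀ i j : Fin n, ContDiff ℝ ∞
      (fun p : (E n →L[ℝ] E n) × E n => Hs (PA P0 e p.1) p.2 i j) := fun i j =>
    (j2.clm_apply contDiff_const).clm_apply contDiff_const
  have j3 : ∀ i j : Fin n, ContDiff ℝ ∞
      (fun p : (E n →L[ℝ] E n) × E n => fderiv ℝ (fun y => Hs (PA P0 e p.1) y i j) p.2) :=
    fun i j => joint (J := fun B => fun y => Hs (PA P0 e B) y i j) (jH i j)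
  have hev : ∀ B ∈ Bx (n := n) b1 b2, ∀ x, R0 + 1 ≤ ‖x‖ → PA P0 e B =ᶠ[𝓝 x] fun _ => 0 :=
    fun B hB x hx => PA_eventually hfar hB hx
  -- sup of P
  obtain ⟨M0, hM0, bM0⟩ := bdd_joint (b1 := b1) hb2 (F := fun B x => PA P0 e B x) j0.continuous hfar
  -- gradient
  have hM1 : ∀ i : Fin n, ∃ C : ℝ, 0 ≤ C ∧ ∀ B ∈ Bx (n := n) b1 b2, ∀ x,
      |gr (PA P0 e B) x i| ≤ C := by
    intro i
    refine bdd_joint (b1 := b1) hb2 (F := fun B x => gr (PA P0 e B) x i) (R := R0 + 1) ?_ ?_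
    · exact (j1.clm_apply contDiff_const).continuous
    · intro B hB x hx
      unfold gr
      rw [(hev B hB x hx).fderiv_eq]; simp
  choose M1 hM1a hM1b using hM1
  have hK2 : ∀ p : Fin n × Fin n, ∃ C : ℝ, 0 ≤ C ∧ ∀ B ∈ Bx (n := n) b1 b2, ∀ x,
      |Hs (PA P0 e B) x p.1 p.2| ≤ C := by
    intro p
    refine bdd_joint (b1 := b1) hb2 (F := fun B x => Hs (PA P0 e B) x p.1 p.2) (R := R0 + 1)
      (jH p.1 p.2).continuous ?_
    intro B hB x hx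
    exact Hs_eq_zero_of_eventually (hev B hB x hx) p.1 p.2
  choose K2 hK2a hK2b using hK2
  have hK3 : ∀ p : Fin n × Fin n × Fin n, ∃ C : ℝ, 0 ≤ C ∧ ∀ B ∈ Bx (n := n) b1 b2, ∀ x,
      |fderiv ℝ (fun y => Hs (PA P0 e B) y p.1 p.2.1) x (ee p.2.2)| ≤ C := by
    intro p
    refine bdd_joint (b1 := b1) hb2
      (F := fun B x => fderiv ℝ (fun y => Hs (PA P0 e B) y p.1 p.2.1) x (ee p.2.2))
      (R := R0 + 1 + 1) ((j3 p.1 p.2.1).clm_apply contDiff_const).continuous ?_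
    intro B hB x hx
    have h1 : (fun y => Hs (PA P0 e B) y p.1 p.2.1) =ᶠ[𝓝 x] fun _ => 0 := by
      have h2 : ∀ᶠ y in 𝓝 x, R0 + 1 < ‖y‖ :=
        (isOpen_lt continuous_const continuous_norm).mem_nhds (by
          show R0 + 1 < ‖x‖
          linarith)
      filter_upwards [h2] with y hy
      exact Hs_eq_zero_of_eventually (hev B hB y hy.le) p.1 p.2.1
    show fderiv ℝ (fun y => Hs (PA P0 e B) y p.1 p.2.1) x (ee p.2.2) = 0
    rw [h1.fderiv_eq]; simp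
  choose K3 hK3a hK3b using hK3
  set K : ℝ := ∑ p, K2 p with hKdef
  have hK0 : 0 ≤ K := Finset.sum_nonneg fun p _ => hK2a p
  have hKb : ∀ B ∈ Bx (n := n) b1 b2, ∀ x i j, |Hs (PA P0 e B) x i j| ≤ K := fun B hB x i j =>
    (hK2b (i, j) B hB x).trans
      (Finset.single_le_sum (f := K2) (fun p _ => hK2a p) (Finset.mem_univ (i, j)))
  refine ⟨1 + n * K, ∑ p, K3 p, M0, ∑ i, M1 i, R0 + 1, fun B hB => ⟨⟨hc0, hc1,
    le_add_of_nonneg_right (by positivity), Finset.sum_nonneg fun p _ => hK3a p, hM0,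
    by linarith, ?_, ?_, ?_, bM0 B hB, hev B hB⟩, PA_tst hP hb1 he hB, ?_⟩⟩
  · intro s hs0 hs1 x z
    have h := hlow B hB x (WithLp.toLp 2 z)
    rw [fderiv2_eq_sum, normsq_eq] at h
    simp only at h
    have hz : 0 ≤ ∑ i, z i ^ 2 := Finset.sum_nonneg fun _ _ => sq_nonneg _
    set Z := ∑ i, z i ^ 2
    set W := ∑ i, ∑ j, Hs (PA P0 e B) x i j * z i * z j
    have e1 : c * Z ≤ Z := by nlinarith
    calc c * Z = (1 - s) * (c * Z) + s * (c * Z) := by ring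
      _ ≤ (1 - s) * Z + s * (Z + W) := by
        apply add_le_add
        · exact mul_le_mul_of_nonneg_left e1 (by linarith)
        · exact mul_le_mul_of_nonneg_left h hs0
      _ = Z + s * W := by ring
  · intro s hs0 hs1 x z
    have h := form_bound (A := Matrix.of (fun i j => Hs (PA P0 e B) x i j)) (K := K)
      (fun i j => hKb B hB x i j) z
    simp only [Matrix.of_apply] at h
    have hz : 0 ≤ ∑ i, z i ^ 2 := Finset.sum_nonneg fun _ _ => sq_nonneg _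
    set Z := ∑ i, z i ^ 2
    set W := ∑ i, ∑ j, Hs (PA P0 e B) x i j * z i * z j
    have h5 : s * W ≤ n * K * Z := by
      calc s * W ≤ s * |W| := mul_le_mul_of_nonneg_left (le_abs_self _) hs0
        _ ≤ 1 * |W| := mul_le_mul_of_nonneg_right hs1 (abs_nonneg _)
        _ = |W| := one_mul _
        _ ≤ n * K * Z := h
    linarith
  · intro x i j k
    exact (hK3b (i, j, k) B hB x).trans
      (Finset.single_le_sum (f := K3) (fun p _ => hK3a p) (Finset.mem_univ (i, j, k)))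
  · intro x i
    exact (hM1b i B hB x).trans
      (Finset.single_le_sum (f := M1) (fun p _ => hM1a p) (Finset.mem_univ i))

theorem P0_bdd {P0 : E n → ℝ} (hP : Tst P0) : ∃ M : ℝ, 0 ≤ M ∧ ∀ x, |P0 x| ≤ M := by
  obtain ⟨M, hM⟩ := hP.supp.exists_bound_of_continuous hP.smooth.continuous
  refine ⟨max M 0, le_max_right _ _, fun x => ?_⟩
  have := hM x
  rw [Real.norm_eq_abs] at this
  exact this.trans (le_max_left _ _)

/-- the quadratic majorant, uniform in `e` and `B` -/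
theorem PA_major {P0 : E n → ℝ} {M : ℝ} (hM : ∀ x, |P0 x| ≤ M) {b1 b2 : ℝ} (hb1 : 0 < b1)
    (e : ℝ) {B : E n →L[ℝ] E n} (hB : B ∈ Bx (n := n) b1 b2) (x : E n) :
    min 1 (b1 ^ 2) / 2 * ‖x‖ ^ 2 - M ≤ ‖x‖ ^ 2 / 2 + PA P0 e B x := by
  have h0 := chi_nonneg e x
  have h1 := chi_le_one e x
  have h2 : b1 ^ 2 * ‖x‖ ^ 2 ≤ ‖B x‖ ^ 2 := by
    rw [← mul_pow]
    exact pow_le_pow_left₀ (by positivity) (hB x).1 2
  have hx : 0 ≤ ‖x‖ ^ 2 := by positivity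
  have h3 : min 1 (b1 ^ 2) * ‖x‖ ^ 2 ≤ ‖x‖ ^ 2 := by
    nlinarith [min_le_left 1 (b1 ^ 2)]
  have h4 : min 1 (b1 ^ 2) * ‖x‖ ^ 2 ≤ ‖B x‖ ^ 2 :=
    (mul_le_mul_of_nonneg_right (min_le_right _ _) hx).trans h2
  have h5 := (abs_le.1 (hM (B x))).1
  have h6 : (1 - chi e x) * (min 1 (b1 ^ 2) * ‖x‖ ^ 2) ≤ (1 - chi e x) * ‖x‖ ^ 2 :=
    mul_le_mul_of_nonneg_left h3 (by linarith)
  have h7 : chi e x * (min 1 (b1 ^ 2) * ‖x‖ ^ 2) ≤ chi e x * ‖B x‖ ^ 2 :=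
    mul_le_mul_of_nonneg_left h4 h0
  unfold PA
  nlinarith

theorem PA_eq {P0 : E n → ℝ} {e : ℝ} {B : E n →L[ℝ] E n} {x : E n}
    (h : e * Real.log (1 + ‖x‖ ^ 2) ≤ 1) :
    ‖x‖ ^ 2 / 2 + PA P0 e B x = ‖B x‖ ^ 2 / 2 + P0 (B x) := by
  unfold PA
  rw [chi_one h]; ring

/-- the gradient inside the region where the cut-off is `1` -/
theorem fderiv_PA_eq {P0 : E n → ℝ} (hP : ContDiff ℝ ∞ P0) {e : ℝ} {B : E n →L[ℝ] E n} {x : E n}
    (h : e * Real.log (1 + ‖x‖ ^ 2) < 1) (w : E n) :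
    fderiv ℝ (PA P0 e B) x w
      = fderiv ℝ P0 (B x) (B w) + (inner ℝ (B x) (B w) - inner ℝ x w) := by
  rw [fderiv_PA hP]
  show fderiv ℝ P0 (B x) (B w) + (chi e x * gB B x w + qB B x * fderiv ℝ (chi e) x w) = _
  have h1 : fderiv ℝ (chi e : E n → ℝ) x = 0 := by
    rw [fderiv_chi]
    show (2 * F1 e (‖x‖ ^ 2)) • innerSL ℝ x = 0
    unfold F1
    rw [h1_zero_of_lt h]; simp
  rw [h1, chi_one h.le, gB_apply]
  simp

/-- for fixed `x` the cut-off is eventually `1` -/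
theorem eventually_lt_one {ι : Type*} {l : Filter ι} {e : ι → ℝ} (he : Tendsto e l (𝓝 0))
    (x : E n) : ∀ᶠ k in l, e k * Real.log (1 + ‖x‖ ^ 2) < 1 := by
  have h := he.mul_const (Real.log (1 + ‖x‖ ^ 2))
  rw [zero_mul] at h
  exact h.eventually (gt_mem_nhds one_pos)

/-- **node (F)** -/
theorem fam {P0 : E n → ℝ} (hP : PDatB P0) {b1 b2 : ℝ} (hb1 : 0 < b1) (hb : b1 ≤ b2) :
    ∃ c e0 : ℝ, 0 < c ∧ c ≤ 1 ∧ 0 < e0 ∧ e0 ≤ 1 ∧
      (∀ e, 0 < e → e ≤ e0 → ∃ C2 C3 M0 M1 R0 : ℝ, ∀ B ∈ Bx (n := n) b1 b2,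
        PCB (PA P0 e B) c C2 C3 M0 M1 R0) ∧
      (∀ e, 0 < e → e ≤ e0 → ∀ B ∈ Bx (n := n) b1 b2, ∀ x z : E n,
        c * ‖z‖ ^ 2 ≤ ‖z‖ ^ 2 + fderiv ℝ (fderiv ℝ (PA P0 e B)) x z z) ∧
      ∃ a C : ℝ, 0 < a ∧ ∀ e, ∀ B ∈ Bx (n := n) b1 b2, ∀ x,
        a * ‖x‖ ^ 2 - C ≤ ‖x‖ ^ 2 / 2 + PA P0 e B x := by
  obtain ⟨c, e0, hc0, hc1, he0, he1, H⟩ := hess_PA hP hb1 hb
  obtain ⟨M, hM0, hM⟩ := P0_bdd hP.tst
  refine ⟨c, e0, hc0, hc1, he0, he1, fun e he hee => ?_, fun e he hee B hB => H e he hee B hB,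
    min 1 (b1 ^ 2) / 2, M, by positivity, fun e B hB x => PA_major hM hb1 e hB x⟩
  exact exists_PCB_family hP.tst hb1 hb he hc0 hc1 (H e he hee)

/-- Lipschitz continuity in `B`, uniformly in `x` (`e` fixed) -/
theorem PA_lip {P0 : E n → ℝ} (hP : Tst P0) {b1 b2 e : ℝ} (hb1 : 0 < b1) (hb : b1 ≤ b2)
    (he : 0 < e) : ∃ L : ℝ, 0 ≤ L ∧ ∀ B ∈ Bx (n := n) b1 b2, ∀ B' ∈ Bx (n := n) b1 b2, ∀ x,
      |PA P0 e B x - PA P0 e B' x| ≤ L * ‖B - B'‖ := by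
  have hb2 : 0 ≤ b2 := hb1.le.trans hb
  obtain ⟨R0, hR0, hfar⟩ := PA_far (b2 := b2) hP.supp hb1 he
  obtain ⟨K, hK⟩ := (hP.supp.fderiv (𝕜 := ℝ)).exists_bound_of_continuous
    (hP.smooth.continuous_fderiv (by simp))
  have hK0 : 0 ≤ K := (norm_nonneg _).trans (hK 0)
  refine ⟨K * R0 + b2 * R0 ^ 2, by positivity, fun B hB B' hB' x => ?_⟩
  have hD := norm_nonneg (B - B')
  by_cases hx : R0 ≤ ‖x‖
  · rw [hfar B hB x hx, hfar B' hB' x hx]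
    simp only [sub_zero, abs_zero]
    positivity
  have hx' : ‖x‖ ≤ R0 := (not_le.1 hx).le
  have hBx : ‖B x - B' x‖ ≤ ‖B - B'‖ * R0 := by
    have h1 : B x - B' x = (B - B') x := rfl
    rw [h1]
    exact ((B - B').le_opNorm x).trans (mul_le_mul_of_nonneg_left hx' hD)
  have h1 : |P0 (B x) - P0 (B' x)| ≤ K * (‖B - B'‖ * R0) := by
    have h2 := convex_univ.norm_image_sub_le_of_norm_fderiv_le (f := P0) (𝕜 := ℝ)
      (fun z _ => (hP.smooth.differentiable (by simp)) z) (fun z _ => hK z) (mem_univ (B' x))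
      (mem_univ (B x))
    rw [Real.norm_eq_abs] at h2
    exact h2.trans (mul_le_mul_of_nonneg_left hBx hK0)
  have h3 : |‖B x‖ ^ 2 - ‖B' x‖ ^ 2| ≤ 2 * (b2 * R0) * (‖B - B'‖ * R0) := by
    have h4 : ‖B x‖ ≤ b2 * R0 := (hB x).2.trans (mul_le_mul_of_nonneg_left hx' hb2)
    have h5 : ‖B' x‖ ≤ b2 * R0 := (hB' x).2.trans (mul_le_mul_of_nonneg_left hx' hb2)
    have h6 : |‖B x‖ - ‖B' x‖| ≤ ‖B - B'‖ * R0 := (abs_norm_sub_norm_le _ _).trans hBx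
    have h7 : ‖B x‖ ^ 2 - ‖B' x‖ ^ 2 = (‖B x‖ + ‖B' x‖) * (‖B x‖ - ‖B' x‖) := by ring
    rw [h7, abs_mul, abs_of_nonneg (by positivity : 0 ≤ ‖B x‖ + ‖B' x‖)]
    exact mul_le_mul (by linarith) h6 (abs_nonneg _) (by positivity)
  have h8 : PA P0 e B x - PA P0 e B' x
      = (P0 (B x) - P0 (B' x)) + chi e x * ((‖B x‖ ^ 2 - ‖B' x‖ ^ 2) / 2) := by
    unfold PA; ring
  rw [h8]
  refine (abs_add_le _ _).trans ?_
  have h9 : |chi e x * ((‖B x‖ ^ 2 - ‖B' x‖ ^ 2) / 2)| ≤ b2 * R0 * (‖B - B'‖ * R0) := by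
    rw [abs_mul, abs_of_nonneg (chi_nonneg e x), abs_div, abs_of_pos (by norm_num : (0 : ℝ) < 2)]
    calc chi e x * (|‖B x‖ ^ 2 - ‖B' x‖ ^ 2| / 2) ≤ 1 * (|‖B x‖ ^ 2 - ‖B' x‖ ^ 2| / 2) :=
          mul_le_mul_of_nonneg_right (chi_le_one e x) (by positivity)
      _ ≤ _ := by linarith
  calc |P0 (B x) - P0 (B' x)| + |chi e x * ((‖B x‖ ^ 2 - ‖B' x‖ ^ 2) / 2)|
      ≤ K * (‖B - B'‖ * R0) + b2 * R0 * (‖B - B'‖ * R0) := add_le_add h1 h9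
    _ = (K * R0 + b2 * R0 ^ 2) * ‖B - B'‖ := by ring

/-- the form used by `NormCont666.continuousOn_int_cfc` -/
theorem PA_unif {P0 : E n → ℝ} (hP : Tst P0) {b1 b2 e : ℝ} (hb1 : 0 < b1) (hb : b1 ≤ b2)
    (he : 0 < e) {B₀ : E n →L[ℝ] E n} (hB₀ : B₀ ∈ Bx (n := n) b1 b2) {ε : ℝ} (hε : 0 < ε) :
    ∀ᶠ B in 𝓝[Bx (n := n) b1 b2] B₀, ∀ x, |PA P0 e B x - PA P0 e B₀ x| ≤ ε := by
  obtain ⟨L, hL0, hL⟩ := PA_lip hP hb1 hb he
  have h1 : ∀ᶠ B in 𝓝[Bx (n := n) b1 b2] B₀, ‖B - B₀‖ < ε / (L + 1) := by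
    refine mem_nhdsWithin_of_mem_nhds ?_
    have := Metric.ball_mem_nhds B₀ (show 0 < ε / (L + 1) by positivity)
    filter_upwards [this] with B hB
    rwa [Metric.mem_ball, dist_eq_norm] at hB
  filter_upwards [h1, self_mem_nhdsWithin] with B h2 hB x
  refine (hL B hB B₀ hB₀ x).trans ?_
  rw [lt_div_iff₀ (by positivity)] at h2
  nlinarith [norm_nonneg (B - B₀)]

/-- linear growth of the gradient, uniform in `e ≤ 1` and `B` -/
theorem fderiv_PA_le {P0 : E n → ℝ} (hP : Tst P0) {b1 b2 : ℝ} (hb1 : 0 < b1) (hb : b1 ≤ b2) :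
    ∃ K : ℝ, 0 ≤ K ∧ ∀ e, 0 ≤ e → e ≤ 1 → ∀ B ∈ Bx (n := n) b1 b2, ∀ x w : E n,
      |fderiv ℝ (PA P0 e B) x w| ≤ K * (1 + ‖x‖) * ‖w‖ := by
  have hb2 : 0 ≤ b2 := hb1.le.trans hb
  have hKh := Kh_nonneg
  obtain ⟨K, hK⟩ := (hP.supp.fderiv (𝕜 := ℝ)).exists_bound_of_continuous
    (hP.smooth.continuous_fderiv (by simp))
  have hK0 : 0 ≤ K := (norm_nonneg _).trans (hK 0)
  refine ⟨K * b2 + (b2 ^ 2 + 1) * (1 + Kh), by positivity, fun e he he1 B hB x w => ?_⟩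
  have hBu : ∀ x, ‖B x‖ ≤ b2 * ‖x‖ := fun x => (hB x).2
  have hx := norm_nonneg x
  have hw := norm_nonneg w
  rw [fderiv_PA hP.smooth]
  have e1 : ((fderiv ℝ P0 (B x)).comp B + (chi e x • gB B x + qB B x • fderiv ℝ (chi e) x)) w
      = fderiv ℝ P0 (B x) (B w) + (chi e x * gB B x w + qB B x * fderiv ℝ (chi e) x w) := rfl
  show |((fderiv ℝ P0 (B x)).comp B + (chi e x • gB B x + qB B x • fderiv ℝ (chi e) x)) w| ≤ _
  rw [e1]
  have a1 : |fderiv ℝ P0 (B x) (B w)| ≤ K * b2 * ‖w‖ := by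
    have h1 := (fderiv ℝ P0 (B x)).le_opNorm (B w)
    rw [Real.norm_eq_abs] at h1
    refine h1.trans ?_
    calc ‖fderiv ℝ P0 (B x)‖ * ‖B w‖ ≤ K * (b2 * ‖w‖) :=
          mul_le_mul (hK _) (hBu w) (norm_nonneg _) hK0
      _ = _ := by ring
  have a2 : |chi e x * gB B x w| ≤ (b2 ^ 2 + 1) * ‖x‖ * ‖w‖ := by
    rw [abs_mul, abs_of_nonneg (chi_nonneg e x)]
    calc chi e x * |gB B x w| ≤ 1 * |gB B x w| :=
          mul_le_mul_of_nonneg_right (chi_le_one e x) (abs_nonneg _)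
      _ ≤ _ := by rw [one_mul]; exact abs_gB_le hb2 hBu x w
  have a3 : |qB B x * fderiv ℝ (chi e : E n → ℝ) x w| ≤ (b2 ^ 2 + 1) * Kh * ‖x‖ * ‖w‖ := by
    rw [abs_mul]
    have hr : ‖x‖ ^ 2 / (1 + ‖x‖ ^ 2) ≤ 1 := by
      rw [div_le_one (by positivity)]; linarith
    calc |qB B x| * |fderiv ℝ (chi e : E n → ℝ) x w|
        ≤ ((b2 ^ 2 + 1) / 2 * ‖x‖ ^ 2) * (2 * Kh * e * ‖x‖ * ‖w‖ / (1 + ‖x‖ ^ 2)) :=
          mul_le_mul (abs_qB_le hb2 hBu x) (fderiv_chi_le' he x w) (abs_nonneg _) (by positivity)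
      _ = (b2 ^ 2 + 1) * Kh * ‖x‖ * ‖w‖ * (e * (‖x‖ ^ 2 / (1 + ‖x‖ ^ 2))) := by ring
      _ ≤ (b2 ^ 2 + 1) * Kh * ‖x‖ * ‖w‖ * 1 := by
          refine mul_le_mul_of_nonneg_left ?_ (by positivity)
          calc e * (‖x‖ ^ 2 / (1 + ‖x‖ ^ 2)) ≤ 1 * 1 :=
                mul_le_mul he1 hr (by positivity) (by norm_num)
            _ = 1 := by ring
      _ = _ := by ring
  have h3 : |fderiv ℝ P0 (B x) (B w) + (chi e x * gB B x w + qB B x * fderiv ℝ (chi e) x w)|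
      ≤ K * b2 * ‖w‖ + ((b2 ^ 2 + 1) * ‖x‖ * ‖w‖ + (b2 ^ 2 + 1) * Kh * ‖x‖ * ‖w‖) :=
    (abs_add_le _ _).trans (add_le_add a1 ((abs_add_le _ _).trans (add_le_add a2 a3)))
  refine h3.trans ?_
  have p1 : 0 ≤ K * b2 * ‖x‖ * ‖w‖ := by positivity
  have p2 : 0 ≤ (b2 ^ 2 + 1) * (1 + Kh) * ‖w‖ := by positivity
  nlinarith

end Crest.Agent.R253.Fam706
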