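import Crest.Agent.R253.FinDefs_505

/-!
Row 253 (S0391), helper505: the t-side data `Dat`, `Push`, `LCD` of a solution `Sl`.
-/

set_option autoImplicit false

open MeasureTheory ProbabilityTheory Real Set Filter Topology
open scoped ContDiff

noncomputable section

namespace Crest.Agent.R253.Fin505

open Crest.Agent.R238.Gap Crest.Agent.R238.GapPoinc Crest.Agent.R238.GapPc
open Crest.Agent.R253.Meh74
open Crest.Agent.R253.Frame321 (Zf)
open Crest.Agent.R253.SpecField321 (hs MF)
open Crest.Agent.R253.SpecCalc999 (Mat)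
open Crest.Agent.R253.ChVar56 (Push Gp)
open Crest.Agent.R253.Lim140 Crest.Agent.R253.Cpt435
open Crest.Agent.R253.Dual441 Crest.Agent.R253.Br Crest.Agent.R253.NormCont666

variable {n : ℕ}

theorem hasDerivAt_ln {f : E n → ℝ} {f' : E n →L[ℝ] ℝ} {x w : E n} {t : ℝ}
    (h : HasFDerivAt f f' (x + t • w)) : HasDerivAt (fun s : ℝ => f (x + s • w)) (f' w) t := by
  have h1 : HasDerivAt (fun s : ℝ => x + s • w) w t := by
    have := ((hasDerivAt_id t).smul_const w).const_add x
    simpa using this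
  exact h.comp_hasDerivAt t h1

theorem hasDerivAt_ln2 {f : E n → ℝ} (hf : ContDiff ℝ 2 f) (x w : E n) (t : ℝ) :
    HasDerivAt (fun s : ℝ => fderiv ℝ f (x + s • w) w)
      (fderiv ℝ (fderiv ℝ f) (x + t • w) w w) t := by
  have h0 : Differentiable ℝ (fderiv ℝ f) :=
    (hf.fderiv_right (m := 1) (by norm_num)).differentiable (by norm_num)
  have h1 : HasDerivAt (fun s : ℝ => x + s • w) w t := by
    have := ((hasDerivAt_id t).smul_const w).const_add x
    simpa using this
  have h2 : HasDerivAt (fun s : ℝ => fderiv ℝ f (x + s • w))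
      (fderiv ℝ (fderiv ℝ f) (x + t • w) w) t := (h0 _).hasFDerivAt.comp_hasDerivAt t h1
  exact ((ContinuousLinearMap.apply ℝ ℝ w).hasFDerivAt.comp_hasDerivAt t h2)

/-- a `C²` function with nonnegative second derivative is convex -/
theorem convexOn_of_hess {f : E n → ℝ} (hf : ContDiff ℝ 2 f)
    (h : ∀ x (z : Fin n → ℝ), 0 ≤ ∑ k, ∑ l, pd l (pd k f) x * z k * z l) :
    ConvexOn ℝ univ f := by
  have hd : Differentiable ℝ f := hf.differentiable (by norm_num)
  have h2 : ∀ x w : E n, 0 ≤ fderiv ℝ (fderiv ℝ f) x w w := by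
    intro x w
    rw [Crest.Agent.R238.Apr.fderiv2_eq_sum]
    have h3 := h x (fun i => w i)
    refine h3.trans_eq ?_
    refine Finset.sum_congr rfl fun k _ => Finset.sum_congr rfl fun l _ => ?_
    rw [← H_eq_pd hf, H_symm hf]
    rfl
  have hg : ∀ x w : E n, ConvexOn ℝ univ (fun s : ℝ => f (x + s • w)) := by
    intro x w
    have hd1 : deriv (fun s : ℝ => f (x + s • w)) = fun s => fderiv ℝ f (x + s • w) w :=
      funext fun t => (hasDerivAt_ln (hd _).hasFDerivAt).deriv
    refine convexOn_univ_of_deriv2_nonneg ?_ ?_ ?_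
    · intro t
      exact (hasDerivAt_ln (hd (x + t • w)).hasFDerivAt).differentiableAt
    · rw [hd1]
      intro t
      exact (hasDerivAt_ln2 hf x w t).differentiableAt
    · intro t
      simp only [Function.iterate_succ, Function.iterate_zero, Function.comp_apply, id]
      rw [hd1, (hasDerivAt_ln2 hf x w t).deriv]
      exact h2 _ _
  refine ⟨convex_univ, fun x _ y _ a b ha hb hab => ?_⟩
  have h1 := (hg x (y - x)).2 (mem_univ 0) (mem_univ 1) ha hb hab
  simp only [smul_eq_mul, mul_zero, mul_one, zero_add, zero_smul, add_zero, one_smul] at h1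
  have e1 : a • x + b • y = x + b • (y - x) := by
    rw [smul_sub]
    have hx : x = a • x + b • x := by rw [← add_smul, hab, one_smul]
    nth_rewrite 2 [hx]
    abel
  rw [e1]
  have e2 : x + (y - x) = y := by abel
  rw [e2] at h1
  simpa [smul_eq_mul] using h1

theorem lcd_den {P v : E n → ℝ} {lo hi lam c C2 C3 M0 M1 R0 : ℝ}
    (hP : PCB P c C2 C3 M0 M1 R0) (hv : NiceB v)
    (hell : ∀ x, Crest.Agent.R238.Ell lo hi (Crest.Agent.R238.gm v x)) (hlam : 0 ≤ lam)
    (hl : lam * hi ≤ c) (hint : ∫ x, den P v lam x = 1) : LCD (den P v lam) := by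
  have hV : ContDiff ℝ 2 (Vl P v lam) :=
    contDiff_infty.1 (contDiff_Vl hP.tst.smooth hv.smooth lam) 2
  have hc : ConvexOn ℝ univ (Vl P v lam) :=
    convexOn_of_hess hV fun x z => hess_nonneg hP hv.smooth hell hlam hl x z
  refine ⟨(continuous_den hP.tst.smooth.continuous hv.smooth.continuous lam).measurable,
    fun x => (den_pos P v lam x).le, ?_, hint⟩
  intro x y s t hs ht hst
  have h1 := hc.2 (mem_univ (WithLp.toLp 2 x : E n)) (mem_univ (WithLp.toLp 2 y : E n))
    hs.le ht.le hst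
  simp only [smul_eq_mul] at h1
  have h2 : (WithLp.toLp 2 (s • x + t • y) : E n) =
      s • (WithLp.toLp 2 x : E n) + t • (WithLp.toLp 2 y : E n) := by
    ext i; simp
  unfold den
  rw [h2]
  have hK : (0 : ℝ) < (2 * π) ^ (-(n : ℝ) / 2) := by positivity
  rw [Real.mul_rpow hK.le (Real.exp_pos _).le, Real.mul_rpow hK.le (Real.exp_pos _).le,
    ← Real.exp_mul, ← Real.exp_mul]
  calc ((2 * π) ^ (-(n : ℝ) / 2)) ^ s * rexp (-Vl P v lam (WithLp.toLp 2 x) * s) *
        (((2 * π) ^ (-(n : ℝ) / 2)) ^ t * rexp (-Vl P v lam (WithLp.toLp 2 y) * t))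
      = (((2 * π) ^ (-(n : ℝ) / 2)) ^ s * ((2 * π) ^ (-(n : ℝ) / 2)) ^ t) *
        (rexp (-Vl P v lam (WithLp.toLp 2 x) * s) *
          rexp (-Vl P v lam (WithLp.toLp 2 y) * t)) := by ring
    _ = (2 * π) ^ (-(n : ℝ) / 2) *
        rexp (-Vl P v lam (WithLp.toLp 2 x) * s + -Vl P v lam (WithLp.toLp 2 y) * t) := by
        rw [← Real.rpow_add hK, hst, Real.rpow_one, Real.exp_add]
    _ ≤ _ := by
        apply mul_le_mul_of_nonneg_left _ hK.le
        apply Real.exp_le_exp.mpr
        linarith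

/-- **the t-side data of a solution** -/
theorem dat_of_Sl {P v : E n → ℝ} {lo hi K lam c C2 C3 M0 M1 R0 : ℝ}
    (hP : PCB P c C2 C3 M0 M1 R0) (h : Sl P lam lo hi K v) (hlo : 0 < lo) (hlohi : lo ≤ hi)
    (hlam : 0 ≤ lam) (hl : lam * hi ≤ c) :
    ∃ G : E n → E n, IsInv v G ∧
      Dat (Gi G) (Mi v G) (Ni v G) (Vl P v lam) (1 / hi) (1 / lo) ∧
      Push (Gi G) (Mi v G) (den P v lam) ∧ LCD (den P v lam) := by
  obtain ⟨G, hG, hma, -, -, hpush⟩ := bind hP h.nice hlo hlohi h.ell hlam hl h.eq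
  refine ⟨G, hG, ⟨?_, ?_, hma, ?_, ?_⟩, hpush, ?_⟩
  · have : 0 < hi := hlo.trans_le hlohi
    positivity
  · exact one_div_le_one_div_of_le hlo hlohi
  · refine ⟨hma.hd.m, fun x => ?_, fun x => ?_⟩
    · exact ell_herm (h.ellM hlo hlohi G x)
    · exact ell_spec (h.ellM hlo hlohi G x)
  · intro y
    have hV : ContDiff ℝ 2 (Vl P v lam) :=
      contDiff_infty.1 (contDiff_Vl hP.tst.smooth h.nice.smooth lam) 2
    refine Matrix.PosSemidef.of_dotProduct_mulVec_nonneg ?_ fun z => ?_
    · ext k l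
      simp only [Matrix.conjTranspose_apply, Matrix.of_apply, star_trivial]
      rw [← H_eq_pd hV, ← H_eq_pd hV, H_symm hV]
    · have h1 := hess_nonneg hP h.nice.smooth h.ell hlam hl y z
      refine h1.trans_eq ?_
      simp only [dotProduct, Matrix.mulVec, Matrix.of_apply, star_trivial, Finset.mul_sum, Pi.star_apply]
      refine Finset.sum_congr rfl fun k _ => Finset.sum_congr rfl fun l _ => ?_
      ring
  · exact lcd_den hP h.nice h.ell hlam hl hpush.fi

/-- `Good` from the normalisation -/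
theorem good_of_Sl {P v : E n → ℝ} {lo hi K lam c C2 C3 M0 M1 R0 : ℝ}
    (hP : PCB P c C2 C3 M0 M1 R0) (h : Sl P lam lo hi K v) (hlo : 0 < lo) (hlohi : lo ≤ hi)
    (hlam : 0 ≤ lam) (hl : lam * hi ≤ c) {G : E n → E n} (hG : IsInv v G)
    (hz : Nz (Mi v G)) : Good (den P v lam) := by
  obtain ⟨G', hG', hD, hPu, hL⟩ := dat_of_Sl hP h hlo hlohi hlam hl
  have : G' = G := hG'.unique hG h.nice.smooth hlo h.ell
  subst this
  exact ⟨hL, Gi G', Mi v G', Ni v G', Vl P v lam, 1 / hi, 1 / lo, hD, hz, hPu⟩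

end Crest.Agent.R253.Fin505
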