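import Crest.Agent.R253.BrDefs_505
import Crest.Agent.R238.AprDat

/-!
Row 253 (S0391), task T6 (helper505): constants of the datum `P` and the UNIFORM versions of the
a priori / existence statements (constants depend only on the constants of the datum; needed for
the normalisation, i.e. for families `A ↦ P_A`).
-/

set_option autoImplicit false

open Set Filter
open scoped ContDiff Topology

namespace Crest.Agent.R253.Br

open Crest.Agent.R238 Crest.Agent.R238.Apr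

variable {n : ℕ}

/-- constants of the datum -/
structure PCB (P : E n → ℝ) (c C2 C3 M0 M1 R0 : ℝ) : Prop where
  pc : Apr.PC P c C2 C3 M0 R0
  tst : Tst P
  grad : ∀ x i, |gr P x i| ≤ M1

theorem exists_PCr {P : E n → ℝ} (hP : PDatB P) : ∃ c C2 C3 M0 R0 : ℝ, Apr.PC P c C2 C3 M0 R0 := by
  obtain ⟨ε, hε, hc⟩ := hP.conv
  have hs2 : ContDiff ℝ 2 P := by exact_mod_cast contDiff_infty.1 hP.tst.smooth 2
  -- bound for P
  obtain ⟨M0, hM0⟩ := hP.tst.supp.exists_bound_of_continuous hP.tst.smooth.continuous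
  -- bounds for second derivatives
  have h2 : ∃ K2 : ℝ, 0 ≤ K2 ∧ ∀ x i j, |Hs P x i j| ≤ K2 := by
    have h : ∀ p : Fin n × Fin n, ∃ C, ∀ x, ‖Hs P x p.1 p.2‖ ≤ C := fun p =>
      (hasCompactSupport_Hs hP.tst.supp p.1 p.2).exists_bound_of_continuous
        (contDiff_Hs hP.tst.smooth p.1 p.2).continuous
    choose C hC using h
    refine ⟨∑ p, |C p|, Finset.sum_nonneg fun _ _ => abs_nonneg _, fun x i j => ?_⟩
    have := hC (i, j) x
    rw [Real.norm_eq_abs] at this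
    refine this.trans ((le_abs_self _).trans ?_)
    exact Finset.single_le_sum (f := fun p => |C p|) (fun _ _ => abs_nonneg _)
      (Finset.mem_univ (i, j))
  obtain ⟨K2, hK20, hK2⟩ := h2
  have h3 : ∃ K3 : ℝ, 0 ≤ K3 ∧ ∀ x i j k, |fderiv ℝ (fun y => Hs P y i j) x (ee k)| ≤ K3 := by
    have h : ∀ p : Fin n × Fin n × Fin n, ∃ C, ∀ x,
        ‖fderiv ℝ (fun y => Hs P y p.1 p.2.1) x (ee p.2.2)‖ ≤ C := by
      intro p
      have h1 : HasCompactSupport (fderiv ℝ (fun y => Hs P y p.1 p.2.1)) :=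
        (hasCompactSupport_Hs hP.tst.supp p.1 p.2.1).fderiv (𝕜 := ℝ)
      have h4 : ContDiff ℝ ∞ (fderiv ℝ (fun y => Hs P y p.1 p.2.1)) :=
        (contDiff_Hs hP.tst.smooth p.1 p.2.1).fderiv_right (by simp)
      obtain ⟨C, hC⟩ := h1.exists_bound_of_continuous h4.continuous
      refine ⟨C * ‖(ee p.2.2 : E n)‖, fun x => ?_⟩
      exact ((fderiv ℝ (fun y => Hs P y p.1 p.2.1) x).le_opNorm _).trans
        (mul_le_mul_of_nonneg_right (hC x) (norm_nonneg _))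
    choose C hC using h
    refine ⟨∑ p, |C p|, Finset.sum_nonneg fun _ _ => abs_nonneg _, fun x i j k => ?_⟩
    have := hC (i, j, k) x
    rw [Real.norm_eq_abs] at this
    refine this.trans ((le_abs_self _).trans ?_)
    exact Finset.single_le_sum (f := fun p => |C p|) (fun _ _ => abs_nonneg _)
      (Finset.mem_univ (i, j, k))
  obtain ⟨K3, hK30, hK3⟩ := h3
  obtain ⟨R, hR⟩ := hP.tst.supp.isCompact.isBounded.subset_ball (0 : E n)
  refine ⟨min 1 (2 * ε), 1 + n * K2, K3, |M0|, max R 1,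
    lt_min one_pos (by positivity), min_le_left _ _, le_add_of_nonneg_right (by positivity), hK30,
    abs_nonneg _, lt_max_of_lt_right one_pos, ?_, ?_, hK3,
    fun x => ((Real.norm_eq_abs (P x)).symm ▸ hM0 x).trans (le_abs_self _), ?_⟩
  · intro s hs0 hs1 x z
    have h := hess_lower hs2 hc x (WithLp.toLp 2 z)
    rw [fderiv2_eq_sum, normsq_eq] at h
    simp only at h
    have hz : 0 ≤ ∑ i, z i ^ 2 := Finset.sum_nonneg fun _ _ => sq_nonneg _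
    have hm1 : min 1 (2 * ε) ≤ 1 := min_le_left _ _
    have hm2 : min 1 (2 * ε) ≤ 2 * ε := min_le_right _ _
    set Z := ∑ i, z i ^ 2
    set W := ∑ i, ∑ j, Hs P x i j * z i * z j
    have e1 : min 1 (2 * ε) * Z ≤ Z := by nlinarith
    have e2 : min 1 (2 * ε) * Z ≤ 2 * ε * Z := by nlinarith
    have e3 : min 1 (2 * ε) * Z ≤ Z + W := e2.trans h
    calc min 1 (2 * ε) * Z = (1 - s) * (min 1 (2 * ε) * Z) + s * (min 1 (2 * ε) * Z) := by ring
      _ ≤ (1 - s) * Z + s * (Z + W) := by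
        apply add_le_add
        · exact mul_le_mul_of_nonneg_left e1 (by linarith)
        · exact mul_le_mul_of_nonneg_left e3 hs0
      _ = Z + s * W := by ring
  · intro s hs0 hs1 x z
    have h := form_bound (A := Matrix.of (fun i j => Hs P x i j)) (K := K2)
      (fun i j => hK2 x i j) z
    simp only [Matrix.of_apply] at h
    have hz : 0 ≤ ∑ i, z i ^ 2 := Finset.sum_nonneg fun _ _ => sq_nonneg _
    set Z := ∑ i, z i ^ 2
    set W := ∑ i, ∑ j, Hs P x i j * z i * z j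
    have hnK : 0 ≤ n * K2 * Z := by positivity
    have h5 : s * W ≤ n * K2 * Z := by
      calc s * W ≤ s * |W| := mul_le_mul_of_nonneg_left (le_abs_self _) hs0
        _ ≤ 1 * |W| := mul_le_mul_of_nonneg_right hs1 (abs_nonneg _)
        _ = |W| := one_mul _
        _ ≤ n * K2 * Z := h
    linarith
  · intro x hx
    have hx' : x ∉ tsupport P := by
      intro hmem
      have := hR hmem
      rw [mem_ball_zero_iff] at this
      have := (le_max_left R 1).trans hx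
      linarith
    have : ∀ᶠ y in 𝓝 x, y ∉ tsupport P :=
      (isClosed_tsupport P).isOpen_compl.mem_nhds hx'
    filter_upwards [this] with y hy
    exact image_eq_zero_of_notMem_tsupport hy

theorem exists_PCB {P : E n → ℝ} (hP : PDatB P) :
    ∃ c C2 C3 M0 M1 R0 : ℝ, PCB P c C2 C3 M0 M1 R0 := by
  obtain ⟨c, C2, C3, M0, R0, h⟩ := exists_PCr hP
  have hc : HasCompactSupport (fderiv ℝ P) := hP.tst.supp.fderiv (𝕜 := ℝ)
  have hd : Continuous (fderiv ℝ P) := hP.tst.smooth.continuous_fderiv (by simp)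
  obtain ⟨C, hC⟩ := hc.exists_bound_of_continuous hd
  refine ⟨c, C2, C3, M0, C, R0, h, hP.tst, fun x i => ?_⟩
  unfold gr
  have h1 := (fderiv ℝ P x).le_opNorm (ee i)
  have h2 : ‖(ee i : E n)‖ = 1 := by simp
  rw [h2, mul_one, Real.norm_eq_abs] at h1
  exact h1.trans (hC x)

/-- **B7a, uniform**: ellipticity, sup bounds, decay -/
def BndU : Prop := ∀ (n : ℕ) (c C2 C3 M0 M1 R0 : ℝ), ∃ lo hi K K1 : ℝ, 0 < lo ∧ lo ≤ hi ∧
  ∀ P : E n → ℝ, PCB P c C2 C3 M0 M1 R0 → ∀ lam s : ℝ, 0 < lam → lam ≤ 1 → 0 ≤ s → s ≤ 1 →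
    ∀ v : E n → ℝ, NiceB v → (∃ lo' hi' : ℝ, 0 < lo' ∧ ∀ x, Ell lo' hi' (gm v x)) →
      MAb P lam s v → (∀ x, Ell lo hi (gm v x)) ∧ (∀ x, lam * |v x| ≤ K) ∧
        (∀ x i, |gr v x i| ≤ K) ∧
        ∀ x i j, |Hs v x i j| ≤ K1 * (1 + ‖x‖ ^ 2) ^ (-(1 / 4) : ℝ)

/-- **B6, uniform** -/
def D3U : Prop := ∀ (n : ℕ) (c C2 C3 M0 M1 R0 lo hi : ℝ), 0 < lo → lo ≤ hi →
  ∃ K : ℝ, ∀ P : E n → ℝ, PCB P c C2 C3 M0 M1 R0 → ∀ lam s : ℝ, 0 < lam → lam ≤ 1 → 0 ≤ s →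
    s ≤ 1 → ∀ v : E n → ℝ, NiceB v → (∀ x, Ell lo hi (gm v x)) → MAb P lam s v →
      ∀ x i j k, |fderiv ℝ (fun y => Hs v y i j) x (ee k)| ≤ K

/-- **B7, uniform** -/
def AprStmtU : Prop := ∀ (n : ℕ) (a : ℝ), 0 < a → a < 1 → ∀ c C2 C3 M0 M1 R0 : ℝ,
  ∃ lo hi K : ℝ, 0 < lo ∧ lo ≤ hi ∧ ∀ lam : ℝ, 0 < lam → lam ≤ 1 →
    ∃ M M2 : ℝ, ∀ ε : ℝ, 0 < ε → ∃ R : ℝ, ∀ P : E n → ℝ, PCB P c C2 C3 M0 M1 R0 →
    ∀ s : ℝ, 0 ≤ s → s ≤ 1 → ∀ v : E n → ℝ, NiceB v →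
      (∃ lo' hi' : ℝ, 0 < lo' ∧ ∀ x, Ell lo' hi' (gm v x)) → MAb P lam s v →
        (∀ x, Ell lo hi (gm v x)) ∧ (∀ x, lam * |v x| ≤ K) ∧ (∀ x i, |gr v x i| ≤ K) ∧
        (∀ x i j k, |fderiv ℝ (fun y => Hs v y i j) x (ee k)| ≤ K) ∧
        ClsB a M v ∧ AprB a lam M2 (gr v) (tauf v) ∧ ExtS a ε R v

/-- **B9, uniform = final existence statement** (x-side) -/
def ExiU (n : ℕ) : Prop := ∀ c C2 C3 M0 M1 R0 : ℝ, ∃ lo hi K : ℝ, 0 < lo ∧ lo ≤ hi ∧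
  ∀ P : E n → ℝ, PCB P c C2 C3 M0 M1 R0 → ∀ lam : ℝ, 0 < lam → lam ≤ 1 →
    ∃ v : E n → ℝ, NiceB v ∧ (∀ x, Ell lo hi (gm v x)) ∧
      (∀ x, lam * |v x| ≤ K) ∧ (∀ x i, |gr v x i| ≤ K) ∧
      (∀ x i j k, |fderiv ℝ (fun y => Hs v y i j) x (ee k)| ≤ K) ∧ MAb P lam 1 v

theorem AprStmtU.toB (h : AprStmtU) : AprStmtB := by
  intro n a ha ha1 P hP
  obtain ⟨c, C2, C3, M0, M1, R0, hc⟩ := exists_PCB hP
  obtain ⟨lo, hi, K, hlo, hlohi, H⟩ := h n a ha ha1 c C2 C3 M0 M1 R0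
  refine ⟨lo, hi, K, hlo, hlohi, fun lam hl hl1 => ?_⟩
  obtain ⟨M, M2, H2⟩ := H lam hl hl1
  refine ⟨M, M2, fun ε hε => ?_⟩
  obtain ⟨R, HR⟩ := H2 ε hε
  exact ⟨R, fun s hs0 hs1 v hv he hm => HR P hc s hs0 hs1 v hv he hm⟩

theorem ExiU.toB {n : ℕ} (h : ExiU n) : ExiB n := by
  intro P hP
  obtain ⟨c, C2, C3, M0, M1, R0, hc⟩ := exists_PCB hP
  obtain ⟨lo, hi, K, hlo, hlohi, H⟩ := h c C2 C3 M0 M1 R0
  exact ⟨lo, hi, K, hlo, hlohi, fun lam hl hl1 => H P hc lam hl hl1⟩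

end Crest.Agent.R253.Br
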