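import Mathlib

/-!
# R253: second order expansions at `0` (helper435)

`T2 φ a b c` : `φ t = a + b t + c t² + o(t²)` as `t → 0`.
-/

set_option autoImplicit false
open Filter Topology Asymptotics

namespace Crest.Agent.R253.Cpt435

/-- second-order expansion at `0` -/
def T2 (φ : ℝ → ℝ) (a b c : ℝ) : Prop :=
  (fun t => φ t - (a + b * t + c * t ^ 2)) =o[𝓝 0] (fun t : ℝ => t ^ 2)

/-- second-order expansion of `F` at `a` within `I` -/
def P2 (F : ℝ → ℝ) (I : Set ℝ) (a F1 F2 : ℝ) : Prop :=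
  (fun x => F x - (F a + F1 * (x - a) + F2 * (x - a) ^ 2)) =o[𝓝[I] a] (fun x => (x - a) ^ 2)

namespace T2

variable {φ ψ : ℝ → ℝ} {a b c a' b' c' : ℝ}

theorem val (h : T2 φ a b c) : φ 0 = a := by
  have h2 : ∃ C, ∀ᶠ t in 𝓝 (0 : ℝ), ‖φ t - (a + b * t + c * t ^ 2)‖ ≤ C * ‖(t : ℝ) ^ 2‖ :=
    isBigO_iff.mp h.isBigO
  obtain ⟨C, hC⟩ := h2
  have h3 := hC.self_of_nhds
  simp at h3
  linarith

theorem congr (h : T2 φ a b c) (he : φ =ᶠ[𝓝 0] ψ) : T2 ψ a b c := by
  refine IsLittleO.congr' h ?_ (EventuallyEq.refl _ _)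
  filter_upwards [he] with t ht
  rw [ht]

theorem congr_coef (h : T2 φ a b c) (ha : a = a') (hb : b = b') (hc : c = c') :
    T2 φ a' b' c' := by
  subst ha hb hc; exact h

theorem const (a : ℝ) : T2 (fun _ => a) a 0 0 := by
  unfold T2
  simp

theorem id : T2 (fun t => t) 0 1 0 := by
  unfold T2
  simp

theorem add (h : T2 φ a b c) (h' : T2 ψ a' b' c') :
    T2 (fun t => φ t + ψ t) (a + a') (b + b') (c + c') := by
  refine (IsLittleO.add h h').congr_left fun t => ?_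
  ring

theorem const_mul (k : ℝ) (h : T2 φ a b c) : T2 (fun t => k * φ t) (k * a) (k * b) (k * c) := by
  refine (IsLittleO.const_mul_left h k).congr_left fun t => ?_
  ring

theorem neg (h : T2 φ a b c) : T2 (fun t => -φ t) (-a) (-b) (-c) := by
  refine (IsLittleO.neg_left h).congr_left fun t => ?_
  ring

theorem sub (h : T2 φ a b c) (h' : T2 ψ a' b' c') :
    T2 (fun t => φ t - ψ t) (a - a') (b - b') (c - c') := by
  refine (IsLittleO.sub h h').congr_left fun t => ?_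
  ring

theorem sum {ι : Type*} (s : Finset ι) {Φ : ι → ℝ → ℝ} {A B C : ι → ℝ}
    (h : ∀ i ∈ s, T2 (Φ i) (A i) (B i) (C i)) :
    T2 (fun t => ∑ i ∈ s, Φ i t) (∑ i ∈ s, A i) (∑ i ∈ s, B i) (∑ i ∈ s, C i) := by
  classical
  induction s using Finset.induction_on with
  | empty => simpa using const 0
  | insert x s hx ih =>
    simp only [Finset.sum_insert hx]
    exact (h x (Finset.mem_insert_self _ _)).add (ih fun i hi => h i (Finset.mem_insert_of_mem hi))

theorem tendsto_sq : Tendsto (fun t : ℝ => t ^ 2) (𝓝 0) (𝓝 0) := by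
  have : Continuous fun t : ℝ => t ^ 2 := by fun_prop
  simpa using this.tendsto 0

theorem sq_isLittleO : (fun t : ℝ => t ^ 2) =o[𝓝 0] (fun t : ℝ => t) := by
  have h : (fun t : ℝ => t * t) =o[𝓝 0] (fun t : ℝ => 1 * t) := by
    apply IsLittleO.mul_isBigO
    · rw [isLittleO_one_iff]; exact tendsto_id
    · exact isBigO_refl _ _
  simpa [sq] using h

/-- `φ t - a = O(t)` -/
theorem isBigO_sub (h : T2 φ a b c) : (fun t => φ t - a) =O[𝓝 0] (fun t : ℝ => t) := by
  have h1 : (fun t => φ t - (a + b * t + c * t ^ 2)) =O[𝓝 0] (fun t : ℝ => t) :=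
    (IsLittleO.trans h sq_isLittleO).isBigO
  have h2 : (fun t : ℝ => b * t) =O[𝓝 0] (fun t : ℝ => t) := isBigO_const_mul_self _ _ _
  have h3 : (fun t : ℝ => c * t ^ 2) =O[𝓝 0] (fun t : ℝ => t) :=
    (isBigO_const_mul_self _ _ _).trans sq_isLittleO.isBigO
  refine ((h1.add h2).add h3).congr_left fun t => ?_
  ring

theorem tendsto (h : T2 φ a b c) : Tendsto φ (𝓝 0) (𝓝 a) := by
  have h1 : Tendsto (fun t => φ t - a) (𝓝 0) (𝓝 0) := h.isBigO_sub.trans_tendsto tendsto_id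
  simpa using h1.add_const a

/-- `φ t = a + b t + o(t)` -/
theorem isLittleO_lin (h : T2 φ a b c) :
    (fun t => φ t - a - b * t) =o[𝓝 0] (fun t : ℝ => t) := by
  have h1 : (fun t => φ t - (a + b * t + c * t ^ 2)) =o[𝓝 0] (fun t : ℝ => t) :=
    IsLittleO.trans h sq_isLittleO
  have h3 : (fun t : ℝ => c * t ^ 2) =o[𝓝 0] (fun t : ℝ => t) := sq_isLittleO.const_mul_left c
  refine (h1.add h3).congr_left fun t => ?_
  ring

theorem of_isBigO_cube (h : (fun t => φ t - (a + b * t + c * t ^ 2)) =O[𝓝 0]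
    (fun t : ℝ => t ^ 3)) : T2 φ a b c := by
  refine h.trans_isLittleO ?_
  have h1 : (fun t : ℝ => t * t ^ 2) =o[𝓝 0] (fun t : ℝ => 1 * t ^ 2) := by
    apply IsLittleO.mul_isBigO
    · rw [isLittleO_one_iff]; exact tendsto_id
    · exact isBigO_refl _ _
  simpa [pow_succ, mul_comm, mul_left_comm] using h1

theorem mul (h : T2 φ a b c) (h' : T2 ψ a' b' c') :
    T2 (fun t => φ t * ψ t) (a * a') (a * b' + b * a') (a * c' + b * b' + c * a') := by
  -- φ ψ - poly = (φ - p) ψ + p (ψ - q) + (p q - poly)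
  have e1 : (fun t => (φ t - (a + b * t + c * t ^ 2)) * ψ t) =o[𝓝 0] (fun t : ℝ => t ^ 2 * 1) := by
    apply IsLittleO.mul_isBigO h
    exact h'.tendsto.isBigO_one ℝ
  have e2 : (fun t => (a + b * t + c * t ^ 2) * (ψ t - (a' + b' * t + c' * t ^ 2))) =o[𝓝 0]
      (fun t : ℝ => 1 * t ^ 2) := by
    apply IsBigO.mul_isLittleO _ h'
    have : Continuous fun t : ℝ => a + b * t + c * t ^ 2 := by fun_prop
    exact (this.tendsto 0).isBigO_one ℝ
  have e3 : (fun t : ℝ => ((b * c' + c * b') + c * c' * t) * t ^ 3) =o[𝓝 0]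
      (fun t : ℝ => 1 * t ^ 2) := by
    apply IsBigO.mul_isLittleO
    · have : Continuous fun t : ℝ => (b * c' + c * b') + c * c' * t := by fun_prop
      exact (this.tendsto 0).isBigO_one ℝ
    · have h1 : (fun t : ℝ => t * t ^ 2) =o[𝓝 0] (fun t : ℝ => 1 * t ^ 2) := by
        apply IsLittleO.mul_isBigO
        · rw [isLittleO_one_iff]; exact tendsto_id
        · exact isBigO_refl _ _
      simpa [pow_succ, mul_comm, mul_left_comm] using h1
  simp only [mul_one] at e1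
  simp only [one_mul] at e2 e3
  refine ((e1.add e2).add e3).congr_left fun t => ?_
  ring

theorem pow_two (h : T2 φ a b c) : T2 (fun t => φ t ^ 2) (a ^ 2) (2 * a * b) (2 * a * c + b ^ 2) := by
  have := h.mul h
  refine (this.congr (Eventually.of_forall fun t => by ring)).congr_coef ?_ ?_ ?_ <;> ring

theorem mul_const (k : ℝ) (h : T2 φ a b c) : T2 (fun t => φ t * k) (a * k) (b * k) (c * k) := by
  refine ((h.const_mul k).congr (Eventually.of_forall fun t => by ring)).congr_coef ?_ ?_ ?_ <;>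
    ring

/-- composition -/
theorem comp {F : ℝ → ℝ} {I : Set ℝ} {F1 F2 : ℝ} (hF : P2 F I a F1 F2) (h : T2 φ a b c)
    (hI : ∀ᶠ t in 𝓝 (0 : ℝ), φ t ∈ I) :
    T2 (fun t => F (φ t)) (F a) (F1 * b) (F1 * c + F2 * b ^ 2) := by
  have ht : Tendsto φ (𝓝 0) (𝓝[I] a) := tendsto_nhdsWithin_iff.mpr ⟨h.tendsto, hI⟩
  have e1 : (fun t => F (φ t) - (F a + F1 * (φ t - a) + F2 * (φ t - a) ^ 2)) =o[𝓝 0]
      (fun t : ℝ => t ^ 2) := by
    refine (hF.comp_tendsto ht).trans_isBigO ?_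
    exact h.isBigO_sub.pow 2
  have e2 : T2 (fun t => F a + F1 * (φ t - a) + F2 * (φ t - a) ^ 2) (F a) (F1 * b)
      (F1 * c + F2 * b ^ 2) := by
    have h1 : T2 (fun t => φ t - a) 0 b c := (h.sub (const a)).congr_coef (by ring) (by ring) (by ring)
    have h2 := ((const (F a)).add (h1.const_mul F1)).add (h1.pow_two.const_mul F2)
    exact h2.congr_coef (by ring) (by ring) (by ring)
  refine (e1.add e2).congr_left fun t => ?_
  ring

/-- comparison of second coefficients -/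
theorem le_of_le (h : T2 φ a b c) (h' : T2 ψ a b c') (hle : ∀ᶠ t in 𝓝 (0 : ℝ), φ t ≤ ψ t) :
    c ≤ c' := by
  have h1 : T2 (fun t => ψ t - φ t) 0 0 (c' - c) :=
    (h'.sub h).congr_coef (by ring) (by ring) (by ring)
  by_contra hcon
  push Not at hcon
  set δ := c - c' with hδ
  have hδ0 : 0 < δ := by linarith
  have h2 : ∀ᶠ t in 𝓝 (0 : ℝ), ‖(ψ t - φ t) - (0 + 0 * t + (c' - c) * t ^ 2)‖ ≤
      (δ / 2) * ‖t ^ 2‖ := (isLittleO_iff.mp h1) (half_pos hδ0)
  have h3 : ∀ᶠ t in 𝓝[>] (0 : ℝ), False := by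
    filter_upwards [nhdsWithin_le_nhds h2, nhdsWithin_le_nhds hle, self_mem_nhdsWithin] with t h4 h5 h6
    have h7 : (0 : ℝ) < t ^ 2 := by
      have : (0 : ℝ) < t := h6
      positivity
    rw [Real.norm_eq_abs, Real.norm_eq_abs, abs_of_pos h7] at h4
    have h8 := (abs_le.mp h4).2
    nlinarith
  exact h3.exists.elim fun _ h => h

/-- uniqueness of the expansion -/
theorem unique (h : T2 φ a b c) (h' : T2 φ a' b' c') : a = a' ∧ b = b' ∧ c = c' := by
  have ha : a = a' := by rw [← h.val, ← h'.val]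
  subst ha
  have hb : b = b' := by
    have h1 : (fun t : ℝ => (b - b') * t) =o[𝓝 0] (fun t : ℝ => t) := by
      refine (h'.isLittleO_lin.sub h.isLittleO_lin).congr_left fun t => ?_
      ring
    by_contra hne
    have hne' : b - b' ≠ 0 := sub_ne_zero.mpr hne
    have h2 : (fun t : ℝ => t) =o[𝓝 0] (fun t : ℝ => t) := by
      have := h1.const_mul_left (b - b')⁻¹
      refine this.congr_left fun t => ?_
      field_simp
    have h3 := (isLittleO_irrefl' (l := 𝓝 (0 : ℝ)) (f' := fun t : ℝ => t) ?_) h2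
    · exact h3
    · have : ∃ᶠ t in 𝓝[>] (0 : ℝ), ‖t‖ ≠ 0 := by
        apply Eventually.frequently
        filter_upwards [self_mem_nhdsWithin] with t ht
        exact norm_ne_zero_iff.mpr (ne_of_gt ht)
      exact this.filter_mono nhdsWithin_le_nhds
  subst hb
  refine ⟨rfl, rfl, le_antisymm ?_ ?_⟩
  · exact le_of_le h h' (Eventually.of_forall fun t => le_rfl)
  · exact le_of_le h' h (Eventually.of_forall fun t => le_rfl)

/-- first order condition at a local maximum (one constant suffices) -/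
theorem max (h : T2 φ a b c) (hmax : ∀ᶠ t in 𝓝 (0 : ℝ), φ t ≤ a) : b = 0 ∧ c ≤ 0 := by
  have hb : b = 0 := by
    by_contra hne
    have h1 := h.isLittleO_lin
    have h2 : ∀ᶠ t in 𝓝 (0 : ℝ), ‖φ t - a - b * t‖ ≤ (|b| / 2) * ‖t‖ :=
      (isLittleO_iff.mp h1) (by positivity)
    rcases lt_or_gt_of_ne hne with hb | hb
    · have h3 : ∀ᶠ t in 𝓝[<] (0 : ℝ), False := by
        filter_upwards [nhdsWithin_le_nhds h2, nhdsWithin_le_nhds hmax, self_mem_nhdsWithin]
          with t h4 h5 h6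
        have h7 : t < 0 := h6
        rw [Real.norm_eq_abs, Real.norm_eq_abs, abs_of_neg h7, abs_of_neg hb] at h4
        have h8 := (abs_le.mp h4).1
        nlinarith
      exact h3.exists.elim fun _ h => h
    · have h3 : ∀ᶠ t in 𝓝[>] (0 : ℝ), False := by
        filter_upwards [nhdsWithin_le_nhds h2, nhdsWithin_le_nhds hmax, self_mem_nhdsWithin]
          with t h4 h5 h6
        have h7 : 0 < t := h6
        rw [Real.norm_eq_abs, Real.norm_eq_abs, abs_of_pos h7, abs_of_pos hb] at h4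
        have h8 := (abs_le.mp h4).1
        nlinarith
      exact h3.exists.elim fun _ h => h
  subst hb
  refine ⟨rfl, ?_⟩
  exact le_of_le h (const a) hmax

/-- a minimum -/
theorem min (h : T2 φ a b c) (hmin : ∀ᶠ t in 𝓝 (0 : ℝ), a ≤ φ t) : b = 0 ∧ 0 ≤ c := by
  have := h.neg.max (by filter_upwards [hmin] with t ht; linarith)
  constructor <;> linarith [this.1, this.2]

/-- Taylor–Young from two derivatives -/
theorem of_hasDerivAt {φ1 : ℝ → ℝ} {c2 : ℝ} (h1 : ∀ᶠ t in 𝓝 (0 : ℝ), HasDerivAt φ (φ1 t) t)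
    (h2 : HasDerivAt φ1 c2 0) : T2 φ (φ 0) (φ1 0) (c2 / 2) := by
  unfold T2
  rw [isLittleO_iff]
  intro ε hε
  have h3 : ∀ᶠ t in 𝓝 (0 : ℝ), ‖φ1 t - φ1 0 - c2 * t‖ ≤ ε * ‖t‖ := by
    have := (hasDerivAt_iff_isLittleO_nhds_zero.mp h2)
    have h4 := (isLittleO_iff.mp this) hε
    filter_upwards [h4] with t ht
    simpa [mul_comm] using ht
  obtain ⟨δ, hδ, hball⟩ := Metric.eventually_nhds_iff.mp (h1.and h3)
  rw [Metric.eventually_nhds_iff]
  refine ⟨δ, hδ, fun t ht => ?_⟩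
  rw [Real.dist_eq, sub_zero] at ht
  -- mean value inequality on segment [0, t]
  set H : ℝ → ℝ := fun s => φ s - φ1 0 * s - c2 / 2 * s ^ 2 with hH
  have hder : ∀ s ∈ Set.uIcc (0 : ℝ) t, HasDerivWithinAt H (φ1 s - φ1 0 - c2 * s)
      (Set.uIcc (0 : ℝ) t) s := by
    intro s hs
    have hs' : |s| ≤ |t| := by
      rcases le_total 0 t with h0 | h0
      · rw [Set.uIcc_of_le h0] at hs
        rw [abs_of_nonneg hs.1, abs_of_nonneg h0]; exact hs.2
      · rw [Set.uIcc_of_ge h0] at hs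
        rw [abs_of_nonpos hs.2, abs_of_nonpos h0]; linarith [hs.1]
    have h5 := (hball (y := s) (by rw [Real.dist_eq, sub_zero]; linarith)).1
    have h6 : HasDerivAt H (φ1 s - φ1 0 - c2 * s) s := by
      have h7 := (h5.sub ((hasDerivAt_id s).const_mul (φ1 0))).sub
        ((hasDerivAt_pow 2 s).const_mul (c2 / 2))
      refine h7.congr_deriv ?_
      simp; ring
    exact h6.hasDerivWithinAt
  have hbound : ∀ s ∈ Set.uIcc (0 : ℝ) t, ‖φ1 s - φ1 0 - c2 * s‖ ≤ ε * |t| := by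
    intro s hs
    have hs' : |s| ≤ |t| := by
      rcases le_total 0 t with h0 | h0
      · rw [Set.uIcc_of_le h0] at hs
        rw [abs_of_nonneg hs.1, abs_of_nonneg h0]; exact hs.2
      · rw [Set.uIcc_of_ge h0] at hs
        rw [abs_of_nonpos hs.2, abs_of_nonpos h0]; linarith [hs.1]
    have h5 := (hball (y := s) (by rw [Real.dist_eq, sub_zero]; linarith)).2
    refine h5.trans ?_
    rw [Real.norm_eq_abs]; gcongr
  have h8 := Convex.norm_image_sub_le_of_norm_hasDerivWithin_le (𝕜 := ℝ) hder hbound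
    (convex_uIcc 0 t) Set.left_mem_uIcc Set.right_mem_uIcc
  simp only [hH] at h8
  rw [Real.norm_eq_abs] at h8 ⊢
  rw [Real.norm_eq_abs, abs_of_nonneg (sq_nonneg t)]
  rw [Real.norm_eq_abs, sub_zero] at h8
  calc |φ t - (φ 0 + φ1 0 * t + c2 / 2 * t ^ 2)|
      = |φ t - φ1 0 * t - c2 / 2 * t ^ 2 - (φ 0 - φ1 0 * 0 - c2 / 2 * 0 ^ 2)| := by
        congr 1; ring
    _ ≤ ε * |t| * |t| := h8
    _ = ε * t ^ 2 := by rw [mul_assoc, abs_mul_abs_self, sq]

end T2

/-- `P2` for functions with two derivatives -/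
theorem P2.of_hasDerivAt {F F1 : ℝ → ℝ} {a c2 : ℝ} {I : Set ℝ}
    (h1 : ∀ᶠ t in 𝓝 a, HasDerivAt F (F1 t) t) (h2 : HasDerivAt F1 c2 a) :
    P2 F I a (F1 a) (c2 / 2) := by
  have h3 : T2 (fun t => F (a + t)) (F a) (F1 a) (c2 / 2) := by
    have h4 : ∀ᶠ t in 𝓝 (0 : ℝ), HasDerivAt (fun t => F (a + t)) (F1 (a + t)) t := by
      have : Tendsto (fun t : ℝ => a + t) (𝓝 0) (𝓝 a) := by
        have : Continuous fun t : ℝ => a + t := by fun_prop
        simpa using this.tendsto 0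
      filter_upwards [this.eventually h1] with t ht
      exact HasDerivAt.comp_const_add a t ht
    have h5 : HasDerivAt (fun t => F1 (a + t)) c2 0 := by
      apply HasDerivAt.comp_const_add
      simpa using h2
    have := T2.of_hasDerivAt h4 h5
    simpa using this
  have ht : Tendsto (fun x : ℝ => x - a) (𝓝[I] a) (𝓝 0) := by
    have : Continuous fun x : ℝ => x - a := by fun_prop
    have := this.tendsto a
    rw [sub_self] at this
    exact this.mono_left nhdsWithin_le_nhds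
  have h4 := IsLittleO.comp_tendsto h3 ht
  refine h4.congr_left fun x => ?_
  simp

theorem P2.inv {a : ℝ} (ha : a ≠ 0) : P2 (fun x => x⁻¹) Set.univ a (-(a ^ 2)⁻¹) ((a ^ 3)⁻¹) := by
  have h1 : ∀ᶠ t in 𝓝 a, HasDerivAt (fun x : ℝ => x⁻¹) (-(t ^ 2)⁻¹) t := by
    filter_upwards [isOpen_ne.mem_nhds ha] with t ht
    exact hasDerivAt_inv ht
  have h2 : HasDerivAt (fun t : ℝ => -(t ^ 2)⁻¹) (2 * (a ^ 3)⁻¹) a := by
    have h3 := ((hasDerivAt_pow 2 a).inv (pow_ne_zero 2 ha)).neg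
    refine h3.congr_deriv ?_
    field_simp
    norm_num
    ring
  have h3 := P2.of_hasDerivAt (I := Set.univ) h1 h2
  have : 2 * (a ^ 3)⁻¹ / 2 = (a ^ 3)⁻¹ := by ring
  rwa [this] at h3

theorem T2.inv {φ : ℝ → ℝ} {a b c : ℝ} (h : T2 φ a b c) (ha : a ≠ 0) :
    T2 (fun t => (φ t)⁻¹) a⁻¹ (-(a ^ 2)⁻¹ * b) (-(a ^ 2)⁻¹ * c + (a ^ 3)⁻¹ * b ^ 2) :=
  T2.comp (P2.inv ha) h (Eventually.of_forall fun _ => Set.mem_univ _)

/-- inverse of a function with expansion `1 + 0 t + 0 t²` -/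
theorem T2.inv_one {φ : ℝ → ℝ} (h : T2 φ 1 0 0) : T2 (fun t => (φ t)⁻¹) 1 0 0 := by
  have := h.inv one_ne_zero
  exact this.congr_coef (by norm_num) (by ring) (by ring)

theorem P2.log {a : ℝ} (ha : a ≠ 0) : P2 Real.log Set.univ a a⁻¹ (-(a ^ 2)⁻¹ / 2) := by
  have h1 : ∀ᶠ t in 𝓝 a, HasDerivAt Real.log (t⁻¹) t := by
    filter_upwards [isOpen_ne.mem_nhds ha] with t ht
    exact Real.hasDerivAt_log ht
  exact P2.of_hasDerivAt h1 (hasDerivAt_inv ha)

theorem P2.exp (a : ℝ) : P2 Real.exp Set.univ a (Real.exp a) (Real.exp a / 2) :=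
  P2.of_hasDerivAt (Eventually.of_forall fun t => Real.hasDerivAt_exp t) (Real.hasDerivAt_exp a)

theorem T2.log {φ : ℝ → ℝ} {a b c : ℝ} (h : T2 φ a b c) (ha : a ≠ 0) :
    T2 (fun t => Real.log (φ t)) (Real.log a) (a⁻¹ * b) (a⁻¹ * c + -(a ^ 2)⁻¹ / 2 * b ^ 2) :=
  T2.comp (P2.log ha) h (Eventually.of_forall fun _ => Set.mem_univ _)

theorem T2.exp {φ : ℝ → ℝ} {a b c : ℝ} (h : T2 φ a b c) :
    T2 (fun t => Real.exp (φ t)) (Real.exp a) (Real.exp a * b)
      (Real.exp a * c + Real.exp a / 2 * b ^ 2) :=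
  T2.comp (P2.exp a) h (Eventually.of_forall fun _ => Set.mem_univ _)

end Crest.Agent.R253.Cpt435
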