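import Crest.Agent.R253.CptE_435
import Crest.Agent.R253.CptT_435

/-!
# R253, part F (helper435)

* raw moment formulas for `densCov`, `densM3`; continuity along a.e. convergence in `NF`;
* `densCov f` is positive definite;
* bound for `G` in normal form; selection theorem for states.
-/

set_option autoImplicit false
open MeasureTheory Set Filter Topology Matrix
open Crest.GeometryTopology.Isotropic
open scoped ENNReal NNReal

namespace Crest.Agent.R253.Cpt435

variable {m : ℕ}

/-! ### raw moments -/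

theorem densCov_raw {f : (Fin m → ℝ) → ℝ} (hf : LCD f) (i j : Fin m) :
    densCov f i j = ex f (fun x => x i * x j) - densMean f i * densMean f j := by
  rw [densCov_eq]
  have h1 : (fun x : Fin m → ℝ => (x i - densMean f i) * (x j - densMean f j)) =
      fun x => (x i * x j - (densMean f i * x j + densMean f j * x i)) +
        densMean f i * densMean f j := by
    funext x; ring
  rw [h1, ex_add hf.eb _ (PB.const _), hf.ex_const,
    ex_sub hf.eb ((PB.coord i).mul (PB.coord j))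
      (((PB.coord j).const_mul _).add ((PB.coord i).const_mul _)),
    ex_add hf.eb ((PB.coord j).const_mul _) ((PB.coord i).const_mul _), ex_const_mul, ex_const_mul,
    ← densMean_eq, ← densMean_eq]
  · ring
  · exact ((PB.coord i).mul (PB.coord j)).sub
      (((PB.coord j).const_mul _).add ((PB.coord i).const_mul _))

theorem densM3_raw {f : (Fin m → ℝ) → ℝ} (hf : LCD f) (i j k : Fin m) :
    densM3 f i j k = ex f (fun x => x i * x j * x k) - densMean f i * ex f (fun x => x j * x k)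
      - densMean f j * ex f (fun x => x i * x k) - densMean f k * ex f (fun x => x i * x j)
      + 2 * densMean f i * densMean f j * densMean f k := by
  unfold densM3
  set a := densMean f i with ha
  set b := densMean f j with hb
  set c := densMean f k with hc
  have hi := PB.coord (m := m) i
  have hj := PB.coord (m := m) j
  have hk := PB.coord (m := m) k
  have h1 : (fun x : Fin m → ℝ => (x i - a) * (x j - b) * (x k - c)) =
      fun x => (((x i * x j * x k - a * (x j * x k)) - b * (x i * x k)) - c * (x i * x j)) +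
        ((a * b) * x k + ((a * c) * x j + ((b * c) * x i + (-(a * b * c))))) := by
    funext x; ring
  have p1 : PB (fun x : Fin m → ℝ => x i * x j * x k) := (hi.mul hj).mul hk
  have p2 : PB (fun x : Fin m → ℝ => a * (x j * x k)) := (hj.mul hk).const_mul a
  have p3 : PB (fun x : Fin m → ℝ => b * (x i * x k)) := (hi.mul hk).const_mul b
  have p4 : PB (fun x : Fin m → ℝ => c * (x i * x j)) := (hi.mul hj).const_mul c
  have q1 : PB (fun x : Fin m → ℝ => (a * b) * x k) := hk.const_mul _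
  have q2 : PB (fun x : Fin m → ℝ => (a * c) * x j) := hj.const_mul _
  have q3 : PB (fun x : Fin m → ℝ => (b * c) * x i) := hi.const_mul _
  have q4 : PB (fun _ : Fin m → ℝ => -(a * b * c)) := PB.const _
  rw [h1, ex_add hf.eb (((p1.sub p2).sub p3).sub p4) (q1.add (q2.add (q3.add q4))),
    ex_sub hf.eb ((p1.sub p2).sub p3) p4, ex_sub hf.eb (p1.sub p2) p3, ex_sub hf.eb p1 p2,
    ex_add hf.eb q1 (q2.add (q3.add q4)), ex_add hf.eb q2 (q3.add q4), ex_add hf.eb q3 q4,
    hf.ex_const]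
  simp only [ex_const_mul]
  rw [← densMean_eq, ← densMean_eq, ← densMean_eq, ← ha, ← hb, ← hc]
  ring

section limits

variable {g : ℕ → (Fin m → ℝ) → ℝ} {f : (Fin m → ℝ) → ℝ}

theorem NF.tendsto_ex (hg : ∀ k, NF (g k)) (hae : ∀ᵐ x, Tendsto (fun k => g k x) atTop (𝓝 (f x)))
    {ψ : (Fin m → ℝ) → ℝ} (hψ : PB ψ) :
    Tendsto (fun k => ex (g k) ψ) atTop (𝓝 (ex f ψ)) := NF.tendsto_integral_PB hg hae hψ

theorem NF.tendsto_densMean (hg : ∀ k, NF (g k))
    (hae : ∀ᵐ x, Tendsto (fun k => g k x) atTop (𝓝 (f x))) (i : Fin m) :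
    Tendsto (fun k => densMean (g k) i) atTop (𝓝 (densMean f i)) :=
  NF.tendsto_ex hg hae (PB.coord i)

theorem NF.tendsto_densCov (hg : ∀ k, NF (g k)) (hf : LCD f)
    (hae : ∀ᵐ x, Tendsto (fun k => g k x) atTop (𝓝 (f x))) (i j : Fin m) :
    Tendsto (fun k => densCov (g k) i j) atTop (𝓝 (densCov f i j)) := by
  rw [densCov_raw hf]
  simp only [fun k => densCov_raw (hg k).toLCD i j]
  exact (NF.tendsto_ex hg hae ((PB.coord i).mul (PB.coord j))).sub
    ((NF.tendsto_densMean hg hae i).mul (NF.tendsto_densMean hg hae j))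

theorem NF.tendsto_densM3 (hg : ∀ k, NF (g k)) (hf : LCD f)
    (hae : ∀ᵐ x, Tendsto (fun k => g k x) atTop (𝓝 (f x))) (i j k : Fin m) :
    Tendsto (fun n => densM3 (g n) i j k) atTop (𝓝 (densM3 f i j k)) := by
  rw [densM3_raw hf]
  simp only [fun n => densM3_raw (hg n).toLCD i j k]
  have mi := NF.tendsto_densMean hg hae i
  have mj := NF.tendsto_densMean hg hae j
  have mk := NF.tendsto_densMean hg hae k
  have eijk := NF.tendsto_ex hg hae (((PB.coord i).mul (PB.coord j)).mul (PB.coord k))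
  have eij := NF.tendsto_ex hg hae ((PB.coord i).mul (PB.coord j))
  have eik := NF.tendsto_ex hg hae ((PB.coord i).mul (PB.coord k))
  have ejk := NF.tendsto_ex hg hae ((PB.coord j).mul (PB.coord k))
  exact (((eijk.sub (mi.mul ejk)).sub (mj.mul eik)).sub (mk.mul eij)).add
    (((mi.const_mul 2).mul mj).mul mk)

theorem NF.tendsto_diffEntropy (hg : ∀ k, NF (g k))
    (hae : ∀ᵐ x, Tendsto (fun k => g k x) atTop (𝓝 (f x))) :
    Tendsto (fun n => diffEntropy (g n)) atTop (𝓝 (diffEntropy f)) :=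
  (NF.tendsto_entropy hg hae).neg

end limits

/-! ### positive definiteness of the covariance -/

theorem densCov_symm (f : (Fin m → ℝ) → ℝ) : (densCov f).IsHermitian := by
  ext i j
  rw [conjTranspose_apply, star_trivial, densCov_eq, densCov_eq]
  congr 1; funext x; ring

theorem LCD.qf_densCov_pos {f : (Fin m → ℝ) → ℝ} (hf : LCD f) {u : Fin m → ℝ} (hu : u ≠ 0) :
    0 < qf (densCov f) u := by
  unfold qf
  rw [← ex_cl_cl' hf.eb]
  have hPB := (PB.cl f u).mul (PB.cl f u)
  have hnn : ∀ x, 0 ≤ cl f u x * cl f u x * f x :=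
    fun x => mul_nonneg (mul_self_nonneg _) (hf.nonneg x)
  have h0 : 0 ≤ ex f (fun x => cl f u x * cl f u x) := integral_nonneg hnn
  rcases h0.lt_or_eq with h | h
  · exact h
  exfalso
  have h1 : (fun x => cl f u x * cl f u x * f x) =ᵐ[volume] 0 :=
    (integral_eq_zero_iff_of_nonneg hnn (hf.integrable_mul hPB)).mp h.symm
  obtain ⟨z, r, δ, hr, hδ, hball⟩ := hf.exists_ball
  have hcont : Continuous (cl f u) := by
    unfold cl; fun_prop
  have h2 : ∀ x ∈ Metric.ball z r, cl f u x = 0 := by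
    by_contra hcon
    push Not at hcon
    obtain ⟨x, hx, hxne⟩ := hcon
    have hopen : IsOpen (Metric.ball z r ∩ {x | cl f u x ≠ 0}) :=
      Metric.isOpen_ball.inter (isOpen_ne_fun hcont continuous_const)
    have hpos : 0 < volume (Metric.ball z r ∩ {x | cl f u x ≠ 0}) :=
      hopen.measure_pos _ ⟨x, hx, hxne⟩
    have hnull : volume (Metric.ball z r ∩ {x | cl f u x ≠ 0}) = 0 := by
      refine measure_mono_null ?_ (ae_iff.mp h1)
      intro y hy
      simp only [mem_ofPred_eq, Pi.zero_apply]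
      have h3 : 0 < f y := lt_of_lt_of_le hδ (hball y hy.1)
      have h4 : cl f u y ≠ 0 := hy.2
      exact mul_ne_zero (mul_self_ne_zero.mpr h4) h3.ne'
    exact hpos.ne' hnull
  -- two points
  have h3 := h2 z (Metric.mem_ball_self hr)
  have hun : 0 < ‖u‖ := norm_pos_iff.mpr hu
  have h4 := h2 (z + (r / (2 * ‖u‖)) • u) (by
    rw [mem_ball_iff_norm, add_sub_cancel_left, norm_smul, Real.norm_eq_abs,
      abs_of_pos (by positivity)]
    have : r / (2 * ‖u‖) * ‖u‖ = r / 2 := by field_simp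
    rw [this]; linarith)
  have h5 : cl f u (z + (r / (2 * ‖u‖)) • u) = cl f u z + (r / (2 * ‖u‖)) * ∑ i, u i * u i := by
    unfold cl
    rw [Finset.mul_sum, ← Finset.sum_add_distrib]
    refine Finset.sum_congr rfl fun i _ => ?_
    simp only [Pi.add_apply, Pi.smul_apply, smul_eq_mul]; ring
  rw [h3, h4] at h5
  have h6 : 0 < ∑ i, u i * u i := by
    obtain ⟨i, hi⟩ := Function.ne_iff.mp hu
    apply Finset.sum_pos' (fun j _ => mul_self_nonneg _)
    exact ⟨i, Finset.mem_univ i, by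
      have : u i ≠ 0 := hi
      exact mul_self_pos.mpr this⟩
  have h7 : 0 < r / (2 * ‖u‖) * ∑ i, u i * u i := by positivity
  linarith

theorem LCD.densCov_posDef {f : (Fin m → ℝ) → ℝ} (hf : LCD f) : (densCov f).PosDef := by
  refine Matrix.PosDef.of_dotProduct_mulVec_pos (densCov_symm f) ?_
  intro x hx
  have := hf.qf_densCov_pos hx
  simpa [qf] using this

theorem LCD.densCov_det_pos {f : (Fin m → ℝ) → ℝ} (hf : LCD f) : 0 < (densCov f).det :=
  hf.densCov_posDef.det_pos

/-! ### bound for `G` in normal form -/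

theorem qf_parallelogram {G : Matrix (Fin m) (Fin m) ℝ} (hG : G.IsHermitian) (u v : Fin m → ℝ) :
    (qf G u + qf G v) / 4 - qf G ((1 / 2 : ℝ) • u + (1 / 2 : ℝ) • v) / 2 = qf G (u - v) / 8 := by
  have h1 : qf G (u - v) = qf G u - 2 * (u ⬝ᵥ G.mulVec v) + qf G v := by
    have h2 := qf_add hG u ((-1 : ℝ) • v)
    rw [qf_smul, mulVec_smul, dotProduct_smul] at h2
    have h3 : u + (-1 : ℝ) • v = u - v := by rw [neg_one_smul, sub_eq_add_neg]
    rw [h3] at h2
    rw [h2, smul_eq_mul]; ring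
  rw [h1, qf_add hG, qf_smul, qf_smul, mulVec_smul, dotProduct_smul, smul_dotProduct]
  simp only [smul_eq_mul]
  ring

/-- the midpoint inequality of a state -/
theorem SLC.midpoint {f : (Fin m → ℝ) → ℝ} {G : Matrix (Fin m) (Fin m) ℝ} (hf : SLC f G)
    (u v : Fin m → ℝ) :
    Real.sqrt (f u) * Real.sqrt (f v) * Real.exp (qf G (u - v) / 8) ≤
      f ((1 / 2 : ℝ) • u + (1 / 2 : ℝ) • v) := by
  have h1 := hf.slc u v (1 / 2) (1 / 2) (by norm_num) (by norm_num) (by norm_num)
  simp only at h1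
  rw [← Real.sqrt_eq_rpow, ← Real.sqrt_eq_rpow, Real.sqrt_mul (hf.nonneg u),
    Real.sqrt_mul (hf.nonneg v), Real.sqrt_eq_rpow (Real.exp _), Real.sqrt_eq_rpow (Real.exp _),
    ← Real.exp_mul, ← Real.exp_mul] at h1
  have h2 := qf_parallelogram hf.psd.isHermitian u v
  set w := (1 / 2 : ℝ) • u + (1 / 2 : ℝ) • v with hw
  have h3 : Real.exp (qf G (u - v) / 8) =
      Real.exp (qf G u / 2 * (1 / 2)) * Real.exp (qf G v / 2 * (1 / 2)) *
        Real.exp (-(qf G w / 2)) := by
    rw [← Real.exp_add, ← Real.exp_add]; congr 1; linarith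
  rw [h3]
  calc Real.sqrt (f u) * Real.sqrt (f v) * (Real.exp (qf G u / 2 * (1 / 2)) *
        Real.exp (qf G v / 2 * (1 / 2)) * Real.exp (-(qf G w / 2)))
      = (Real.sqrt (f u) * Real.exp (qf G u / 2 * (1 / 2)) *
        (Real.sqrt (f v) * Real.exp (qf G v / 2 * (1 / 2)))) * Real.exp (-(qf G w / 2)) := by ring
    _ ≤ (f w * Real.exp (qf G w / 2)) * Real.exp (-(qf G w / 2)) := by
        gcongr
    _ = f w := by rw [mul_assoc, ← Real.exp_add]; simp

/-- bound for the entries of `G` in normal form -/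
noncomputable def Gup (m : ℕ) : ℝ := 32 * ((m : ℝ) + 1) ^ 2 * |Real.log (Cup m / kap m)|

theorem Gup_nonneg : 0 ≤ Gup m := by unfold Gup; positivity

theorem diag_le_Gup {g : (Fin m → ℝ) → ℝ} {G : Matrix (Fin m) (Fin m) ℝ} (hn : NF g)
    (hg : SLC g G) (i : Fin m) : G i i ≤ Gup m := by
  set c : Fin m → ℝ := fun _ => 1 / (2 * ((m : ℝ) + 1)) with hc
  set s : ℝ := 1 / (2 * ((m : ℝ) + 1)) with hs
  have hs0 : 0 < s := by positivity
  have hsum : ∑ _j : Fin m, (1 / (2 * ((m : ℝ) + 1))) = (m : ℝ) / (2 * ((m : ℝ) + 1)) := by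
    rw [Finset.sum_const, Finset.card_univ, Fintype.card_fin, nsmul_eq_mul]; ring
  have hcS : c ∈ oSimplex m := by
    refine ⟨fun j => by positivity, ?_⟩
    rw [hc]; simp only
    rw [hsum, div_lt_one (by positivity)]; linarith
  have huS : c + Pi.single i s ∈ oSimplex m := by
    refine ⟨fun j => ?_, ?_⟩
    · by_cases h : j = i
      · subst h; simp only [Pi.add_apply, Pi.single_eq_same]; positivity
      · simp only [Pi.add_apply, Pi.single_eq_of_ne h, add_zero]; positivity
    · have h1 : ∑ j, (c + (Pi.single i s : Fin m → ℝ)) j = (∑ j, c j) + s := by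
        simp only [Pi.add_apply, Finset.sum_add_distrib]
        congr 1
        rw [Finset.sum_pi_single']; simp
      rw [h1, hc]; simp only
      rw [hsum, hs, ← add_div, div_lt_one (by positivity)]; linarith
  have hmid := hg.midpoint (c + Pi.single i s) c
  have hsub : (c + Pi.single i s) - c = s • Pi.single i (1 : ℝ) := by
    rw [add_sub_cancel_left]; ext j; by_cases h : j = i
    · subst h; simp
    · simp [Pi.single_eq_of_ne h]
  rw [hsub, qf_smul] at hmid
  have hq : qf G (Pi.single i (1 : ℝ)) = G i i := by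
    simp [qf]
  rw [hq] at hmid
  have h1 : kap m ≤ Real.sqrt (g (c + Pi.single i s)) * Real.sqrt (g c) := by
    have h2 : Real.sqrt (kap m) * Real.sqrt (kap m) = kap m := Real.mul_self_sqrt kap_pos.le
    rw [← h2]
    apply mul_le_mul (Real.sqrt_le_sqrt (hn.lower _ huS)) (Real.sqrt_le_sqrt (hn.lower _ hcS))
      (Real.sqrt_nonneg _) (Real.sqrt_nonneg _)
  have h2 : g ((1 / 2 : ℝ) • (c + Pi.single i s) + (1 / 2 : ℝ) • c) ≤ Cup m := by
    refine (hn.upper _).trans ?_
    have h3 : Real.exp (-(1 / 6) * ‖(1 / 2 : ℝ) • (c + Pi.single i s) + (1 / 2 : ℝ) • c‖) ≤ 1 := by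
      rw [Real.exp_le_one_iff]
      have := norm_nonneg ((1 / 2 : ℝ) • (c + Pi.single i s) + (1 / 2 : ℝ) • c)
      linarith
    have := Cup_pos (m := m)
    nlinarith
  have hk := kap_pos (m := m)
  have hC := Cup_pos (m := m)
  have h3 : kap m * Real.exp (s ^ 2 * G i i / 8) ≤ Cup m :=
    ((mul_le_mul_of_nonneg_right h1 (Real.exp_pos _).le).trans hmid).trans h2
  have h4 : Real.exp (s ^ 2 * G i i / 8) ≤ Cup m / kap m := by
    rw [le_div_iff₀ hk]; linarith
  have h5 : s ^ 2 * G i i / 8 ≤ Real.log (Cup m / kap m) := by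
    rw [Real.le_log_iff_exp_le (by positivity)]; exact h4
  have h6 : s ^ 2 * G i i / 8 ≤ |Real.log (Cup m / kap m)| := h5.trans (le_abs_self _)
  unfold Gup
  have h7 : G i i = (32 * ((m : ℝ) + 1) ^ 2) * (s ^ 2 * G i i / 8) := by
    have h8 : 32 * ((m : ℝ) + 1) ^ 2 * s ^ 2 = 8 := by
      rw [hs]; field_simp; norm_num
    linear_combination (-(G i i) / 8) * h8
  rw [h7]
  gcongr

theorem abs_le_Gup {g : (Fin m → ℝ) → ℝ} {G : Matrix (Fin m) (Fin m) ℝ} (hn : NF g)
    (hg : SLC g G) (i j : Fin m) : |G i j| ≤ Gup m := by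
  have hi := diag_le_Gup hn hg i
  have hj := diag_le_Gup hn hg j
  have hsymm : G j i = G i j := by
    have := hg.psd.isHermitian.apply i j
    simpa using this
  have e1 : qf G (Pi.single i (1 : ℝ) + Pi.single j (1 : ℝ)) = G i i + 2 * G i j + G j j := by
    rw [qf_add hg.psd.isHermitian]; simp [qf]
  have e2 : qf G (Pi.single i (1 : ℝ) + (-1 : ℝ) • Pi.single j (1 : ℝ)) =
      G i i - 2 * G i j + G j j := by
    rw [qf_add hg.psd.isHermitian, qf_smul, mulVec_smul, dotProduct_smul]; simp [qf]; ring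
  have n1 := qf_nonneg hg.psd (Pi.single i (1 : ℝ) + Pi.single j (1 : ℝ))
  have n2 := qf_nonneg hg.psd (Pi.single i (1 : ℝ) + (-1 : ℝ) • Pi.single j (1 : ℝ))
  rw [e1] at n1
  rw [e2] at n2
  rw [abs_le]
  constructor <;> linarith

/-! ### closedness and selection for states -/

theorem posSemidef_of_tendsto {G : ℕ → Matrix (Fin m) (Fin m) ℝ} {H : Matrix (Fin m) (Fin m) ℝ}
    (hG : ∀ k, (G k).PosSemidef) (hlim : ∀ i j, Tendsto (fun k => G k i j) atTop (𝓝 (H i j))) :
    H.PosSemidef := by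
  refine Matrix.PosSemidef.of_dotProduct_mulVec_nonneg ?_ ?_
  · ext i j
    rw [conjTranspose_apply, star_trivial]
    have h1 := hlim i j
    have h2 := hlim j i
    have h3 : (fun k => G k j i) = fun k => G k i j := by
      funext k
      have := (hG k).isHermitian.apply i j
      simpa using this
    rw [h3] at h2
    exact tendsto_nhds_unique h2 h1
  · intro x
    have h1 : Tendsto (fun k => star x ⬝ᵥ (G k).mulVec x) atTop (𝓝 (star x ⬝ᵥ H.mulVec x)) := by
      simp only [dotProduct, mulVec]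
      refine tendsto_finsetSum _ fun i _ => ?_
      refine Tendsto.const_mul _ ?_
      refine tendsto_finsetSum _ fun j _ => ?_
      exact (hlim i j).mul_const _
    exact ge_of_tendsto h1 (Eventually.of_forall fun k => (hG k).dotProduct_mulVec_nonneg x)

theorem tendsto_qf {G : ℕ → Matrix (Fin m) (Fin m) ℝ} {H : Matrix (Fin m) (Fin m) ℝ}
    (hlim : ∀ i j, Tendsto (fun k => G k i j) atTop (𝓝 (H i j))) (x : Fin m → ℝ) :
    Tendsto (fun k => qf (G k) x) atTop (𝓝 (qf H x)) := by
  unfold qf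
  simp only [dotProduct, mulVec]
  refine tendsto_finsetSum _ fun i _ => ?_
  refine Tendsto.const_mul _ ?_
  refine tendsto_finsetSum _ fun j _ => ?_
  exact (hlim i j).mul_const _

/-- bounded sequences of matrices have convergent subsequences -/
theorem exists_subseq_matrix (G : ℕ → Matrix (Fin m) (Fin m) ℝ) {C : ℝ}
    (hG : ∀ k i j, |G k i j| ≤ C) :
    ∃ φ : ℕ → ℕ, StrictMono φ ∧ ∃ H : Matrix (Fin m) (Fin m) ℝ,
      ∀ i j, Tendsto (fun k => G (φ k) i j) atTop (𝓝 (H i j)) := by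
  have hcomp : IsCompact (Set.univ.pi (fun _ : Fin m => Set.univ.pi
      (fun _ : Fin m => Icc (-C) C))) :=
    isCompact_univ_pi (fun _ => isCompact_univ_pi (fun _ => isCompact_Icc))
  obtain ⟨H, _, φ, hφ, hlim⟩ := hcomp.tendsto_subseq (x := fun k => (fun i j => G k i j))
    (fun k i _ j _ => ⟨(abs_le.mp (hG k i j)).1, (abs_le.mp (hG k i j)).2⟩)
  refine ⟨φ, hφ, Matrix.of H, fun i j => ?_⟩
  exact (tendsto_pi_nhds.mp ((tendsto_pi_nhds.mp hlim) i)) j

/-- **Selection theorem for states.** -/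
theorem SLC.selection (g : ℕ → (Fin m → ℝ) → ℝ) (G : ℕ → Matrix (Fin m) (Fin m) ℝ)
    (hn : ∀ k, NF (g k)) (hG : ∀ k, SLC (g k) (G k)) :
    ∃ φ : ℕ → ℕ, StrictMono φ ∧ ∃ (f : (Fin m → ℝ) → ℝ) (H : Matrix (Fin m) (Fin m) ℝ),
      NF f ∧ SLC f H ∧ (∀ i j, Tendsto (fun k => G (φ k) i j) atTop (𝓝 (H i j))) ∧
      (∀ᵐ x, Tendsto (fun k => g (φ k) x) atTop (𝓝 (f x))) := by
  obtain ⟨φ1, hφ1, H, hH⟩ := exists_subseq_matrix G (C := Gup m)
    (fun k i j => abs_le_Gup (hn k) (hG k) i j)
  obtain ⟨φ2, hφ2, U, f, hNF, hUo, hUc, hWU, hfU, hfU', hoff, hae⟩ :=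
    NF.selection (fun k => g (φ1 k)) (fun k => hn _)
  have hlim : ∀ i j, Tendsto (fun k => G (φ1 (φ2 k)) i j) atTop (𝓝 (H i j)) := fun i j =>
    (hH i j).comp hφ2.tendsto_atTop
  refine ⟨φ1 ∘ φ2, hφ1.comp hφ2, f, H, hNF, ⟨hNF.toLCD, ?_, ?_⟩, hlim, hae⟩
  · exact posSemidef_of_tendsto (fun k => (hG (φ1 (φ2 k))).psd) hlim
  · have h0 : ∀ x, 0 ≤ f x * Real.exp (qf H x / 2) :=
      fun x => mul_nonneg (hNF.nonneg x) (Real.exp_pos _).le
    refine LogC.of_tendsto (l := atTop)
      (F := fun k x => g (φ1 (φ2 k)) x * Real.exp (qf (G (φ1 (φ2 k))) x / 2))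
      (Eventually.of_forall fun k => (hG _).slc) h0 ?_
    intro x y hx hy s t hs ht hst
    have hpos : ∀ z, 0 < f z * Real.exp (qf H z / 2) → z ∈ U := by
      intro z hz
      by_contra h
      rw [hfU' z h, zero_mul] at hz
      exact lt_irrefl _ hz
    have hconv : ∀ z ∈ U, Tendsto (fun k => g (φ1 (φ2 k)) z *
        Real.exp (qf (G (φ1 (φ2 k))) z / 2)) atTop (𝓝 (f z * Real.exp (qf H z / 2))) := by
      intro z hz
      refine (hfU z hz).2.mul ?_
      exact (Real.continuous_exp.tendsto _).comp ((tendsto_qf hlim z).div_const 2)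
    exact ⟨hconv x (hpos x hx), hconv y (hpos y hy),
      hconv _ (hUc (hpos x hx) (hpos y hy) hs.le ht.le hst)⟩

end Crest.Agent.R253.Cpt435
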