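import Mathlib

/-!
# R253 / T6 / B10: global inverse of a strongly monotone `C^k` map (helper626)

`E` a finite dimensional real inner product space, `F : E → E` with `c |w|² ≤ ⟪DF(x) w, w⟫`, `c > 0`.
Then `F` is a homeomorphism `hom`, its inverse is `C^k`, `D(F⁻¹)(t) = (DF(F⁻¹ t))⁻¹`,
the inverse is `1/c`-Lipschitz; symmetry and two sided bounds pass to the inverse derivative.
-/

set_option autoImplicit false

open Topology Filter Set
open scoped RealInnerProductSpace ContDiff NNReal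

noncomputable section

namespace Crest.Agent.R253.Diffeo626

variable {E : Type*} [NormedAddCommGroup E] [InnerProductSpace ℝ E] [FiniteDimensional ℝ E]

/-! ### linear part -/

omit [FiniteDimensional ℝ E] in
lemma inj_of_lower {A : E →L[ℝ] E} {c : ℝ} (hc : 0 < c) (h : ∀ w, c * ‖w‖ ^ 2 ≤ ⟪A w, w⟫) :
    Function.Injective (A : E →ₗ[ℝ] E) := by
  rw [← LinearMap.ker_eq_bot, LinearMap.ker_eq_bot']
  intro w hw
  have h1 := h w
  have hw' : A w = 0 := hw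
  rw [hw', inner_zero_left] at h1
  have h2 : ‖w‖ ^ 2 ≤ 0 := by
    by_contra h3
    push Not at h3
    have := mul_pos hc h3
    linarith
  have h3 : ‖w‖ = 0 := by
    have := sq_nonneg ‖w‖
    have h4 : ‖w‖ ^ 2 = 0 := le_antisymm h2 this
    simpa using h4
  exact norm_eq_zero.mp h3

/-- a coercive endomorphism as a continuous linear equivalence -/
def eqv (A : E →L[ℝ] E) {c : ℝ} (hc : 0 < c) (h : ∀ w, c * ‖w‖ ^ 2 ≤ ⟪A w, w⟫) : E ≃L[ℝ] E :=
  (LinearEquiv.ofInjectiveEndo (A : E →ₗ[ℝ] E) (inj_of_lower hc h)).toContinuousLinearEquiv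

@[simp] lemma eqv_apply (A : E →L[ℝ] E) {c : ℝ} (hc : 0 < c)
    (h : ∀ w, c * ‖w‖ ^ 2 ≤ ⟪A w, w⟫) (w : E) : eqv A hc h w = A w := rfl

@[simp] lemma coe_eqv (A : E →L[ℝ] E) {c : ℝ} (hc : 0 < c)
    (h : ∀ w, c * ‖w‖ ^ 2 ≤ ⟪A w, w⟫) : (eqv A hc h : E →L[ℝ] E) = A := by
  ext w; rfl

lemma eqv_symm_upper (A : E →L[ℝ] E) {c : ℝ} (hc : 0 < c)
    (h : ∀ w, c * ‖w‖ ^ 2 ≤ ⟪A w, w⟫) (w : E) :
    ⟪(eqv A hc h).symm w, w⟫ ≤ c⁻¹ * ‖w‖ ^ 2 := by
  obtain ⟨u, rfl⟩ := (eqv A hc h).surjective w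
  rw [ContinuousLinearEquiv.symm_apply_apply, eqv_apply]
  have h1 := h u
  have h2 : ⟪A u, u⟫ ≤ ‖A u‖ * ‖u‖ := real_inner_le_norm _ _
  have h3 : c * ‖u‖ ≤ ‖A u‖ := by
    rcases (norm_nonneg u).eq_or_lt with h0 | h0
    · rw [← h0]; simp
    · have : c * ‖u‖ * ‖u‖ ≤ ‖A u‖ * ‖u‖ := by nlinarith
      exact le_of_mul_le_mul_right this h0
  rw [real_inner_comm]
  have h4 : ‖u‖ ≤ c⁻¹ * ‖A u‖ := by
    rw [inv_mul_eq_div, le_div_iff₀ hc]; linarith
  calc ⟪A u, u⟫ ≤ ‖A u‖ * ‖u‖ := h2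
    _ ≤ ‖A u‖ * (c⁻¹ * ‖A u‖) := by gcongr
    _ = c⁻¹ * ‖A u‖ ^ 2 := by ring

lemma norm_eqv_symm_le (A : E →L[ℝ] E) {c : ℝ} (hc : 0 < c)
    (h : ∀ w, c * ‖w‖ ^ 2 ≤ ⟪A w, w⟫) (w : E) :
    ‖(eqv A hc h).symm w‖ ≤ c⁻¹ * ‖w‖ := by
  obtain ⟨u, rfl⟩ := (eqv A hc h).surjective w
  rw [ContinuousLinearEquiv.symm_apply_apply, eqv_apply]
  have h1 := h u
  have h2 : ⟪A u, u⟫ ≤ ‖A u‖ * ‖u‖ := real_inner_le_norm _ _
  have h3 : c * ‖u‖ ≤ ‖A u‖ := by
    rcases (norm_nonneg u).eq_or_lt with h0 | h0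
    · rw [← h0]; simp
    · have : c * ‖u‖ * ‖u‖ ≤ ‖A u‖ * ‖u‖ := by nlinarith
      exact le_of_mul_le_mul_right this h0
  rw [inv_mul_eq_div, le_div_iff₀ hc]
  linarith

lemma eqv_symm_symm' (A : E →L[ℝ] E) {c : ℝ} (hc : 0 < c)
    (h : ∀ w, c * ‖w‖ ^ 2 ≤ ⟪A w, w⟫) (hs : ∀ v w, ⟪A v, w⟫ = ⟪v, A w⟫) (v w : E) :
    ⟪(eqv A hc h).symm v, w⟫ = ⟪v, (eqv A hc h).symm w⟫ := by
  obtain ⟨v, rfl⟩ := (eqv A hc h).surjective v
  obtain ⟨w, rfl⟩ := (eqv A hc h).surjective w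
  rw [ContinuousLinearEquiv.symm_apply_apply, ContinuousLinearEquiv.symm_apply_apply,
    eqv_apply, eqv_apply]
  exact (hs v w).symm

lemma eqv_symm_lower (A : E →L[ℝ] E) {c hi : ℝ} (hc : 0 < c) (hhi : 0 < hi)
    (h : ∀ w, c * ‖w‖ ^ 2 ≤ ⟪A w, w⟫) (hs : ∀ v w, ⟪A v, w⟫ = ⟪v, A w⟫)
    (hu : ∀ w, ⟪A w, w⟫ ≤ hi * ‖w‖ ^ 2) (w : E) :
    hi⁻¹ * ‖w‖ ^ 2 ≤ ⟪(eqv A hc h).symm w, w⟫ := by
  obtain ⟨u, rfl⟩ := (eqv A hc h).surjective w
  rw [ContinuousLinearEquiv.symm_apply_apply, eqv_apply]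
  -- test `z = u - hi⁻¹ A u`
  have h1 : 0 ≤ ⟪A (u - hi⁻¹ • A u), u - hi⁻¹ • A u⟫ :=
    le_trans (by positivity) (h _)
  have h2 : ⟪A (u - hi⁻¹ • A u), u - hi⁻¹ • A u⟫
      = ⟪u, A u⟫ - 2 * hi⁻¹ * ‖A u‖ ^ 2 + hi⁻¹ ^ 2 * ⟪A (A u), A u⟫ := by
    rw [map_sub, map_smul, inner_sub_left, inner_sub_right, inner_sub_right, inner_smul_left,
      inner_smul_left, inner_smul_right, inner_smul_right, hs (A u) u, hs u u]
    simp only [real_inner_self_eq_norm_sq, RCLike.conj_to_real]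
    ring
  have h3 := hu (A u)
  have h4 : hi⁻¹ ^ 2 * ⟪A (A u), A u⟫ ≤ hi⁻¹ ^ 2 * (hi * ‖A u‖ ^ 2) := by gcongr
  have h5 : hi⁻¹ ^ 2 * (hi * ‖A u‖ ^ 2) = hi⁻¹ * ‖A u‖ ^ 2 := by
    field_simp
  linarith [h1, h2, h4, h5]

/-! ### monotone maps -/

/-- strongly monotone -/
def SMon (c : ℝ) (F : E → E) : Prop := ∀ x y, c * ‖x - y‖ ^ 2 ≤ ⟪F x - F y, x - y⟫

omit [FiniteDimensional ℝ E] in
lemma SMon.anti {c : ℝ} {F : E → E} (h : SMon c F) (x y : E) :
    c * ‖x - y‖ ≤ ‖F x - F y‖ := by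
  rcases (norm_nonneg (x - y)).eq_or_lt with h0 | h0
  · rw [← h0]; simp
  · have h1 := h x y
    have h2 : ⟪F x - F y, x - y⟫ ≤ ‖F x - F y‖ * ‖x - y‖ := real_inner_le_norm _ _
    have : c * ‖x - y‖ * ‖x - y‖ ≤ ‖F x - F y‖ * ‖x - y‖ := by nlinarith
    exact le_of_mul_le_mul_right this h0

omit [FiniteDimensional ℝ E] in
lemma SMon.antilipschitz {c : ℝ} (hc : 0 < c) {F : E → E} (h : SMon c F) :
    AntilipschitzWith (Real.toNNReal c⁻¹) F := by
  refine AntilipschitzWith.of_le_mul_dist fun x y => ?_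
  rw [dist_eq_norm, dist_eq_norm, Real.coe_toNNReal _ (by positivity), inv_mul_eq_div,
    le_div_iff₀ hc]
  linarith [h.anti x y]

omit [FiniteDimensional ℝ E] in
/-- the derivative criterion -/
theorem smon_of_deriv {c : ℝ} {F : E → E} {F' : E → E →L[ℝ] E}
    (hF : ∀ x, HasFDerivAt F (F' x) x) (h : ∀ x w, c * ‖w‖ ^ 2 ≤ ⟪F' x w, w⟫) : SMon c F := by
  intro x y
  set w := x - y with hw
  have hd : ∀ t : ℝ, HasDerivAt (fun t : ℝ => ⟪F (y + t • w), w⟫ - t * (c * ‖w‖ ^ 2))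
      (⟪F' (y + t • w) w, w⟫ - c * ‖w‖ ^ 2) t := by
    intro t
    have h1 : HasDerivAt (fun t : ℝ => y + t • w) w t := by
      simpa using ((hasDerivAt_id t).smul_const w).const_add y
    have h2 : HasDerivAt (fun t : ℝ => F (y + t • w)) (F' (y + t • w) w) t :=
      (hF (y + t • w)).comp_hasDerivAt t h1
    have h3 : HasDerivAt (fun t : ℝ => ⟪F (y + t • w), w⟫) ⟪F' (y + t • w) w, w⟫ t := by
      have := h2.inner ℝ (hasDerivAt_const t w)
      simpa using this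
    have h4 : HasDerivAt (fun t : ℝ => t * (c * ‖w‖ ^ 2)) (c * ‖w‖ ^ 2) t := by
      simpa using (hasDerivAt_id t).mul_const (c * ‖w‖ ^ 2)
    exact h3.sub h4
  have hm : Monotone (fun t : ℝ => ⟪F (y + t • w), w⟫ - t * (c * ‖w‖ ^ 2)) := by
    refine monotone_of_deriv_nonneg (fun t => (hd t).differentiableAt) fun t => ?_
    rw [(hd t).deriv]
    linarith [h (y + t • w) w]
  have h01 := hm (zero_le_one (α := ℝ))
  simp only [zero_smul, add_zero, zero_mul, sub_zero, one_smul, one_mul] at h01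
  have hx : y + w = x := by rw [hw]; abel
  rw [hx] at h01
  rw [inner_sub_left]
  linarith

/-- bundled data: `F` is `C^k`, `k ≥ 1`, with `c |w|² ≤ ⟪DF(x) w, w⟫` -/
structure Dat (k : WithTop ℕ∞) (c : ℝ) (F : E → E) : Prop where
  hk : 1 ≤ k
  hc : 0 < c
  hF : ContDiff ℝ k F
  low : ∀ x w, c * ‖w‖ ^ 2 ≤ ⟪fderiv ℝ F x w, w⟫

namespace Dat

variable {k : WithTop ℕ∞} {c : ℝ} {F : E → E}

omit [FiniteDimensional ℝ E] in
lemma kne (d : Dat k c F) : k ≠ 0 := by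
  intro h
  have := d.hk
  rw [h] at this
  exact absurd this (by simp)

omit [FiniteDimensional ℝ E] in
lemma diff (d : Dat k c F) : Differentiable ℝ F := d.hF.differentiable d.kne

omit [FiniteDimensional ℝ E] in
lemma hd (d : Dat k c F) (x : E) : HasFDerivAt F (fderiv ℝ F x) x :=
  (d.diff x).hasFDerivAt

/-- `DF(x)` as an equivalence -/
def J (d : Dat k c F) (x : E) : E ≃L[ℝ] E := eqv (fderiv ℝ F x) d.hc (d.low x)

lemma coe_J (d : Dat k c F) (x : E) : (d.J x : E →L[ℝ] E) = fderiv ℝ F x := coe_eqv _ _ _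

lemma J_apply (d : Dat k c F) (x w : E) : d.J x w = fderiv ℝ F x w := rfl

lemma hdJ (d : Dat k c F) (x : E) : HasFDerivAt F (d.J x : E →L[ℝ] E) x := by
  rw [coe_J]; exact d.hd x

lemma strict (d : Dat k c F) (x : E) : HasStrictFDerivAt F (d.J x : E →L[ℝ] E) x :=
  (d.hF.contDiffAt).hasStrictFDerivAt' (d.hdJ x) d.kne

omit [FiniteDimensional ℝ E] in
lemma smon (d : Dat k c F) : SMon c F := smon_of_deriv d.hd d.low

omit [FiniteDimensional ℝ E] in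
lemma inj (d : Dat k c F) : Function.Injective F := (d.smon.antilipschitz d.hc).injective

lemma openMap (d : Dat k c F) : IsOpenMap F :=
  isOpenMap_of_hasStrictFDerivAt_equiv (f' := d.J) d.strict

lemma proper (d : Dat k c F) : IsProperMap F := by
  rw [isProperMap_iff_tendsto_cocompact]
  refine ⟨d.hF.continuous, ?_⟩
  have := (d.smon.antilipschitz d.hc).tendsto_cobounded
  rwa [Metric.cobounded_eq_cocompact, ] at this

lemma surj (d : Dat k c F) : Function.Surjective F := by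
  rw [← Set.range_eq_univ]
  exact IsClopen.eq_univ ⟨d.proper.isClosedMap.isClosed_range, d.openMap.isOpen_range⟩
    (range_nonempty F)

lemma bij (d : Dat k c F) : Function.Bijective F := ⟨d.inj, d.surj⟩

/-- `F` as a homeomorphism -/
def hom (d : Dat k c F) : E ≃ₜ E :=
  (Equiv.ofBijective F d.bij).toHomeomorphOfContinuousOpen d.hF.continuous d.openMap

@[simp] lemma hom_apply (d : Dat k c F) (x : E) : d.hom x = F x := rfl

lemma coe_hom (d : Dat k c F) : (d.hom : E → E) = F := rfl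

/-- the inverse map -/
def G (d : Dat k c F) : E → E := d.hom.symm

lemma F_G (d : Dat k c F) (t : E) : F (d.G t) = t := d.hom.apply_symm_apply t

@[simp] lemma G_F (d : Dat k c F) (x : E) : d.G (F x) = x := d.hom.symm_apply_apply x

lemma G_cont (d : Dat k c F) : Continuous d.G := d.hom.symm.continuous

lemma G_bij (d : Dat k c F) : Function.Bijective d.G := d.hom.symm.bijective

lemma G_injective (d : Dat k c F) : Function.Injective d.G := d.G_bij.1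

theorem G_contDiff (d : Dat k c F) : ContDiff ℝ k d.G :=
  d.hom.contDiff_symm (f₀' := d.J) (fun a => d.hdJ a) (by rw [coe_hom]; exact d.hF)

theorem G_hasFDerivAt (d : Dat k c F) (t : E) :
    HasFDerivAt d.G ((d.J (d.G t)).symm : E →L[ℝ] E) t := by
  have h1 : HasFDerivAt F (d.J (d.G t) : E →L[ℝ] E) (d.G t) := d.hdJ _
  exact HasFDerivAt.of_local_left_inverse d.G_cont.continuousAt h1
    (Filter.Eventually.of_forall fun y => d.F_G y)

theorem G_fderiv (d : Dat k c F) (t : E) :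
    fderiv ℝ d.G t = ((d.J (d.G t)).symm : E →L[ℝ] E) := (d.G_hasFDerivAt t).fderiv

/-- `DF(G t) (DG(t) w) = w` -/
theorem F'_G' (d : Dat k c F) (t w : E) :
    fderiv ℝ F (d.G t) (fderiv ℝ d.G t w) = w := by
  rw [d.G_fderiv]
  exact (d.J (d.G t)).apply_symm_apply w

/-- `DG(t) (DF(G t) w) = w` -/
theorem G'_F' (d : Dat k c F) (t w : E) :
    fderiv ℝ d.G t (fderiv ℝ F (d.G t) w) = w := by
  rw [d.G_fderiv]
  exact (d.J (d.G t)).symm_apply_apply w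

theorem G_dist (d : Dat k c F) (s t : E) : c * ‖d.G s - d.G t‖ ≤ ‖s - t‖ := by
  have := d.smon.anti (d.G s) (d.G t)
  rwa [d.F_G, d.F_G] at this

theorem G_lipschitz (d : Dat k c F) : LipschitzWith (Real.toNNReal c⁻¹) d.G := by
  refine LipschitzWith.of_dist_le_mul fun x y => ?_
  rw [dist_eq_norm, dist_eq_norm, Real.coe_toNNReal _ (inv_nonneg.mpr d.hc.le), inv_mul_eq_div,
    le_div_iff₀ d.hc]
  linarith [d.G_dist x y]

/-- linear growth of the inverse -/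
theorem G_growth (d : Dat k c F) (t : E) : ‖d.G t‖ ≤ ‖d.G 0‖ + c⁻¹ * ‖t‖ := by
  have h := d.G_dist t 0
  rw [sub_zero] at h
  have h2 : ‖d.G t - d.G 0‖ ≤ c⁻¹ * ‖t‖ := by
    rw [inv_mul_eq_div, le_div_iff₀ d.hc]; linarith
  have h3 := norm_sub_norm_le (d.G t) (d.G 0)
  linarith

theorem G'_norm (d : Dat k c F) (t w : E) : ‖fderiv ℝ d.G t w‖ ≤ c⁻¹ * ‖w‖ := by
  rw [d.G_fderiv]
  exact norm_eqv_symm_le _ d.hc (d.low (d.G t)) w

theorem G'_upper (d : Dat k c F) (t w : E) : ⟪fderiv ℝ d.G t w, w⟫ ≤ c⁻¹ * ‖w‖ ^ 2 := by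
  rw [d.G_fderiv]
  exact eqv_symm_upper _ d.hc (d.low (d.G t)) w

theorem G'_symm (d : Dat k c F) (hs : ∀ x v w, ⟪fderiv ℝ F x v, w⟫ = ⟪v, fderiv ℝ F x w⟫)
    (t v w : E) : ⟪fderiv ℝ d.G t v, w⟫ = ⟪v, fderiv ℝ d.G t w⟫ := by
  rw [d.G_fderiv]
  exact eqv_symm_symm' _ d.hc (d.low (d.G t)) (hs (d.G t)) v w

theorem G'_lower (d : Dat k c F) {hi : ℝ} (hhi : 0 < hi)
    (hs : ∀ x v w, ⟪fderiv ℝ F x v, w⟫ = ⟪v, fderiv ℝ F x w⟫)
    (hu : ∀ x w, ⟪fderiv ℝ F x w, w⟫ ≤ hi * ‖w‖ ^ 2) (t w : E) :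
    hi⁻¹ * ‖w‖ ^ 2 ≤ ⟪fderiv ℝ d.G t w, w⟫ := by
  rw [d.G_fderiv]
  exact eqv_symm_lower _ d.hc hhi (d.low (d.G t)) (hs (d.G t)) (hu (d.G t)) w

/-- positivity of the determinant -/
theorem det_pos (d : Dat k c F) (x : E) : 0 < (fderiv ℝ F x).det := by
  -- homotopy `(1 - s) id + s DF`
  have hne : ∀ s ∈ Set.Icc (0 : ℝ) 1,
      ((1 - s) • ContinuousLinearMap.id ℝ E + s • fderiv ℝ F x).det ≠ 0 := by
    intro s hs
    set A := (1 - s) • ContinuousLinearMap.id ℝ E + s • fderiv ℝ F x with hA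
    set c' := (1 - s) + s * c with hc'
    have hc0 : 0 < c' := by
      rcases hs.1.eq_or_lt with h0 | h0
      · rw [hc', ← h0]; norm_num
      · have := mul_pos h0 d.hc
        have := hs.2
        rw [hc']; linarith
    have hlow : ∀ w, c' * ‖w‖ ^ 2 ≤ ⟪A w, w⟫ := by
      intro w
      have h1 := d.low x w
      have h2 : ⟪A w, w⟫ = (1 - s) * ‖w‖ ^ 2 + s * ⟪fderiv ℝ F x w, w⟫ := by
        simp only [hA, add_apply, smul_apply,
          ContinuousLinearMap.id_apply, inner_add_left, inner_smul_left, RCLike.conj_to_real,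
          real_inner_self_eq_norm_sq]
      rw [h2, hc']
      have := mul_le_mul_of_nonneg_left h1 hs.1
      nlinarith
    have h3 := (eqv A hc0 hlow).toLinearEquiv.isUnit_det'
    have h4 : ((eqv A hc0 hlow).toLinearEquiv : E →ₗ[ℝ] E) = (A : E →ₗ[ℝ] E) := by
      ext w; rfl
    rw [h4] at h3
    exact h3.ne_zero
  have hcont : Continuous fun s : ℝ =>
      ((1 - s) • ContinuousLinearMap.id ℝ E + s • fderiv ℝ F x).det := by
    have h1 : Continuous fun A : E →L[ℝ] E => A.det := ContinuousLinearMap.continuous_det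
    exact h1.comp (by fun_prop)
  by_contra hneg
  push Not at hneg
  have h0 : (0 : ℝ) ∈ (fun s : ℝ =>
      ((1 - s) • ContinuousLinearMap.id ℝ E + s • fderiv ℝ F x).det) '' Set.Icc (0 : ℝ) 1 := by
    have hiv := intermediate_value_Icc' (zero_le_one (α := ℝ)) hcont.continuousOn
    apply hiv
    constructor
    · simpa using hneg
    · have : ((1 - (0 : ℝ)) • ContinuousLinearMap.id ℝ E + (0 : ℝ) • fderiv ℝ F x).det = 1 := by
        simp [ContinuousLinearMap.det]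
      rw [this]; exact zero_le_one
  obtain ⟨s, hs, h⟩ := h0
  exact hne s hs h

/-- `det DF(G t) * det DG(t) = 1` -/
theorem det_mul (d : Dat k c F) (t : E) :
    (fderiv ℝ F (d.G t)).det * (fderiv ℝ d.G t).det = 1 := by
  have h : (fderiv ℝ F (d.G t) : E →ₗ[ℝ] E) ∘ₗ (fderiv ℝ d.G t : E →ₗ[ℝ] E) = LinearMap.id := by
    ext w
    exact d.F'_G' t w
  have h2 := congrArg LinearMap.det h
  rw [LinearMap.det_comp, LinearMap.det_id] at h2
  exact h2

theorem det_G_pos (d : Dat k c F) (t : E) : 0 < (fderiv ℝ d.G t).det := by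
  have h1 := d.det_mul t
  have h2 := d.det_pos (d.G t)
  by_contra h3
  push Not at h3
  nlinarith

theorem log_det_G (d : Dat k c F) (t : E) :
    Real.log (fderiv ℝ d.G t).det = - Real.log (fderiv ℝ F (d.G t)).det := by
  have h1 := d.det_mul t
  have h2 := d.det_pos (d.G t)
  have h3 : (fderiv ℝ d.G t).det = ((fderiv ℝ F (d.G t)).det)⁻¹ :=
    eq_inv_of_mul_eq_one_right h1
  rw [h3, Real.log_inv]

end Dat

end Crest.Agent.R253.Diffeo626
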