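import Crest.Agent.R253.Dual_441
import Crest.Agent.R253.ChVar_56
import Crest.Agent.R253.Diffeo_626
import Crest.Agent.R253.BrPC_505

/-!
# R253, B10: binding of the t-side data with the existence theorem (helper441)

`G = (x + Dv)⁻¹` exists (`exists_isInv`), `f = (2π)^{-n/2} e^{-V_lam}` is a probability density,
`Push (Gi G) (Mi v G) f`, and `W = M V_lam'' M ≥ 0` for `lam * hi ≤ c`.
-/

set_option autoImplicit false

open MeasureTheory Real Set Filter Topology
open scoped ContDiff InnerProductSpace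

noncomputable section

namespace Crest.Agent.R253.Dual441

open Crest.Agent.R238.Gap Crest.Agent.R238.GapPoinc Crest.Agent.R238.GapPc
open Crest.Agent.R253.Meh74 Crest.Agent.R253.ChVar56

variable {n : ℕ}

lemma Bk.of_niceB {v : E n → ℝ} (hv : Crest.Agent.R253.Br.NiceB v) : Bk 2 v :=
  ⟨hv.smooth, fun k _ => hv.bdd k⟩

/-- `F = x + Dv(x)` -/
def Fg (v : E n → ℝ) (x : E n) : E n := x + ∑ i, pd i v x • (e i : E n)

lemma Fg_apply (v : E n → ℝ) (x : E n) (i : Fin n) : Fg v x i = x i + pd i v x := by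
  unfold Fg
  simp [Finset.sum_apply, Pi.single_apply]

section
variable {v : E n → ℝ} {G : E n → E n} {lo hi : ℝ}

lemma contDiff_Fg (hv : ContDiff ℝ ∞ v) : ContDiff ℝ ∞ (Fg v) :=
  contDiff_id.add (ContDiff.sum fun i _ => (contDiff_pdi hv i).smul contDiff_const)

lemma inner_eq (a b : E n) : ⟪a, b⟫_ℝ = ∑ i, a i * b i := by
  rw [PiLp.inner_apply]
  exact Finset.sum_congr rfl fun i _ => by simp [mul_comm]

lemma fderiv_Fg (hv : ContDiff ℝ ∞ v) (x w : E n) (i : Fin n) :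
    (fderiv ℝ (Fg v) x w) i = ∑ j, Crest.Agent.R238.gm v x i j * w j := by
  have hd : HasFDerivAt (Fg v) (fderiv ℝ (Fg v) x) x :=
    ((contDiff_Fg hv).differentiable (by simp) x).hasFDerivAt
  have h3 : HasFDerivAt (fun y => Fg v y i) ((EuclideanSpace.proj i : E n →L[ℝ] ℝ).comp
      (fderiv ℝ (Fg v) x)) x :=
    (EuclideanSpace.proj i : E n →L[ℝ] ℝ).hasFDerivAt.comp x hd
  have h4 : (fderiv ℝ (Fg v) x w) i = fderiv ℝ (fun y => Fg v y i) x w := by
    rw [h3.fderiv]; rfl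
  have h5 : (fun y => Fg v y i) = fun y : E n => y i + pd i v y := by
    funext y; exact Fg_apply v y i
  have hv2 : ContDiff ℝ 2 v := contDiff_infty.1 hv 2
  rw [h4, h5, fderiv_apply_eq_sum]
  refine Finset.sum_congr rfl fun j _ => ?_
  rw [Crest.Agent.R238.Gap.pd_add ((c1_coord i).diff x)
    (((contDiff_pdi hv i).differentiable (by simp)) x), pd_coord, gm_eq hv2, ← H_eq_pd hv2,
    ← H_eq_pd hv2, H_symm hv2]
  ring

lemma dat (hv : ContDiff ℝ ∞ v) (hlo : 0 < lo)
    (hell : ∀ x, Crest.Agent.R238.Ell lo hi (Crest.Agent.R238.gm v x)) :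
    Diffeo626.Dat ∞ lo (Fg v) where
  hk := by norm_num
  hc := hlo
  hF := contDiff_Fg hv
  low := fun x w => by
    have h := ((hell x).2 (fun i => w i)).1
    rw [inner_eq]
    have e1 : ‖w‖ ^ 2 = ∑ i, w i ^ 2 := by
      rw [EuclideanSpace.norm_sq_eq]
      exact Finset.sum_congr rfl fun i _ => by rw [Real.norm_eq_abs, sq_abs]
    have e2 : ∑ i, (fderiv ℝ (Fg v) x w) i * w i =
        ∑ i, ∑ j, Crest.Agent.R238.gm v x i j * w i * w j := by
      refine Finset.sum_congr rfl fun i _ => ?_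
      rw [fderiv_Fg hv, Finset.sum_mul]
      exact Finset.sum_congr rfl fun j _ => by ring
    rw [e1, e2]
    exact h

/-- existence of the inverse -/
theorem exists_isInv (hv : ContDiff ℝ ∞ v) (hlo : 0 < lo)
    (hell : ∀ x, Crest.Agent.R238.Ell lo hi (Crest.Agent.R238.gm v x)) :
    ∃ G : E n → E n, IsInv v G ∧ (∀ x, G (Fg v x) = x) ∧ (∀ t, Fg v (G t) = t) := by
  have d := dat hv hlo hell
  refine ⟨d.G, ⟨d.G_contDiff, fun t i => ?_⟩, d.G_F, d.F_G⟩
  rw [← Fg_apply, d.F_G]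

lemma IsInv.F_G (hG : IsInv v G) (t : E n) : Fg v (G t) = t := by
  ext i
  rw [Fg_apply, hG.eq]

lemma IsInv.G_F (hG : IsInv v G) (hv : ContDiff ℝ ∞ v) (hlo : 0 < lo)
    (hell : ∀ x, Crest.Agent.R238.Ell lo hi (Crest.Agent.R238.gm v x)) (x : E n) :
    G (Fg v x) = x := (dat hv hlo hell).inj (hG.F_G _)

/-- uniqueness of the inverse -/
theorem IsInv.unique {G' : E n → E n} (hG : IsInv v G) (hG' : IsInv v G')
    (hv : ContDiff ℝ ∞ v) (hlo : 0 < lo)
    (hell : ∀ x, Crest.Agent.R238.Ell lo hi (Crest.Agent.R238.gm v x)) : G = G' := by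
  funext t
  exact (dat hv hlo hell).inj ((hG.F_G t).trans (hG'.F_G t).symm)

lemma Mi_lower (hlo : 0 < lo) (hlohi : lo ≤ hi)
    (hell : ∀ x, Crest.Agent.R238.Ell lo hi (Crest.Agent.R238.gm v x)) (t : E n)
    (z : Fin n → ℝ) : 1 / hi * ∑ i, z i ^ 2 ≤ ∑ i, ∑ j, Mi v G i j t * z i * z j :=
  (((hell (G t)).inv hlo hlohi).2 z).1

lemma Mi_upper (hlo : 0 < lo) (hlohi : lo ≤ hi)
    (hell : ∀ x, Crest.Agent.R238.Ell lo hi (Crest.Agent.R238.gm v x)) (t : E n)
    (z : Fin n → ℝ) : ∑ i, ∑ j, Mi v G i j t * z i * z j ≤ 1 / lo * ∑ i, z i ^ 2 :=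
  (((hell (G t)).inv hlo hlohi).2 z).2

/-- the density `(2π)^{-n/2} e^{-V_lam}` -/
def den (P v : E n → ℝ) (lam : ℝ) (x : Fin n → ℝ) : ℝ :=
  (2 * π) ^ (-(n : ℝ) / 2) * rexp (-Vl P v lam (WithLp.toLp 2 x))

lemma den_pos (P v : E n → ℝ) (lam : ℝ) (x : Fin n → ℝ) : 0 < den P v lam x := by
  unfold den; positivity

lemma continuous_den {P : E n → ℝ} (hP : Continuous P) (hv : Continuous v) (lam : ℝ) :
    Continuous (den P v lam) := by
  unfold den Vl
  have h1 : Continuous fun x : Fin n → ℝ => (WithLp.toLp 2 x : E n) :=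
    PiLp.continuous_toLp 2 _
  exact continuous_const.mul (Real.continuous_exp.comp
    ((((((continuous_norm.comp h1).pow 2).div_const 2).add (hP.comp h1)).sub
      (continuous_const.mul (hv.comp h1))).neg))

lemma Mx_eq (t : E n) : Mx (Mi v G) t = (Crest.Agent.R238.gm v (G t))⁻¹ := by
  ext i j; rfl

/-- the change of variables identity -/
lemma ch_eq {P : E n → ℝ} {lam : ℝ} (hG : IsInv v G) (hlo : 0 < lo)
    (hell : ∀ x, Crest.Agent.R238.Ell lo hi (Crest.Agent.R238.gm v x))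
    (hma : Crest.Agent.R253.Br.MAb P lam 1 v) (t : E n) :
    den P v lam (Gp (Gi G) t) * (Mx (Mi v G) t).det = gd t := by
  have h1 := logdet_eq hG hma t
  have hpos := (hell (G t)).det_pos hlo
  have h2 : (WithLp.toLp 2 (Gp (Gi G) t) : E n) = G t := by
    ext i; rfl
  unfold den gd
  rw [h2, Mx_eq, Matrix.det_nonsing_inv, Ring.inverse_eq_inv', mul_assoc]
  congr 1
  have h3 : -(‖t‖ ^ 2 / 2) = -Real.log (Crest.Agent.R238.gm v (G t)).det
      - Vl P v lam (G t) := by linarith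
  rw [h3, Real.exp_sub, Real.exp_neg (Real.log _), Real.exp_log hpos, Real.exp_neg]
  field_simp

/-- total mass one -/
lemma int_den {P : E n → ℝ} {lam : ℝ} (hv : Bk 2 v) (hG : IsInv v G)
    (hlo : 0 < lo) (hell : ∀ x, Crest.Agent.R238.Ell lo hi (Crest.Agent.R238.gm v x))
    (hma : Crest.Agent.R253.Br.MAb P lam 1 v) : ∫ x, den P v lam x = 1 := by
  have hsurj : range (Gv (Gi G)) = univ := by
    rw [range_eq_univ]
    intro x
    exact ⟨Fg v x, by rw [Gv_Gi]; exact hG.G_F hv.sm hlo hell x⟩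
  have hinj : Function.Injective (Gv (Gi G)) := by
    intro s t h
    rw [Gv_Gi, Gv_Gi] at h
    rw [← hG.F_G s, ← hG.F_G t, h]
  have hdiff : ∀ i, Differentiable ℝ (Gi G i) := fun i =>
    (contDiff_Gi hG.sm i).differentiable (by simp)
  have h1 : ∫ x in range (Gv (Gi G)), den P v lam (WithLp.ofLp x) = ∫ t : E n, gd t := by
    rw [← Set.image_univ, integral_image_eq_integral_abs_det_fderiv_smul volume
      MeasurableSet.univ (f' := DG (Gi G))
      (fun x _ => (hasFDerivAt_Gv hdiff x).hasFDerivWithinAt) hinj.injOn, setIntegral_univ]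
    refine integral_congr_ae (ae_of_all _ fun t => ?_)
    simp only [smul_eq_mul]
    have hdet : (DG (Gi G) t).det = (Mx (Mi v G) t).det := det_DG (jac_inv hv.sm hG) t
    have hp : 0 < (Mx (Mi v G) t).det := by
      rw [Mx_eq, Matrix.det_nonsing_inv, Ring.inverse_eq_inv']
      exact inv_pos.2 ((hell (G t)).det_pos hlo)
    rw [hdet, Push.ofLp_Gv, abs_of_pos hp, ← ch_eq hG hlo hell hma t]
    ring
  rw [hsurj, setIntegral_univ, Push.integral_ofLp, integral_gd] at h1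
  exact h1

/-- **56's structure** -/
theorem push {P : E n → ℝ} {lam : ℝ} (hP : Continuous P) (hv : Bk 2 v) (hG : IsInv v G)
    (hlo : 0 < lo) (hlohi : lo ≤ hi)
    (hell : ∀ x, Crest.Agent.R238.Ell lo hi (Crest.Agent.R238.gm v x))
    (hma : Crest.Agent.R253.Br.MAb P lam 1 v) :
    Push (Gi G) (Mi v G) (den P v lam) where
  hd := hd hv hG hlo hell
  lo := ⟨1 / hi, by have := hlo.trans_le hlohi; positivity, fun x z =>
    Mi_lower hlo hlohi hell x z⟩
  f0 := fun x => (den_pos P v lam x).le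
  fm := (continuous_den hP hv.sm.continuous lam).measurable
  fi := int_den hv hG hlo hell hma
  ch := ch_eq hG hlo hell hma

/-! ### positivity of `W` -/

lemma pd_pd_Vl {P : E n → ℝ} (hP : ContDiff ℝ ∞ P) (hv : ContDiff ℝ ∞ v) (lam : ℝ) (x : E n)
    (k l : Fin n) : pd l (pd k (Vl P v lam)) x =
      (if k = l then 1 else 0) + Crest.Agent.R238.Hs P x k l
        - lam * Crest.Agent.R238.Hs v x k l := by
  have hP2 : ContDiff ℝ 2 P := contDiff_infty.1 hP 2
  have hv2 : ContDiff ℝ 2 v := contDiff_infty.1 hv 2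
  have h1 : pd k (Vl P v lam) = fun y => (y k + pd k P y) - lam * pd k v y := by
    funext y
    have hdP := (hP.differentiable (by simp)) y
    have hdv := (hv.differentiable (by simp)) y
    have h5 : HasFDerivAt (fun y : E n => ‖y‖ ^ 2) (2 • (innerSL ℝ y)) y :=
      (hasStrictFDerivAt_norm_sq y).hasFDerivAt
    have h6 : pd k (fun y : E n => ‖y‖ ^ 2) y = 2 * y k := pd_norm_sq k y
    have h7 : HasFDerivAt (Vl P v lam) ((1 / 2 : ℝ) • (fderiv ℝ (fun y : E n => ‖y‖ ^ 2) y)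
        + fderiv ℝ P y - lam • fderiv ℝ v y) y := by
      have h8 : HasFDerivAt (fun y : E n => ‖y‖ ^ 2) (fderiv ℝ (fun y : E n => ‖y‖ ^ 2) y) y :=
        h5.differentiableAt.hasFDerivAt
      have h9 := ((h8.const_mul (1 / 2 : ℝ)).add hdP.hasFDerivAt).sub
        (hdv.hasFDerivAt.const_mul lam)
      refine h9.congr_of_eventuallyEq (Eventually.of_forall fun z => ?_)
      simp only [Vl, Pi.add_apply, Pi.sub_apply]
      ring
    show fderiv ℝ (Vl P v lam) y (e k) = _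
    rw [h7.fderiv]
    simp only [_root_.sub_apply, _root_.add_apply, _root_.smul_apply, smul_eq_mul]
    show 1 / 2 * pd k (fun y : E n => ‖y‖ ^ 2) y + pd k P y - lam * pd k v y = _
    rw [h6]; ring
  rw [h1]
  have e1 : DifferentiableAt ℝ (fun y : E n => y k + pd k P y) x :=
    ((c1_coord k).diff x).add ((contDiff_pdi hP k).differentiable (by simp) x)
  have e2 : DifferentiableAt ℝ (fun y : E n => -lam * pd k v y) x :=
    ((contDiff_pdi hv k).differentiable (by simp) x).const_mul _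
  have e3 : (fun y : E n => (y k + pd k P y) - lam * pd k v y) =
      fun y => (y k + pd k P y) + (-lam * pd k v y) := by funext y; ring
  rw [e3, Crest.Agent.R238.Gap.pd_add e1 e2, Crest.Agent.R238.Gap.pd_add ((c1_coord k).diff x)
    ((contDiff_pdi hP k).differentiable (by simp) x), pd_coord]
  have e4 : pd l (fun y : E n => -lam * pd k v y) x = -lam * pd l (pd k v) x := by
    unfold pd
    have := (((contDiff_pdi hv k).differentiable (by simp) x).hasFDerivAt.const_mul (-lam)).fderiv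
    unfold pd at this
    rw [this]
    simp
  have e5 : ∀ (f : E n → ℝ), ContDiff ℝ 2 f → pd l (pd k f) x = Crest.Agent.R238.Hs f x k l := by
    intro f hf
    rw [← H_eq_pd hf, H_symm hf]
    rfl
  rw [e4, e5 P hP2, e5 v hv2]
  ring

/-- `D²V_lam ≥ 0` for `lam * hi ≤ c` -/
lemma hess_nonneg {P : E n → ℝ} {lam c C2 C3 M0 M1 R0 : ℝ}
    (hP : Crest.Agent.R253.Br.PCB P c C2 C3 M0 M1 R0) (hv : ContDiff ℝ ∞ v)
    (hell : ∀ x, Crest.Agent.R238.Ell lo hi (Crest.Agent.R238.gm v x)) (hlam : 0 ≤ lam)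
    (hl : lam * hi ≤ c) (x : E n) (z : Fin n → ℝ) :
    0 ≤ ∑ k, ∑ l, pd l (pd k (Vl P v lam)) x * z k * z l := by
  have h1 := hP.pc.lower 1 zero_le_one le_rfl x z
  have h2 := ((hell x).2 z).2
  have h3 : ∑ k, ∑ l, pd l (pd k (Vl P v lam)) x * z k * z l =
      (∑ i, z i ^ 2 + 1 * ∑ i, ∑ j, Crest.Agent.R238.Hs P x i j * z i * z j)
      - lam * (∑ i, ∑ j, Crest.Agent.R238.gm v x i j * z i * z j) + lam * ∑ i, z i ^ 2 := by
    have e1 : ∑ i, ∑ j, Crest.Agent.R238.gm v x i j * z i * z j =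
        ∑ i, z i ^ 2 + ∑ i, ∑ j, Crest.Agent.R238.Hs v x i j * z i * z j := by
      rw [← Finset.sum_add_distrib]
      refine Finset.sum_congr rfl fun i _ => ?_
      have : ∀ j, Crest.Agent.R238.gm v x i j * z i * z j =
          (if i = j then z i * z j else 0) + Crest.Agent.R238.Hs v x i j * z i * z j := by
        intro j
        show ((1 : Matrix (Fin n) (Fin n) ℝ) i j + Crest.Agent.R238.Hs v x i j) * z i * z j = _
        rw [Matrix.one_apply]
        split_ifs <;> ring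
      simp only [this, Finset.sum_add_distrib, Finset.sum_ite_eq, Finset.mem_univ, if_true]
      ring
    have e2 : ∑ k, ∑ l, pd l (pd k (Vl P v lam)) x * z k * z l =
        ∑ i, z i ^ 2 + ∑ i, ∑ j, Crest.Agent.R238.Hs P x i j * z i * z j
        - lam * ∑ i, ∑ j, Crest.Agent.R238.Hs v x i j * z i * z j := by
      rw [Finset.mul_sum, ← Finset.sum_add_distrib, ← Finset.sum_sub_distrib]
      refine Finset.sum_congr rfl fun i _ => ?_
      have : ∀ l, pd l (pd i (Vl P v lam)) x * z i * z l =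
          (if i = l then z i * z l else 0) + Crest.Agent.R238.Hs P x i l * z i * z l
          - lam * (Crest.Agent.R238.Hs v x i l * z i * z l) := by
        intro l
        rw [pd_pd_Vl hP.tst.smooth hv]
        split_ifs <;> ring
      simp only [this, Finset.sum_sub_distrib, Finset.sum_add_distrib, Finset.sum_ite_eq,
        Finset.mem_univ, if_true, Finset.mul_sum]
      ring
    rw [e2, e1]
    ring
  rw [h3]
  have hS : 0 ≤ ∑ i, z i ^ 2 := Finset.sum_nonneg fun i _ => sq_nonneg _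
  have h4 : lam * (∑ i, ∑ j, Crest.Agent.R238.gm v x i j * z i * z j) ≤
      lam * (hi * ∑ i, z i ^ 2) := mul_le_mul_of_nonneg_left h2 hlam
  have h5 : lam * (hi * ∑ i, z i ^ 2) ≤ c * ∑ i, z i ^ 2 := by
    rw [← mul_assoc]; exact mul_le_mul_of_nonneg_right hl hS
  have h6 : 0 ≤ lam * ∑ i, z i ^ 2 := mul_nonneg hlam hS
  linarith

lemma sum4 (f : Fin n → Fin n → Fin n → Fin n → ℝ) :
    ∑ i, ∑ j, ∑ k, ∑ l, f i j k l = ∑ k, ∑ l, ∑ i, ∑ j, f i j k l := by
  calc ∑ i, ∑ j, ∑ k, ∑ l, f i j k l = ∑ i, ∑ k, ∑ j, ∑ l, f i j k l :=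
        Finset.sum_congr rfl fun i _ => Finset.sum_comm
    _ = ∑ k, ∑ i, ∑ j, ∑ l, f i j k l := Finset.sum_comm
    _ = ∑ k, ∑ i, ∑ l, ∑ j, f i j k l :=
        Finset.sum_congr rfl fun k _ => Finset.sum_congr rfl fun i _ => Finset.sum_comm
    _ = ∑ k, ∑ l, ∑ i, ∑ j, f i j k l := Finset.sum_congr rfl fun k _ => Finset.sum_comm

/-- `W = M V'' M` is positive semidefinite -/
theorem W_nonneg {P : E n → ℝ} {lam c C2 C3 M0 M1 R0 : ℝ}
    (hP : Crest.Agent.R253.Br.PCB P c C2 C3 M0 M1 R0) (hv : ContDiff ℝ ∞ v) (hlo : 0 < lo)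
    (hell : ∀ x, Crest.Agent.R238.Ell lo hi (Crest.Agent.R238.gm v x)) (hlam : 0 ≤ lam)
    (hl : lam * hi ≤ c) (x : E n) (z : Fin n → ℝ) :
    0 ≤ ∑ i, ∑ j, MA.W (Gi G) (Mi v G) (Vl P v lam) i j x * z i * z j := by
  have h := hess_nonneg hP hv hell hlam hl (G x) (fun k => ∑ i, Mi v G k i x * z i)
  refine h.trans_eq ?_
  have hL : ∀ k l, pd l (pd k (Vl P v lam)) (G x) * (∑ i, Mi v G k i x * z i) *
      (∑ i, Mi v G l i x * z i) = ∑ i, ∑ j, Mi v G i k x * pd l (pd k (Vl P v lam)) (G x) *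
        Mi v G l j x * z i * z j := by
    intro k l
    rw [mul_assoc, Finset.sum_mul_sum, Finset.mul_sum]
    refine Finset.sum_congr rfl fun i _ => ?_
    rw [Finset.mul_sum]
    refine Finset.sum_congr rfl fun j _ => ?_
    rw [Mi_symm hlo hell i k]
    ring
  simp only [hL]
  rw [← sum4 (fun i j k l => Mi v G i k x * pd l (pd k (Vl P v lam)) (G x) *
        Mi v G l j x * z i * z j)]
  refine Finset.sum_congr rfl fun i _ => Finset.sum_congr rfl fun j _ => ?_
  unfold MA.W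
  rw [Gv_Gi]
  simp only [Finset.sum_mul]

end

/-- **B10, packed**: the complete t-side data from a solution of `(MAb)` -/
theorem bind {P v : E n → ℝ} {lo hi lam c C2 C3 M0 M1 R0 : ℝ}
    (hP : Crest.Agent.R253.Br.PCB P c C2 C3 M0 M1 R0) (hv : Crest.Agent.R253.Br.NiceB v)
    (hlo : 0 < lo) (hlohi : lo ≤ hi)
    (hell : ∀ x, Crest.Agent.R238.Ell lo hi (Crest.Agent.R238.gm v x)) (hlam : 0 ≤ lam)
    (hl : lam * hi ≤ c) (hma : Crest.Agent.R253.Br.MAb P lam 1 v) :
    ∃ G : E n → E n, IsInv v G ∧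
      MA (Gi G) (Mi v G) (Ni v G) (Vl P v lam) ∧
      (∀ t (z : Fin n → ℝ), 1 / hi * ∑ i, z i ^ 2 ≤ ∑ i, ∑ j, Mi v G i j t * z i * z j ∧
        ∑ i, ∑ j, Mi v G i j t * z i * z j ≤ 1 / lo * ∑ i, z i ^ 2) ∧
      (∀ x (z : Fin n → ℝ), 0 ≤ ∑ i, ∑ j, MA.W (Gi G) (Mi v G) (Vl P v lam) i j x * z i * z j) ∧
      Push (Gi G) (Mi v G) (den P v lam) := by
  obtain ⟨G, hG, -, -⟩ := exists_isInv hv.smooth hlo hell
  have hb := Bk.of_niceB hv
  exact ⟨G, hG, ma hP.tst.smooth hb hG hlo hell hma,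
    fun t z => ⟨Mi_lower hlo hlohi hell t z, Mi_upper hlo hlohi hell t z⟩,
    fun x z => W_nonneg hP hv.smooth hlo hell hlam hl x z,
    push hP.tst.smooth.continuous hb hG hlo hlohi hell hma⟩

end Crest.Agent.R253.Dual441
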