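import Crest.Agent.R253.LimSeq_140
import Crest.Agent.R253.DensE_970
import Crest.Agent.R253.Bind_441
import Crest.Agent.R238.HBMat

/-!
# R253 (helper140): limits `e → 0` of the family `P_{A,e}`

* `Fam` : what is used of the family (706);
* `seq_cv` : `(A_k⁻¹)_# f~_k → f₀` (uniform majorant, pointwise), no convergence of `A_k` needed;
* `moments` : covariance and Fisher matrix of `(A⁻¹)_# f~` are close to those of `f₀`
  (uniformly in `A`), hence the two directional bounds used by the normalisation;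
* `SB_of_family` : output of step B.
-/

set_option autoImplicit false
open MeasureTheory Set Filter Topology Matrix
open Crest.GeometryTopology.Isotropic
open Crest.Agent.R253.Cpt435
open Crest.Agent.R238 (E Ell ee)
open Crest.Agent.R253.Dens970 (p1)
open Crest.Agent.R253.Dual441 (Vl den)
open Crest.Agent.R253.Br (gr)
open scoped ContDiff

namespace Crest.Agent.R253.Lim140

variable {n : ℕ}

/-! ### matrices as linear maps of the Euclidean space -/

/-- a matrix as a continuous linear map -/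
noncomputable def aL (A : Matrix (Fin n) (Fin n) ℝ) : E n →L[ℝ] E n :=
  LinearMap.toContinuousLinearMap (Matrix.toEuclideanLin A)

theorem aL_apply (A : Matrix (Fin n) (Fin n) ℝ) (x : E n) :
    aL A x = WithLp.toLp 2 (A *ᵥ (WithLp.ofLp x)) := rfl

theorem aL_toLp (A : Matrix (Fin n) (Fin n) ℝ) (u : Fin n → ℝ) :
    aL A (WithLp.toLp 2 u) = WithLp.toLp 2 (A *ᵥ u) := rfl

theorem aL_aL (A B : Matrix (Fin n) (Fin n) ℝ) (x : E n) : aL A (aL B x) = aL (A * B) x := by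
  simp only [aL_apply, mulVec_mulVec]

theorem aL_one (x : E n) : aL (1 : Matrix (Fin n) (Fin n) ℝ) x = x := by
  simp only [aL_apply, one_mulVec]

theorem aL_coord (A : Matrix (Fin n) (Fin n) ℝ) (x : E n) (i : Fin n) :
    aL A x i = ∑ j, A i j * x j := rfl

theorem aL_ee (A : Matrix (Fin n) (Fin n) ℝ) (i : Fin n) :
    aL A (ee i) = ∑ j, A j i • (ee j : E n) := by
  ext k
  rw [aL_coord]
  simp [Pi.single_apply]

theorem norm_sq_toLp (u : Fin n → ℝ) : ‖(WithLp.toLp 2 u : E n)‖ ^ 2 = sq u := by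
  rw [EuclideanSpace.norm_sq_eq]
  simp [sq]

theorem lower_aL {d r : ℝ} {A : Matrix (Fin n) (Fin n) ℝ} (h : Ell d r A) (x : E n) :
    d * ‖x‖ ≤ ‖aL A x‖ := by
  have h1 := (h.2 (WithLp.ofLp x)).1
  have h2 : ∑ i, (WithLp.ofLp x) i ^ 2 = ‖x‖ ^ 2 := by
    rw [EuclideanSpace.norm_sq_eq]; simp
  have h3 : ∑ i, ∑ j, A i j * (WithLp.ofLp x) i * (WithLp.ofLp x) j = inner ℝ x (aL A x) := by
    rw [PiLp.inner_apply]
    refine Finset.sum_congr rfl fun i _ => ?_
    rw [aL_coord]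
    simp only [RCLike.inner_apply, conj_trivial, Finset.sum_mul]
    refine Finset.sum_congr rfl fun j _ => ?_
    ring
  rw [h2, h3] at h1
  have h4 := real_inner_le_norm x (aL A x)
  rcases (norm_nonneg x).lt_or_eq with h5 | h5
  · have h6 : d * ‖x‖ * ‖x‖ ≤ ‖aL A x‖ * ‖x‖ := by nlinarith
    exact le_of_mul_le_mul_right h6 h5
  · rw [← h5, mul_zero]; exact norm_nonneg _

theorem upper_aL {K : ℝ} (hK : 0 ≤ K) {A : Matrix (Fin n) (Fin n) ℝ} (h : ∀ i j, |A i j| ≤ K)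
    (x : E n) : ‖aL A x‖ ≤ n * K * ‖x‖ := by
  have h1 : ‖aL A x‖ ^ 2 ≤ (n * K * ‖x‖) ^ 2 := by
    rw [EuclideanSpace.norm_sq_eq]
    have h2 : ∀ i, ‖aL A x i‖ ^ 2 ≤ n * K ^ 2 * ‖x‖ ^ 2 := by
      intro i
      rw [aL_coord, Real.norm_eq_abs, sq_abs]
      refine (Finset.sum_mul_sq_le_sq_mul_sq Finset.univ (fun j => A i j) (fun j => x j)).trans ?_
      have h3 : ∑ j, A i j ^ 2 ≤ n * K ^ 2 := by
        calc ∑ j, A i j ^ 2 ≤ ∑ _j : Fin n, K ^ 2 :=
              Finset.sum_le_sum fun j _ => by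
                rw [← sq_abs]; exact pow_le_pow_left₀ (abs_nonneg _) (h i j) 2
          _ = n * K ^ 2 := by simp
      have h4 : ∑ j, x j ^ 2 = ‖x‖ ^ 2 := by
        rw [EuclideanSpace.norm_sq_eq]; simp
      rw [h4]
      exact mul_le_mul_of_nonneg_right h3 (by positivity)
    calc ∑ i, ‖aL A x i‖ ^ 2 ≤ ∑ _i : Fin n, n * K ^ 2 * ‖x‖ ^ 2 :=
          Finset.sum_le_sum fun i _ => h2 i
      _ = (n * K * ‖x‖) ^ 2 := by simp; ring
  exact le_of_sq_le_sq₀' h1 (by positivity)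
where
  le_of_sq_le_sq₀' {a b : ℝ} (h : a ^ 2 ≤ b ^ 2) (hb : 0 ≤ b) : a ≤ b := by
    nlinarith [sq_nonneg (a - b), abs_le_of_sq_le_sq' h hb |>.2]

/-! ### the family -/

/-- what is used of the family `P_{A,e}` -/
structure Fam (P0 : E n → ℝ) (d r e0 : ℝ) (Pf : ℝ → Matrix (Fin n) (Fin n) ℝ → E n → ℝ) :
    Prop where
  e0_pos : 0 < e0
  smooth0 : ContDiff ℝ ∞ P0
  smooth : ∀ e A, 0 < e → e ≤ e0 → Ell d r A → ContDiff ℝ ∞ (Pf e A)
  inner : ∀ R : ℝ, ∃ e1 : ℝ, 0 < e1 ∧ ∀ e A, 0 < e → e ≤ e1 → Ell d r A → ∀ x : E n, ‖x‖ < R →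
    ‖x‖ ^ 2 / 2 + Pf e A x = ‖aL A⁻¹ x‖ ^ 2 / 2 + P0 (aL A⁻¹ x)
  low : ∃ c C : ℝ, 0 < c ∧ ∀ e A, 0 < e → e ≤ e0 → Ell d r A → ∀ x : E n,
    c * ‖x‖ ^ 2 - C ≤ ‖x‖ ^ 2 / 2 + Pf e A x
  grad : ∃ K : ℝ, ∀ e A, 0 < e → e ≤ e0 → Ell d r A → ∀ (x : E n) i,
    |gr (Pf e A) x i| ≤ K * (1 + ‖x‖)

/-- admissible solutions for the parameter `e` -/
structure AdmV (e lam : ℝ) (v : E n → ℝ) : Prop where
  l0 : 0 ≤ lam
  sm : ContDiff ℝ ∞ v
  osc : ∀ x, lam * |v x - v 0| ≤ e * ‖x‖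
  grd : ∀ x i, lam * |gr v x i| ≤ e

/-- the limit density -/
noncomputable def f0 (P0 : E n → ℝ) : (Fin n → ℝ) → ℝ := nrm (p1 P0)

/-- gradient of `V ∘ A` in the direction `i` -/
noncomputable def Gf (P v : E n → ℝ) (lam : ℝ) (A : Matrix (Fin n) (Fin n) ℝ) (i : Fin n)
    (u : Fin n → ℝ) : ℝ := ∑ j, A j i * gr (Vl P v lam) (aL A (WithLp.toLp 2 u)) j

/-- gradient of `V₀` -/
noncomputable def G0 (P0 : E n → ℝ) (i : Fin n) (u : Fin n → ℝ) : ℝ :=
  u i + gr P0 (WithLp.toLp 2 u) i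

theorem gr_Vl {P v : E n → ℝ} (hP : ContDiff ℝ ∞ P) (hv : ContDiff ℝ ∞ v) (lam : ℝ) (x : E n)
    (i : Fin n) : gr (Vl P v lam) x i = x i + gr P x i - lam * gr v x i := by
  have hP1 : DifferentiableAt ℝ P x := (hP.differentiable (by simp)) x
  have hv1 : DifferentiableAt ℝ v x := (hv.differentiable (by simp)) x
  have hn : HasFDerivAt (fun x : E n => ‖x‖ ^ 2 / 2) (innerSL ℝ x) x := by
    have h1 := (hasStrictFDerivAt_norm_sq x).hasFDerivAt
    have h2 := h1.mul_const (1 / 2 : ℝ)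
    refine (h2.congr_fderiv ?_).congr_of_eventuallyEq (Eventually.of_forall fun y => by
      simp; ring)
    ext w; simp
  have h3 : HasFDerivAt (Vl P v lam) (innerSL ℝ x + fderiv ℝ P x - lam • fderiv ℝ v x) x :=
    (hn.add hP1.hasFDerivAt).sub (hv1.hasFDerivAt.const_mul lam)
  unfold gr
  rw [h3.fderiv]
  simp [innerSL_apply_apply, EuclideanSpace.inner_single_right]

section seqs

variable {P0 : E n → ℝ} {d r e0 : ℝ} {Pf : ℝ → Matrix (Fin n) (Fin n) ℝ → E n → ℝ}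
variable {e lam : ℕ → ℝ} {A : ℕ → Matrix (Fin n) (Fin n) ℝ} {v : ℕ → E n → ℝ}

/-- a sequence of admissible data with `e_k → 0` -/
structure SeqD (d r e0 : ℝ) (Pf : ℝ → Matrix (Fin n) (Fin n) ℝ → E n → ℝ) (e lam : ℕ → ℝ)
    (A : ℕ → Matrix (Fin n) (Fin n) ℝ) (v : ℕ → E n → ℝ) : Prop where
  e_pos : ∀ k, 0 < e k
  e_le : ∀ k, e k ≤ e0
  e_lim : Tendsto e atTop (𝓝 0)
  ell : ∀ k, Ell d r (A k)
  adm : ∀ k, AdmV (e k) (lam k) (v k)
  one : ∀ k, ∫ x, den (Pf (e k) (A k)) (v k) (lam k) x = 1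

theorem aff_den (P v : E n → ℝ) (lam : ℝ) (A : Matrix (Fin n) (Fin n) ℝ) (u : Fin n → ℝ) :
    aff (den P v lam) A 0 u = (|A.det| * (2 * Real.pi) ^ (-(n : ℝ) / 2)) *
      Real.exp (-Vl P v lam (aL A (WithLp.toLp 2 u))) := by
  simp only [aff, den, zero_add, aL_toLp]
  ring

theorem inv_cancel {A : Matrix (Fin n) (Fin n) ℝ} (hd : 0 < d) (h : Ell d r A) (x : E n) :
    aL A⁻¹ (aL A x) = x := by
  rw [aL_aL, h.sm_inv_mul hd, aL_one]

theorem SeqD.cv (hF : Fam P0 d r e0 Pf) (hd : 0 < d) (hr : 0 ≤ r)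
    (hs : SeqD d r e0 Pf e lam A v) :
    Cv (fun k => aff (den (Pf (e k) (A k)) (v k) (lam k)) (A k) 0) (f0 P0) ∧
      0 < ∫ x, p1 P0 x := by
  obtain ⟨c, C, hc, hlow⟩ := hF.low
  have hvc : ∀ k, Continuous (v k) := fun k => (hs.adm k).sm.continuous
  have hPc : ∀ k, Continuous (Pf (e k) (A k)) := fun k =>
    (hF.smooth _ _ (hs.e_pos k) (hs.e_le k) (hs.ell k)).continuous
  have htoLp : Continuous fun u : Fin n → ℝ => (WithLp.toLp 2 u : E n) := PiLp.continuous_toLp 2 _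
  have hVc : ∀ k, Continuous fun u : Fin n → ℝ =>
      Vl (Pf (e k) (A k)) (v k) (lam k) (aL (A k) (WithLp.toLp 2 u)) := by
    intro k
    have h1 : Continuous (Vl (Pf (e k) (A k)) (v k) (lam k)) := by
      unfold Vl
      exact (((continuous_norm.pow 2).div_const 2).add (hPc k)).sub
        (continuous_const.mul (hvc k))
    exact h1.comp ((aL (A k)).continuous.comp htoLp)
  have hone : ∀ k, ∫ u, (|(A k).det| * (2 * Real.pi) ^ (-(n : ℝ) / 2)) *
      Real.exp (-Vl (Pf (e k) (A k)) (v k) (lam k) (aL (A k) (WithLp.toLp 2 u))) = 1 := by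
    intro k
    have hm : Measurable (den (Pf (e k) (A k)) (v k) (lam k)) :=
      (Dual441.continuous_den (hPc k) (hvc k) (lam k)).measurable
    have h1 := integral_comp_affine (den (Pf (e k) (A k)) (v k) (lam k)) hm (A k)
      ((hs.ell k).sm_det_pos hd).ne' 0
    rw [hs.one k] at h1
    rw [← h1]
    congr 1; funext u
    exact (aff_den _ _ _ _ _).symm
  suffices hbase : Cv (fun k x => (|(A k).det| * (2 * Real.pi) ^ (-(n : ℝ) / 2)) *
      Real.exp (-Vl (Pf (e k) (A k)) (v k) (lam k) (aL (A k) (WithLp.toLp 2 x))))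
      (nrm (fun u => Real.exp (-(sq u / 2 + P0 (WithLp.toLp 2 u))))) ∧
      0 < ∫ u : Fin n → ℝ, Real.exp (-(sq u / 2 + P0 (WithLp.toLp 2 u))) by
    refine ⟨?_, hbase.2⟩
    have h1 := hbase.1
    have h2 : (fun k => aff (den (Pf (e k) (A k)) (v k) (lam k)) (A k) 0) =
        fun k x => (|(A k).det| * (2 * Real.pi) ^ (-(n : ℝ) / 2)) *
          Real.exp (-Vl (Pf (e k) (A k)) (v k) (lam k) (aL (A k) (WithLp.toLp 2 x))) := by
      funext k x; exact aff_den _ _ _ _ _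
    rw [h2]
    exact h1
  refine cv_pot_one (m := n)
    (W := fun k u => Vl (Pf (e k) (A k)) (v k) (lam k) (aL (A k) (WithLp.toLp 2 u)))
    (Ws := fun u => sq u / 2 + P0 (WithLp.toLp 2 u))
    (c := fun k => -(lam k * v k 0)) (a := c / 2 * d ^ 2) (C := C + e0 ^ 2 / (2 * c))
    (by positivity) (fun k => (hVc k).measurable)
    (((continuous_sq.div_const 2).add (hF.smooth0.continuous.comp htoLp)).measurable)
    ?_ ?_ hone
  · intro k u
    set X := aL (A k) (WithLp.toLp 2 u) with hX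
    have h1 := hlow (e k) (A k) (hs.e_pos k) (hs.e_le k) (hs.ell k) X
    have h2 : lam k * (v k X - v k 0) ≤ e0 * ‖X‖ := by
      calc lam k * (v k X - v k 0) ≤ lam k * |v k X - v k 0| :=
            mul_le_mul_of_nonneg_left (le_abs_self _) (hs.adm k).l0
        _ ≤ e k * ‖X‖ := (hs.adm k).osc X
        _ ≤ e0 * ‖X‖ := mul_le_mul_of_nonneg_right (hs.e_le k) (norm_nonneg _)
    have h3 : d ^ 2 * sq u ≤ ‖X‖ ^ 2 := by
      have h4 := lower_aL (hs.ell k) (WithLp.toLp 2 u : E n)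
      rw [← hX] at h4
      rw [← norm_sq_toLp, ← mul_pow]
      exact pow_le_pow_left₀ (by positivity) h4 2
    have h5 : e0 * ‖X‖ ≤ c / 2 * ‖X‖ ^ 2 + e0 ^ 2 / (2 * c) := by
      have h6 : 0 ≤ (c * ‖X‖ - e0) ^ 2 / (2 * c) := by positivity
      have h7 : (c * ‖X‖ - e0) ^ 2 / (2 * c) = c / 2 * ‖X‖ ^ 2 - e0 * ‖X‖ + e0 ^ 2 / (2 * c) := by
        field_simp; ring
      linarith
    have h8 : c / 2 * (d ^ 2 * sq u) ≤ c / 2 * ‖X‖ ^ 2 :=
      mul_le_mul_of_nonneg_left h3 (by positivity)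
    simp only [Vl]
    linarith
  · intro u
    set R : ℝ := n * r * ‖(WithLp.toLp 2 u : E n)‖ + 1 with hR
    obtain ⟨e1, he1, hin⟩ := hF.inner R
    have hXR : ∀ k, ‖aL (A k) (WithLp.toLp 2 u : E n)‖ ≤ n * r * ‖(WithLp.toLp 2 u : E n)‖ := fun k =>
      upper_aL hr ((hs.ell k).abs_entry_le hd.le) _
    have hev : ∀ᶠ k in atTop, e k ≤ e1 := (hs.e_lim.eventually (gt_mem_nhds he1)).mono
      fun k hk => le_of_lt hk
    have h1 : Tendsto (fun k => sq u / 2 + P0 (WithLp.toLp 2 u)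
        - lam k * (v k (aL (A k) (WithLp.toLp 2 u)) - v k 0)) atTop
        (𝓝 (sq u / 2 + P0 (WithLp.toLp 2 u) - 0)) := by
      refine tendsto_const_nhds.sub ?_
      have h2 : Tendsto (fun k => e k * (n * r * ‖(WithLp.toLp 2 u : E n)‖)) atTop (𝓝 0) := by
        simpa using hs.e_lim.mul_const _
      refine squeeze_zero_norm (fun k => ?_) h2
      rw [Real.norm_eq_abs, abs_mul, abs_of_nonneg (hs.adm k).l0]
      exact ((hs.adm k).osc _).trans (mul_le_mul_of_nonneg_left (hXR k) (hs.e_pos k).le)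
    rw [sub_zero] at h1
    refine h1.congr' ?_
    filter_upwards [hev] with k hk
    have h3 := hin (e k) (A k) (hs.e_pos k) hk (hs.ell k) (aL (A k) (WithLp.toLp 2 u))
      (by rw [hR]; linarith [hXR k])
    rw [inv_cancel hd (hs.ell k), norm_sq_toLp u] at h3
    simp only [Vl]
    have h4 : lam k * (v k (aL (A k) (WithLp.toLp 2 u)) - v k 0)
        = lam k * v k (aL (A k) (WithLp.toLp 2 u)) - lam k * v k 0 := by ring
    linarith

/-- convergence of the gradients -/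
theorem SeqD.tendsto_Gf (hF : Fam P0 d r e0 Pf) (hd : 0 < d) (hr : 0 ≤ r)
    (hs : SeqD d r e0 Pf e lam A v) (i : Fin n) (u : Fin n → ℝ) :
    Tendsto (fun k => Gf (Pf (e k) (A k)) (v k) (lam k) (A k) i u) atTop (𝓝 (G0 P0 i u)) := by
  set R : ℝ := n * r * ‖(WithLp.toLp 2 u : E n)‖ + 1 with hR
  obtain ⟨e1, he1, hin⟩ := hF.inner R
  have hXR : ∀ k, ‖aL (A k) (WithLp.toLp 2 u : E n)‖ ≤ n * r * ‖(WithLp.toLp 2 u : E n)‖ := fun k =>
    upper_aL hr ((hs.ell k).abs_entry_le hd.le) _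
  have hev : ∀ᶠ k in atTop, e k ≤ e1 := (hs.e_lim.eventually (gt_mem_nhds he1)).mono
    fun k hk => le_of_lt hk
  have h1 : Tendsto (fun k => G0 P0 i u
      - ∑ j, A k j i * (lam k * gr (v k) (aL (A k) (WithLp.toLp 2 u)) j)) atTop
      (𝓝 (G0 P0 i u - 0)) := by
    refine tendsto_const_nhds.sub ?_
    have h2 : Tendsto (fun k => (n : ℝ) * (r * e k)) atTop (𝓝 0) := by
      simpa using (hs.e_lim.const_mul r).const_mul (n : ℝ)
    refine squeeze_zero_norm (fun k => ?_) h2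
    rw [Real.norm_eq_abs]
    refine (Finset.abs_sum_le_sum_abs _ _).trans ?_
    calc ∑ j, |A k j i * (lam k * gr (v k) (aL (A k) (WithLp.toLp 2 u)) j)|
        ≤ ∑ _j : Fin n, r * e k := by
          refine Finset.sum_le_sum fun j _ => ?_
          rw [abs_mul, abs_mul, abs_of_nonneg (hs.adm k).l0]
          exact mul_le_mul ((hs.ell k).abs_entry_le hd.le j i) ((hs.adm k).grd _ j)
            (mul_nonneg (hs.adm k).l0 (abs_nonneg _)) hr
      _ = n * (r * e k) := by simp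
  rw [sub_zero] at h1
  refine h1.congr' ?_
  filter_upwards [hev] with k hk
  have hsm := hF.smooth _ _ (hs.e_pos k) (hs.e_le k) (hs.ell k)
  set X : E n := aL (A k) (WithLp.toLp 2 u) with hX
  have hXlt : ‖X‖ < R := by rw [hR]; linarith [hXR k]
  -- the derivative of `Φ = |x|²/2 + Pf` at `X`
  have hΦ : (fun x : E n => ‖x‖ ^ 2 / 2 + Pf (e k) (A k) x) =ᶠ[𝓝 X]
      fun x => (Vl P0 (fun _ => 0) 0) (aL (A k)⁻¹ x) := by
    have h4 : ∀ᶠ x in 𝓝 X, ‖x‖ < R := (continuous_norm.tendsto X).eventually (gt_mem_nhds hXlt)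
    filter_upwards [h4] with x hx
    rw [hin (e k) (A k) (hs.e_pos k) hk (hs.ell k) x hx]
    simp [Vl]
  have hV0 : ContDiff ℝ ∞ (Vl P0 (fun _ => (0 : ℝ)) 0) :=
    Dual441.contDiff_Vl hF.smooth0 contDiff_const 0
  have h5 : HasFDerivAt (fun x : E n => (Vl P0 (fun _ => 0) 0) (aL (A k)⁻¹ x))
      ((fderiv ℝ (Vl P0 (fun _ => 0) 0) (aL (A k)⁻¹ X)).comp (aL (A k)⁻¹)) X :=
    ((hV0.differentiable (by simp)) _).hasFDerivAt.comp X (aL (A k)⁻¹).hasFDerivAt
  have h6 : fderiv ℝ (Vl (Pf (e k) (A k)) (fun _ => (0 : ℝ)) 0) X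
      = (fderiv ℝ (Vl P0 (fun _ => 0) 0) (aL (A k)⁻¹ X)).comp (aL (A k)⁻¹) := by
    have h7 : Vl (Pf (e k) (A k)) (fun _ => (0 : ℝ)) 0 =
        fun x : E n => ‖x‖ ^ 2 / 2 + Pf (e k) (A k) x := by
      funext x; simp [Vl]
    rw [h7, hΦ.fderiv_eq, h5.fderiv]
  have h8 : ∀ j, gr (Vl (Pf (e k) (A k)) (fun _ => (0 : ℝ)) 0) X j
      = fderiv ℝ (Vl P0 (fun _ => 0) 0) (WithLp.toLp 2 u) (aL (A k)⁻¹ (ee j)) := by
    intro j
    unfold gr
    rw [h6, hX, inv_cancel hd (hs.ell k)]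
    rfl
  have h9 : ∑ j, A k j i * gr (Vl (Pf (e k) (A k)) (fun _ => (0 : ℝ)) 0) X j = G0 P0 i u := by
    simp only [h8]
    have h10 : ∑ j, A k j i * fderiv ℝ (Vl P0 (fun _ => 0) 0) (WithLp.toLp 2 u)
        (aL (A k)⁻¹ (ee j))
        = fderiv ℝ (Vl P0 (fun _ => 0) 0) (WithLp.toLp 2 u) (aL (A k)⁻¹ (aL (A k) (ee i))) := by
      rw [aL_ee]
      simp only [map_sum, map_smul, smul_eq_mul]
    rw [h10, inv_cancel hd (hs.ell k)]
    have h11 := gr_Vl hF.smooth0 (contDiff_const (c := (0 : ℝ))) 0 (WithLp.toLp 2 u : E n) i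
    unfold gr at h11
    rw [h11]
    simp [G0, gr]
  rw [← h9]
  unfold Gf
  rw [← Finset.sum_sub_distrib]
  refine Finset.sum_congr rfl fun j _ => ?_
  rw [gr_Vl hsm (hs.adm k).sm, gr_Vl hsm contDiff_const]
  ring

theorem Gf_bound {K : ℝ} {P v : E n → ℝ} {e lam : ℝ} {A : Matrix (Fin n) (Fin n) ℝ}
    (hd : 0 ≤ d) (hr : 0 ≤ r) (hA : Ell d r A) (hP : ContDiff ℝ ∞ P) (hv : AdmV e lam v)
    (hK0 : 0 ≤ K) (he0 : e ≤ e0) (he00 : 0 ≤ e0)
    (hK : ∀ (x : E n) i, |gr P x i| ≤ K * (1 + ‖x‖)) (i : Fin n) (u : Fin n → ℝ) :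
    |Gf P v lam A i u| ≤ (n * r * (1 + K + e0) * (1 + n * r * n)) * (1 + ‖u‖) ^ 1 := by
  have hX := upper_aL hr (hA.abs_entry_le hd) (WithLp.toLp 2 u : E n)
  set X : E n := aL A (WithLp.toLp 2 u) with hXdef
  have hu : ‖(WithLp.toLp 2 u : E n)‖ ≤ n * ‖u‖ := by
    have h1 : ‖(WithLp.toLp 2 u : E n)‖ ^ 2 ≤ (n * ‖u‖) ^ 2 := by
      rw [norm_sq_toLp]
      unfold sq
      calc ∑ i, u i ^ 2 ≤ ∑ _i : Fin n, ‖u‖ ^ 2 := by
            refine Finset.sum_le_sum fun i _ => ?_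
            rw [← sq_abs]
            exact pow_le_pow_left₀ (abs_nonneg _) (norm_le_pi_norm u i) 2
        _ = n * ‖u‖ ^ 2 := by simp
        _ ≤ n ^ 2 * ‖u‖ ^ 2 := by
            refine mul_le_mul_of_nonneg_right ?_ (by positivity)
            rcases Nat.eq_zero_or_pos n with h | h
            · simp [h]
            · have : (1 : ℝ) ≤ n := by exact_mod_cast h
              nlinarith
        _ = (n * ‖u‖) ^ 2 := by ring
    exact abs_le_of_sq_le_sq' h1 (by positivity) |>.2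
  have hnn : (0 : ℝ) ≤ n := Nat.cast_nonneg n
  have hXu : ‖X‖ ≤ n * r * n * ‖u‖ := by
    calc ‖X‖ ≤ n * r * ‖(WithLp.toLp 2 u : E n)‖ := hX
      _ ≤ n * r * (n * ‖u‖) := mul_le_mul_of_nonneg_left hu (by positivity)
      _ = _ := by ring
  have h1 : ∀ j, |gr (Vl P v lam) X j| ≤ (1 + K + e0) * (1 + ‖X‖) := by
    intro j
    rw [gr_Vl hP hv.sm]
    have h2 : |X j| ≤ ‖X‖ := by
      have := PiLp.norm_apply_le X j
      rwa [Real.norm_eq_abs] at this
    have h3 := hK X j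
    have h4 : |lam * gr v X j| ≤ e0 := by
      rw [abs_mul, abs_of_nonneg hv.l0]; exact (hv.grd X j).trans he0
    have h5 : |X j + gr P X j - lam * gr v X j| ≤ |X j| + |gr P X j| + |lam * gr v X j| := by
      refine (abs_sub _ _).trans ?_
      have := abs_add_le (X j) (gr P X j)
      linarith
    have hXn := norm_nonneg X
    nlinarith
  unfold Gf
  refine (Finset.abs_sum_le_sum_abs _ _).trans ?_
  calc ∑ j, |A j i * gr (Vl P v lam) X j|
      ≤ ∑ _j : Fin n, r * ((1 + K + e0) * (1 + ‖X‖)) := by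
        refine Finset.sum_le_sum fun j _ => ?_
        rw [abs_mul]
        exact mul_le_mul (hA.abs_entry_le hd j i) (h1 j) (abs_nonneg _) hr
    _ = n * r * (1 + K + e0) * (1 + ‖X‖) := by simp; ring
    _ ≤ n * r * (1 + K + e0) * ((1 + n * r * n) * (1 + ‖u‖)) := by
        refine mul_le_mul_of_nonneg_left ?_ (by positivity)
        have hun := norm_nonneg u
        have : 0 ≤ n * r * n := by positivity
        nlinarith
    _ = _ := by ring

theorem continuous_gr {f : E n → ℝ} (hf : ContDiff ℝ ∞ f) (i : Fin n) :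
    Continuous (fun x => gr f x i) := by
  unfold gr
  exact (hf.continuous_fderiv (by simp)).clm_apply continuous_const

theorem continuous_Gf {P v : E n → ℝ} {lam : ℝ} (hP : ContDiff ℝ ∞ P) (hv : ContDiff ℝ ∞ v)
    (A : Matrix (Fin n) (Fin n) ℝ) (i : Fin n) : Continuous (Gf P v lam A i) := by
  have htoLp : Continuous fun u : Fin n → ℝ => (WithLp.toLp 2 u : E n) := PiLp.continuous_toLp 2 _
  unfold Gf
  refine continuous_finsetSum _ fun j _ => continuous_const.mul ?_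
  exact (continuous_gr (Dual441.contDiff_Vl hP hv lam) j).comp
    ((aL A).continuous.comp htoLp)

/-- convergence of the Fisher matrices -/
theorem SeqD.tendsto_fisher (hF : Fam P0 d r e0 Pf) (hd : 0 < d) (hr : 0 ≤ r)
    (hs : SeqD d r e0 Pf e lam A v) (i j : Fin n) :
    Tendsto (fun k => ∫ u, Gf (Pf (e k) (A k)) (v k) (lam k) (A k) i u *
        Gf (Pf (e k) (A k)) (v k) (lam k) (A k) j u *
        aff (den (Pf (e k) (A k)) (v k) (lam k)) (A k) 0 u) atTop
      (𝓝 (∫ u, G0 P0 i u * G0 P0 j u * f0 P0 u)) := by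
  obtain ⟨K, hK⟩ := hF.grad
  have hK' : ∀ k (x : E n) i, |gr (Pf (e k) (A k)) x i| ≤ |K| * (1 + ‖x‖) := fun k x i =>
    (hK _ _ (hs.e_pos k) (hs.e_le k) (hs.ell k) x i).trans
      (mul_le_mul_of_nonneg_right (le_abs_self K) (by positivity))
  have hsm : ∀ k, ContDiff ℝ ∞ (Pf (e k) (A k)) := fun k =>
    hF.smooth _ _ (hs.e_pos k) (hs.e_le k) (hs.ell k)
  set B : ℝ := n * r * (1 + |K| + e0) * (1 + n * r * n) with hB
  have hb : ∀ k i u, |Gf (Pf (e k) (A k)) (v k) (lam k) (A k) i u| ≤ B * (1 + ‖u‖) ^ 1 :=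
    fun k i u => Gf_bound hd.le hr (hs.ell k) (hsm k) (hs.adm k) (abs_nonneg K) (hs.e_le k)
      hF.e0_pos.le (hK' k) i u
  refine (hs.cv hF hd hr).1.tendsto_ex_seq (K := B ^ 2) (N := 2)
    (ψ := fun k u => Gf (Pf (e k) (A k)) (v k) (lam k) (A k) i u *
        Gf (Pf (e k) (A k)) (v k) (lam k) (A k) j u) (fun k => ?_) (fun k u => ?_)
    (ae_of_all _ fun u => (hs.tendsto_Gf hF hd hr i u).mul (hs.tendsto_Gf hF hd hr j u))
  · exact ((continuous_Gf (hsm k) (hs.adm k).sm _ i).mul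
      (continuous_Gf (hsm k) (hs.adm k).sm _ j)).measurable
  · rw [abs_mul]
    calc _ ≤ (B * (1 + ‖u‖) ^ 1) * (B * (1 + ‖u‖) ^ 1) :=
          mul_le_mul (hb k i u) (hb k j u) (abs_nonneg _)
            ((abs_nonneg _).trans (hb k i u))
      _ = _ := by ring

end seqs

/-! ### uniform closeness of the moments -/

section unif

variable {P0 : E n → ℝ} {d r e0 : ℝ} {Pf : ℝ → Matrix (Fin n) (Fin n) ℝ → E n → ℝ}

theorem EB_f0 (hP0 : Continuous P0) {B : ℝ} (hB : ∀ x, |P0 x| ≤ B) :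
    EB (f0 P0) ∧ 0 < ∫ x, p1 P0 x := by
  have htoLp : Continuous fun u : Fin n → ℝ => (WithLp.toLp 2 u : E n) := PiLp.continuous_toLp 2 _
  obtain ⟨h1, -, h3⟩ := lim_lam (fun u : Fin n → ℝ => P0 (WithLp.toLp 2 u))
    (hP0.comp htoLp).measurable (B := B) (fun x => hB _) (fun _ _ => 0)
    (fun _ => measurable_const) (L := 0) (fun _ _ => by simp) (lam := fun _ => 0)
    (fun _ => le_rfl) tendsto_const_nhds
  have h4 := h1.eb 0
  simp only [zero_mul, sub_zero] at h4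
  exact ⟨h4, h3⟩

/-- **uniform closeness** of covariance and Fisher matrices as `e → 0` -/
theorem Fam.close (hF : Fam P0 d r e0 Pf) (hd : 0 < d) (hr : 0 ≤ r) (hE : EB (f0 P0))
    (h1 : ∫ x, f0 P0 x = 1) {δ : ℝ} (hδ : 0 < δ) :
    ∃ e1 : ℝ, 0 < e1 ∧ e1 ≤ e0 ∧ ∀ e A, 0 < e → e ≤ e1 → Ell d r A → ∀ lam (v : E n → ℝ),
      AdmV e lam v → ∫ x, den (Pf e A) v lam x = 1 →
      (∀ i j, |densCov (aff (den (Pf e A) v lam) A 0) i j - densCov (f0 P0) i j| < δ) ∧
      (∀ i j, |(∫ u, Gf (Pf e A) v lam A i u * Gf (Pf e A) v lam A j u *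
        aff (den (Pf e A) v lam) A 0 u) - ∫ u, G0 P0 i u * G0 P0 j u * f0 P0 u| < δ) := by
  by_contra hcon
  push Not at hcon
  have hpos : ∀ k : ℕ, 0 < min e0 (1 / ((k : ℝ) + 1)) := fun k =>
    lt_min hF.e0_pos Nat.one_div_pos_of_nat
  choose e A he1 he2 hA lam v hv hone hbad using fun k : ℕ =>
    hcon _ (hpos k) (min_le_left _ _)
  have hs : SeqD d r e0 Pf e lam A v := by
    refine ⟨he1, fun k => (he2 k).trans (min_le_left _ _), ?_, hA, hv, hone⟩
    exact squeeze_zero (fun k => (he1 k).le) (fun k => (he2 k).trans (min_le_right _ _))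
      tendsto_one_div_add_atTop_nhds_zero_nat
  have hcv := (hs.cv hF hd hr).1
  have hint : ∀ k, ∫ x, aff (den (Pf (e k) (A k)) (v k) (lam k)) (A k) 0 x = 1 := by
    intro k
    have hm : Measurable (den (Pf (e k) (A k)) (v k) (lam k)) :=
      (Dual441.continuous_den (hF.smooth _ _ (hs.e_pos k) (hs.e_le k) (hs.ell k)).continuous
        (hs.adm k).sm.continuous (lam k)).measurable
    have h2 := integral_comp_affine (den (Pf (e k) (A k)) (v k) (lam k)) hm (A k)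
      ((hs.ell k).sm_det_pos hd).ne' 0
    rw [hs.one k] at h2
    exact h2
  have hc : ∀ᶠ k in atTop, ∀ i j, |densCov (aff (den (Pf (e k) (A k)) (v k) (lam k)) (A k) 0) i j
      - densCov (f0 P0) i j| < δ :=
    eventually_all.mpr fun i => eventually_all.mpr fun j =>
      ev_lt (hcv.tendsto_densCov hE hint h1 i j) hδ
  have hf : ∀ᶠ k in atTop, ∀ i j, |(∫ u, Gf (Pf (e k) (A k)) (v k) (lam k) (A k) i u *
        Gf (Pf (e k) (A k)) (v k) (lam k) (A k) j u *
        aff (den (Pf (e k) (A k)) (v k) (lam k)) (A k) 0 u)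
        - ∫ u, G0 P0 i u * G0 P0 j u * f0 P0 u| < δ :=
    eventually_all.mpr fun i => eventually_all.mpr fun j =>
      ev_lt (hs.tendsto_fisher hF hd hr i j) hδ
  obtain ⟨k, hk1, hk2⟩ := (hc.and hf).exists
  obtain ⟨i, j, hij⟩ := hbad k hk1
  exact absurd (hk2 i j) (not_lt.mpr hij)

/-- a bound for `w·Cov(f₀)w`, `|w| = 1` (plus one) -/
noncomputable def S0 (P0 : E n → ℝ) : ℝ := 1 + ∑ i, ∑ j, |densCov (f0 P0) i j|

/-- a bound for the Fisher form (plus one) -/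
noncomputable def I0 (P0 : E n → ℝ) : ℝ := 1 + ∑ i, ∑ j, |∫ u, G0 P0 i u * G0 P0 j u * f0 P0 u|

theorem S0_pos (P0 : E n → ℝ) : 0 < S0 P0 := by unfold S0; positivity

theorem I0_pos (P0 : E n → ℝ) : 0 < I0 P0 := by unfold I0; positivity

theorem quad_le {C : Matrix (Fin n) (Fin n) ℝ} {D : Matrix (Fin n) (Fin n) ℝ} {δ : ℝ}
    (hδ : δ * (n : ℝ) ^ 2 ≤ 1) (h : ∀ i j, |C i j - D i j| < δ) {w : Fin n → ℝ}
    (hw : ∑ i, w i ^ 2 = 1) : ∑ i, ∑ j, w i * w j * C i j ≤ 1 + ∑ i, ∑ j, |D i j| := by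
  have hw1 : ∀ i, |w i| ≤ 1 := by
    intro i
    have : w i ^ 2 ≤ 1 := hw ▸ Finset.single_le_sum (f := fun i => w i ^ 2)
      (fun _ _ => sq_nonneg _) (Finset.mem_univ i)
    exact (sq_le_one_iff_abs_le_one _).mp this
  have h1 : ∀ i j, w i * w j * C i j ≤ δ + |D i j| := by
    intro i j
    have h2 : |w i * w j| ≤ 1 := by
      rw [abs_mul]; exact mul_le_one₀ (hw1 i) (abs_nonneg _) (hw1 j)
    have h3 : |C i j| ≤ δ + |D i j| := by
      have := abs_sub_abs_le_abs_sub (C i j) (D i j)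
      linarith [h i j]
    calc w i * w j * C i j ≤ |w i * w j * C i j| := le_abs_self _
      _ = |w i * w j| * |C i j| := abs_mul _ _
      _ ≤ 1 * |C i j| := mul_le_mul_of_nonneg_right h2 (abs_nonneg _)
      _ ≤ _ := by rw [one_mul]; exact h3
  calc ∑ i, ∑ j, w i * w j * C i j ≤ ∑ i, ∑ j, (δ + |D i j|) :=
        Finset.sum_le_sum fun i _ => Finset.sum_le_sum fun j _ => h1 i j
    _ = δ * (n : ℝ) ^ 2 + ∑ i, ∑ j, |D i j| := by
        simp only [Finset.sum_add_distrib, Finset.sum_const, Finset.card_univ, Fintype.card_fin,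
          nsmul_eq_mul]
        ring
    _ ≤ _ := by linarith

/-- **the two moment bounds of the normalisation**: for `e ≤ e1`, all `A` in the box and all unit
eigenvectors `A w = a w`:  `Var (w·x) ≤ a² S0`,  `a² ∫ (∂_w V)² ≤ I0`
(`S0`, `I0` depend on `P0` only, not on the box). -/
theorem Fam.moments (hF : Fam P0 d r e0 Pf) (hd : 0 < d) (hr : 0 ≤ r) (hE : EB (f0 P0))
    (h1 : ∫ x, f0 P0 x = 1) :
    ∃ e1 : ℝ, 0 < e1 ∧ e1 ≤ e0 ∧ ∀ e A, 0 < e → e ≤ e1 → Ell d r A → ∀ lam (v : E n → ℝ),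
      AdmV e lam v → LCD (den (Pf e A) v lam) → ∀ (w : Fin n → ℝ) (a : ℝ),
      ∑ i, w i ^ 2 = 1 → A *ᵥ w = a • w →
      ∫ x, (∑ i, w i * (x i - densMean (den (Pf e A) v lam) i)) ^ 2 * den (Pf e A) v lam x
        ≤ a ^ 2 * S0 P0 ∧
      a ^ 2 * ∫ x, (∑ i, w i * gr (Vl (Pf e A) v lam) (WithLp.toLp 2 x) i) ^ 2 *
        den (Pf e A) v lam x ≤ I0 P0 := by
  obtain ⟨e1, he1, he10, H⟩ := hF.close hd hr hE h1
    (δ := 1 / ((n : ℝ) ^ 2 + 1)) (by positivity)
  refine ⟨e1, he1, he10, fun e A he hee hA lam v hv hL w a hw haw => ?_⟩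
  obtain ⟨hc, hf⟩ := H e A he hee hA lam v hv hL.int1
  have hδ : 1 / ((n : ℝ) ^ 2 + 1) * (n : ℝ) ^ 2 ≤ 1 := by
    rw [one_div, inv_mul_le_iff₀ (by positivity)]; linarith
  have hdet : A.det ≠ 0 := (hA.sm_det_pos hd).ne'
  have hsm : ContDiff ℝ ∞ (Pf e A) := hF.smooth e A he (hee.trans he10) hA
  set g := den (Pf e A) v lam with hg
  have hAT : Aᵀ *ᵥ w = a • w := by rw [hA.sm_transpose_eq]; exact haw
  constructor
  · -- variance
    have e1 : ∫ x, (∑ i, w i * (x i - densMean g i)) ^ 2 * g x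
        = ∑ i, ∑ j, w i * w j * densCov g i j := by
      have h2 := ex_cl_cl hL.eb w w
      rw [← h2]
      unfold ex
      refine integral_congr_ae (ae_of_all _ fun x => ?_)
      simp only [Cpt435.cl]
      ring
    have e2 : ∑ i, ∑ j, w i * w j * densCov g i j = w ⬝ᵥ (densCov g *ᵥ w) := by
      simp only [dotProduct, mulVec, Finset.mul_sum]
      refine Finset.sum_congr rfl fun i _ => Finset.sum_congr rfl fun j _ => ?_
      ring
    have e3 : w ⬝ᵥ (densCov g *ᵥ w) = a ^ 2 * (w ⬝ᵥ (densCov (aff g A 0) *ᵥ w)) := by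
      rw [densCov_aff hL hdet 0, ← mulVec_mulVec, ← mulVec_mulVec, hAT, dotProduct_mulVec,
        ← mulVec_transpose, hAT, mulVec_smul, smul_dotProduct, dotProduct_smul]
      simp only [smul_eq_mul]
      ring
    have e4 : w ⬝ᵥ (densCov (aff g A 0) *ᵥ w) =
        ∑ i, ∑ j, w i * w j * densCov (aff g A 0) i j := by
      simp only [dotProduct, mulVec, Finset.mul_sum]
      refine Finset.sum_congr rfl fun i _ => Finset.sum_congr rfl fun j _ => ?_
      ring
    rw [e1, e2, e3, e4]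
    exact mul_le_mul_of_nonneg_left (quad_le hδ hc hw) (sq_nonneg a)
  · -- Fisher
    have hVm : ∀ i, Measurable fun x : Fin n → ℝ => gr (Vl (Pf e A) v lam) (WithLp.toLp 2 x) i := by
      intro i
      exact ((continuous_gr (Dual441.contDiff_Vl hsm hv.sm lam) i).comp
        (PiLp.continuous_toLp 2 _)).measurable
    have e1 : ∫ x, (∑ i, w i * gr (Vl (Pf e A) v lam) (WithLp.toLp 2 x) i) ^ 2 * g x
        = ∫ u, (∑ i, w i * gr (Vl (Pf e A) v lam) (WithLp.toLp 2 (0 + A *ᵥ u)) i) ^ 2 *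
          aff g A 0 u := by
      have h2 := ex_aff (f := g)
        (ψ := fun x => (∑ i, w i * gr (Vl (Pf e A) v lam) (WithLp.toLp 2 x) i) ^ 2) hL.meas
        ((Finset.measurable_sum _ fun i _ => (hVm i).const_mul _).pow_const 2) hdet 0
      exact h2.symm
    have e2 : ∀ u, ∑ i, w i * Gf (Pf e A) v lam A i u
        = a * ∑ j, w j * gr (Vl (Pf e A) v lam) (WithLp.toLp 2 (0 + A *ᵥ u)) j := by
      intro u
      have h3 : ∀ j, ∑ i, A j i * w i = a * w j := by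
        intro j
        have := congrFun haw j
        simpa [mulVec, dotProduct] using this
      simp only [Gf, zero_add, aL_toLp, Finset.mul_sum]
      rw [Finset.sum_comm]
      refine Finset.sum_congr rfl fun j _ => ?_
      have h4 : ∑ i, w i * (A j i * gr (Vl (Pf e A) v lam) (WithLp.toLp 2 (A *ᵥ u)) j)
          = (∑ i, A j i * w i) * gr (Vl (Pf e A) v lam) (WithLp.toLp 2 (A *ᵥ u)) j := by
        rw [Finset.sum_mul]
        refine Finset.sum_congr rfl fun i _ => ?_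
        ring
      rw [h4, h3]; ring
    have hint : ∀ i j, Integrable fun u => Gf (Pf e A) v lam A i u * Gf (Pf e A) v lam A j u *
        aff g A 0 u := by
      intro i j
      have hLa : LCD (aff g A 0) := hL.comp_affine A hdet 0
      obtain ⟨K, hK⟩ := hF.grad
      have hK' : ∀ (x : E n) i, |gr (Pf e A) x i| ≤ |K| * (1 + ‖x‖) := fun x i =>
        (hK e A he (hee.trans he10) hA x i).trans
          (mul_le_mul_of_nonneg_right (le_abs_self K) (by positivity))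
      have hPB : ∀ i, PB (Gf (Pf e A) v lam A i) := by
        intro i
        refine ⟨(continuous_Gf hsm hv.sm A i).measurable,
          (n * r * (1 + |K| + e0) * (1 + n * r * n)), 1, ?_, fun u =>
          Gf_bound hd.le hr hA hsm hv (abs_nonneg K) (hee.trans he10) hF.e0_pos.le hK' i u⟩
        have := hF.e0_pos
        positivity
      exact hLa.eb.integrable_mul ((hPB i).mul (hPB j))
    have e3 : a ^ 2 * ∫ u, (∑ i, w i * gr (Vl (Pf e A) v lam) (WithLp.toLp 2 (0 + A *ᵥ u)) i) ^ 2 *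
          aff g A 0 u = ∑ i, ∑ j, w i * w j * ∫ u, Gf (Pf e A) v lam A i u *
            Gf (Pf e A) v lam A j u * aff g A 0 u := by
      have h5 : ∀ u, a ^ 2 * ((∑ i, w i * gr (Vl (Pf e A) v lam)
          (WithLp.toLp 2 (0 + A *ᵥ u)) i) ^ 2 * aff g A 0 u)
          = ∑ i, ∑ j, w i * w j * (Gf (Pf e A) v lam A i u * Gf (Pf e A) v lam A j u *
            aff g A 0 u) := by
        intro u
        have h6 : a ^ 2 * ((∑ i, w i * gr (Vl (Pf e A) v lam)
          (WithLp.toLp 2 (0 + A *ᵥ u)) i) ^ 2 * aff g A 0 u)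
          = ((∑ i, w i * Gf (Pf e A) v lam A i u) * (∑ j, w j * Gf (Pf e A) v lam A j u)) *
            aff g A 0 u := by
          rw [e2 u]; ring
        rw [h6, Finset.sum_mul_sum, Finset.sum_mul]
        refine Finset.sum_congr rfl fun i _ => ?_
        rw [Finset.sum_mul]
        refine Finset.sum_congr rfl fun j _ => ?_
        ring
      rw [← integral_const_mul]
      simp only [h5]
      rw [integral_finsetSum _ fun i _ => integrable_finsetSum _ fun j _ =>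
        (hint i j).const_mul _]
      refine Finset.sum_congr rfl fun i _ => ?_
      rw [integral_finsetSum _ fun j _ => (hint i j).const_mul _]
      refine Finset.sum_congr rfl fun j _ => ?_
      rw [integral_const_mul]
    rw [e1, e3]
    exact quad_le (C := Matrix.of fun i j => ∫ u, Gf (Pf e A) v lam A i u *
            Gf (Pf e A) v lam A j u * aff g A 0 u)
      (D := Matrix.of fun i j => ∫ u, G0 P0 i u * G0 P0 j u * f0 P0 u) hδ
      (fun i j => by simpa using hf i j) hw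

/-! ### output of step B -/

/-- **step (L)**: if for all small `e` there is a good density of the family, `f₀` has `SB` -/
theorem Fam.SB (hF : Fam P0 d r e0 Pf) (hd : 0 < d) (hr : 0 ≤ r) (hL0 : LCD (f0 P0))
    {Good : ((Fin n → ℝ) → ℝ) → Prop} {e2 : ℝ} (he2 : 0 < e2)
    (H : ∀ e, 0 < e → e ≤ e2 → ∃ A lam, ∃ v : E n → ℝ, Ell d r A ∧ AdmV e lam v ∧
      LCD (den (Pf e A) v lam) ∧ Good (den (Pf e A) v lam)) : SB Good (f0 P0) := by
  have hpos : ∀ k : ℕ, 0 < min (min e0 e2) (1 / ((k : ℝ) + 1)) := fun k =>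
    lt_min (lt_min hF.e0_pos he2) Nat.one_div_pos_of_nat
  choose A lam v hA hv hL hG using fun k : ℕ =>
    H _ (hpos k) ((min_le_left _ _).trans (min_le_right _ _))
  have hs : SeqD d r e0 Pf (fun k : ℕ => min (min e0 e2) (1 / ((k : ℝ) + 1))) lam A v := by
    refine ⟨hpos, fun k => (min_le_left _ _).trans (min_le_left _ _), ?_, hA, hv,
      fun k => (hL k).int1⟩
    exact squeeze_zero (fun k => (hpos k).le) (fun k => min_le_right _ _)
      tendsto_one_div_add_atTop_nhds_zero_nat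
  have hcv := (hs.cv hF hd hr).1
  have hdet : ∀ k, (A k).det ≠ 0 := fun k => ((hA k).sm_det_pos hd).ne'
  have hint : ∀ k : ℕ, ∫ x, aff (den (Pf (min (min e0 e2) (1 / ((k : ℝ) + 1))) (A k)) (v k) (lam k))
      (A k) 0 x = 1 := fun k => ((hL k).comp_affine (A k) (hdet k) 0).int1
  refine ⟨fun k : ℕ => den (Pf (min (min e0 e2) (1 / ((k : ℝ) + 1))) (A k)) (v k) (lam k), A, hG,
    fun k => (hA k).sm_posDef hd, hcv.tendsto_L1, ?_,
    fun i j => hcv.tendsto_densCov hL0.eb hint hL0.int1 i j, fun i => hcv.tendsto_densMean i⟩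
  have h1 := hcv.tendsto_DD hL0 hint
  simpa only [DD_aff (hL _) (hdet _) 0] using h1

end unif

end Crest.Agent.R253.Lim140
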