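import Crest.Agent.R253.NormX_944
import Crest.Agent.R253.LimZ_140
import Crest.Agent.R253.FamC_706
import Crest.Agent.R253.FinDat_505
import Crest.Agent.R253.DensE_970

/-!
# Row 253: `ApproxN n` (helper944)

Assembly of the approximation theorem: every log-concave density is (in the sense of `SB`) a limit
of affine images of good densities.  Inputs: the family `PA` (706), the limits `e → 0` (140), the
existence theorem `Br.exiU_all` (505 and the team), the normalisation (`exists_zero_PA`), the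
density theorem `exists_seq1` (970).
-/

set_option autoImplicit false

open MeasureTheory ProbabilityTheory Set Filter Topology Matrix
open scoped ContDiff

noncomputable section

namespace Crest.Agent.R253.ApproxN944

open Crest.Agent.R238 (Ell)
open Crest.Agent.R238.Gap
open Crest.Agent.R253.Meh74 Crest.Agent.R253.Mills37
open Crest.Agent.R253.SpecCalc999 (Mat)
open Crest.Agent.R253.Lim140 Crest.Agent.R253.Cpt435
open Crest.Agent.R253.Dual441 Crest.Agent.R253.NormCont666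
open Crest.Agent.R253.Br (gr PDatB PCB)
open Crest.Agent.R253.Fam706 (PA Bx)
open Crest.Agent.R253.Norm944
open Crest.Agent.R253.Dens970 (p1 exists_seq1)
open Crest.Agent.R253.Fin505
open Crest.GeometryTopology.Isotropic

variable {n : ℕ}

/-- the family -/
def Pf (P0 : E n → ℝ) (e : ℝ) (A : Matrix (Fin n) (Fin n) ℝ) : E n → ℝ := PA P0 e (aL A⁻¹)

lemma aL_mem {d R : ℝ} {A : Matrix (Fin n) (Fin n) ℝ} (hA : Ell d R A) (hd : 0 < d)
    (hdR : d < R) : aL A⁻¹ ∈ Bx (n := n) (1 / R) (1 / d) := by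
  rw [← BA_eq]; exact BA_mem_Bx (Box_iff.2 hA) hd hdR

theorem fam_inst {P0 : E n → ℝ} (hP : PDatB P0) {d R : ℝ} (hd : 0 < d) (hdR : d < R) :
    ∃ c e0 : ℝ, 0 < c ∧ 0 < e0 ∧ Fam P0 d R e0 (Pf P0) ∧
      ∀ e, 0 < e → e ≤ e0 → ∃ C2 C3 M0 M1 R0 : ℝ, ∀ A, Ell d R A →
        PCB (Pf P0 e A) c C2 C3 M0 M1 R0 := by
  have hR : 0 < R := hd.trans hdR
  have hb1 : 0 < 1 / R := by positivity
  have hb : 1 / R ≤ 1 / d := one_div_le_one_div_of_le hd hdR.le
  obtain ⟨c, e0, hc0, hc1, he0, he1, hPC, -, a, C, ha, hlow⟩ := Fam706.fam hP hb1 hb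
  obtain ⟨K, hK0, hK⟩ := Fam706.fderiv_PA_le hP.tst hb1 hb
  refine ⟨c, e0, hc0, he0, ⟨he0, hP.tst.smooth, fun e A _ _ _ => Fam706.PA_smooth hP.tst.smooth e _,
    fun R' => ?_, ⟨a, C, ha, fun e A _ _ hA x => hlow e _ (aL_mem hA hd hdR) x⟩,
    ⟨K, fun e A he hee hA x i => ?_⟩⟩, fun e he hee => ?_⟩
  · have h0 : 0 ≤ Real.log (1 + R' ^ 2) := Real.log_nonneg (by nlinarith [sq_nonneg R'])
    refine ⟨1 / (1 + Real.log (1 + R' ^ 2)), by positivity, fun e A he hee hA x hx => ?_⟩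
    refine Fam706.PA_eq ?_
    have h1 : Real.log (1 + ‖x‖ ^ 2) ≤ Real.log (1 + R' ^ 2) := by
      refine Real.log_le_log (by positivity) ?_
      have := norm_nonneg x
      nlinarith
    have h2 : 0 ≤ Real.log (1 + ‖x‖ ^ 2) := Real.log_nonneg (by nlinarith [sq_nonneg ‖x‖])
    calc e * Real.log (1 + ‖x‖ ^ 2) ≤ 1 / (1 + Real.log (1 + R' ^ 2)) * Real.log (1 + R' ^ 2) :=
          mul_le_mul hee h1 h2 (by positivity)
      _ ≤ 1 := by
          rw [one_div, inv_mul_le_iff₀ (by positivity)]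
          linarith
  · have h1 := hK e he.le (hee.trans he1) _ (aL_mem hA hd hdR) x (Crest.Agent.R238.ee i)
    have h2 : ‖(Crest.Agent.R238.ee i : E n)‖ = 1 := by simp [Crest.Agent.R238.ee]
    rw [h2, mul_one] at h1
    exact h1
  · obtain ⟨C2, C3, M0, M1, R0, H⟩ := hPC e he hee
    exact ⟨C2, C3, M0, M1, R0, fun A hA => H _ (aL_mem hA hd hdR)⟩

lemma admV_of {P v : E n → ℝ} {lam lo hi K e : ℝ} (h : Sl P lam lo hi K v) (hl0 : 0 ≤ lam)
    (_he : 0 < e) (hl : lam * (n * |K| + |K| + 1) ≤ e) : AdmV e lam v := by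
  have hK : 0 ≤ |K| := abs_nonneg K
  have hb : ∀ x i, |gr v x i| ≤ |K| := fun x i => (h.b1 x i).trans (le_abs_self K)
  refine ⟨hl0, h.nice.smooth, fun x => ?_, fun x i => ?_⟩
  · have hd : Differentiable ℝ v := h.nice.smooth.differentiable (by simp)
    have hB : ∀ z, ‖fderiv ℝ v z‖ ≤ n * |K| := fun z =>
      Crest.Agent.R238.LimC2.opnorm1_le _ hK fun k => by
        rw [Real.norm_eq_abs]; exact hb z k
    have h1 := convex_univ.norm_image_sub_le_of_norm_fderiv_le (f := v)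
      (fun z _ => hd z) (fun z _ => hB z) (mem_univ (0 : E n)) (mem_univ x)
    rw [Real.norm_eq_abs, sub_zero] at h1
    calc lam * |v x - v 0| ≤ lam * (n * |K| * ‖x‖) := mul_le_mul_of_nonneg_left h1 hl0
      _ = lam * (n * |K|) * ‖x‖ := by ring
      _ ≤ e * ‖x‖ := by
          refine mul_le_mul_of_nonneg_right (le_trans ?_ hl) (norm_nonneg x)
          exact mul_le_mul_of_nonneg_left (by linarith) hl0
  · calc lam * |gr v x i| ≤ lam * |K| := mul_le_mul_of_nonneg_left (hb x i) hl0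
      _ ≤ e := by
          refine le_trans ?_ hl
          refine mul_le_mul_of_nonneg_left ?_ hl0
          have : (0 : ℝ) ≤ n * |K| := by positivity
          linarith

/-- **step B** for one datum -/
theorem stepB {P0 : E n → ℝ} (hP : PDatB P0) (hL : LCD (nrm (p1 P0))) :
    SB Good (f0 P0) := by
  have hm := mu_pos 0
  have hS := S0_pos P0
  have hI := I0_pos P0
  have hSs : 0 < Real.sqrt (S0 P0) := Real.sqrt_pos.2 hS
  have hIs : 0 < Real.sqrt (I0 P0) := Real.sqrt_pos.2 hI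
  set d : ℝ := mu 0 / Real.sqrt (S0 P0) with hd_def
  set R : ℝ := 2 * mu 0 * Real.sqrt (I0 P0) + d + 1 with hR_def
  have hd : 0 < d := by positivity
  have hdR : d < R := by rw [hR_def]; have := mul_pos (mul_pos two_pos hm) hIs; linarith
  have hR : 0 < R := hd.trans hdR
  have hdS : d ^ 2 * S0 P0 ≤ mu 0 ^ 2 := by
    rw [hd_def, div_pow, Real.sq_sqrt hS.le, div_mul_cancel₀ _ hS.ne']
  have hRI : mu 0 ^ 2 * I0 P0 < R ^ 2 := by
    have h1 : mu 0 ^ 2 * I0 P0 = (mu 0 * Real.sqrt (I0 P0)) ^ 2 := by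
      rw [mul_pow, Real.sq_sqrt hI.le]
    rw [h1]
    refine pow_lt_pow_left₀ ?_ (by positivity) (by norm_num)
    have := mul_pos hm hIs
    rw [hR_def]; linarith
  obtain ⟨c, e0, hc, he0, hF, hPC⟩ := fam_inst hP hd hdR
  have hL0 : LCD (f0 P0) := hL
  obtain ⟨e1, he1, he10, hmom⟩ := hF.moments hd hR.le hL0.eb hL0.int1
  refine hF.SB hd hR.le hL0 he1 fun e he hee => ?_
  obtain ⟨C2, C3, M0, M1, R0, hPB⟩ := hPC e he (hee.trans he10)
  obtain ⟨lo, hi, K, hlo, hlohi, hsol⟩ := exists_sol (Br.exiU_all n) c C2 C3 M0 M1 R0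
  have hhi : 0 < hi := hlo.trans_le hlohi
  have hK : 0 ≤ |K| := abs_nonneg K
  have hq : 0 < (n : ℝ) * |K| + |K| + 1 := by positivity
  obtain ⟨lam, hl0, hl1, hl2, hl3⟩ : ∃ lam : ℝ, 0 < lam ∧ lam ≤ 1 ∧ lam * hi ≤ c ∧
      lam * (n * |K| + |K| + 1) ≤ e := by
    refine ⟨min 1 (min (c / hi) (e / (n * |K| + |K| + 1))), by positivity, min_le_left _ _, ?_, ?_⟩
    · rw [← le_div_iff₀ hhi]
      exact (min_le_right _ _).trans (min_le_left _ _)
    · rw [← le_div_iff₀ hq]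
      exact (min_le_right _ _).trans (min_le_right _ _)
  have hadm : ∀ A, Ell d R A → ∀ (v : E n → ℝ) (G : E n → E n), Sol (Pf P0 e A) lam lo hi K v G →
      AdmV e lam v ∧ LCD (den (Pf P0 e A) v lam) := fun A hA v G hv =>
    ⟨admV_of hv.sl hl0.le he hl3,
      lcd_den (hPB A hA) hv.sl.nice hv.sl.ell hl0.le hl2 hv.push.fi⟩
  obtain ⟨A, hA, v, G, hv, hz⟩ := exists_zero_PA hP.tst hd hdR he hl0 hlo hlohi hdS hRI
    (fun A hA => hsol _ (hPB A hA) lam hl0 hl1 hl2)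
    (fun A hA v G hv w a hw hAw => by
      obtain ⟨h1, h2⟩ := hadm A hA v G hv
      exact hmom e A he hee hA lam v h1 h2 w a hw hAw)
  obtain ⟨h1, h2⟩ := hadm A hA v G hv
  exact ⟨A, lam, v, hA, h1, h2, good_of_Sl (hPB A hA) hv.sl hlo hlohi hl0.le hl2 hv.inv hz⟩

/-- **`ApproxN`** -/
theorem approxN (n : ℕ) : ApproxN n := by
  intro f hf
  obtain ⟨κ, Q, hκ, hQ, hL, hL', hCv, -, -⟩ := exists_seq1 hf
  have hG : ∀ g : (Fin n → ℝ) → ℝ, Good g → LCD g := fun g hg => hg.1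
  refine SB.of_limit hf hL' hCv (fun k => ?_) hG
  refine SB.scale (hL' k) (inv_pos.2 (hκ k)) hG ?_
  have h := stepB (hQ k) (hL k)
  have e1 : aff (aff (nrm (p1 (Q k))) (κ k • (1 : Matrix (Fin n) (Fin n) ℝ)) 0)
      ((κ k)⁻¹ • (1 : Matrix (Fin n) (Fin n) ℝ)) 0 = nrm (p1 (Q k)) := by
    rw [aff_aff]
    have h2 : κ k • (1 : Matrix (Fin n) (Fin n) ℝ) * ((κ k)⁻¹ • (1 : Matrix (Fin n) (Fin n) ℝ)) = 1 := by
      rw [smul_mul_smul_comm, one_mul, mul_inv_cancel₀ (hκ k).ne', one_smul]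
    rw [h2, aff_one]
  rw [e1]; exact h

end Crest.Agent.R253.ApproxN944
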