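import Crest.Agent.R238.ExtSm
import Crest.Agent.R238.AprMain
import Crest.Agent.R253.BrDefs_505

/-!
Row 253 (S0391), task T6, node B7, second half (helper214): assembly of the uniform a priori
bounds, `BndB → D3B → SchB → AprStmtB` (port of `R238.AprMain`).
-/

set_option autoImplicit false

open Set Filter
open scoped ContDiff Topology

namespace Crest.Agent.R253.Br

open Crest.Agent.R238

variable {n : ℕ}

/-- **B7, first half** (E1, E2, E3 and the two sup bounds): all constants independent of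
`lam, s, v`. -/
def BndB : Prop := ∀ (n : ℕ) (P : E n → ℝ), PDatB P → ∃ lo hi K K1 : ℝ, 0 < lo ∧ lo ≤ hi ∧
  ∀ lam s : ℝ, 0 < lam → lam ≤ 1 → 0 ≤ s → s ≤ 1 → ∀ v : E n → ℝ, NiceB v →
    (∃ lo'' hi'' : ℝ, 0 < lo'' ∧ ∀ x, Ell lo'' hi'' (gm v x)) → MAb P lam s v →
      (∀ x, Ell lo hi (gm v x)) ∧ (∀ x, lam * |v x| ≤ K) ∧ (∀ x i, |gr v x i| ≤ K) ∧
      (∀ x i j, |Hs v x i j| ≤ K1 * (1 + ‖x‖ ^ 2) ^ (-(1 / 4) : ℝ))

theorem hb_monoM {a M M' : ℝ} {f : E n → ℝ} (h : HB a M f) (hM : M ≤ M') : HB a M' f :=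
  ⟨fun x => (h.1 x).trans hM, fun x y => (h.2 x y).trans
    (mul_le_mul_of_nonneg_right hM (Real.rpow_nonneg (norm_nonneg _) _))⟩

theorem fderiv_gr {v : E n → ℝ} (hv : ContDiff ℝ 2 v) (i : Fin n) (x : E n) (k : Fin n) :
    fderiv ℝ (fun y => gr v y i) x (ee k) = Hs v x k i := by
  unfold gr Hs
  have h1 : ContDiff ℝ 1 (fderiv ℝ v) := hv.fderiv_right (by norm_num)
  have h2 : DifferentiableAt ℝ (fderiv ℝ v) x := (h1.differentiable (by norm_num)) x
  rw [fderiv_clm_apply h2 (differentiableAt_const _)]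
  simp

theorem differentiable_gr {v : E n → ℝ} (hv : ContDiff ℝ 2 v) (i : Fin n) :
    Differentiable ℝ (fun y => gr v y i) := by
  have h1 : ContDiff ℝ 1 (fderiv ℝ v) := hv.fderiv_right (by norm_num)
  exact ((h1.differentiable (by norm_num)).clm_apply (differentiable_const _))

theorem aprStmtB_of (hB : BndB) (hD3 : D3B) (hS : SchB) : AprStmtB := by
  intro n a ha ha1 P hP
  obtain ⟨lo, hi, K, K1, hlo, hlohi, hbnd⟩ := hB n P hP
  have hhi : 0 < hi := hlo.trans_le hlohi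
  obtain ⟨K3, hK3⟩ := hD3 n P hP lo hi hlo hlohi
  have hn0 : (0 : ℝ) ≤ n := Nat.cast_nonneg n
  set L3 : ℝ := n * |K3| with hL3
  have hL30 : 0 ≤ L3 := by positivity
  have hlip : ∀ lam s : ℝ, 0 < lam → lam ≤ 1 → 0 ≤ s → s ≤ 1 → ∀ v : E n → ℝ, NiceB v →
      (∀ x, Ell lo hi (gm v x)) → MAb P lam s v →
      ∀ x y i j, |Hs v x i j - Hs v y i j| ≤ L3 * ‖x - y‖ := by
    intro lam s hlam hlam1 hs0 hs1 v hv hell hma x y i j
    have hd : Differentiable ℝ (fun y => Hs v y i j) :=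
      (Apr.contDiff_Hs hv.smooth i j).differentiable (by simp)
    exact ExtSm.lip_of_partials hd
      (fun x k => (hK3 lam s hlam hlam1 hs0 hs1 v hv hell hma x i j k).trans (le_abs_self _)) x y
  -- Schauder constants
  have hhilo : (1 : ℝ) / hi ≤ 1 / lo := one_div_le_one_div_of_le hlo hlohi
  obtain ⟨ε₀, hε₀, hcore⟩ := hS n a (1 / hi) (1 / lo) ha ha1 (by positivity) hhilo
  obtain ⟨Rτ, -, -, hRτ⟩ := ExtSm.ext_small (R1 := 0) n ha ha1 hlo hlohi
    (K := |K1|) (K3 := L3) (abs_nonneg _) hL30 hε₀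
  set Mt : ℝ := 2 * (1 / lo) + (n : ℝ) ^ 2 * (1 / lo) ^ 2 * L3 with hMt
  have hMt0 : 0 ≤ Mt := by positivity
  set Mg : ℝ := 2 * |K| + n * (hi + 1) with hMg
  have hMg0 : 0 ≤ Mg := by positivity
  refine ⟨lo, hi, |K| + |K3|, hlo, hlohi, fun lam hlam hlam1 => ?_⟩
  set Mv : ℝ := 2 * (|K| / lam) + n * |K| with hMv
  have hMv0 : 0 ≤ Mv := by positivity
  set Mh : ℝ := 2 * (hi + 1) + L3 with hMh
  have hMh0 : 0 ≤ Mh := by positivity
  obtain ⟨M2, hM2, hM2'⟩ := hcore lam (Mt + Mg) Rτ hlam hlam1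
  refine ⟨Mv + Mg + Mh, M2, fun ε hε => ?_⟩
  obtain ⟨Rε, -, -, hRε⟩ := ExtSm.ext_small (R1 := 0) n ha ha1 hlo hlohi
    (K := |K1|) (K3 := L3) (abs_nonneg _) hL30 hε
  refine ⟨Rε, fun s hs0 hs1 v hv hell' hma => ?_⟩
  obtain ⟨hell, hK0, hKg, hdec0⟩ := hbnd lam s hlam hlam1 hs0 hs1 v hv hell' hma
  have hL := hlip lam s hlam hlam1 hs0 hs1 v hv hell hma
  have hv2 : ContDiff ℝ 2 v := by exact_mod_cast contDiff_infty.1 hv.smooth 2
  have hdec : ∀ x, 0 ≤ ‖x‖ → ∀ i j, |Hs v x i j| ≤ |K1| * (1 + ‖x‖ ^ 2) ^ (-(1 / 4) : ℝ) := by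
    intro x _ i j
    exact (hdec0 x i j).trans (mul_le_mul_of_nonneg_right (le_abs_self _)
      (Real.rpow_nonneg (by positivity) _))
  have hgr : ∀ x i, |gr v x i| ≤ |K| := fun x i => (hKg x i).trans (le_abs_self _)
  have hHBg : ∀ i, HB a Mg (fun x => gr v x i) := by
    intro i
    refine ExtSm.hb_of_lip ha ha1 (abs_nonneg _) (by positivity) (fun x => hgr x i)
      (fun x y => ?_)
    refine ExtSm.lip_of_partials (f := fun y => gr v y i) (differentiable_gr hv2 i)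
      (M := hi + 1) (fun x k => ?_) x y
    rw [fderiv_gr hv2]
    exact ExtSm.Hs_le hlo (hell x) k i
  have hHBv : HB a Mv v := by
    refine ExtSm.hb_of_lip ha ha1 (by positivity) (by positivity) (fun x => ?_) (fun x y => ?_)
    · rw [le_div_iff₀ hlam, mul_comm]
      exact (hK0 x).trans (le_abs_self _)
    · exact ExtSm.lip_of_partials (hv2.differentiable (by norm_num)) (M := |K|)
        (fun x k => hgr x k) x y
  have hHBh : ∀ i j, HB a Mh (fun x => Hs v x i j) := fun i j =>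
    ExtSm.hb_Hs ha ha1 hlo hlohi hL30 hell hL i j
  refine ⟨hell, fun x => ?_, fun x i => ?_, fun x i j k => ?_, ?_, ?_, ?_⟩
  · exact (hK0 x).trans (by linarith [le_abs_self K, abs_nonneg K3])
  · exact (hKg x i).trans (by linarith [le_abs_self K, abs_nonneg K3])
  · exact (hK3 lam s hlam hlam1 hs0 hs1 v hv hell hma x i j k).trans
      (by linarith [le_abs_self K3, abs_nonneg K])
  · exact ⟨hv2, hb_monoM hHBv (by linarith), fun i => hb_monoM (hHBg i) (by linarith),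
      fun i j => hb_monoM (hHBh i j) (by linarith)⟩
  · refine hM2' (tauf v) (gr v) (fun x => ?_) (fun i j => ?_) (fun i => ?_) ?_
    · exact Apr.Ell.inv (hell x) hlo hhi
    · exact hb_monoM (ExtSm.hb_tauf ha ha1 hlo hlohi hL30 hell hL i j) (by linarith)
    · exact hb_monoM (hHBg i) (by linarith)
    · intro x y hx hy i j
      exact (hRτ v hell hdec hL x y hx hy i j).2
  · constructor
    · intro x hx i j
      exact (hRε v hell hdec hL x x hx hx i j).1.1
    · intro x y hx hy i j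
      exact (hRε v hell hdec hL x y hx hy i j).1.2

end Crest.Agent.R253.Br
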