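import Crest.Agent.R238.ExiAsm
import Crest.Agent.R253.BrDefs_505

/-!
Row 253 (S0391), task T6, node B9 (helper214): assembly of the continuity method,
`SolB → StepB → AprStmtB → RegB → ∀ n, ExiB n` (port of `R238.ExiAsm`).
-/

set_option autoImplicit false

open Set Filter
open scoped ContDiff Topology

namespace Crest.Agent.R253.Br

open Crest.Agent.R238

variable {n : ℕ}

theorem gr_zero (x : E n) (i : Fin n) : gr (fun _ : E n => (0 : ℝ)) x i = 0 := by
  unfold gr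
  have h : (fderiv ℝ (fun _ : E n => (0 : ℝ))) = fun _ => 0 := by
    funext y; simp
  rw [h]; simp

theorem niceB_zero : NiceB (fun _ : E n => (0 : ℝ)) := by
  refine ⟨contDiff_const, fun k => ⟨0, fun x => ?_⟩⟩
  rcases Nat.eq_zero_or_pos k with hk | hk
  · subst hk; simp
  · have : iteratedFDeriv ℝ k (fun _ : E n => (0 : ℝ)) = 0 := by
      rw [iteratedFDeriv_const_of_ne (by omega)]
    rw [this]; simp

/-- the induction hypothesis of the continuity method -/
def HkB (a lam lo hi : ℝ) (P : E n → ℝ) (s : ℝ) : Prop :=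
  ∃ v : E n → ℝ, NiceB v ∧ (∀ x, Ell lo hi (gm v x)) ∧ MAb P lam s v ∧
    SrjB a lam (gr v) (tauf v)

theorem exists_startB (hsol : SolB) {a lam : ℝ} (ha : 0 < a) (ha1 : a < 1) (hlam : 0 < lam)
    (P : E n → ℝ) : HkB a lam 1 1 P 0 := by
  refine ⟨fun _ => 0, niceB_zero, fun x => ?_, fun x => ?_, ?_⟩
  · rw [gm_zero]; exact Ell_one
  · rw [gm_zero]
    simp [gr_zero]
  · intro f N hf
    obtain ⟨C, -, hC⟩ := hsol n a lam ha ha1 hlam
    obtain ⟨v, hv, hveq⟩ := hC f N hf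
    refine ⟨v, ⟨C * N, hv⟩, fun x => ?_⟩
    unfold Lb
    rw [tauf_zero, ← hveq x]
    simp [gr_zero]

theorem exiB (hsol : SolB) (hstep : StepB) (hapr : AprStmtB) (hreg : RegB) :
    ∀ n, ExiB n := by
  intro n P hP
  have ha : (0 : ℝ) < 1 / 2 := by norm_num
  have ha1 : (1 / 2 : ℝ) < 1 := by norm_num
  set a : ℝ := 1 / 2 with hadef
  obtain ⟨lo, hi, K, hlo, hlohi, hA0⟩ := hapr n a ha ha1 P hP
  refine ⟨lo, hi, K, hlo, hlohi, fun lam hlam hlam1 => ?_⟩
  obtain ⟨M, M2, hA⟩ := hA0 lam hlam hlam1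
  obtain ⟨ε₁, hε₁, hR⟩ := hreg n a (lo / 2) (hi + lo / 2) ha ha1 (by positivity) (by linarith)
  obtain ⟨R, hR0⟩ := hA (ε₁ / 2) (by positivity)
  obtain ⟨NP, hNP⟩ := hP.tst.hb ha ha1
  obtain ⟨t₀, ht₀, hS⟩ := hstep n a lam lo hi M M2 NP (ε₁ / 2) ha ha1 hlam hlam1 hlo hlohi
    (by positivity)
  -- one step
  have hstep1 : ∀ s : ℝ, 0 ≤ s → s ≤ 1 → HkB a lam lo hi P s → ∀ s' : ℝ, s ≤ s' → s' ≤ s + t₀ →
      s' ≤ 1 → HkB a lam lo hi P s' := by
    rintro s hs0 hs1 ⟨v, hvN, hvE, hvM, hvS⟩ s' h1 h2 h3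
    obtain ⟨-, -, -, -, hCls, hAP, hExt⟩ := hR0 s hs0 hs1 v hvN ⟨lo, hi, hlo, hvE⟩ hvM
    obtain ⟨v', hC', hD', hE', hM', hS'⟩ := hS P hNP s v hCls hvE hvM hAP hvS s' ⟨h1, h2⟩
    have hExt' : ExtS a ε₁ R v' := by
      constructor
      · intro x hx i j
        have h4 := hExt.1 x hx i j
        have h5 := (hD' i j).1 x
        have : Hs v' x i j = Hs v x i j + (Hs v' x i j - Hs v x i j) := by ring
        rw [this]
        exact (abs_add_le _ _).trans (by linarith)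
      · intro x y hx hy i j
        have h4 := hExt.2 x y hx hy i j
        have h5 := (hD' i j).2 x y
        have : Hs v' x i j - Hs v' y i j = (Hs v x i j - Hs v y i j) +
            ((Hs v' x i j - Hs v x i j) - (Hs v' y i j - Hs v y i j)) := by ring
        rw [this]
        refine (abs_add_le _ _).trans ?_
        calc _ ≤ ε₁ / 2 * ‖x - y‖ ^ a + ε₁ / 2 * ‖x - y‖ ^ a := add_le_add h4 h5
          _ = ε₁ * ‖x - y‖ ^ a := by ring
    have hN' : NiceB v' :=
      hR (M + ε₁ / 2) R P hP.tst lam s' v' hlam hlam1 hC' hE' hM' hExt'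
    obtain ⟨hE'', -⟩ := hR0 s' (hs0.trans h1) h3 v' hN'
      ⟨lo / 2, hi + lo / 2, by positivity, hE'⟩ hM'
    exact ⟨v', hN', hE'', hM', hS'⟩
  -- start
  have h0 : HkB a lam lo hi P 0 := by
    obtain ⟨v, hvN, hvE, hvM, hvS⟩ := exists_startB hsol ha ha1 hlam P
    obtain ⟨hE'', -⟩ := hR0 0 le_rfl zero_le_one v hvN ⟨1, 1, one_pos, hvE⟩ hvM
    exact ⟨v, hvN, hE'', hvM, hvS⟩
  -- induction
  have hind : ∀ k : ℕ, HkB a lam lo hi P (min (k * t₀) 1) := by
    intro k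
    induction k with
    | zero => simpa using h0
    | succ k ih =>
      refine hstep1 _ (le_min (by positivity) zero_le_one) (min_le_right _ _) ih _ ?_ ?_
        (min_le_right _ _)
      · refine min_le_min_right _ ?_
        have : (k : ℝ) * t₀ ≤ (k + 1 : ℕ) * t₀ := by
          apply mul_le_mul_of_nonneg_right _ ht₀.le; push_cast; linarith
        exact this
      · have h5 : ((k + 1 : ℕ) : ℝ) * t₀ = k * t₀ + t₀ := by push_cast; ring
        rw [h5]
        rcases le_total ((k : ℝ) * t₀) 1 with h6 | h6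
        · rw [min_eq_left h6]; exact min_le_left _ _
        · rw [min_eq_right h6]
          exact (min_le_right _ _).trans (by linarith)
  obtain ⟨k, hk⟩ := exists_nat_gt (1 / t₀)
  have h1 : HkB a lam lo hi P 1 := by
    have h2 := hind k
    have h3 : 1 ≤ (k : ℝ) * t₀ := by
      rw [div_lt_iff₀ ht₀] at hk; exact hk.le
    rwa [min_eq_right h3] at h2
  obtain ⟨v, hvN, hvE, hvM, hvS⟩ := h1
  obtain ⟨-, hK0, hK1, hK3, -⟩ := hR0 1 zero_le_one le_rfl v hvN ⟨lo, hi, hlo, hvE⟩ hvM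
  exact ⟨v, hvN, hvE, hK0, hK1, hK3, hvM⟩

end Crest.Agent.R253.Br
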