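import Crest.Agent.R253.DualP_973

/-!
# R253: the weighted dual bound with the one-sided field, the estimate (helper973)
-/

set_option autoImplicit false

open MeasureTheory ProbabilityTheory Real Set Filter Topology Matrix
open scoped ContDiff

noncomputable section

namespace Crest.Agent.R253.DualP973

open Crest.Agent.R238.Gap Crest.Agent.R238.GapPoinc Crest.Agent.R238.GapPc
open Crest.Agent.R253.SpecCalc999 Crest.Agent.R253.Meh74 Crest.Agent.R253.SpecField321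
open Crest.Agent.R253.Jord192

variable {n : ℕ}

lemma hs5 {w : Fin 5 → ℝ} (hw : ∀ i, 0 < w i) (h1 : ∑ i, w i = 1) (X : Fin 5 → Mat n) :
    hs (∑ i, X i) ≤ ∑ i, hs (X i) / w i := by
  have h := hs_sum_le Finset.univ w (fun i _ => hw i) X
  rwa [h1, one_mul] at h

lemma EE_sum' {ι : Type*} (s : Finset ι) {f : ι → E n → ℝ} (hf : ∀ i, CG (f i)) :
    EE (fun x => ∑ i ∈ s, f i x) = ∑ i ∈ s, EE (f i) := EE_sum fun i _ => hf i

/-- `Σ_q Σ_k ∫ g² = Σ_k E hs` -/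
lemma sum_pair_eq {F : Fin n → E n → Mat n} (hF : ∀ k, CM (F k)) :
    ∑ q : Fin n × Fin n, ∑ k, EE (fun x => F k x q.1 q.2 ^ 2) = EE (fun x => ∑ k, hs (F k x)) := by
  rw [EE_sum' _ fun k => (hF k).hs, Finset.sum_comm]
  refine Finset.sum_congr rfl fun k _ => ?_
  have h1 : EE (fun x => hs (F k x)) = ∑ i, ∑ j, EE (fun x => F k x i j ^ 2) :=
    EE_sum2 (f := fun i j x => F k x i j ^ 2) fun i j => (hF k i j).sq
  rw [h1, Fintype.sum_prod_type]

lemma sum_pair_eq1 {F : E n → Mat n} (hF : CM F) :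
    ∑ q : Fin n × Fin n, EE (fun x => F x q.1 q.2 ^ 2) = EE (fun x => hs (F x)) := by
  have h1 : EE (fun x => hs (F x)) = ∑ i, ∑ j, EE (fun x => F x i j ^ 2) :=
    EE_sum2 (f := fun i j x => F x i j ^ 2) fun i j => (hF i j).sq
  rw [h1, Fintype.sum_prod_type]

lemma EE_xx (j k : Fin n) : EE (fun x : E n => x j * x k) = if j = k then 1 else 0 := by
  unfold EE
  rw [ibp_gam (c1_coord j).c (pg_coord j) k ((c1_coord j).p k)]
  simp_rw [pd_coord]
  simp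

/-- `E |Σ x_k A_k|² = Σ |A_k|²` -/
lemma EE_hs_lin (A : Fin n → Mat n) :
    EE (fun x : E n => hs (∑ k, x k • A k)) = ∑ k, hs (A k) := by
  have h1 : EE (fun x : E n => hs (∑ k, x k • A k)) =
      ∑ i, ∑ j, EE (fun x : E n => (∑ k, x k * A k i j) ^ 2) := by
    have := EE_sum2 (f := fun i j (x : E n) => (∑ k, x k * A k i j) ^ 2) fun i j =>
      (CG.sum fun k _ => (cg_coord k).mulc (A k i j)).sq
    rw [← this]
    refine EE_congr fun x => ?_
    unfold hs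
    refine Finset.sum_congr rfl fun i _ => Finset.sum_congr rfl fun j _ => ?_
    rw [Matrix.sum_apply]
    rfl
  have h2 : ∀ i j, EE (fun x : E n => (∑ k, x k * A k i j) ^ 2) = ∑ k, A k i j ^ 2 := by
    intro i j
    have e1 : ∀ x : E n, (∑ k, x k * A k i j) ^ 2 =
        ∑ k, ∑ l, A k i j * A l i j * (x k * x l) := fun x => by
      rw [sq, Finset.sum_mul_sum]
      exact Finset.sum_congr rfl fun k _ => Finset.sum_congr rfl fun l _ => by ring
    rw [EE_congr e1, EE_sum' _ fun k => CG.sum fun l _ =>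
      ((cg_coord k).mul (cg_coord l)).smul _]
    refine Finset.sum_congr rfl fun k _ => ?_
    rw [EE_sum' _ fun l => ((cg_coord k).mul (cg_coord l)).smul _]
    simp_rw [EE_smul, EE_xx]
    simp [sq]
  rw [h1]
  simp_rw [h2]
  unfold hs
  rw [Finset.sum_congr rfl fun i _ => Finset.sum_comm, Finset.sum_comm]

section field

variable {ζ : Fld n} {lo hi : ℝ} {v w v2 : ℝ → ℝ}

lemma cg_cfc (hζ : MF ζ lo hi) {f : ℝ → ℝ} (hf : ContinuousOn f (Icc lo hi)) :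
    CM (fun x => _root_.cfc f (Mx ζ x)) := by
  intro i j
  have hc : Continuous (fun x => _root_.cfc f (Mx ζ x) i j) := by
    rw [continuous_iff_continuousAt]
    intro x0
    exact tendsto_cfc_entry isCompact_Icc hf (Eventually.of_forall fun x => ⟨hζ.h x, hζ.s x⟩)
      (hζ.h x0) (hζ.s x0) (fun a b => (hζ.c a b).cont.continuousAt) i j
  obtain ⟨K, hK⟩ := isCompact_Icc.exists_bound_of_continuousOn hf
  refine ⟨hc, PG.of_bdd (K := K) fun x => ?_⟩
  exact abs_cfc_entry_le (hζ.h x) (hζ.s x) (fun t ht => by simpa using hK t ht) i j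

lemma hs_mulW (hζ : MF ζ lo hi) {f : ℝ → ℝ} {a : ℝ} (hf : ∀ x ∈ Icc lo hi, |f x| ≤ a) (X : Mat n)
    (x : E n) : hs (X * _root_.cfc f (Mx ζ x)) ≤ a ^ 2 * hs X :=
  hs_mul_cfc_le (hζ.h x) (fun t ht => hf t (hζ.s x ht)) X

/-- **main part**: centred device with weights -/
theorem main_le (hζ : MF ζ lo hi) (h0 : ∀ i j, EE (ζ i j) = 0)
    (cw : ContinuousOn w (Icc lo hi)) (bw : ∀ x ∈ Icc lo hi, |w x| ≤ 1 / 4) (C : Mat n) :
    EE (fun x => ∑ k, hs (C * (Mx (dk k (ef ζ)) x * _root_.cfc w (Mx ζ x)) +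
        (1 / 4 : ℝ) • (C * (Mx (dk k (ef ζ)) x - (2 : ℝ) • Mx (dk k (Rf (ef ζ))) x)))) +
      EE (fun x => hs (C * (Mx (ef ζ) x * _root_.cfc w (Mx ζ x)) -
        (1 / 4 : ℝ) • (C * (Mx (ef ζ) x - (2 : ℝ) • Mx (Rf (ef ζ)) x)))) ≤
    1 / 3 * (EE (fun x => ∑ k, hs (C * Mx (dk k (ef ζ)) x)) -
      EE (fun x => hs (C * Mx (ef ζ) x))) := by
  have c1e : ∀ i j, C1 (ef ζ i j) := fun i j => c1_ef hζ i j
  have c1r : ∀ i j, C1 (Rf (ef ζ) i j) := fun i j => c1_Rs (c1e i j)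
  have cW : CM (fun x => _root_.cfc w (Mx ζ x)) := cg_cfc hζ cw
  have cp : ∀ k, CM (fun x => Mx (dk k (ef ζ)) x) := fun k => CM.mx fun i j => (c1e i j).cgp k
  have ce : CM (fun x => Mx (ef ζ) x) := CM.mx fun i j => (c1e i j).cg
  have crk : ∀ k, CM (fun x => Mx (dk k (Rf (ef ζ))) x) := fun k =>
    CM.mx fun i j => (c1r i j).cgp k
  have cr : CM (fun x => Mx (Rf (ef ζ)) x) := CM.mx fun i j => (c1r i j).cg
  -- the scalar functions
  set f : Fin n × Fin n → E n → ℝ := fun q x => ∑ p, C q.1 p * ef ζ p q.2 x with hf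
  have hf1 : ∀ q, C1 (f q) := fun q => C1.sum fun p _ => (c1e p q.2).smul _
  have hfm : ∀ q x, f q x = (C * Mx (ef ζ) x) q.1 q.2 := fun q x => by
    rw [Matrix.mul_apply]; rfl
  have hfd : ∀ q k x, pd k (f q) x = (C * Mx (dk k (ef ζ)) x) q.1 q.2 := fun q k x => by
    rw [hf, pd_sum' (f := fun p x => C q.1 p * ef ζ p q.2 x) fun p _ => (c1e p q.2).smul _,
      Matrix.mul_apply]
    refine Finset.sum_congr rfl fun p _ => ?_
    rw [(c1_const _).pd_mul (c1e p q.2), pd_const_c]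
    simp only [zero_mul, zero_add]
    rfl
  have hfR : ∀ q x, Rs (f q) x = (C * Mx (Rf (ef ζ)) x) q.1 q.2 := fun q x => by
    unfold Rs
    have h := Rw_sum Real.continuous_sin sin_b Finset.univ
      (g := fun p x => C q.1 p * ef ζ p q.2 x) (fun p _ => ((c1e p q.2).smul _).cont)
      (fun p _ => ((c1e p q.2).smul _).g) x
    rw [hf, h, Matrix.mul_apply]
    exact Finset.sum_congr rfl fun p _ => Rw_smul _ _ _ _
  have hfRd : ∀ q k x, pd k (Rs (f q)) x = (C * Mx (dk k (Rf (ef ζ))) x) q.1 q.2 := fun q k x => by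
    have e : Rs (f q) = fun x => ∑ p, C q.1 p * Rf (ef ζ) p q.2 x := by
      funext y; rw [hfR q y, Matrix.mul_apply]; rfl
    rw [e, pd_sum' (f := fun p x => C q.1 p * Rf (ef ζ) p q.2 x) fun p _ => (c1r p q.2).smul _,
      Matrix.mul_apply]
    refine Finset.sum_congr rfl fun p _ => ?_
    rw [(c1_const _).pd_mul (c1r p q.2), pd_const_c]
    simp only [zero_mul, zero_add]
    rfl
  have i0 : ∀ q, ∫ x, f q x ∂(gam n) = 0 := fun q => by
    have : EE (f q) = ∑ p, EE (fun x => C q.1 p * ef ζ p q.2 x) :=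
      EE_sum' _ fun p => ((c1e p q.2).smul _).cg
    refine this.trans (Finset.sum_eq_zero fun p _ => ?_)
    rw [EE_smul]
    have : EE (ef ζ p q.2) = 0 := integral_eta (hζ.c p q.2)
    rw [this, mul_zero]
  have i1 : ∀ q k, ∫ x, pd k (f q) x ∂(gam n) = 0 := fun q k => by
    have e : ∀ x, pd k (f q) x = ∑ p, C q.1 p * pd k (ef ζ p q.2) x := fun x => by
      rw [hfd, Matrix.mul_apply]; rfl
    have : EE (pd k (f q)) = ∑ p, EE (fun x => C q.1 p * pd k (ef ζ p q.2) x) := by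
      rw [EE_congr e]
      exact EE_sum' _ fun p => ((c1e p q.2).cgp k).smul _
    refine this.trans (Finset.sum_eq_zero fun p _ => ?_)
    rw [EE_smul]
    have : EE (pd k (ef ζ p q.2)) = 0 := integral_pd_eta (hζ.c p q.2) k
    rw [this, mul_zero]
  set A : Fin n × Fin n → Fin n → E n → ℝ := fun q k x =>
    (C * (Mx (dk k (ef ζ)) x * _root_.cfc w (Mx ζ x))) q.1 q.2 with hA
  set B : Fin n × Fin n → E n → ℝ := fun q x =>
    (C * (Mx (ef ζ) x * _root_.cfc w (Mx ζ x))) q.1 q.2 with hB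
  have cA : ∀ q k, C0 (A q k) := fun q k => (((cp k).mul cW).cmul C q.1 q.2).c0
  have cB : ∀ q, C0 (B q) := fun q => ((ce.mul cW).cmul C q.1 q.2).c0
  have sp : ∀ X : Mat n, ∑ q : Fin n × Fin n, X q.1 q.2 ^ 2 = hs X := fun X => by
    rw [Fintype.sum_prod_type]; rfl
  have hAl : ∀ k x, ∑ q, A q k x ^ 2 ≤ 1 / 16 * ∑ q, pd k (f q) x ^ 2 := fun k x => by
    have e1 : ∑ q, A q k x ^ 2 = hs ((C * Mx (dk k (ef ζ)) x) * _root_.cfc w (Mx ζ x)) := by
      rw [← sp]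
      exact Finset.sum_congr rfl fun q _ => by rw [Matrix.mul_assoc]
    have e2 : ∑ q, pd k (f q) x ^ 2 = hs (C * Mx (dk k (ef ζ)) x) := by
      rw [← sp]
      exact Finset.sum_congr rfl fun q _ => by rw [hfd]
    rw [e1, e2]
    have := hs_mulW hζ bw (C * Mx (dk k (ef ζ)) x) x
    have h16 : ((1 : ℝ) / 4) ^ 2 = 1 / 16 := by norm_num
    rwa [h16] at this
  have hBl : ∀ x, ∑ q, B q x ^ 2 ≤ 1 / 16 * ∑ q, f q x ^ 2 := fun x => by
    have e1 : ∑ q, B q x ^ 2 = hs ((C * Mx (ef ζ) x) * _root_.cfc w (Mx ζ x)) := by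
      rw [← sp]
      exact Finset.sum_congr rfl fun q _ => by rw [Matrix.mul_assoc]
    have e2 : ∑ q, f q x ^ 2 = hs (C * Mx (ef ζ) x) := by
      rw [← sp]
      exact Finset.sum_congr rfl fun q _ => by rw [hfm]
    rw [e1, e2]
    have := hs_mulW hζ bw (C * Mx (ef ζ) x) x
    have h16 : ((1 : ℝ) / 4) ^ 2 = 1 / 16 := by norm_num
    rwa [h16] at this
  have key := cen_le hf1 i0 i1 cA cB hAl hBl
  have F1 : ∀ k, CM (fun x => C * (Mx (dk k (ef ζ)) x * _root_.cfc w (Mx ζ x)) +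
        (1 / 4 : ℝ) • (C * (Mx (dk k (ef ζ)) x - (2 : ℝ) • Mx (dk k (Rf (ef ζ))) x))) := fun k =>
    (((cp k).mul cW).cmul C).add ((((cp k).sub ((crk k).smul 2)).cmul C).smul _)
  have F2 : CM (fun x => C * (Mx (ef ζ) x * _root_.cfc w (Mx ζ x)) -
        (1 / 4 : ℝ) • (C * (Mx (ef ζ) x - (2 : ℝ) • Mx (Rf (ef ζ)) x))) :=
    ((ce.mul cW).cmul C).sub (((ce.sub (cr.smul 2)).cmul C).smul _)
  have k1 := sum_pair_eq F1
  have k2 := sum_pair_eq1 F2
  have k3 := sum_pair_eq (fun k => (cp k).cmul C)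
  have k4 := sum_pair_eq1 (ce.cmul C)
  rw [← k1, ← k2, ← k3, ← k4]
  refine le_trans (le_of_eq ?_) (key.trans (le_of_eq ?_))
  · congr 1
    · refine Finset.sum_congr rfl fun q _ => Finset.sum_congr rfl fun k _ => ?_
      refine EE_congr fun x => ?_
      rw [Matrix.add_apply, Matrix.smul_apply, Matrix.mul_sub, Matrix.sub_apply,
        Matrix.mul_smul, Matrix.smul_apply, hfd, hfRd]
      rfl
    · refine Finset.sum_congr rfl fun q _ => ?_
      refine EE_congr fun x => ?_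
      rw [Matrix.sub_apply, Matrix.smul_apply, Matrix.mul_sub, Matrix.sub_apply,
        Matrix.mul_smul, Matrix.smul_apply, hfm, hfR]
      rfl
  · have g1 : (∑ q, ∑ k, ∫ x, pd k (f q) x ^ 2 ∂(gam n)) =
        ∑ q : Fin n × Fin n, ∑ k, EE (fun x => (C * Mx (dk k (ef ζ)) x) q.1 q.2 ^ 2) :=
      Finset.sum_congr rfl fun q _ => Finset.sum_congr rfl fun k _ =>
        EE_congr fun x => by rw [hfd]
    have g2 : (∑ q, ∫ x, f q x ^ 2 ∂(gam n)) =
        ∑ q : Fin n × Fin n, EE (fun x => (C * Mx (ef ζ) x) q.1 q.2 ^ 2) :=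
      Finset.sum_congr rfl fun q _ => EE_congr fun x => by rw [hfm]
    rw [g1, g2]

lemma split_Y (hζ : MF ζ lo hi) (hv : ∀ x ∈ Icc lo hi, HasDerivAt v (w x + 1 / 4) x)
    {U : Fld n} (hU : ∀ i j x, U i j x = _root_.cfc v (Mx ζ x) i j) (C b : Mat n) (k : Fin n)
    (x : E n) :
    C * (Mx (dk k U) x - Mx (Yf ζ w b k) x) =
      (C * (Mx (dk k (ef ζ)) x * _root_.cfc w (Mx ζ x)) +
        (1 / 4 : ℝ) • (C * (Mx (dk k (ef ζ)) x - (2 : ℝ) • Mx (dk k (Rf (ef ζ))) x))) +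
      C * KR v (fun t => w t + 1 / 4) (Mx ζ x) (Mx (dk k ζ) x) +
      C * ((1 - b) * Tm ζ k) * _root_.cfc w (Mx ζ x) := by
  have e1 : Mx (dk k U) x = DK v (fun t => w t + 1 / 4) (Mx ζ x) (Mx (dk k ζ) x) := by
    ext i j
    have hUf : U i j = fun x => _root_.cfc v (Mx ζ x) i j := funext (hU i j)
    simp only [Mx, Matrix.of_apply, dk]
    rw [hUf]
    exact _root_.Crest.Agent.R253.SpecField321.pd_cfc hζ hv x i j k
  have e2 : Mx (Yf ζ w b k) x = (1 / 4 : ℝ) • Tm ζ k + b * Tm ζ k * _root_.cfc w (Mx ζ x) +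
      (1 / 2 : ℝ) • Mx (dk k (Rf (ef ζ))) x := by
    ext i j
    rw [Matrix.add_apply, Matrix.smul_apply]
    rfl
  have e3 : KR v (fun t => w t + 1 / 4) (Mx ζ x) (Mx (dk k ζ) x) =
      DK v (fun t => w t + 1 / 4) (Mx ζ x) (Mx (dk k ζ) x) -
        Mx (dk k ζ) x * (_root_.cfc w (Mx ζ x) + (1 / 4 : ℝ) • 1) := by
    unfold KR
    rw [cfc_add_const (hζ.h x)]
  rw [e3, e1, e2, dk_eq hζ]
  set W := _root_.cfc w (Mx ζ x)
  set D := DK v (fun t => w t + 1 / 4) (Mx ζ x) (Tm ζ k + Mx (dk k (ef ζ)) x)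
  set p := Mx (dk k (ef ζ)) x
  set r := Mx (dk k (Rf (ef ζ))) x
  set T := Tm ζ k
  have h2 : (1 / 4 : ℝ) • (C * (p - (2 : ℝ) • r)) = (1 / 4 : ℝ) • (C * p) - (1 / 2 : ℝ) • (C * r) := by
    rw [Matrix.mul_sub, Matrix.mul_smul, smul_sub, smul_smul]; norm_num
  rw [h2]
  simp only [Matrix.mul_add, Matrix.add_mul, Matrix.mul_sub, Matrix.sub_mul, Matrix.one_mul,
    Matrix.mul_smul, Matrix.smul_mul, Matrix.mul_one, smul_add, Matrix.mul_assoc]
  abel

lemma split_G (C b : Mat n) (x : E n) :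
    C * Mx (Gf ζ w v2 b) x =
      (C * (Mx (ef ζ) x * _root_.cfc w (Mx ζ x)) -
        (1 / 4 : ℝ) • (C * (Mx (ef ζ) x - (2 : ℝ) • Mx (Rf (ef ζ)) x))) +
      (∑ k, C * b * Tm ζ k * KR w v2 (Mx ζ x) (Mx (dk k ζ) x)) +
      C * ((1 - b) * Lx ζ x) * _root_.cfc w (Mx ζ x) +
      (-(C * (1 - b * MTm ζ))) * _root_.cfc v2 (Mx ζ x) +
      (∑ k, C * b * Tm ζ k * Mx (dk k (ef ζ)) x) * _root_.cfc v2 (Mx ζ x) := by
  have e1 : Mx (Gf ζ w v2 b) x = G0 ζ w v2 b x -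
      (1 / 2 : ℝ) • (Mx (ef ζ) x - Mx (Rf (ef ζ)) x) := by
    ext i j
    rw [Matrix.sub_apply, Matrix.smul_apply, Matrix.sub_apply]
    rfl
  have s1 : ∀ X : Fin n → Mat n, ∑ k, C * b * Tm ζ k * X k = C * (b * ∑ k, Tm ζ k * X k) := by
    intro X
    rw [Finset.mul_sum, Finset.mul_sum]
    exact Finset.sum_congr rfl fun k _ => by simp only [Matrix.mul_assoc]
  rw [e1, s1, s1]
  unfold G0 KR
  set W := _root_.cfc w (Mx ζ x)
  set V2 := _root_.cfc v2 (Mx ζ x)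
  set A := ∑ k, Tm ζ k * (DK w v2 (Mx ζ x) (Mx (dk k ζ) x) - Mx (dk k ζ) x * V2)
  set B := ∑ k, Tm ζ k * Mx (dk k (ef ζ)) x
  set η := Mx (ef ζ) x
  set r := Mx (Rf (ef ζ)) x
  set L := Lx ζ x
  have h2 : (1 / 4 : ℝ) • (C * (η - (2 : ℝ) • r)) = (1 / 4 : ℝ) • (C * η) - (1 / 2 : ℝ) • (C * r) := by
    rw [Matrix.mul_sub, Matrix.mul_smul, smul_sub, smul_smul]; norm_num
  have h3 : (1 / 2 : ℝ) • (C * η) = (1 / 4 : ℝ) • (C * η) + (1 / 4 : ℝ) • (C * η) := by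
    rw [← add_smul]; norm_num
  rw [h2]
  simp only [Matrix.mul_add, Matrix.add_mul, Matrix.mul_sub, Matrix.sub_mul, Matrix.one_mul,
    Matrix.mul_smul, Matrix.smul_mul, Matrix.mul_one, smul_add, smul_sub, Matrix.mul_assoc,
    Matrix.neg_mul, neg_sub]
  rw [h3]
  abel

/-- **the weighted dual bound** (`P = CᵀC` on the left, one-sided field) -/
theorem dualP (hζ : MF ζ lo hi) (h0 : ∀ i j, EE (ζ i j) = 0)
    (hv : ∀ x ∈ Icc lo hi, HasDerivAt v (w x + 1 / 4) x)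
    (hw : ∀ x ∈ Icc lo hi, HasDerivAt w (v2 x) x) (cw : ContinuousOn w (Icc lo hi))
    (cv2 : ContinuousOn v2 (Icc lo hi)) (bw : ∀ x ∈ Icc lo hi, |w x| ≤ 1 / 4)
    {a2 : ℝ} (b2 : ∀ x ∈ Icc lo hi, |v2 x| ≤ a2)
    {U : Fld n} (hU : ∀ i j x, U i j x = _root_.cfc v (Mx ζ x) i j) (C b : Mat n)
    {Pn K1 : ℝ} (hPn : ∀ X : Mat n, hs (C * X) ≤ Pn * hs X) (hPn0 : 0 ≤ Pn) (hK0 : 0 ≤ K1)
    (hK1 : ∀ B : Fin n → Mat n, hs (∑ k, C * b * Tm ζ k * B k) ≤ K1 * ∑ k, hs (B k))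
    {Sl : E n → ℝ} (cSl : CG Sl) {al be : ℝ}
    (hal : ∀ x, ∑ k, hs (KR v (fun t => w t + 1 / 4) (Mx ζ x) (Mx (dk k ζ) x)) ≤ al * Sl x)
    (hbe : ∀ x, ∑ k, hs (KR w v2 (Mx ζ x) (Mx (dk k ζ) x)) ≤ be * Sl x)
    {q : Fin 5 → ℝ} (hq : ∀ i, 0 < q i) (hq1 : ∑ i, q i = 1) :
    EE (fun x => ∑ k, hs (C * (Mx (dk k U) x - Mx (Yf ζ w b k) x))) +
      EE (fun x => hs (C * Mx (Gf ζ w v2 b) x)) ≤
    1 / q 0 * (1 / 3 * (EE (fun x => ∑ k, hs (C * Mx (dk k (ef ζ)) x)) -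
        EE (fun x => hs (C * Mx (ef ζ) x)))) +
      1 / q 1 * ((Pn * al + K1 * be) * EE Sl) +
      1 / q 2 * (1 / 8 * ∑ k, hs (C * ((1 - b) * Tm ζ k))) +
      1 / q 3 * (a2 ^ 2 * hs (C * (1 - b * MTm ζ))) +
      1 / q 4 * (a2 ^ 2 * (K1 * EE (fun x => ∑ k, hs (Mx (dk k (ef ζ)) x)))) := by
  have c1e : ∀ i j, C1 (ef ζ i j) := fun i j => c1_ef hζ i j
  have c1r : ∀ i j, C1 (Rf (ef ζ) i j) := fun i j => c1_Rs (c1e i j)
  have cW : CM (fun x => _root_.cfc w (Mx ζ x)) := cg_cfc hζ cw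
  have cV2 : CM (fun x => _root_.cfc v2 (Mx ζ x)) := cg_cfc hζ cv2
  have cp : ∀ k, CM (fun x => Mx (dk k (ef ζ)) x) := fun k => CM.mx fun i j => (c1e i j).cgp k
  have ce : CM (fun x => Mx (ef ζ) x) := CM.mx fun i j => (c1e i j).cg
  have crk : ∀ k, CM (fun x => Mx (dk k (Rf (ef ζ))) x) := fun k =>
    CM.mx fun i j => (c1r i j).cgp k
  have cr : CM (fun x => Mx (Rf (ef ζ)) x) := CM.mx fun i j => (c1r i j).cg
  have cζk : ∀ k, CM (fun x => Mx (dk k ζ) x) := fun k => CM.mx fun i j => (hζ.c i j).cgp k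
  have cv1 : ContinuousOn (fun t => w t + 1 / 4) (Icc lo hi) := cw.add continuousOn_const
  have c1U : ∀ i j, C1 (U i j) := fun i j => by
    have : U i j = fun x => _root_.cfc v (Mx ζ x) i j := funext (hU i j)
    rw [this]
    exact _root_.Crest.Agent.R253.SpecField321.c1_cfc hζ hv cv1 i j
  have cdU : ∀ k, CM (fun x => Mx (dk k U) x) := fun k => CM.mx fun i j => (c1U i j).cgp k
  have cV1 : CM (fun x => _root_.cfc (fun t => w t + 1 / 4) (Mx ζ x)) := cg_cfc hζ cv1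
  have cKR0 : ∀ k, CM (fun x => KR v (fun t => w t + 1 / 4) (Mx ζ x) (Mx (dk k ζ) x)) := by
    intro k
    have e : (fun x => KR v (fun t => w t + 1 / 4) (Mx ζ x) (Mx (dk k ζ) x)) =
        fun x => Mx (dk k U) x - Mx (dk k ζ) x * _root_.cfc (fun t => w t + 1 / 4) (Mx ζ x) := by
      funext x
      unfold KR
      congr 1
      ext i j
      have hUf : U i j = fun x => _root_.cfc v (Mx ζ x) i j := funext (hU i j)
      simp only [Mx, Matrix.of_apply, dk]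
      rw [hUf]
      exact (_root_.Crest.Agent.R253.SpecField321.pd_cfc hζ hv x i j k).symm
    rw [e]
    exact (cdU k).sub ((cζk k).mul cV1)
  have cKR1 : ∀ k, CM (fun x => KR w v2 (Mx ζ x) (Mx (dk k ζ) x)) := by
    intro k
    have e : (fun x => KR w v2 (Mx ζ x) (Mx (dk k ζ) x)) =
        fun x => Mx (dk k fun i j x => _root_.cfc w (Mx ζ x) i j) x -
          Mx (dk k ζ) x * _root_.cfc v2 (Mx ζ x) := by
      funext x
      unfold KR
      congr 1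
      ext i j
      simp only [Mx, Matrix.of_apply, dk]
      exact (_root_.Crest.Agent.R253.SpecField321.pd_cfc hζ hw x i j k).symm
    rw [e]
    exact (CM.mx fun i j => (_root_.Crest.Agent.R253.SpecField321.c1_cfc hζ hw cv2 i j).cgp k).sub
      ((cζk k).mul cV2)
  -- the pieces
  set a1 : Fin n → E n → Mat n := fun k x => C * (Mx (dk k (ef ζ)) x * _root_.cfc w (Mx ζ x)) +
        (1 / 4 : ℝ) • (C * (Mx (dk k (ef ζ)) x - (2 : ℝ) • Mx (dk k (Rf (ef ζ))) x)) with ha1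
  set a2' : Fin n → E n → Mat n := fun k x =>
    C * KR v (fun t => w t + 1 / 4) (Mx ζ x) (Mx (dk k ζ) x) with ha2
  set a3 : Fin n → E n → Mat n := fun k x => C * ((1 - b) * Tm ζ k) * _root_.cfc w (Mx ζ x)
    with ha3
  set g1 : E n → Mat n := fun x => C * (Mx (ef ζ) x * _root_.cfc w (Mx ζ x)) -
        (1 / 4 : ℝ) • (C * (Mx (ef ζ) x - (2 : ℝ) • Mx (Rf (ef ζ)) x)) with hg1
  set g2 : E n → Mat n := fun x => ∑ k, C * b * Tm ζ k * KR w v2 (Mx ζ x) (Mx (dk k ζ) x) with hg2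
  set g3 : E n → Mat n := fun x => C * ((1 - b) * Lx ζ x) * _root_.cfc w (Mx ζ x) with hg3
  set g4 : E n → Mat n := fun x => (-(C * (1 - b * MTm ζ))) * _root_.cfc v2 (Mx ζ x) with hg4
  set g5 : E n → Mat n := fun x =>
    (∑ k, C * b * Tm ζ k * Mx (dk k (ef ζ)) x) * _root_.cfc v2 (Mx ζ x) with hg5
  have m1 : ∀ k, CM (a1 k) := fun k =>
    (((cp k).mul cW).cmul C).add ((((cp k).sub ((crk k).smul 2)).cmul C).smul _)
  have m2 : ∀ k, CM (a2' k) := fun k => (cKR0 k).cmul C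
  have m3 : ∀ k, CM (a3 k) := fun k => (CM.const _).mul cW
  have n1 : CM g1 := ((ce.mul cW).cmul C).sub (((ce.sub (cr.smul 2)).cmul C).smul _)
  have n2 : CM g2 := CM.sum fun k _ => (cKR1 k).cmul _
  have cL : CM (fun x => Lx ζ x) := CM.sum fun k _ => CM.fsmul (cg_coord k) (CM.const _)
  have n3 : CM g3 := ((cL.cmul _).cmul C).mul cW
  have n4 : CM g4 := (CM.const _).mul cV2
  have n5 : CM g5 := (CM.sum fun k _ => (cp k).cmul _).mul cV2
  -- pointwise bounds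
  have pY : ∀ x, ∑ k, hs (C * (Mx (dk k U) x - Mx (Yf ζ w b k) x)) ≤
      1 / q 0 * ∑ k, hs (a1 k x) + 1 / q 1 * ∑ k, hs (a2' k x) + 1 / q 2 * ∑ k, hs (a3 k x) := by
    intro x
    rw [Finset.mul_sum, Finset.mul_sum, Finset.mul_sum, ← Finset.sum_add_distrib,
      ← Finset.sum_add_distrib]
    refine Finset.sum_le_sum fun k _ => ?_
    rw [split_Y hζ hv hU]
    have h := hs5 hq hq1 ![a1 k x, a2' k x, a3 k x, 0, 0]
    simp only [Fin.sum_univ_five, Matrix.cons_val_zero, Matrix.cons_val_one, Matrix.cons_val,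
      add_zero, hs_zero, zero_div] at h
    refine h.trans (le_of_eq ?_)
    ring
  have pG : ∀ x, hs (C * Mx (Gf ζ w v2 b) x) ≤ 1 / q 0 * hs (g1 x) + 1 / q 1 * hs (g2 x) +
      1 / q 2 * hs (g3 x) + 1 / q 3 * hs (g4 x) + 1 / q 4 * hs (g5 x) := by
    intro x
    rw [split_G]
    have h := hs5 hq hq1 ![g1 x, g2 x, g3 x, g4 x, g5 x]
    simp only [Fin.sum_univ_five, Matrix.cons_val_zero, Matrix.cons_val_one, Matrix.cons_val] at h
    refine h.trans (le_of_eq ?_)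
    ring
  have iY : EE (fun x => ∑ k, hs (C * (Mx (dk k U) x - Mx (Yf ζ w b k) x))) ≤
      1 / q 0 * EE (fun x => ∑ k, hs (a1 k x)) + 1 / q 1 * EE (fun x => ∑ k, hs (a2' k x)) +
        1 / q 2 * EE (fun x => ∑ k, hs (a3 k x)) := by
    have cY : ∀ k, CM (fun x => Mx (Yf ζ w b k) x) := fun k => CM.mx fun i j =>
      (c1_Y0 hζ hw cv2 b k i j).cg.add (((c1r i j).cgp k).smul _)
    have d1 : CG (fun x => ∑ k, hs (a1 k x)) := CG.sum fun k _ => (m1 k).hs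
    have d2 : CG (fun x => ∑ k, hs (a2' k x)) := CG.sum fun k _ => (m2 k).hs
    have d3 : CG (fun x => ∑ k, hs (a3 k x)) := CG.sum fun k _ => (m3 k).hs
    rw [← EE_smul, ← EE_smul, ← EE_smul, ← EE_add (d1.smul _) (d2.smul _),
      ← EE_add ((d1.smul _).add (d2.smul _)) (d3.smul _)]
    exact EE_mono (CG.sum fun k _ => (((cdU k).sub (cY k)).cmul C).hs)
      (((d1.smul _).add (d2.smul _)).add (d3.smul _)) pY
  have iG : EE (fun x => hs (C * Mx (Gf ζ w v2 b) x)) ≤ 1 / q 0 * EE (fun x => hs (g1 x)) +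
      1 / q 1 * EE (fun x => hs (g2 x)) + 1 / q 2 * EE (fun x => hs (g3 x)) +
      1 / q 3 * EE (fun x => hs (g4 x)) + 1 / q 4 * EE (fun x => hs (g5 x)) := by
    have cG : CM (fun x => C * Mx (Gf ζ w v2 b) x) := by
      have : (fun x => C * Mx (Gf ζ w v2 b) x) = fun x => g1 x + g2 x + g3 x + g4 x + g5 x :=
        funext fun x => split_G C b x
      rw [this]
      exact (((n1.add n2).add n3).add n4).add n5
    rw [← EE_smul, ← EE_smul, ← EE_smul, ← EE_smul, ← EE_smul,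
      ← EE_add (n1.hs.smul _) (n2.hs.smul _),
      ← EE_add ((n1.hs.smul _).add (n2.hs.smul _)) (n3.hs.smul _),
      ← EE_add (((n1.hs.smul _).add (n2.hs.smul _)).add (n3.hs.smul _)) (n4.hs.smul _),
      ← EE_add ((((n1.hs.smul _).add (n2.hs.smul _)).add (n3.hs.smul _)).add (n4.hs.smul _))
        (n5.hs.smul _)]
    exact EE_mono cG.hs (((((n1.hs.smul _).add (n2.hs.smul _)).add (n3.hs.smul _)).add
      (n4.hs.smul _)).add (n5.hs.smul _)) pG
  -- the five bounds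
  have B1 := main_le hζ h0 cw bw C
  have B2a : EE (fun x => ∑ k, hs (a2' k x)) ≤ Pn * al * EE Sl := by
    rw [← EE_smul]
    refine EE_mono (CG.sum fun k _ => (m2 k).hs) (cSl.smul _) fun x => ?_
    calc ∑ k, hs (a2' k x) ≤ ∑ k, Pn * hs (KR v (fun t => w t + 1 / 4) (Mx ζ x) (Mx (dk k ζ) x)) :=
          Finset.sum_le_sum fun k _ => hPn _
      _ = Pn * ∑ k, hs (KR v (fun t => w t + 1 / 4) (Mx ζ x) (Mx (dk k ζ) x)) := by
          rw [Finset.mul_sum]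
      _ ≤ Pn * (al * Sl x) := mul_le_mul_of_nonneg_left (hal x) hPn0
      _ = Pn * al * Sl x := by ring
  have B2b : EE (fun x => hs (g2 x)) ≤ K1 * be * EE Sl := by
    rw [← EE_smul]
    refine EE_mono n2.hs (cSl.smul _) fun x => ?_
    calc hs (g2 x) ≤ K1 * ∑ k, hs (KR w v2 (Mx ζ x) (Mx (dk k ζ) x)) := hK1 _
      _ ≤ K1 * (be * Sl x) := mul_le_mul_of_nonneg_left (hbe x) hK0
      _ = K1 * be * Sl x := by ring
  have h16 : ((1 : ℝ) / 4) ^ 2 = 1 / 16 := by norm_num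
  have B3a : EE (fun x => ∑ k, hs (a3 k x)) ≤ 1 / 16 * ∑ k, hs (C * ((1 - b) * Tm ζ k)) := by
    have : 1 / 16 * ∑ k, hs (C * ((1 - b) * Tm ζ k)) =
        EE (fun _ : E n => 1 / 16 * ∑ k, hs (C * ((1 - b) * Tm ζ k))) := (EE_const _).symm
    rw [this]
    refine EE_mono (CG.sum fun k _ => (m3 k).hs) (cg_const _) fun x => ?_
    rw [Finset.mul_sum]
    refine Finset.sum_le_sum fun k _ => ?_
    have := hs_mulW hζ bw (C * ((1 - b) * Tm ζ k)) x
    rwa [h16] at this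
  have B3b : EE (fun x => hs (g3 x)) ≤ 1 / 16 * ∑ k, hs (C * ((1 - b) * Tm ζ k)) := by
    have e1 : EE (fun x : E n => hs (C * ((1 - b) * Lx ζ x))) =
        ∑ k, hs (C * ((1 - b) * Tm ζ k)) := by
      rw [← EE_hs_lin]
      refine EE_congr fun x => ?_
      congr 1
      unfold Lx
      rw [Finset.mul_sum, Finset.mul_sum]
      exact Finset.sum_congr rfl fun k _ => by rw [Matrix.mul_smul, Matrix.mul_smul]
    rw [← e1, ← EE_smul]
    refine EE_mono n3.hs (((cL.cmul _).cmul C).hs.smul _) fun x => ?_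
    have := hs_mulW hζ bw (C * ((1 - b) * Lx ζ x)) x
    rwa [h16] at this
  have B4 : EE (fun x => hs (g4 x)) ≤ a2 ^ 2 * hs (C * (1 - b * MTm ζ)) := by
    have : a2 ^ 2 * hs (C * (1 - b * MTm ζ)) =
        EE (fun _ : E n => a2 ^ 2 * hs (C * (1 - b * MTm ζ))) := (EE_const _).symm
    rw [this]
    refine EE_mono n4.hs (cg_const _) fun x => ?_
    have := hs_mulW hζ b2 (-(C * (1 - b * MTm ζ))) x
    rwa [hs_neg] at this
  have B5 : EE (fun x => hs (g5 x)) ≤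
      a2 ^ 2 * (K1 * EE (fun x => ∑ k, hs (Mx (dk k (ef ζ)) x))) := by
    rw [← EE_smul, ← EE_smul]
    refine EE_mono n5.hs (((CG.sum fun k _ => (cp k).hs).smul _).smul _) fun x => ?_
    refine (hs_mulW hζ b2 _ x).trans ?_
    exact mul_le_mul_of_nonneg_left (hK1 _) (sq_nonneg _)
  have q0 : 0 < 1 / q 0 := one_div_pos.mpr (hq 0)
  have q1 : 0 < 1 / q 1 := one_div_pos.mpr (hq 1)
  have q2 : 0 < 1 / q 2 := one_div_pos.mpr (hq 2)
  have q3 : 0 < 1 / q 3 := one_div_pos.mpr (hq 3)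
  have q4 : 0 < 1 / q 4 := one_div_pos.mpr (hq 4)
  have C1' := mul_le_mul_of_nonneg_left B1 q0.le
  have C2a := mul_le_mul_of_nonneg_left B2a q1.le
  have C2b := mul_le_mul_of_nonneg_left B2b q1.le
  have C3a := mul_le_mul_of_nonneg_left B3a q2.le
  have C3b := mul_le_mul_of_nonneg_left B3b q2.le
  have C4 := mul_le_mul_of_nonneg_left B4 q3.le
  have C5 := mul_le_mul_of_nonneg_left B5 q4.le
  have hsum := add_le_add iY iG
  refine hsum.trans ?_
  rw [mul_add] at C1'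
  nlinarith [C1', C2a, C2b, C3a, C3b, C4, C5]

end field

end Crest.Agent.R253.DualP973
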