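import Crest.Agent.R253.MAI_74
import Crest.Agent.R238.GapMol

/-!
# R253: the Mehler semigroup identity, spectral gap on the second chaos (helper74)

`E f(x) f(Y_a) ≤ cos a · E f²` for `E f = 0` and `2 E f² ≤ E |Df|²` for `E f = 0`, `E Df = 0`.
-/

set_option autoImplicit false

open MeasureTheory ProbabilityTheory Real Set Filter Topology
open scoped ContDiff

noncomputable section

namespace Crest.Agent.R253.Meh74

open Crest.Agent.R238.Gap Crest.Agent.R238.GapPoinc Crest.Agent.R238.GapPc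

variable {n : ℕ}

/-! ### the Mehler average `Pa g b` -/

lemma continuous_Pa1 {g : E n → ℝ} (hg : Continuous g) (hg0 : PG g) (b : ℝ) :
    Continuous (Pa g b) := by
  have h1 : Continuous fun x : E n => ((x, b) : E n × ℝ) := by fun_prop
  have h2 : Continuous fun x : E n => (fun q : E n × ℝ => Pa g q.2 q.1) (x, b) :=
    (continuous_Pa hg hg0).comp h1
  exact h2

lemma pg_Pa {g : E n → ℝ} (hg0 : PG g) (b : ℝ) : PG (Pa g b) := by
  obtain ⟨K, k, _, h⟩ := Pa_bound hg0
  exact ⟨K, k, fun x => h b x⟩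

theorem hasFDerivAt_Pa {g : E n → ℝ} (hg : C1 g) (b : ℝ) (x0 : E n) :
    HasFDerivAt (Pa g b) (∫ y, Real.cos b • fderiv ℝ g (Y b x0 y) ∂(gam n)) x0 := by
  obtain ⟨K, k, hK0, hK⟩ := norm_fderiv_bound hg
  have hgc : Continuous (fderiv ℝ g) := hg.c.continuous_fderiv one_ne_zero
  have hc : ∀ x, Continuous fun y : E n => g (Y b x y) := fun x => hg.cont.comp (continuous_Y_snd _ _)
  exact hasFDerivAt_integral_of_dominated_of_fderiv_le (μ := gam n)
    (F := fun x (y : E n) => g (Y b x y))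
    (F' := fun x y => Real.cos b • fderiv ℝ g (Y b x y)) (x₀ := x0) (s := Metric.ball x0 1)
    (bound := fun y => K * (2 + ‖x0‖) ^ k * (1 + ‖y‖) ^ k)
    (Metric.ball_mem_nhds x0 one_pos)
    (Eventually.of_forall fun x => (hc x).aestronglyMeasurable)
    (integrable_of_PG (hc x0) (pg_Y_snd hg.g b x0))
    ((hgc.comp (continuous_Y_snd b x0)).const_smul (Real.cos b)).aestronglyMeasurable
    (ae_of_all _ fun y x hx => by
      rw [norm_smul, Real.norm_eq_abs]
      calc |Real.cos b| * ‖fderiv ℝ g (Y b x y)‖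
          ≤ 1 * (K * ((2 + ‖x0‖) ^ k * (1 + ‖y‖) ^ k)) := by
            refine mul_le_mul (Real.abs_cos_le_one b) ((hK _).trans ?_) (norm_nonneg _) zero_le_one
            refine mul_le_mul_of_nonneg_left ((pow_Y_le _ _ _ k).trans ?_) hK0
            exact mul_le_mul_of_nonneg_right (near_bound hx k) (by positivity)
        _ = _ := by ring)
    ((integrable_pow_stdGaussian k).const_mul _)
    (ae_of_all _ fun y x _ => by
      have h2 := ((hg.diff (Y b x y)).hasFDerivAt).comp x (hasFDerivAt_Y_fst b x y)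
      have h3 : (fderiv ℝ g (Y b x y)).comp (Real.cos b • ContinuousLinearMap.id ℝ (E n)) =
          Real.cos b • fderiv ℝ g (Y b x y) := by
        ext v
        simp
      rw [← h3]
      exact h2)

lemma integrable_dPa {g : E n → ℝ} (hg : C1 g) (b : ℝ) (x : E n) :
    Integrable (fun y => Real.cos b • fderiv ℝ g (Y b x y)) (gam n) := by
  obtain ⟨K, k, hK0, hK⟩ := norm_fderiv_bound hg
  have hgc : Continuous (fderiv ℝ g) := hg.c.continuous_fderiv one_ne_zero
  refine ((integrable_pow_stdGaussian (n := n) k).const_mul (K * (1 + ‖x‖) ^ k)).mono'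
    ((hgc.comp (continuous_Y_snd b x)).const_smul (Real.cos b)).aestronglyMeasurable
    (ae_of_all _ fun y => ?_)
  rw [norm_smul, Real.norm_eq_abs]
  calc |Real.cos b| * ‖fderiv ℝ g (Y b x y)‖
      ≤ 1 * (K * ((1 + ‖x‖) ^ k * (1 + ‖y‖) ^ k)) := by
        refine mul_le_mul (Real.abs_cos_le_one b) ((hK _).trans ?_) (norm_nonneg _) zero_le_one
        exact mul_le_mul_of_nonneg_left (pow_Y_le _ _ _ k) hK0
    _ = _ := by ring

theorem pd_Pa {g : E n → ℝ} (hg : C1 g) (b : ℝ) (i : Fin n) :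
    pd i (Pa g b) = fun x => Real.cos b * Pa (pd i g) b x := by
  funext x
  unfold pd
  rw [(hasFDerivAt_Pa hg b x).fderiv, ContinuousLinearMap.integral_apply (integrable_dPa hg b x)]
  simp only [_root_.smul_apply, smul_eq_mul]
  rw [integral_const_mul]
  rfl

/-- a `C¹` criterion -/
lemma contDiff_one_of_pd {f : E n → ℝ} (hf : Differentiable ℝ f)
    (hc : ∀ i, Continuous (pd i f)) : ContDiff ℝ 1 f := by
  rw [contDiff_one_iff_fderiv]
  refine ⟨hf, ?_⟩
  have h : fderiv ℝ f = fun x => ∑ i, pd i f x • (EuclideanSpace.proj i : E n →L[ℝ] ℝ) := by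
    funext x
    ext v
    rw [fderiv_apply_eq_sum]
    simp [_root_.sum_apply, mul_comm]
  rw [h]
  exact continuous_finsetSum _ fun i _ => (hc i).smul continuous_const

theorem c1_Pa {g : E n → ℝ} (hg : C1 g) (b : ℝ) : C1 (Pa g b) := by
  refine ⟨contDiff_one_of_pd (fun x => (hasFDerivAt_Pa hg b x).differentiableAt) fun i => ?_,
    pg_Pa hg.g b, fun i => ?_⟩
  · rw [pd_Pa hg b i]
    exact continuous_const.mul (continuous_Pa1 (hg.contp i) (hg.p i) b)
  · rw [pd_Pa hg b i]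
    exact (pg_const _).mul (pg_Pa (hg.p i) b)

/-! ### the semigroup identity -/

lemma exists_angle {p q : ℝ} (h : p ^ 2 + q ^ 2 = 1) : ∃ t : ℝ, Real.cos t = p ∧ Real.sin t = q := by
  have hn : ‖(⟨p, q⟩ : ℂ)‖ = 1 := by
    rw [Complex.norm_def, Complex.normSq_mk]
    rw [show p * p + q * q = 1 by nlinarith, Real.sqrt_one]
  have h0 : (⟨p, q⟩ : ℂ) ≠ 0 := by
    intro h1; rw [h1] at hn; simp at hn
  refine ⟨Complex.arg ⟨p, q⟩, ?_, ?_⟩
  · rw [Complex.cos_arg h0, hn]; simp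
  · rw [Complex.sin_arg, hn]; simp

/-- the law of `Y_t` is `γ` -/
lemma integral_Y {g : E n → ℝ} (hg : Continuous g) (t : ℝ) :
    ∫ p : E n × E n, g (Y t p.1 p.2) ∂((gam n).prod (gam n)) = ∫ y, g y ∂(gam n) := by
  have h := integral_rot (G := fun p : E n × E n => g p.1) (hg.comp continuous_fst) t
  rw [integral_fun_fst (fun x => g x)] at h
  have e : ∀ p : E n × E n, (rot t p).1 = Y t p.1 p.2 := fun p => rfl
  simpa [e] using h

lemma pg2_Pa {f g : E n → ℝ} (hf : PG f) (hg : PG g) (b : ℝ) :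
    PG2 fun p : E n × E n => f (Y b p.1 p.2) * g p.1 := by
  obtain ⟨K1, k1, h10, h1⟩ := pg_nonneg hf
  obtain ⟨K2, k2, h20, h2⟩ := pg_nonneg hg
  refine ⟨K1 * K2, k1 + k2, fun q => ?_⟩
  rw [← mul_pow]
  set W := (1 + ‖q.1‖) * (1 + ‖q.2‖) with hWd
  have hx := norm_nonneg q.1
  have hy := norm_nonneg q.2
  have h4 : 1 + ‖q.1‖ ≤ W := by rw [hWd]; nlinarith
  have h5 : |g q.1| ≤ K2 * W ^ k2 :=
    (h2 q.1).trans (mul_le_mul_of_nonneg_left (pow_le_pow_left₀ (by positivity) h4 k2) h20)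
  have h6 : |f (Y b q.1 q.2)| ≤ K1 * W ^ k1 := by
    refine (h1 _).trans (mul_le_mul_of_nonneg_left ?_ h10)
    rw [hWd, mul_pow]; exact pow_Y_le _ _ _ _
  rw [abs_mul]
  calc _ ≤ (K1 * W ^ k1) * (K2 * W ^ k2) := mul_le_mul h6 h5 (abs_nonneg _) (by positivity)
    _ = K1 * K2 * W ^ (k1 + k2) := by ring

/-- `E_w P_b g (cos b x - sin b w) = P_a g (x)`, `cos a = cos² b` -/
lemma Pa_Pa {g : E n → ℝ} (hg : Continuous g) (hg0 : PG g) {a b : ℝ}
    (hab : Real.cos a = Real.cos b ^ 2) (ha : 0 ≤ Real.sin a) (x : E n) :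
    ∫ w, Pa g b (Y (-b) x w) ∂(gam n) = Pa g a x := by
  have hc2 : Continuous fun p : E n × E n => g (Y b (Y (-b) x p.1) p.2) := by
    refine hg.comp ?_
    unfold Y; fun_prop
  have hp2 : PG2 fun p : E n × E n => g (Y b (Y (-b) x p.1) p.2) := by
    obtain ⟨K, k, hK0, hK⟩ := pg_nonneg hg0
    refine ⟨K * (1 + ‖x‖) ^ k, k, fun p => (hK _).trans ?_⟩
    have h1 := pow_Y_le b (Y (-b) x p.1) p.2 k
    have h2 := pow_Y_le (-b) x p.1 k
    have h3 : (1 + ‖Y b (Y (-b) x p.1) p.2‖) ^ k ≤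
        ((1 + ‖x‖) ^ k * (1 + ‖p.1‖) ^ k) * (1 + ‖p.2‖) ^ k :=
      h1.trans (mul_le_mul_of_nonneg_right h2 (by positivity))
    calc K * (1 + ‖Y b (Y (-b) x p.1) p.2‖) ^ k
        ≤ K * (((1 + ‖x‖) ^ k * (1 + ‖p.1‖) ^ k) * (1 + ‖p.2‖) ^ k) :=
          mul_le_mul_of_nonneg_left h3 hK0
      _ = _ := by ring
  have e1 : ∫ w, Pa g b (Y (-b) x w) ∂(gam n) =
      ∫ p : E n × E n, g (Y b (Y (-b) x p.1) p.2) ∂((gam n).prod (gam n)) := by
    rw [integral_prod _ (integrable_of_PG2 hc2 hp2)]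
    rfl
  rw [e1]
  have hs : (Real.cos b * Real.sin b) ^ 2 + Real.sin b ^ 2 = Real.sin a ^ 2 := by
    have h1 := Real.sin_sq_add_cos_sq a
    have h2 := Real.sin_sq_add_cos_sq b
    have h3 : Real.sin b ^ 2 = 1 - Real.cos b ^ 2 := by linarith
    have h4 : Real.sin a ^ 2 = 1 - Real.cos b ^ 4 := by rw [hab] at h1; nlinarith
    rw [h4, mul_pow, h3]
    ring
  rcases ha.eq_or_lt with h0 | h0
  · -- degenerate
    have h1 : Real.sin b = 0 := by
      rw [← h0] at hs
      nlinarith [sq_nonneg (Real.cos b * Real.sin b), sq_nonneg (Real.sin b)]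
    have e2 : ∀ p : E n × E n, g (Y b (Y (-b) x p.1) p.2) = g (Real.cos a • x) := by
      intro p
      unfold Y
      rw [Real.cos_neg, Real.sin_neg, h1]
      simp only [neg_zero, zero_smul, add_zero]
      rw [smul_smul, hab, sq]
    have e3 : ∀ y : E n, g (Y a x y) = g (Real.cos a • x) := by
      intro y
      unfold Y
      rw [← h0]; simp
    unfold Pa
    simp_rw [e2, e3]
    simp
  · obtain ⟨t, ht1, ht2⟩ := exists_angle
      (p := -(Real.cos b * Real.sin b) / Real.sin a) (q := Real.sin b / Real.sin a) (by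
        rw [div_pow, div_pow, ← add_div, neg_sq, hs, div_self (by positivity)])
    have e2 : ∀ p : E n × E n, g (Y b (Y (-b) x p.1) p.2) =
        (fun y => g (Y a x y)) (Y t p.1 p.2) := by
      intro p
      simp only
      congr 1
      unfold Y
      rw [ht1, ht2, Real.cos_neg, Real.sin_neg, smul_add, smul_add, smul_smul, smul_smul,
        smul_smul, smul_smul, hab]
      have h5 : Real.sin a * (-(Real.cos b * Real.sin b) / Real.sin a) =
          Real.cos b * -Real.sin b := by field_simp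
      have h6 : Real.sin a * (Real.sin b / Real.sin a) = Real.sin b := by field_simp
      rw [h5, h6, sq]
      module
    simp_rw [e2]
    exact integral_Y (g := fun y => g (Y a x y)) (hg.comp (continuous_Y_snd a x)) t

/-- **semigroup identity**: `E f(x) g(Y_a) = E (P_b f)(P_b g)`, `cos a = cos² b` -/
theorem Fc_comp {f g : E n → ℝ} (hf : Continuous f) (hg : Continuous g) (hf0 : PG f)
    (hg0 : PG g) {a b : ℝ} (hab : Real.cos a = Real.cos b ^ 2) (ha : 0 ≤ Real.sin a) :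
    Fc f g a = ∫ z, Pa f b z * Pa g b z ∂(gam n) := by
  have hPc := continuous_Pa1 hg hg0 b
  have hPg := pg_Pa hg0 b
  have c1 : Continuous fun p : E n × E n => f (Y b p.1 p.2) * Pa g b p.1 :=
    (hf.comp (continuous_Y_pair b)).mul (hPc.comp continuous_fst)
  have g1 : PG2 fun p : E n × E n => f (Y b p.1 p.2) * Pa g b p.1 := pg2_Pa hf0 hPg b
  have e1 : ∫ z, Pa f b z * Pa g b z ∂(gam n) =
      ∫ p : E n × E n, f (Y b p.1 p.2) * Pa g b p.1 ∂((gam n).prod (gam n)) := by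
    rw [integral_prod _ (integrable_of_PG2 c1 g1)]
    refine integral_congr_ae (ae_of_all _ fun z => ?_)
    simp only
    rw [integral_mul_const]
    rfl
  have c2 : Continuous fun p : E n × E n => f p.1 * Pa g b (Y (-b) p.1 p.2) :=
    (hf.comp continuous_fst).mul (hPc.comp (continuous_Y_pair (-b)))
  have hY : ∀ p : E n × E n, Y (-b) (rot b p).1 (rot b p).2 = p.1 := by
    intro p
    rw [← rot_back b p]
    unfold Y
    rw [Real.cos_neg, Real.sin_neg, neg_smul, ← sub_eq_add_neg]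
  have e2 : ∫ p : E n × E n, f (Y b p.1 p.2) * Pa g b p.1 ∂((gam n).prod (gam n)) =
      ∫ p : E n × E n, f p.1 * Pa g b (Y (-b) p.1 p.2) ∂((gam n).prod (gam n)) := by
    rw [← integral_rot c2 b]
    refine integral_congr_ae (ae_of_all _ fun p => ?_)
    simp only [hY]
    rfl
  have g2 : PG2 fun p : E n × E n => f p.1 * Pa g b (Y (-b) p.1 p.2) := by
    obtain ⟨K, k, _, h⟩ := pg2_mul hf0 hPg
    exact ⟨K, k, h (-b)⟩
  rw [e1, e2, integral_prod _ (integrable_of_PG2 c2 g2), Fc_eq_Pa hf hg hf0 hg0 a]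
  refine integral_congr_ae (ae_of_all _ fun x => ?_)
  simp only
  rw [integral_const_mul, Pa_Pa hg hg0 hab ha x]

/-! ### contraction on mean zero functions -/

lemma integral_Pa {g : E n → ℝ} (hg : Continuous g) (hg0 : PG g) (b : ℝ) :
    ∫ x, Pa g b x ∂(gam n) = ∫ x, g x ∂(gam n) := by
  have hc : Continuous fun p : E n × E n => g (Y b p.1 p.2) := hg.comp (continuous_Y_pair b)
  have hi : Integrable (fun p : E n × E n => g (Y b p.1 p.2)) ((gam n).prod (gam n)) :=
    integrable_of_PG2 hc (PG.pg2_Y hg0 b)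
  rw [← integral_Y hg b, integral_prod _ hi]
  rfl

lemma Fc_le_Gc {h : E n → ℝ} (hh : C1 h) (h0 : ∫ x, h x ∂(gam n) = 0) {a : ℝ}
    (ha0 : 0 ≤ a) (ha1 : a ≤ π / 2) : Fc h h a ≤ Real.cos a * Gc h h a := by
  have hcos : 0 ≤ Real.cos a := Real.cos_nonneg_of_neg_pi_div_two_le_of_le (by linarith) ha1
  have hsin : 0 ≤ Real.sin a := Real.sin_nonneg_of_nonneg_of_le_pi ha0 (by linarith [Real.pi_pos])
  set b := Real.arccos (Real.sqrt (Real.cos a)) with hb
  have hs1 : Real.sqrt (Real.cos a) ≤ 1 := by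
    rw [Real.sqrt_le_one]; exact Real.cos_le_one a
  have hcb : Real.cos b = Real.sqrt (Real.cos a) :=
    Real.cos_arccos (by linarith [Real.sqrt_nonneg (Real.cos a)]) hs1
  have hab : Real.cos a = Real.cos b ^ 2 := by rw [hcb, Real.sq_sqrt hcos]
  have hP : C1 (Pa h b) := c1_Pa hh b
  have hP0 : ∫ x, Pa h b x ∂(gam n) = 0 := by rw [integral_Pa hh.cont hh.g b, h0]
  have h1 := poincare_mean0 hP hP0
  have e1 : Fc h h a = ∫ x, Pa h b x ^ 2 ∂(gam n) := by
    rw [Fc_comp hh.cont hh.cont hh.g hh.g hab hsin]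
    simp only [sq]
  have e2 : ∀ i, ∫ x, pd i (Pa h b) x ^ 2 ∂(gam n) = Real.cos a * Fc (pd i h) (pd i h) a := by
    intro i
    rw [Fc_comp (hh.contp i) (hh.contp i) (hh.p i) (hh.p i) hab hsin, pd_Pa hh b i,
      ← integral_const_mul]
    refine integral_congr_ae (ae_of_all _ fun x => ?_)
    simp only
    rw [hab]
    ring
  rw [e1, Gc_eq hh hh, Finset.mul_sum]
  refine h1.trans (le_of_eq ?_)
  exact Finset.sum_congr rfl fun i _ => e2 i

/-- **contraction** (for `C¹` functions) -/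
theorem Fc_contr {h : E n → ℝ} (hh : C1 h) (h0 : ∫ x, h x ∂(gam n) = 0) {a : ℝ}
    (ha0 : 0 ≤ a) (ha1 : a ≤ π / 2) : Fc h h a ≤ Real.cos a * ∫ x, h x ^ 2 ∂(gam n) := by
  rcases ha1.eq_or_lt with h1 | h1
  · rw [h1, Fc_pi, h0, Real.cos_pi_div_two]; simp
  · -- `ψ = φ / cos` is antitone on `[0, a]`
    have hcos : ∀ t ∈ Icc (0 : ℝ) a, 0 < Real.cos t := fun t ht =>
      Real.cos_pos_of_mem_Ioo ⟨by linarith [ht.1, Real.pi_pos], by linarith [ht.2]⟩
    have hd : ∀ t ∈ Icc (0 : ℝ) a, HasDerivAt (fun t => Fc h h t / Real.cos t)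
        ((-Real.sin t * Gc h h t * Real.cos t - Fc h h t * (-Real.sin t)) / Real.cos t ^ 2) t :=
      fun t ht => (hasDerivAt_Fc hh hh t).div (Real.hasDerivAt_cos t) (hcos t ht).ne'
    have hanti : AntitoneOn (fun t => Fc h h t / Real.cos t) (Icc 0 a) := by
      refine antitoneOn_of_deriv_nonpos (convex_Icc 0 a)
        (fun t ht => (hd t ht).continuousAt.continuousWithinAt)
        (fun t ht => ((hd t (interior_subset ht)).differentiableAt).differentiableWithinAt)
        fun t ht => ?_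
      have ht' := interior_subset ht
      rw [(hd t ht').deriv]
      have h2 := Fc_le_Gc hh h0 ht'.1 (ht'.2.trans ha1)
      have hs : 0 ≤ Real.sin t := Real.sin_nonneg_of_nonneg_of_le_pi ht'.1
        (by linarith [ht'.2, Real.pi_pos])
      refine div_nonpos_of_nonpos_of_nonneg ?_ (by positivity)
      nlinarith
    have h3 := hanti (left_mem_Icc.2 ha0) (right_mem_Icc.2 ha0) ha0
    simp only [Real.cos_zero, div_one] at h3
    rw [Fc_zero] at h3
    have e : ∫ x, h x * h x ∂(gam n) = ∫ x, h x ^ 2 ∂(gam n) := by simp only [sq]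
    rw [e, div_le_iff₀ (hcos a (right_mem_Icc.2 ha0))] at h3
    linarith

/-! ### mollification: `C¹` functions are enough -/

open Mol in
lemma c1_Mo {h : E n → ℝ} (hh : Continuous h) (hg : PG h) (j : ℕ) : C1 (Mo (wj n j) h) := by
  obtain ⟨K, k, hK0, hK⟩ := pg_nonneg hg
  have hw := wj_contDiff n j
  have hc := wj_cs n j
  have key : ∀ x t : E n, |h (x - t)| ≤ K * (1 + ‖x‖) ^ k * (1 + ‖t‖) ^ k := by
    intro x t
    refine (hK _).trans ?_
    rw [mul_assoc, ← mul_pow]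
    refine mul_le_mul_of_nonneg_left (pow_le_pow_left₀ (by positivity) ?_ k) hK0
    have h1 := norm_sub_le x t
    nlinarith [mul_nonneg (norm_nonneg x) (norm_nonneg t)]
  have hpow : Continuous fun t : E n => (1 + ‖t‖) ^ k := by fun_prop
  have hsm : ContDiff ℝ 1 (Mo (wj n j) h) := (contDiff_Mo hw hc hh).of_le (by exact_mod_cast le_top)
  refine ⟨hsm, ?_, fun i => ?_⟩
  · have hi : Integrable (fun t : E n => wj n j t * (1 + ‖t‖) ^ k) :=
      ((wj_cont n j).mul hpow).integrable_of_hasCompactSupport hc.mul_right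
    refine ⟨K * ∫ t, wj n j t * (1 + ‖t‖) ^ k, k, fun x => ?_⟩
    have h2 : ∀ t : E n, ‖wj n j t • h (x - t)‖ ≤
        K * (1 + ‖x‖) ^ k * (wj n j t * (1 + ‖t‖) ^ k) := by
      intro t
      rw [smul_eq_mul, norm_mul, Real.norm_eq_abs, Real.norm_eq_abs, abs_of_nonneg (wj_nonneg n j t)]
      calc wj n j t * |h (x - t)| ≤ wj n j t * (K * (1 + ‖x‖) ^ k * (1 + ‖t‖) ^ k) :=
            mul_le_mul_of_nonneg_left (key x t) (wj_nonneg n j t)
        _ = _ := by ring
    have h1 : |Mo (wj n j) h x| ≤ ∫ t, K * (1 + ‖x‖) ^ k * (wj n j t * (1 + ‖t‖) ^ k) :=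
      norm_integral_le_of_norm_le (f := fun t => wj n j t • h (x - t)) (hi.const_mul _)
        (ae_of_all _ h2)
    rw [integral_const_mul] at h1
    refine h1.trans (le_of_eq (by ring))
  · have hfc : Continuous (fderiv ℝ (wj n j)) := hw.continuous_fderiv (by simp)
    have hcs : HasCompactSupport fun t : E n => ‖fderiv ℝ (wj n j) t‖ := (hc.fderiv ℝ).norm
    have hi : Integrable (fun t : E n => ‖fderiv ℝ (wj n j) t‖ * (1 + ‖t‖) ^ k) :=
      (hfc.norm.mul hpow).integrable_of_hasCompactSupport hcs.mul_right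
    refine ⟨K * ∫ t, ‖fderiv ℝ (wj n j) t‖ * (1 + ‖t‖) ^ k, k, fun x => ?_⟩
    have h1 := hc.hasFDerivAt_convolution_left (ContinuousLinearMap.lsmul ℝ ℝ : ℝ →L[ℝ] ℝ →L[ℝ] ℝ)
      (μ := (volume : Measure (E n))) (hw.of_le (by simp)) (hh.locallyIntegrable) x
    have h4 : ∀ t : E n, ‖((ContinuousLinearMap.lsmul ℝ ℝ : ℝ →L[ℝ] ℝ →L[ℝ] ℝ).precompL (E n)
          (fderiv ℝ (wj n j) t)) (h (x - t))‖ ≤
        K * (1 + ‖x‖) ^ k * (‖fderiv ℝ (wj n j) t‖ * (1 + ‖t‖) ^ k) := by
      intro t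
      refine ContinuousLinearMap.opNorm_le_bound _ (by positivity) fun v => ?_
      have : (((ContinuousLinearMap.lsmul ℝ ℝ : ℝ →L[ℝ] ℝ →L[ℝ] ℝ).precompL (E n)
          (fderiv ℝ (wj n j) t)) (h (x - t))) v = (fderiv ℝ (wj n j) t v) * h (x - t) := by
        simp [ContinuousLinearMap.precompL]
      rw [this, norm_mul]
      calc ‖fderiv ℝ (wj n j) t v‖ * ‖h (x - t)‖
          ≤ (‖fderiv ℝ (wj n j) t‖ * ‖v‖) * (K * (1 + ‖x‖) ^ k * (1 + ‖t‖) ^ k) := by
            refine mul_le_mul ((fderiv ℝ (wj n j) t).le_opNorm v) (key x t) (norm_nonneg _)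
              (by positivity)
        _ = _ := by ring
    have h2 : ‖fderiv ℝ (Mo (wj n j) h) x‖ ≤
        ∫ t, K * (1 + ‖x‖) ^ k * (‖fderiv ℝ (wj n j) t‖ * (1 + ‖t‖) ^ k) := by
      rw [Mo_eq_conv, h1.fderiv]
      exact norm_integral_le_of_norm_le (f := fun t =>
        ((ContinuousLinearMap.lsmul ℝ ℝ : ℝ →L[ℝ] ℝ →L[ℝ] ℝ).precompL (E n)
          (fderiv ℝ (wj n j) t)) (h (x - t))) (hi.const_mul _) (ae_of_all _ h4)
    rw [integral_const_mul] at h2
    have h3 : |pd i (Mo (wj n j) h) x| ≤ ‖fderiv ℝ (Mo (wj n j) h) x‖ := by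
      have := (fderiv ℝ (Mo (wj n j) h) x).le_opNorm (e i)
      simpa [pd] using this
    exact h3.trans (h2.trans (le_of_eq (by ring)))

open Mol in
lemma Mo_unif {h : E n → ℝ} (hg : PG h) :
    ∃ (K : ℝ) (k : ℕ), 0 ≤ K ∧ ∀ j x, |Mo (wj n j) h x| ≤ K * (1 + ‖x‖) ^ k := by
  obtain ⟨K, k, hK0, hK⟩ := pg_nonneg hg
  refine ⟨K * 2 ^ k, k, by positivity, fun j x => ?_⟩
  have hsupp : ∀ t : E n, wj n j t ≠ 0 → ‖t‖ ≤ 1 := by
    intro t ht
    have h1 : t ∈ Function.support (wj n j) := ht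
    unfold wj at h1
    rw [ContDiffBump.support_normed_eq] at h1
    have h2 : ‖t‖ < (bump n j).rOut := by simpa using h1
    have h3 : (bump n j).rOut ≤ 1 := by
      show 1 / ((j : ℝ) + 1) ≤ 1
      rw [div_le_one (by positivity)]
      have : (0 : ℝ) ≤ j := Nat.cast_nonneg j
      linarith
    linarith
  have hi : Integrable (wj n j) := (wj_cont n j).integrable_of_hasCompactSupport (wj_cs n j)
  have h0 : ∀ t : E n, ‖wj n j t • h (x - t)‖ ≤ wj n j t * (K * 2 ^ k * (1 + ‖x‖) ^ k) := by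
    intro t
    rw [smul_eq_mul, norm_mul, Real.norm_eq_abs, Real.norm_eq_abs, abs_of_nonneg (wj_nonneg n j t)]
    by_cases ht : wj n j t = 0
    · rw [ht]; simp
    · have h2 := hsupp t ht
      refine mul_le_mul_of_nonneg_left ?_ (wj_nonneg n j t)
      refine (hK _).trans ?_
      rw [mul_assoc, ← mul_pow]
      refine mul_le_mul_of_nonneg_left (pow_le_pow_left₀ (by positivity) ?_ k) hK0
      have h4 := norm_sub_le x t
      linarith [norm_nonneg x]
  have h1 : |Mo (wj n j) h x| ≤ ∫ t, wj n j t * (K * 2 ^ k * (1 + ‖x‖) ^ k) :=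
    norm_integral_le_of_norm_le (f := fun t => wj n j t • h (x - t)) (hi.mul_const _)
      (ae_of_all _ h0)
  rw [integral_mul_const, wj_int, one_mul] at h1
  exact h1

open Mol in
/-- **contraction** for continuous functions of polynomial growth -/
theorem Fc_contr' {h : E n → ℝ} (hh : Continuous h) (hg : PG h) (h0 : ∫ x, h x ∂(gam n) = 0)
    {a : ℝ} (ha0 : 0 ≤ a) (ha1 : a ≤ π / 2) :
    Fc h h a ≤ Real.cos a * ∫ x, h x ^ 2 ∂(gam n) := by
  obtain ⟨K, k, hK0, hK⟩ := Mo_unif hg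
  set m : ℕ → ℝ := fun j => ∫ x, Mo (wj n j) h x ∂(gam n) with hm
  set f : ℕ → E n → ℝ := fun j x => Mo (wj n j) h x - m j with hf
  have hc1 : ∀ j, C1 (f j) := fun j => (c1_Mo hh hg j).sub (c1_const _)
  have hpow := integrable_pow_stdGaussian (n := n) k
  have hmt : Tendsto m atTop (𝓝 0) := by
    rw [← h0]
    refine tendsto_integral_of_dominated_convergence (fun x => K * (1 + ‖x‖) ^ k)
      (fun j => (c1_Mo hh hg j).cont.aestronglyMeasurable) (hpow.const_mul K)
      (fun j => ae_of_all _ fun x => hK j x) (ae_of_all _ fun x => tendsto_Mo hh x)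
  have hm0 : ∀ j, ∫ x, f j x ∂(gam n) = 0 := fun j => by
    rw [hf]
    simp only
    rw [integral_sub (integrable_of_PG (c1_Mo hh hg j).cont (c1_Mo hh hg j).g)
      (integrable_const _)]
    simp [hm]
  have hmb : ∀ j, |m j| ≤ K * ∫ x : E n, (1 + ‖x‖) ^ k ∂(gam n) := fun j => by
    have := norm_integral_le_of_norm_le (μ := gam n) (f := Mo (wj n j) h) (hpow.const_mul K)
      (ae_of_all _ fun x => hK j x)
    rw [integral_const_mul] at this
    exact this
  set B := K + K * ∫ x : E n, (1 + ‖x‖) ^ k ∂(gam n) with hB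
  have hI0 : 0 ≤ ∫ x : E n, (1 + ‖x‖) ^ k ∂(gam n) := integral_nonneg fun x => by positivity
  have hB0 : 0 ≤ B := by positivity
  have hfb : ∀ j x, |f j x| ≤ B * (1 + ‖x‖) ^ k := by
    intro j x
    have h1 : (1 : ℝ) ≤ (1 + ‖x‖) ^ k := one_le_pow₀ (by linarith [norm_nonneg x])
    calc |f j x| ≤ |Mo (wj n j) h x| + |m j| := abs_sub _ _
      _ ≤ K * (1 + ‖x‖) ^ k + (K * ∫ x : E n, (1 + ‖x‖) ^ k ∂(gam n)) * 1 := by
          rw [mul_one]; exact add_le_add (hK j x) (hmb j)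
      _ ≤ K * (1 + ‖x‖) ^ k + (K * ∫ x : E n, (1 + ‖x‖) ^ k ∂(gam n)) * (1 + ‖x‖) ^ k := by
          gcongr
      _ = B * (1 + ‖x‖) ^ k := by rw [hB]; ring
  have hft : ∀ x, Tendsto (fun j => f j x) atTop (𝓝 (h x)) := fun x => by
    have := (tendsto_Mo hh x).sub hmt
    simpa using this
  have hineq : ∀ j, Fc (f j) (f j) a ≤ Real.cos a * ∫ x, f j x ^ 2 ∂(gam n) := fun j =>
    Fc_contr (hc1 j) (hm0 j) ha0 ha1
  have t1 : Tendsto (fun j => Fc (f j) (f j) a) atTop (𝓝 (Fc h h a)) := by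
    refine tendsto_integral_of_dominated_convergence
      (fun p : E n × E n => B * B * ((1 + ‖p.1‖) ^ (k + k) * (1 + ‖p.2‖) ^ (k + k)))
      (fun j => (continuous_fgY (hc1 j).cont (hc1 j).cont a).aestronglyMeasurable)
      ((integrable_pow2 (k + k)).const_mul _) (fun j => ae_of_all _ fun p => ?_)
      (ae_of_all _ fun p => (hft p.1).mul (hft _))
    rw [norm_mul, Real.norm_eq_abs, Real.norm_eq_abs]
    have h1 := hfb j p.1
    have h2 := (hfb j (Y a p.1 p.2)).trans (mul_le_mul_of_nonneg_left (pow_Y_le a p.1 p.2 k) hB0)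
    have h3 : (1 : ℝ) ≤ (1 + ‖p.2‖) ^ k := one_le_pow₀ (by linarith [norm_nonneg p.2])
    calc |f j p.1| * |f j (Y a p.1 p.2)|
        ≤ (B * (1 + ‖p.1‖) ^ k) * (B * ((1 + ‖p.1‖) ^ k * (1 + ‖p.2‖) ^ k)) :=
          mul_le_mul h1 h2 (abs_nonneg _) (by positivity)
      _ ≤ (B * (1 + ‖p.1‖) ^ k) * (B * ((1 + ‖p.1‖) ^ k * (1 + ‖p.2‖) ^ k)) * (1 + ‖p.2‖) ^ k :=
          le_mul_of_one_le_right (by positivity) h3
      _ = _ := by ring
  have t2 : Tendsto (fun j => Real.cos a * ∫ x, f j x ^ 2 ∂(gam n)) atTop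
      (𝓝 (Real.cos a * ∫ x, h x ^ 2 ∂(gam n))) := by
    refine Tendsto.const_mul _ ?_
    refine tendsto_integral_of_dominated_convergence (fun x : E n => B ^ 2 * (1 + ‖x‖) ^ (2 * k))
      (fun j => ((hc1 j).cont.pow 2).aestronglyMeasurable)
      ((integrable_pow_stdGaussian (2 * k)).const_mul _) (fun j => ae_of_all _ fun x => ?_)
      (ae_of_all _ fun x => (hft x).pow 2)
    rw [Real.norm_eq_abs, abs_pow]
    calc |f j x| ^ 2 ≤ (B * (1 + ‖x‖) ^ k) ^ 2 := by gcongr; exact hfb j x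
      _ = B ^ 2 * (1 + ‖x‖) ^ (2 * k) := by rw [mul_pow, ← pow_mul, mul_comm k 2]
  exact le_of_tendsto_of_tendsto' t1 t2 hineq

/-- **second Poincaré inequality**: `2 E f² ≤ E |Df|²` if `E f = 0`, `E Df = 0` -/
theorem poincare2 {f : E n → ℝ} (hf : C1 f) (h0 : ∫ x, f x ∂(gam n) = 0)
    (h1 : ∀ i, ∫ x, pd i f x ∂(gam n) = 0) :
    2 * ∫ x, f x ^ 2 ∂(gam n) ≤ ∑ i, ∫ x, pd i f x ^ 2 ∂(gam n) := by
  have h := cov_eq hf hf
  rw [h0] at h
  have e1 : ∫ x, f x * f x ∂(gam n) = ∫ x, f x ^ 2 ∂(gam n) := by simp only [sq]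
  rw [e1] at h
  have hb : ∀ a ∈ Icc (0 : ℝ) (π / 2), Real.sin a * Gc f f a ≤
      Real.sin a * (Real.cos a * ∑ i, ∫ x, pd i f x ^ 2 ∂(gam n)) := by
    intro a ha
    refine mul_le_mul_of_nonneg_left ?_
      (Real.sin_nonneg_of_nonneg_of_le_pi ha.1 (ha.2.trans (by linarith [Real.pi_pos])))
    rw [Gc_eq hf hf, Finset.mul_sum]
    exact Finset.sum_le_sum fun i _ => Fc_contr' (hf.contp i) (hf.p i) (h1 i) ha.1 ha.2
  have h2 : ∫ a in (0 : ℝ)..(π / 2), Real.sin a * Gc f f a ≤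
      ∫ a in (0 : ℝ)..(π / 2), Real.sin a * (Real.cos a * ∑ i, ∫ x, pd i f x ^ 2 ∂(gam n)) :=
    intervalIntegral.integral_mono_on (by positivity)
      ((Real.continuous_sin.mul (continuous_Gc hf hf)).intervalIntegrable _ _)
      ((Real.continuous_sin.mul (Real.continuous_cos.mul continuous_const)).intervalIntegrable _ _)
      hb
  have h3 : ∫ a in (0 : ℝ)..(π / 2), Real.sin a * (Real.cos a *
      ∑ i, ∫ x, pd i f x ^ 2 ∂(gam n)) = (1 / 2) * ∑ i, ∫ x, pd i f x ^ 2 ∂(gam n) := by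
    have : ∀ a : ℝ, Real.sin a * (Real.cos a * ∑ i, ∫ x, pd i f x ^ 2 ∂(gam n)) =
        (Real.sin a * Real.cos a) * ∑ i, ∫ x, pd i f x ^ 2 ∂(gam n) := fun a => by ring
    simp_rw [this]
    rw [intervalIntegral.integral_mul_const, integral_sin_mul_cos₁]
    simp
  rw [h3] at h2
  linarith

/-! ### the first chaos -/

/-- `f - E f - Σ_k (E ∂_k f) x_k` -/
def eta (f : E n → ℝ) (x : E n) : ℝ :=
  f x - (∫ y, f y ∂(gam n)) - ∑ k, (∫ y, pd k f y ∂(gam n)) * x k

lemma c1_eta {f : E n → ℝ} (hf : C1 f) : C1 (eta f) :=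
  (hf.sub (c1_const _)).sub (C1.sum fun k _ => (c1_coord k).smul _)

lemma pd_const_c (c : ℝ) (i : Fin n) (x : E n) : pd i (fun _ : E n => c) x = 0 := by simp [pd]

lemma pd_lin (T : Fin n → ℝ) (i : Fin n) (x : E n) :
    pd i (fun x : E n => ∑ k, T k * x k) x = T i := by
  rw [pd_sum' fun k _ => (c1_coord k).smul (T k)]
  have : ∀ k, pd i (fun x : E n => T k * x k) x = T k * (if k = i then 1 else 0) := fun k => by
    rw [(c1_const (T k)).pd_mul (c1_coord k), pd_const_c, pd_coord]; ring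
  simp_rw [this]
  simp

lemma pd_eta {f : E n → ℝ} (hf : C1 f) (i : Fin n) (x : E n) :
    pd i (eta f) x = pd i f x - ∫ y, pd i f y ∂(gam n) := by
  have c2 : C1 fun x : E n => ∑ k, (∫ y, pd k f y ∂(gam n)) * x k :=
    C1.sum fun k _ => (c1_coord k).smul _
  have e : eta f = fun x => (f x + (-(∫ y, f y ∂(gam n)))) +
      (-1) * ∑ k, (∫ y, pd k f y ∂(gam n)) * x k := by
    funext y; unfold eta; ring
  rw [e, (hf.add (c1_const _)).pd_add (c2.smul (-1)), hf.pd_add (c1_const _),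
    (c1_const (-1)).pd_mul c2, pd_const_c, pd_const_c, pd_lin]
  ring

lemma integral_coord (k : Fin n) : ∫ x : E n, x k ∂(gam n) = 0 := by
  have h := ibp_gam (n := n) (f := fun _ => 1) contDiff_const (pg_const 1) k (by
    have : pd k (fun _ : E n => (1 : ℝ)) = fun _ => 0 := by funext x; simp [pd]
    rw [this]; exact pg_const 0)
  simp only [one_mul] at h
  rw [h]
  simp [pd]

lemma integral_eta {f : E n → ℝ} (hf : C1 f) : ∫ x, eta f x ∂(gam n) = 0 := by
  have i1 : Integrable f (gam n) := integrable_of_PG hf.cont hf.g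
  have i2 : ∀ k, Integrable (fun x : E n => (∫ y, pd k f y ∂(gam n)) * x k) (gam n) := fun k =>
    (integrable_of_PG (c1_coord k).cont (pg_coord k)).const_mul _
  have i3 : Integrable (fun x => f x - ∫ y, f y ∂(gam n)) (gam n) := i1.sub (integrable_const _)
  unfold eta
  rw [integral_sub i3 (integrable_finsetSum _ fun k _ => i2 k),
    integral_sub i1 (integrable_const _), integral_finsetSum _ fun k _ => i2 k]
  simp_rw [integral_const_mul, integral_coord]
  simp

lemma integral_pd_eta {f : E n → ℝ} (hf : C1 f) (i : Fin n) :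
    ∫ x, pd i (eta f) x ∂(gam n) = 0 := by
  have i1 : Integrable (pd i f) (gam n) := integrable_of_PG (hf.contp i) (hf.p i)
  simp_rw [pd_eta hf i]
  rw [integral_sub i1 (integrable_const _)]
  simp

/-- `2 E η² ≤ E |Dη|²` -/
theorem eta_poincare {f : E n → ℝ} (hf : C1 f) :
    2 * ∫ x, eta f x ^ 2 ∂(gam n) ≤ ∑ i, ∫ x, pd i (eta f) x ^ 2 ∂(gam n) :=
  poincare2 (c1_eta hf) (integral_eta hf) (integral_pd_eta hf)

/-- `E (∂_i f)² = T_i² + E (∂_i η)²` -/
theorem pd_sq_split {f : E n → ℝ} (hf : C1 f) (i : Fin n) :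
    ∫ x, pd i f x ^ 2 ∂(gam n) =
      (∫ y, pd i f y ∂(gam n)) ^ 2 + ∫ x, pd i (eta f) x ^ 2 ∂(gam n) := by
  have i1 : Integrable (pd i f) (gam n) := integrable_of_PG (hf.contp i) (hf.p i)
  have i2 : Integrable (fun x => pd i f x ^ 2) (gam n) :=
    integrable_of_PG ((hf.contp i).pow 2) (PG_sq (hf.p i))
  set T := ∫ y, pd i f y ∂(gam n) with hT
  have e : ∀ x, pd i (eta f) x ^ 2 = pd i f x ^ 2 - 2 * (T * pd i f x) + T ^ 2 := fun x => by
    rw [pd_eta hf i]; ring
  simp_rw [e]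
  rw [int_expand i2 (i1.const_mul T) (integrable_const _), integral_const_mul, ← hT]
  simp
  ring

/-- `E f² = (E f)² + Σ T_k² + E η²` -/
theorem sq_split {f : E n → ℝ} (hf : C1 f) :
    ∫ x, f x ^ 2 ∂(gam n) = (∫ x, f x ∂(gam n)) ^ 2 + (∑ k, (∫ y, pd k f y ∂(gam n)) ^ 2) +
      ∫ x, eta f x ^ 2 ∂(gam n) := by
  set m := ∫ x, f x ∂(gam n) with hm
  set T : Fin n → ℝ := fun k => ∫ y, pd k f y ∂(gam n) with hT
  set l : E n → ℝ := fun x => ∑ k, T k * x k with hl
  have cl : C1 l := C1.sum fun k _ => (c1_coord k).smul _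
  have ce := c1_eta hf
  have e0 : ∀ x, f x = eta f x + (m + l x) := fun x => by
    unfold eta; simp only [hl, hT, hm]; ring
  have i1 : Integrable (fun x => eta f x ^ 2) (gam n) :=
    integrable_of_PG (ce.cont.pow 2) (PG_sq ce.g)
  have cml : C1 fun x => m + l x := (c1_const m).add cl
  have i2 : Integrable (fun x => (m + l x) * eta f x) (gam n) :=
    integrable_of_PG (cml.mul ce).cont (cml.mul ce).g
  have i3 : Integrable (fun x => (m + l x) ^ 2) (gam n) :=
    integrable_of_PG (cml.cont.pow 2) (PG_sq cml.g)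
  -- `E (m + l) η = 0`
  have ieta : Integrable (eta f) (gam n) := integrable_of_PG ce.cont ce.g
  have ixk : ∀ k, Integrable (fun x : E n => eta f x * x k) (gam n) := fun k =>
    integrable_of_PG (ce.cont.mul (c1_coord k).cont) (ce.g.mul (pg_coord k))
  have z1 : ∀ k, ∫ x, eta f x * x k ∂(gam n) = 0 := fun k => by
    rw [ibp_gam ce.c ce.g k (ce.p k), integral_pd_eta hf k]
  have z2 : ∫ x, (m + l x) * eta f x ∂(gam n) = 0 := by
    have : ∀ x, (m + l x) * eta f x = m * eta f x + ∑ k, T k * (eta f x * x k) := fun x => by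
      simp only [hl]
      rw [add_mul, Finset.sum_mul]
      congr 1
      exact Finset.sum_congr rfl fun k _ => by ring
    simp_rw [this]
    rw [integral_add (ieta.const_mul m) (integrable_finsetSum _ fun k _ => (ixk k).const_mul _),
      integral_finsetSum _ fun k _ => (ixk k).const_mul _]
    simp_rw [integral_const_mul, z1, integral_eta hf]
    simp
  -- `E (m + l)² = m² + Σ T²`
  have cxx : ∀ j k : Fin n, ∫ x : E n, x j * x k ∂(gam n) = if j = k then 1 else 0 := fun j k => by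
    rw [ibp_gam (c1_coord j).c (pg_coord j) k ((c1_coord j).p k)]
    simp_rw [pd_coord]
    simp
  have ik : ∀ k : Fin n, Integrable (fun x : E n => x k) (gam n) := fun k =>
    integrable_of_PG (c1_coord k).cont (pg_coord k)
  have ijk : ∀ j k : Fin n, Integrable (fun x : E n => x j * x k) (gam n) := fun j k =>
    integrable_of_PG ((c1_coord j).cont.mul (c1_coord k).cont) ((pg_coord j).mul (pg_coord k))
  have il : Integrable l (gam n) := integrable_of_PG cl.cont cl.g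
  have zl : ∫ x, l x ∂(gam n) = 0 := by
    simp only [hl]
    rw [integral_finsetSum _ fun k _ => (ik k).const_mul _]
    simp_rw [integral_const_mul, integral_coord]
    simp
  have zll : ∫ x, l x ^ 2 ∂(gam n) = ∑ k, T k ^ 2 := by
    have : ∀ x, l x ^ 2 = ∑ j, ∑ k, T j * T k * (x j * x k) := fun x => by
      simp only [hl, sq]
      rw [Finset.sum_mul_sum]
      exact Finset.sum_congr rfl fun j _ => Finset.sum_congr rfl fun k _ => by ring
    simp_rw [this]
    rw [integral_finsetSum _ fun j _ => integrable_finsetSum _ fun k _ => (ijk j k).const_mul _]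
    refine Finset.sum_congr rfl fun j _ => ?_
    rw [integral_finsetSum _ fun k _ => (ijk j k).const_mul _]
    simp_rw [integral_const_mul, cxx]
    simp [sq]
  have z3 : ∫ x, (m + l x) ^ 2 ∂(gam n) = m ^ 2 + ∑ k, T k ^ 2 := by
    have : ∀ x, (m + l x) ^ 2 = l x ^ 2 - 2 * (-m * l x) + m ^ 2 := fun x => by ring
    simp_rw [this]
    have il2 : Integrable (fun x => l x ^ 2) (gam n) :=
      integrable_of_PG (cl.cont.pow 2) (PG_sq cl.g)
    have ilm : Integrable (fun x => -m * l x) (gam n) := il.const_mul (-m)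
    rw [int_expand il2 ilm (integrable_const _), integral_const_mul, zl, zll]
    simp
    ring
  have e1 : ∀ x, f x ^ 2 = eta f x ^ 2 - 2 * (-((m + l x) * eta f x)) + (m + l x) ^ 2 := fun x => by
    rw [e0 x]; ring
  have e2 : ∫ x, f x ^ 2 ∂(gam n) = (∫ x, eta f x ^ 2 ∂(gam n)) -
      2 * (∫ x, -((m + l x) * eta f x) ∂(gam n)) + ∫ x, (m + l x) ^ 2 ∂(gam n) := by
    have i2n : Integrable (fun x => -((m + l x) * eta f x)) (gam n) := i2.neg
    rw [← int_expand i1 i2n i3]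
    exact integral_congr_ae (ae_of_all _ fun x => e1 x)
  rw [e2, integral_neg, z2, z3]
  ring

end Crest.Agent.R253.Meh74
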