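import Crest.Agent.R253.Mills_37

/-!
# Row 253 (helper451): `H0' < 1/2` and `H0'' < 1/10`

Letters of `Mills_37`: `mu` hazard, `ee = mu - z`, `kk = -log Q`, `H0 = kk/mu`,
`H0' = 1 - ee H0`, `H0'' = ww H0 - ee`.
-/

set_option autoImplicit false

open Filter Topology Set

namespace Crest.Agent.R253.V2451

open Crest.Agent.R253.Mills37

noncomputable section

/-! ### the two-variable polynomial inequality -/

/-- discriminant polynomial on `[0,4]` -/
lemma disc_pos {b : ℝ} (h0 : 0 ≤ b) (h4 : b ≤ 4) :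
    (3/10 - 103/50 * b + 1/50 * b^3 - 1/10 * b^4 - 1/100 * b^5)^2 <
      4 * (1/10 - 1/50 * b + 1/5 * b^2 - 1/100 * b^3 + 1/10 * b^4 + 1/100 * b^5) *
        (3/10 + 97/50 * b + 1/5 * b^2 + 3/100 * b^3) := by
  rcases le_total b 1 with h1 | h1
  · have h2 : 0 ≤ 1 - b := by linarith
    have key : 4 * (1/10 - 1/50 * b + 1/5 * b^2 - 1/100 * b^3 + 1/10 * b^4 + 1/100 * b^5) *
        (3/10 + 97/50 * b + 1/5 * b^2 + 3/100 * b^3) -
        (3/10 - 103/50 * b + 1/50 * b^3 - 1/10 * b^4 - 1/100 * b^5)^2 =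
        ((3/100:ℝ) * (b - 0)^0 * (1 - b)^10 + (286/125:ℝ) * (b - 0)^1 * (1 - b)^9 + (9477/625:ℝ) * (b - 0)^2 * (1 - b)^8 + (55077/1250:ℝ) * (b - 0)^3 * (1 - b)^7 + (8762/125:ℝ) * (b - 0)^4 * (1 - b)^6 + (160229/2500:ℝ) * (b - 0)^5 * (1 - b)^5 + (19908/625:ℝ) * (b - 0)^6 * (1 - b)^4 + (4269/625:ℝ) * (b - 0)^7 * (1 - b)^3 + (73/125:ℝ) * (b - 0)^8 * (1 - b)^2 + (983/1250:ℝ) * (b - 0)^9 * (1 - b)^1 + (3319/10000:ℝ) * (b - 0)^10 * (1 - b)^0) := by ring
    have hb : 0 ≤ b - 0 := by linarith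
    have hpos : 0 < ((3/100:ℝ) * (b - 0)^0 * (1 - b)^10 + (286/125:ℝ) * (b - 0)^1 * (1 - b)^9 + (9477/625:ℝ) * (b - 0)^2 * (1 - b)^8 + (55077/1250:ℝ) * (b - 0)^3 * (1 - b)^7 + (8762/125:ℝ) * (b - 0)^4 * (1 - b)^6 + (160229/2500:ℝ) * (b - 0)^5 * (1 - b)^5 + (19908/625:ℝ) * (b - 0)^6 * (1 - b)^4 + (4269/625:ℝ) * (b - 0)^7 * (1 - b)^3 + (73/125:ℝ) * (b - 0)^8 * (1 - b)^2 + (983/1250:ℝ) * (b - 0)^9 * (1 - b)^1 + (3319/10000:ℝ) * (b - 0)^10 * (1 - b)^0) := by
      rcases eq_or_lt_of_le h2 with h | h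
      · have hb1 : b = 1 := by linarith
        subst hb1; norm_num
      · positivity
    linarith
  · have h2 : 0 ≤ 4 - b := by linarith
    have key : 4 * (1/10 - 1/50 * b + 1/5 * b^2 - 1/100 * b^3 + 1/10 * b^4 + 1/100 * b^5) *
        (3/10 + 97/50 * b + 1/5 * b^2 + 3/100 * b^3) -
        (3/10 - 103/50 * b + 1/50 * b^3 - 1/10 * b^4 - 1/100 * b^5)^2 =
        ((3319/590490000:ℝ) * (b - 1)^0 * (4 - b)^10 + (6823/36905625:ℝ) * (b - 1)^1 * (4 - b)^9 + (11062/4100625:ℝ) * (b - 1)^2 * (4 - b)^8 + (48911/2460375:ℝ) * (b - 1)^3 * (4 - b)^7 + (1027264/12301875:ℝ) * (b - 1)^4 * (4 - b)^6 + (3546521/16402500:ℝ) * (b - 1)^5 * (4 - b)^5 + (4377469/12301875:ℝ) * (b - 1)^6 * (4 - b)^4 + (361163/984150:ℝ) * (b - 1)^7 * (4 - b)^3 + (903907/4100625:ℝ) * (b - 1)^8 * (4 - b)^2 + (2326078/36905625:ℝ) * (b - 1)^9 * (4 - b)^1 + (548131/147622500:ℝ) * (b - 1)^10 * (4 - b)^0) := by ring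
    have hb : 0 ≤ b - 1 := by linarith
    have hpos : 0 < ((3319/590490000:ℝ) * (b - 1)^0 * (4 - b)^10 + (6823/36905625:ℝ) * (b - 1)^1 * (4 - b)^9 + (11062/4100625:ℝ) * (b - 1)^2 * (4 - b)^8 + (48911/2460375:ℝ) * (b - 1)^3 * (4 - b)^7 + (1027264/12301875:ℝ) * (b - 1)^4 * (4 - b)^6 + (3546521/16402500:ℝ) * (b - 1)^5 * (4 - b)^5 + (4377469/12301875:ℝ) * (b - 1)^6 * (4 - b)^4 + (361163/984150:ℝ) * (b - 1)^7 * (4 - b)^3 + (903907/4100625:ℝ) * (b - 1)^8 * (4 - b)^2 + (2326078/36905625:ℝ) * (b - 1)^9 * (4 - b)^1 + (548131/147622500:ℝ) * (b - 1)^10 * (4 - b)^0) := by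
      rcases eq_or_lt_of_le h2 with h | h
      · have hb1 : b = 4 := by linarith
        subst hb1; norm_num
      · positivity
    linarith

/-- the polynomial `N` -/
def NN (b r : ℝ) : ℝ :=
  (1/10 - 1/50 * b + 1/5 * b^2 - 1/100 * b^3 + 1/10 * b^4 + 1/100 * b^5) +
    (3/10 - 103/50 * b + 1/50 * b^3 - 1/10 * b^4 - 1/100 * b^5) * r +
    (3/10 + 97/50 * b + 1/5 * b^2 + 3/100 * b^3) * r^2 + (1/10 - 1/50 * b) * r^3

lemma NN_pos {b r : ℝ} (hb : 0 < b) (hr0 : 0 ≤ r) (hr1 : r ≤ 1) : 0 < NN b r := by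
  rcases le_total b 4 with h4 | h4
  · have hd := disc_pos hb.le h4
    set A := 1/10 - 1/50 * b + 1/5 * b^2 - 1/100 * b^3 + 1/10 * b^4 + 1/100 * b^5 with hA
    set B := 3/10 - 103/50 * b + 1/50 * b^3 - 1/10 * b^4 - 1/100 * b^5 with hB
    set C := 3/10 + 97/50 * b + 1/5 * b^2 + 3/100 * b^3 with hC
    have hC0 : 0 < C := by rw [hC]; positivity
    have hD : 0 ≤ (1/10 - 1/50 * b) * r^3 := by
      apply mul_nonneg
      · linarith
      · positivity
    have h1 : 0 < 4 * C * (A + B * r + C * r^2) := by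
      have : 4 * C * (A + B * r + C * r^2) = (2 * C * r + B)^2 + (4 * A * C - B^2) := by ring
      rw [this]
      nlinarith [sq_nonneg (2 * C * r + B)]
    have h2 : 0 < A + B * r + C * r^2 := by
      by_contra hneg
      push Not at hneg
      have : 4 * C * (A + B * r + C * r^2) ≤ 0 :=
        mul_nonpos_of_nonneg_of_nonpos (by positivity) hneg
      linarith
    have h3 : NN b r = A + B * r + C * r^2 + (1/10 - 1/50 * b) * r^3 := rfl
    rw [h3]
    linarith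
  · obtain ⟨t, ht0, rfl⟩ : ∃ t : ℝ, 0 ≤ t ∧ b = 4 + t := ⟨b - 4, by linarith, by ring⟩
    obtain ⟨x, hx0, hx1, rfl⟩ : ∃ x : ℝ, 0 ≤ x ∧ x ≤ 1 ∧ r = 1 - x :=
      ⟨1 - r, by linarith, by linarith, by ring⟩
    have key : NN (4 + t) (1 - x) =
        (8/10 - 4/25 * (4 + t) + 2/5 * (4 + t)^2 + 1/25 * (4 + t)^3) +
        x * ((1/10 * (4 + t)^4 + 1/100 * (4 + t)^5) -
          (6/5 + 44/25 * (4 + t) + 2/5 * (4 + t)^2 + 2/25 * (4 + t)^3)) +
        x^2 * ((3/10 + 97/50 * (4 + t) + 1/5 * (4 + t)^2 + 3/100 * (4 + t)^3) +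
          (1/10 - 1/50 * (4 + t)) * (3 - x)) := by
      unfold NN; ring
    rw [key]
    have e1 : 0 < 8/10 - 4/25 * (4 + t) + 2/5 * (4 + t)^2 + 1/25 * (4 + t)^3 := by
      have : 8/10 - 4/25 * (4 + t) + 2/5 * (4 + t)^2 + 1/25 * (4 + t)^3 =
        (8/10 - 16/25 + 32/5 + 64/25) + (-4/25 + 16/5 + 48/25) * t + (2/5 + 12/25) * t^2 +
          1/25 * t^3 := by ring
      rw [this]; positivity
    have e2 : 0 ≤ (1/10 * (4 + t)^4 + 1/100 * (4 + t)^5) -
          (6/5 + 44/25 * (4 + t) + 2/5 * (4 + t)^2 + 2/25 * (4 + t)^3) := by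
      have : (1/10 * (4 + t)^4 + 1/100 * (4 + t)^5) -
          (6/5 + 44/25 * (4 + t) + 2/5 * (4 + t)^2 + 2/25 * (4 + t)^3) =
          (1/10 * 256 + 1/100 * 1024 - 6/5 - 176/25 - 32/5 - 128/25) +
          (1/10 * 256 + 1/100 * 1280 - 44/25 - 16/5 - 96/25) * t +
          (1/10 * 96 + 1/100 * 640 - 2/5 - 24/25) * t^2 +
          (1/10 * 16 + 1/100 * 160 - 2/25) * t^3 + (1/10 + 1/100 * 20) * t^4 +
          1/100 * t^5 := by ring
      rw [this]
      have c1 : (0:ℝ) ≤ 1/10 * 256 + 1/100 * 1024 - 6/5 - 176/25 - 32/5 - 128/25 := by norm_num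
      have c2 : (0:ℝ) ≤ 1/10 * 256 + 1/100 * 1280 - 44/25 - 16/5 - 96/25 := by norm_num
      have c3 : (0:ℝ) ≤ 1/10 * 96 + 1/100 * 640 - 2/5 - 24/25 := by norm_num
      have c4 : (0:ℝ) ≤ 1/10 * 16 + 1/100 * 160 - 2/25 := by norm_num
      positivity
    have e3 : 0 ≤ (3/10 + 97/50 * (4 + t) + 1/5 * (4 + t)^2 + 3/100 * (4 + t)^3) +
          (1/10 - 1/50 * (4 + t)) * (3 - x) := by
      have h5 : (1/10 - 1/50 * (4 + t)) * (3 - x) ≥ -(1/50 * (4 + t) * 3) := by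
        nlinarith [mul_nonneg ht0 hx0]
      have h6 : 0 ≤ 1/5 * (4 + t)^2 + 3/100 * (4 + t)^3 := by positivity
      nlinarith
    positivity

/-! ### the variables `b = 1/e`, `r = b'` -/

def bb (z : ℝ) : ℝ := (ee z)⁻¹
def rr (z : ℝ) : ℝ := bb z ^ 2 - z * bb z - 1

lemma bb_pos (z : ℝ) : 0 < bb z := inv_pos.2 (ee_pos z)

lemma rr_eq (z : ℝ) : rr z = cc z / ee z ^ 2 := by
  have h := ee_pos z
  unfold rr bb cc
  rw [mu_eq]
  field_simp
  ring

lemma rr_pos (z : ℝ) : 0 < rr z := by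
  rw [rr_eq]; exact div_pos (cc_pos z) (pow_pos (ee_pos z) 2)

lemma rr_lt_one (z : ℝ) : rr z < 1 := by
  have h := ee_pos z
  have h1 := ss_pos z
  rw [rr_eq, div_lt_one (pow_pos h 2)]
  unfold cc
  unfold ss at h1
  rw [mu_eq]
  nlinarith

lemma bb_hasDerivAt (z : ℝ) : HasDerivAt bb (rr z) z := by
  have h := ee_pos z
  have h1 := (ee_hasDerivAt z).inv h.ne'
  refine h1.congr_deriv ?_
  rw [rr_eq]
  unfold cc
  congr 1
  ring

lemma rr_hasDerivAt (z : ℝ) :
    HasDerivAt rr (rr z * (1 + rr z) / bb z - bb z * (1 - rr z)) z := by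
  have h := (((bb_hasDerivAt z).pow 2).sub ((hasDerivAt_id z).mul (bb_hasDerivAt z))).sub_const 1
  refine h.congr_deriv ?_
  have hb := bb_pos z
  have hz : 1 + rr z = bb z * (bb z - z) := by unfold rr; ring
  rw [hz]
  simp only [id]
  field_simp
  ring

/-- the function `F = b⁴ P` -/
def FN (z : ℝ) : ℝ :=
  bb z ^ 2 * (1 - rr z) - rr z * (1 + rr z) + 1/10 * bb z ^ 3 * (1 - rr z) +
    1/10 * bb z * (1 + rr z) ^ 2

lemma FN_hasDerivAt (z : ℝ) : HasDerivAt FN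
    (((1 + bb z / 10) * bb z ^ 2 + 1 + 2 * rr z - bb z / 5 * (1 + rr z)) / bb z * FN z -
      NN (bb z) (rr z)) z := by
  have hb := bb_pos z
  have h1 := bb_hasDerivAt z
  have h2 := rr_hasDerivAt z
  have h := ((((h1.pow 2).mul (h2.const_sub 1)).sub (h2.mul (h2.const_add 1))).add
    (((h1.pow 3).const_mul (1/10)).mul (h2.const_sub 1))).add
    ((h1.const_mul (1/10)).mul ((h2.const_add 1).pow 2))
  refine (h.congr_of_eventuallyEq ?_).congr_deriv ?_
  · filter_upwards with x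
    simp only [FN, Pi.add_apply, Pi.sub_apply, Pi.mul_apply, Pi.pow_apply]
  · unfold FN NN
    simp only [Pi.pow_apply]
    field_simp
    ring

lemma FN_pos_of_large {z : ℝ} (hz : 20 ≤ z) : 0 < FN z := by
  have h0 : 0 < z := by linarith
  have hb : z < bb z := by
    have h1 := ee_lt h0
    have h2 := ee_pos z
    unfold bb
    rw [lt_inv_comm₀ h0 h2]
    rwa [one_div] at h1
  have hr0 := rr_pos z
  have hr1 := rr_lt_one z
  have hb2 : 20 ≤ bb z := by linarith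
  unfold FN
  have e1 : 0 ≤ bb z ^ 2 * (1 - rr z) := mul_nonneg (by positivity) (by linarith)
  have e2 : 0 ≤ 1/10 * bb z ^ 3 * (1 - rr z) := mul_nonneg (by positivity) (by linarith)
  have e3 : 2 * (1 + rr z) ^ 2 ≤ 1/10 * bb z * (1 + rr z) ^ 2 := by
    have : (0:ℝ) ≤ (1 + rr z) ^ 2 := by positivity
    nlinarith
  nlinarith

lemma FN_pos (z : ℝ) : 0 < FN z := by
  rcases lt_or_ge z 20 with hz | hz
  · exact pos_left_of_ode (b := 20) (fun x _ => FN_hasDerivAt x)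
      (fun x _ => NN_pos (bb_pos x) (rr_pos x).le (rr_lt_one x).le)
      (FN_pos_of_large le_rfl).le z hz
  · exact FN_pos_of_large hz

/-- `P = ss - cc w + (1/10)(e(1+w) - z cc) > 0` -/
lemma PP_pos (z : ℝ) :
    0 < ss z - cc z * ww z + 1/10 * (ee z * (1 + ww z) - z * cc z) := by
  have h := FN_pos z
  have he := ee_pos z
  have key : ss z - cc z * ww z + 1/10 * (ee z * (1 + ww z) - z * cc z) = FN z * ee z ^ 4 := by
    unfold FN rr bb ss cc ww
    rw [mu_eq]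
    field_simp
    ring
  rw [key]; positivity

/-- `g = (1/10 + e) μ / w - k` -/
def GG (z : ℝ) : ℝ := (1/10 + ee z) * mu z / ww z - kk z

lemma GG_hasDerivAt (z : ℝ) : HasDerivAt GG
    (mu z / ww z ^ 2 *
      (ss z - cc z * ww z + 1/10 * (ee z * (1 + ww z) - z * cc z))) z := by
  have hw := ww_pos z
  have h := ((((ee_hasDerivAt z).const_add (1/10)).mul (mu_hasDerivAt z)).div
    (ww_hasDerivAt z) hw.ne').sub (kk_hasDerivAt z)
  refine (h.congr_of_eventuallyEq ?_).congr_deriv ?_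
  · filter_upwards with x
    simp only [GG, Pi.sub_apply, Pi.div_apply, Pi.mul_apply]
  · simp only [Pi.mul_apply]
    have hz : z * ee z = 1 - ww z := by unfold ww; ring
    have hcc : cc z = ww z - ee z ^ 2 := by unfold cc ww; rw [mu_eq]; ring
    have hss : ss z = ww z - 2 * cc z := ss_eq z
    have hme : mu z * ee z = 1 - cc z := by unfold cc; ring
    rw [hss]
    field_simp
    have e1 : mu z * ee z - 1 = -cc z := by linarith
    rw [hcc]
    have e2 : mu z = z + ee z := mu_eq z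
    rw [e2]
    unfold ww
    ring

lemma GG_tendsto : Tendsto GG atBot (𝓝 0) := by
  have h1 : Tendsto (fun z => (1/10 + ee z) * mu z) atBot (𝓝 0) := by
    have e1 : Tendsto (fun z : ℝ => 1/10 * mu z + mu z * mu z - z ^ 1 * mu z) atBot
        (𝓝 (1/10 * 0 + 0 * 0 - 0)) :=
      ((mu_tendsto_bot.const_mul _).add (mu_tendsto_bot.mul mu_tendsto_bot)).sub
        (pow_mul_mu_tendsto_bot 1)
    norm_num at e1
    refine e1.congr fun z => ?_
    unfold ee; ring
  have h2 : Tendsto (fun z => (1/10 + ee z) * mu z / ww z) atBot (𝓝 0) := by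
    refine squeeze_zero' ?_ ?_ h1
    · filter_upwards with z
      have := ee_pos z; have := mu_pos z; have := ww_pos z
      positivity
    · filter_upwards [eventually_lt_atBot (0:ℝ)] with z hz
      have he := ee_pos z
      have hm := mu_pos z
      have hw : 1 ≤ ww z := by unfold ww; nlinarith
      exact div_le_self (by positivity) hw
  have h3 := h2.sub kk_tendsto_bot
  rw [sub_zero] at h3
  exact h3

lemma GG_pos (z : ℝ) : 0 < GG z :=
  pos_of_deriv_pos GG_hasDerivAt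
    (fun z => mul_pos (div_pos (mu_pos z) (pow_pos (ww_pos z) 2)) (PP_pos z)) GG_tendsto z

/-- **`H0'' < 1/10`** -/
theorem H0_deriv2_lt (z : ℝ) : ww z * H0 z - ee z < 1/10 := by
  have h := GG_pos z
  have hw := ww_pos z
  have hm := mu_pos z
  unfold GG at h
  have h1 : kk z < (1/10 + ee z) * mu z / ww z := by linarith
  rw [lt_div_iff₀ hw] at h1
  have h2 : ww z * H0 z = kk z * ww z / mu z := by unfold H0; field_simp
  have h3 : kk z * ww z / mu z < 1/10 + ee z := by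
    rw [div_lt_iff₀ hm]; exact h1
  linarith

/-- `k - μ/(2e)` -/
def HH (z : ℝ) : ℝ := kk z - mu z / (2 * ee z)

lemma HH_hasDerivAt (z : ℝ) : HasDerivAt HH (mu z * ss z / (2 * ee z ^ 2)) z := by
  have he := ee_pos z
  have h := (kk_hasDerivAt z).sub ((mu_hasDerivAt z).div ((ee_hasDerivAt z).const_mul 2)
    (by positivity))
  refine (h.congr_of_eventuallyEq ?_).congr_deriv ?_
  · filter_upwards with x
    simp only [HH, Pi.sub_apply, Pi.div_apply]
  · unfold ss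
    have e2 : mu z = z + ee z := mu_eq z
    field_simp
    rw [e2]
    ring

lemma HH_tendsto : Tendsto HH atBot (𝓝 0) := by
  have h2 : Tendsto (fun z => mu z / (2 * ee z)) atBot (𝓝 0) := by
    refine squeeze_zero' ?_ ?_ mu_tendsto_bot
    · filter_upwards with z
      have := ee_pos z; have := mu_pos z
      positivity
    · filter_upwards [eventually_lt_atBot (-1:ℝ)] with z hz
      have hm := mu_pos z
      have he : 1 ≤ 2 * ee z := by unfold ee; linarith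
      exact div_le_self hm.le he
  have h3 := kk_tendsto_bot.sub h2
  rw [sub_zero] at h3
  exact h3

lemma HH_pos (z : ℝ) : 0 < HH z :=
  pos_of_deriv_pos HH_hasDerivAt
    (fun z => div_pos (mul_pos (mu_pos z) (ss_pos z)) (by have := ee_pos z; positivity))
    HH_tendsto z

/-- **`H0' < 1/2`** -/
theorem H0_deriv_lt (z : ℝ) : 1 - ee z * H0 z < 1/2 := by
  have h := HH_pos z
  have he := ee_pos z
  have hm := mu_pos z
  unfold HH at h
  have h1 : mu z / (2 * ee z) < kk z := by linarith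
  rw [div_lt_iff₀ (by positivity)] at h1
  have h2 : 1/2 < ee z * H0 z := by
    unfold H0
    rw [← mul_div_assoc, lt_div_iff₀ hm]
    linarith
  linarith

end

end Crest.Agent.R253.V2451
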