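import Crest.Agent.R253.FrameT_321
import Crest.Agent.R253.Chaos_74
import Crest.Agent.R253.V2_451

/-!
# R253: a priori trace bound `E|Dζ|² ≤ K n`, and MAIN from the weak margin (helper395)

* `dh2_U_le`   : `|DU|² ≤ (1/4) |Dζ|²`;
* `trace_bound`: `E |Dζ|² ≤ 8 H0(0)² n` for normalised data;
* `sum_hs_Tk_le`, `MT`, `MT_psd`, `MT_eig_le`;
* `main_of_weak`: MAIN from `c (E|p|² + Σ (1-x_i)²/(1+x_i)) ≤ D`, `x_i` the eigenvalues of
  `M_T = Σ T_k T_k`.
-/

set_option autoImplicit false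

open MeasureTheory ProbabilityTheory Real Set Filter Topology Matrix
open scoped ContDiff

noncomputable section

namespace Crest.Agent.R253.TrB395

open Crest.Agent.R238.Gap Crest.Agent.R238.GapPoinc Crest.Agent.R238.GapPc
open Crest.Agent.R253.Meh74 hiding ip
open Crest.Agent.R253.Frame321
open Crest.Agent.R253.SpecField321 Crest.Agent.R253.SpecCalc999
open Crest.Agent.R253.Mills37 (mu H0 kk ph Q ee)
open Crest.Agent.R253.Slack688 (aa H0_has aa_pos)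
open Crest.Agent.R253.ScalE688 (zf uf)

variable {n : ℕ} {G : Fin n → E n → ℝ} {M N : Fld n} {V : E n → ℝ} {lo hi : ℝ}

lemma aa_lt (z : ℝ) : aa z < 1 / 2 := Crest.Agent.R253.V2451.H0_deriv_lt z

/-- `|DU|² ≤ (1/4) |Dζ|²` -/
theorem dh2_U_le (hM : MF M lo hi) (hlo : 0 < lo) (x : E n) :
    dh2 (Uf M) x ≤ (1 / 4) * dh2 (Zf M) x := by
  rw [dh2_eq, dh2_eq, Finset.mul_sum]
  refine Finset.sum_le_sum fun c _ => ?_
  rw [dM_Uf' hM hlo]
  have hz := mf_Zf hM hlo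
  have h := hs_DK_le (hz.h x) (f := H0) (f' := aa) (C := 1 / 2) (fun a ha b hb =>
    abs_dd1_le (lo := zf lo) (hi := zf hi) (fun z _ => H0_has z)
      (fun z _ => by rw [abs_of_pos (aa_pos z)]; exact (aa_lt z).le) (hz.s x ha) (hz.s x hb))
    (dM (Zf M) x c)
  calc _ ≤ _ := h
    _ = _ := by norm_num

/-- the scalar bound -/
lemma H0_sq_le (z : ℝ) : H0 z ^ 2 ≤ (1 / 2) * z ^ 2 + 2 * H0 0 ^ 2 := by
  have h0 : 0 < H0 z := Crest.Agent.R253.Mills37.H0_pos z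
  have h00 : 0 < H0 0 := Crest.Agent.R253.Mills37.H0_pos 0
  have h1 : |H0 z - H0 0| ≤ (1 / 2) * |z - 0| := by
    have := (convex_univ).norm_image_sub_le_of_norm_hasDerivWithin_le
      (f := H0) (f' := aa) (C := 1 / 2) (fun z _ => (H0_has z).hasDerivWithinAt)
      (fun z _ => by
        rw [Real.norm_eq_abs, abs_of_pos (aa_pos z)]; exact (aa_lt z).le) (mem_univ 0) (mem_univ z)
    simpa using this
  rw [sub_zero] at h1
  have h2 : H0 z ≤ H0 0 + (1 / 2) * |z| := by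
    have := (abs_le.1 h1).2
    linarith
  have h3 : H0 z ^ 2 ≤ (H0 0 + (1 / 2) * |z|) ^ 2 := pow_le_pow_left₀ h0.le h2 2
  have h4 : (H0 0 + (1 / 2) * |z|) ^ 2 ≤ 2 * H0 0 ^ 2 + (1 / 2) * |z| ^ 2 := by
    nlinarith [sq_nonneg (H0 0 - (1 / 2) * |z|)]
  rw [sq_abs] at h4
  linarith

/-- `|U|² ≤ (1/2)|ζ|² + 2 H0(0)² n` -/
lemma hs2_U_le (hM : MF M lo hi) (x : E n) :
    hs2 (Uf M) x ≤ (1 / 2) * hs2 (Zf M) x + 2 * H0 0 ^ 2 * n := by
  obtain ⟨U, hU⟩ := exists_fr (hM.h x)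
  set e := (hM.h x).eigenvalues with he
  have key : ∀ f : ℝ → ℝ, hs (_root_.cfc f (Mx M x)) = ∑ i, f (e i) ^ 2 := by
    intro f
    rw [← hs_conj hU.o', hU.cfc]
    unfold hs
    refine Finset.sum_congr rfl fun i _ => ?_
    rw [Finset.sum_eq_single i]
    · rw [Matrix.diagonal_apply_eq]
    · intro j _ hj; rw [Matrix.diagonal_apply_ne _ (Ne.symm hj)]; ring
    · intro hh; exact absurd (Finset.mem_univ _) hh
  have e1 : hs2 (Uf M) x = ∑ i, uf (e i) ^ 2 := key uf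
  have e2 : hs2 (Zf M) x = ∑ i, zf (e i) ^ 2 := key zf
  rw [e1, e2, Finset.mul_sum]
  have h1 : ∀ i, uf (e i) ^ 2 ≤ 1 / 2 * zf (e i) ^ 2 + 2 * H0 0 ^ 2 := fun i => H0_sq_le (zf (e i))
  have h2 := Finset.sum_le_sum fun i (_ : i ∈ Finset.univ) => h1 i
  rw [Finset.sum_add_distrib, Finset.sum_const, Finset.card_univ, Fintype.card_fin,
    nsmul_eq_mul] at h2
  linarith

/-- Poincaré for the field `ζ` -/
lemma hs2_Z_le (hM : MF M lo hi) (hlo : 0 < lo) (hN : ∀ i j, ∫ x, Zf M i j x ∂(gam n) = 0) :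
    EE (hs2 (Zf M)) ≤ EE (dh2 (Zf M)) := by
  have c : ∀ i j, C1 (Zf M i j) := fun i j => c1_Zf hM hlo i j
  have e1 : EE (hs2 (Zf M)) = ∑ i, ∑ j, ∫ x, Zf M i j x ^ 2 ∂(gam n) := by
    unfold hs2
    rw [EE_sum fun i _ => CG.sum fun j _ => (c i j).cg.sq]
    refine Finset.sum_congr rfl fun i _ => ?_
    rw [EE_sum fun j _ => (c i j).cg.sq]
    rfl
  have e2 : EE (dh2 (Zf M)) = ∑ i, ∑ j, ∑ k, ∫ x, pd k (Zf M i j) x ^ 2 ∂(gam n) := by
    unfold dh2
    rw [EE_sum fun i _ => CG.sum fun j _ => CG.sum fun k _ => ((c i j).cgp k).sq]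
    refine Finset.sum_congr rfl fun i _ => ?_
    rw [EE_sum fun j _ => CG.sum fun k _ => ((c i j).cgp k).sq]
    refine Finset.sum_congr rfl fun j _ => ?_
    rw [EE_sum fun k _ => ((c i j).cgp k).sq]
    rfl
  rw [e1, e2]
  exact Finset.sum_le_sum fun i _ => Finset.sum_le_sum fun j _ =>
    poincare_mean0 (c i j) (hN i j)

/-- **the a priori trace bound** -/
theorem trace_bound (h : MA G M N V) (hM : MF M lo hi) (hlo : 0 < lo)
    (hV : ∀ y, (Matrix.of fun k l => pd l (pd k V) y).PosSemidef) (hN : ∀ i j, ∫ x, Zf M i j x ∂(gam n) = 0) :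
    EE (dh2 (Zf M)) ≤ 8 * H0 0 ^ 2 * n := by
  have cU : ∀ i j, C1 (Uf M i j) := fun i j => c1_Uf hM hlo i j
  have cZ : ∀ i j, C1 (Zf M i j) := fun i j => c1_Zf hM hlo i j
  have h0 := hs2_ge h cU (fun i j => Uf_symm hM i j) (S := fun _ _ => 0)
    (by
      have : (Matrix.of fun p q : Fin n => dl p q - (0 : ℝ)) = 1 := by
        ext p q; simp [dl, Matrix.one_apply]
      rw [this]; exact Matrix.PosSemidef.one) hV
  have z1 : EE (trK (Uf M) fun _ _ => 0) = 0 := by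
    have : ∀ x, trK (Uf M) (fun _ _ => (0 : ℝ)) x = 0 := fun x => by
      unfold trK UKU; simp
    rw [EE_congr this, EE_const]
  have z2 : EE (RR M N (Uf M) fun _ _ => 0) = 0 := by
    have : ∀ x, RR M N (Uf M) (fun _ _ => (0 : ℝ)) x = 0 := fun x => by
      have hz : UKU (Uf M) (fun _ _ => (0 : ℝ)) = fun _ _ _ => 0 := by
        funext i j y; unfold UKU; simp
      unfold RR
      rw [hz]
      simp [pd]
    rw [EE_congr this, EE_const]
  rw [z1, z2] at h0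
  have h1 : EE (RR M N (Uf M) dl) = EE (dh2 (Zf M)) - EE (dh2 (Uf M)) + EE (Slk M N) := by
    have c1 := cg_dh2 cZ
    have c2 := cg_dh2 cU
    rw [← EE_sub c1 c2, ← EE_add (c1.sub c2) (cg_Slk h hM hlo)]
    exact EE_congr fun x => RR1_eq x
  have h2 : 0 ≤ EE (Slk M N) := EE_nonneg fun x => Slk_nonneg h hM hlo x
  have h3 : EE (dh2 (Uf M)) ≤ (1 / 4) * EE (dh2 (Zf M)) := by
    rw [← EE_smul]
    exact EE_mono (cg_dh2 cU) ((cg_dh2 cZ).smul _) fun x => dh2_U_le hM hlo x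
  have h4 : EE (hs2 (Uf M)) ≤ (1 / 2) * EE (hs2 (Zf M)) + 2 * H0 0 ^ 2 * n := by
    have c3 := cg_hs2 fun i j => (cZ i j).cg
    have : (1 / 2) * EE (hs2 (Zf M)) + 2 * H0 0 ^ 2 * n =
        EE (fun x => (1 / 2) * hs2 (Zf M) x + 2 * H0 0 ^ 2 * n) := by
      rw [EE_add (c3.smul _) (cg_const _), EE_smul, EE_const]
    rw [this]
    exact EE_mono (cg_hs2 fun i j => (cU i j).cg) ((c3.smul _).add (cg_const _))
      fun x => hs2_U_le hM x
  have h5 := hs2_Z_le hM hlo hN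
  linarith

/-! ### the matrix `M_T` -/

/-- `T_k = E ∂_k ζ` (the same as `Fin505.Tk`) -/
def Tz (M : Fld n) (k : Fin n) : Mat n := Matrix.of fun i j => ∫ x, pd k (Zf M i j) x ∂(gam n)

/-- `M_T = Σ T_k T_k` -/
def MTz (M : Fld n) : Mat n := ∑ k, Tz M k * Tz M k

lemma Tz_symm (hM : MF M lo hi) (k : Fin n) : (Tz M k)ᵀ = Tz M k := by
  ext i j
  simp only [Tz, Matrix.transpose_apply, Matrix.of_apply]
  rw [Zf_symm hM j i]

/-- the energy of the centred part: `P = E|p|²` -/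
def Pz (M : Fld n) : ℝ := ∑ i, ∑ j, ∑ k, ∫ x, pd k (eta (Zf M i j)) x ^ 2 ∂(gam n)

lemma Pz_nonneg : 0 ≤ Pz M :=
  Finset.sum_nonneg fun _ _ => Finset.sum_nonneg fun _ _ => Finset.sum_nonneg fun _ _ =>
    integral_nonneg fun _ => sq_nonneg _

/-- `E|Dζ|² = Σ |T_k|² + E|p|²` -/
theorem dh2_split (hM : MF M lo hi) (hlo : 0 < lo) :
    EE (dh2 (Zf M)) = (∑ k, hs (Tz M k)) + Pz M := by
  have c : ∀ i j, C1 (Zf M i j) := fun i j => c1_Zf hM hlo i j
  have e2 : EE (dh2 (Zf M)) = ∑ i, ∑ j, ∑ k, ∫ x, pd k (Zf M i j) x ^ 2 ∂(gam n) := by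
    unfold dh2
    rw [EE_sum fun i _ => CG.sum fun j _ => CG.sum fun k _ => ((c i j).cgp k).sq]
    refine Finset.sum_congr rfl fun i _ => ?_
    rw [EE_sum fun j _ => CG.sum fun k _ => ((c i j).cgp k).sq]
    refine Finset.sum_congr rfl fun j _ => ?_
    rw [EE_sum fun k _ => ((c i j).cgp k).sq]
    rfl
  have e3 : (∑ k, hs (Tz M k)) = ∑ i, ∑ j, ∑ k, (∫ x, pd k (Zf M i j) x ∂(gam n)) ^ 2 := by
    unfold hs Tz
    simp only [Matrix.of_apply]
    rw [Finset.sum_comm]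
    exact Finset.sum_congr rfl fun i _ => Finset.sum_comm
  rw [e2, e3, Pz, ← Finset.sum_add_distrib]
  refine Finset.sum_congr rfl fun i _ => ?_
  rw [← Finset.sum_add_distrib]
  refine Finset.sum_congr rfl fun j _ => ?_
  rw [← Finset.sum_add_distrib]
  exact Finset.sum_congr rfl fun k _ => pd_sq_split (c i j) k

/-- `∫ |ζ - Σ x_k T_k|² ≤ (1/2) E|p|²` -/
theorem eta_le (hM : MF M lo hi) (hlo : 0 < lo) (hN : ∀ i j, ∫ x, Zf M i j x ∂(gam n) = 0) :
    (∫ x, hs (Mx (Zf M) x - ∑ k, x k • Tz M k) ∂(gam n)) ≤ (1 / 2) * Pz M := by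
  have c : ∀ i j, C1 (Zf M i j) := fun i j => c1_Zf hM hlo i j
  have e1 : ∀ x, hs (Mx (Zf M) x - ∑ k, x k • Tz M k) = ∑ i, ∑ j, eta (Zf M i j) x ^ 2 := by
    intro x
    unfold hs
    refine Finset.sum_congr rfl fun i _ => Finset.sum_congr rfl fun j _ => ?_
    congr 1
    rw [Matrix.sub_apply, Matrix.sum_apply]
    unfold eta
    rw [hN i j, sub_zero]
    congr 1
    refine Finset.sum_congr rfl fun k _ => ?_
    rw [Matrix.smul_apply, smul_eq_mul, Tz, Matrix.of_apply, mul_comm]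
  have e2 : (∫ x, hs (Mx (Zf M) x - ∑ k, x k • Tz M k) ∂(gam n)) =
      ∑ i, ∑ j, ∫ x, eta (Zf M i j) x ^ 2 ∂(gam n) := by
    simp only [e1]
    have c2 : ∀ i j, CG fun x => eta (Zf M i j) x ^ 2 := fun i j => (c1_eta (c i j)).cg.sq
    have := EE_sum (s := Finset.univ) (f := fun i x => ∑ j, eta (Zf M i j) x ^ 2)
      fun i _ => CG.sum fun j _ => c2 i j
    unfold EE at this
    rw [this]
    refine Finset.sum_congr rfl fun i _ => ?_
    have h2 := EE_sum (s := Finset.univ) (f := fun j x => eta (Zf M i j) x ^ 2)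
      fun j _ => c2 i j
    unfold EE at h2
    exact h2
  rw [e2, Pz, Finset.mul_sum]
  refine Finset.sum_le_sum fun i _ => ?_
  rw [Finset.mul_sum]
  refine Finset.sum_le_sum fun j _ => ?_
  have := eta_poincare (c i j)
  linarith

/-- trace of `M_T` -/
lemma tr_MTz (hM : MF M lo hi) : (MTz M).trace = ∑ k, hs (Tz M k) := by
  unfold MTz
  rw [Matrix.trace_sum]
  refine Finset.sum_congr rfl fun k _ => ?_
  rw [hs_eq, Tz_symm hM]

lemma MTz_herm (hM : MF M lo hi) : (MTz M).IsHermitian := by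
  unfold MTz Matrix.IsHermitian
  rw [Matrix.conjTranspose_eq_transpose_of_trivial, Matrix.transpose_sum]
  refine Finset.sum_congr rfl fun k _ => ?_
  rw [Matrix.transpose_mul, Tz_symm hM]

/-- eigenvalues of `M_T` are nonnegative -/
lemma MTz_eig_nonneg (hM : MF M lo hi) {U : Mat n} {x : Fin n → ℝ} (h : Fr (MTz M) U x)
    (i : Fin n) : 0 ≤ x i := by
  have h1 : (Uᵀ * MTz M * U) i i = x i := by rw [h.d, Matrix.diagonal_apply_eq]
  have h2 : Uᵀ * MTz M * U = ∑ k, (Tz M k * U)ᵀ * (Tz M k * U) := by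
    unfold MTz
    rw [Matrix.mul_sum, Matrix.sum_mul]
    refine Finset.sum_congr rfl fun k _ => ?_
    rw [Matrix.transpose_mul, Tz_symm hM]
    simp only [Matrix.mul_assoc]
  rw [← h1, h2, Matrix.sum_apply]
  refine Finset.sum_nonneg fun k _ => ?_
  rw [Matrix.mul_apply]
  exact Finset.sum_nonneg fun a _ => by rw [Matrix.transpose_apply]; exact mul_self_nonneg _

lemma fr_trace {A U : Mat n} {x : Fin n → ℝ} (h : Fr A U x) : A.trace = ∑ i, x i := by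
  rw [h.eq, Matrix.trace_mul_comm, ← Matrix.mul_assoc, h.o, Matrix.one_mul, Matrix.trace_diagonal]

lemma fr_hs_one_sub {A U : Mat n} {x : Fin n → ℝ} (h : Fr A U x) :
    hs (1 - A) = ∑ i, (1 - x i) ^ 2 := by
  rw [← hs_conj h.o', Matrix.mul_sub, Matrix.sub_mul, Matrix.mul_one, h.o, h.d]
  unfold hs
  refine Finset.sum_congr rfl fun i _ => ?_
  rw [Finset.sum_eq_single i]
  · rw [Matrix.sub_apply, Matrix.one_apply_eq, Matrix.diagonal_apply_eq]
  · intro j _ hj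
    rw [Matrix.sub_apply, Matrix.one_apply_ne (Ne.symm hj), Matrix.diagonal_apply_ne _ (Ne.symm hj)]
    ring
  · intro hh; exact absurd (Finset.mem_univ _) hh

/-- every eigenvalue of `M_T` is at most `8 H0(0)² n` -/
theorem MTz_eig_le (h : MA G M N V) (hM : MF M lo hi) (hlo : 0 < lo)
    (hV : ∀ y, (Matrix.of fun k l => pd l (pd k V) y).PosSemidef)
    (hN : ∀ i j, ∫ x, Zf M i j x ∂(gam n) = 0) {U : Mat n} {x : Fin n → ℝ}
    (hU : Fr (MTz M) U x) (i : Fin n) : x i ≤ 8 * H0 0 ^ 2 * n := by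
  have h1 := trace_bound h hM hlo hV hN
  rw [dh2_split hM hlo, ← tr_MTz hM, fr_trace hU] at h1
  have h2 := Finset.single_le_sum (f := x) (fun j _ => MTz_eig_nonneg hM hU j) (Finset.mem_univ i)
  have h3 : 0 ≤ Pz M := Pz_nonneg
  linarith

/-- **from the weak margin to the quadratic margin** -/
theorem margin_of_weak (h : MA G M N V) (hM : MF M lo hi) (hlo : 0 < lo)
    (hV : ∀ y, (Matrix.of fun k l => pd l (pd k V) y).PosSemidef)
    (hN : ∀ i j, ∫ x, Zf M i j x ∂(gam n) = 0) {U : Mat n} {x : Fin n → ℝ}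
    (hU : Fr (MTz M) U x) {c : ℝ} (hc : 0 < c)
    (hD : c * (Pz M + ∑ i, (1 - x i) ^ 2 / (1 + x i)) ≤ DFun G M) :
    (c / (1 + 8 * H0 0 ^ 2 * n)) * ((∫ x, hs (Mx (Zf M) x - ∑ k, x k • Tz M k) ∂(gam n)) +
      hs (1 - MTz M)) ≤ DFun G M := by
  set K : ℝ := 8 * H0 0 ^ 2 * n with hK
  have hK0 : 0 ≤ K := by positivity
  have h1 := eta_le hM hlo hN
  have hP : 0 ≤ Pz M := Pz_nonneg
  have h2 : hs (1 - MTz M) ≤ (1 + K) * ∑ i, (1 - x i) ^ 2 / (1 + x i) := by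
    rw [fr_hs_one_sub hU, Finset.mul_sum]
    refine Finset.sum_le_sum fun i _ => ?_
    have hx0 := MTz_eig_nonneg hM hU i
    have hx1 := MTz_eig_le h hM hlo hV hN hU i
    rw [← mul_div_assoc, le_div_iff₀ (by linarith)]
    nlinarith [sq_nonneg (1 - x i)]
  have hW : 0 ≤ ∑ i, (1 - x i) ^ 2 / (1 + x i) := Finset.sum_nonneg fun i _ =>
    div_nonneg (sq_nonneg _) (by linarith [MTz_eig_nonneg hM hU i])
  set W := ∑ i, (1 - x i) ^ 2 / (1 + x i) with hWd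
  set Q := (∫ x, hs (Mx (Zf M) x - ∑ k, x k • Tz M k) ∂(gam n)) with hQ
  have h3 : Q + hs (1 - MTz M) ≤ (1 + K) * (Pz M + W) := by nlinarith
  calc c / (1 + K) * (Q + hs (1 - MTz M)) ≤ c / (1 + K) * ((1 + K) * (Pz M + W)) :=
        mul_le_mul_of_nonneg_left h3 (by positivity)
    _ = c * (Pz M + W) := by field_simp
    _ ≤ _ := hD

end Crest.Agent.R253.TrB395
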