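import Crest.Agent.R253.SpecField_321

/-!
# Row 253: from constant matrices to one real variable (helper80)

`S` Hermitian (later `S = Σ_k T_k T_k`), `TR g S = tr g(S) = Σ_i g(x_i)`.
-/

set_option autoImplicit false

open Matrix Set Filter Topology

noncomputable section

namespace Crest.Agent.R253.TrC80

open Crest.Agent.R253.SpecCalc999 Crest.Agent.R253.SpecField321

variable {m n : ℕ}

/-- `tr g(S)` -/
def TR (g : ℝ → ℝ) (S : Mat m) : ℝ := (_root_.cfc g S).trace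

/-! ### frames -/

lemma trace_conj {U : Mat m} (h : U * Uᵀ = 1) (X : Mat m) : (Uᵀ * X * U).trace = X.trace := by
  rw [Matrix.mul_assoc, Matrix.trace_mul_comm, Matrix.mul_assoc, h, Matrix.mul_one]

lemma TR_frame {S U : Mat m} {s : Fin m → ℝ} (h : Fr S U s) (g : ℝ → ℝ) :
    TR g S = ∑ i, g (s i) := by
  unfold TR
  rw [← trace_conj h.o', h.cfc, Matrix.trace_diagonal]

lemma tr_mul_frame {S U : Mat m} {s : Fin m → ℝ} (h : Fr S U s) (g : ℝ → ℝ) (X : Mat m) :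
    (_root_.cfc g S * X).trace = ∑ i, g (s i) * (Uᵀ * X * U) i i := by
  have e : Uᵀ * (_root_.cfc g S * X) * U = (Uᵀ * _root_.cfc g S * U) * (Uᵀ * X * U) := by
    calc Uᵀ * (_root_.cfc g S * X) * U = Uᵀ * _root_.cfc g S * 1 * X * U := by
          simp only [Matrix.mul_assoc, Matrix.mul_one]
      _ = Uᵀ * _root_.cfc g S * (U * Uᵀ) * X * U := by rw [h.o']
      _ = _ := by simp only [Matrix.mul_assoc]
  rw [← trace_conj h.o', e, h.cfc]
  unfold Matrix.trace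
  exact Finset.sum_congr rfl fun i _ => by rw [Matrix.diag_apply, Matrix.diagonal_mul]

lemma conj_eq {S U : Mat m} {s : Fin m → ℝ} (h : Fr S U s) {X Y : Mat m}
    (e : Uᵀ * X * U = Uᵀ * Y * U) : X = Y := conj_inj h.o' e

lemma conj_mul {U : Mat m} (h : U * Uᵀ = 1) (X Y : Mat m) :
    Uᵀ * (X * Y) * U = (Uᵀ * X * U) * (Uᵀ * Y * U) := by
  calc Uᵀ * (X * Y) * U = Uᵀ * X * 1 * Y * U := by
        simp only [Matrix.mul_assoc, Matrix.mul_one]
    _ = Uᵀ * X * (U * Uᵀ) * Y * U := by rw [h]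
    _ = _ := by simp only [Matrix.mul_assoc]

/-! ### algebra of `cfc` without continuity -/

lemma cfc_mul' {S : Mat m} (hS : S.IsHermitian) (f g : ℝ → ℝ) :
    _root_.cfc f S * _root_.cfc g S = _root_.cfc (fun x => f x * g x) S := by
  obtain ⟨U, h⟩ := exists_fr hS
  apply conj_eq h
  rw [conj_mul h.o', h.cfc, h.cfc, h.cfc, Matrix.diagonal_mul_diagonal]

lemma cfc_add' {S : Mat m} (hS : S.IsHermitian) (f g : ℝ → ℝ) :
    _root_.cfc f S + _root_.cfc g S = _root_.cfc (fun x => f x + g x) S := by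
  obtain ⟨U, h⟩ := exists_fr hS
  apply conj_eq h
  rw [Matrix.mul_add, Matrix.add_mul, h.cfc, h.cfc, h.cfc, Matrix.diagonal_add]

lemma cfc_sub' {S : Mat m} (hS : S.IsHermitian) (f g : ℝ → ℝ) :
    _root_.cfc f S - _root_.cfc g S = _root_.cfc (fun x => f x - g x) S := by
  obtain ⟨U, h⟩ := exists_fr hS
  apply conj_eq h
  rw [Matrix.mul_sub, Matrix.sub_mul, h.cfc, h.cfc, h.cfc, Matrix.diagonal_sub]

lemma cfc_smul' {S : Mat m} (hS : S.IsHermitian) (c : ℝ) (f : ℝ → ℝ) :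
    c • _root_.cfc f S = _root_.cfc (fun x => c * f x) S := by
  obtain ⟨U, h⟩ := exists_fr hS
  apply conj_eq h
  rw [Matrix.mul_smul, Matrix.smul_mul, h.cfc, h.cfc]
  ext i j
  by_cases hij : i = j
  · subst hij; simp
  · simp [Matrix.diagonal_apply_ne _ hij]

lemma cfc_one' {S : Mat m} (hS : S.IsHermitian) : _root_.cfc (fun _ : ℝ => (1 : ℝ)) S = 1 := by
  obtain ⟨U, h⟩ := exists_fr hS
  apply conj_eq h
  rw [h.cfc, Matrix.mul_one, h.o, Matrix.diagonal_one]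

lemma cfc_id'' {S : Mat m} (hS : S.IsHermitian) : _root_.cfc (fun x : ℝ => x) S = S := by
  obtain ⟨U, h⟩ := exists_fr hS
  apply conj_eq h
  rw [h.cfc, h.d]

lemma cfc_tr {S : Mat m} (hS : S.IsHermitian) (g : ℝ → ℝ) :
    (_root_.cfc g S)ᵀ = _root_.cfc g S := by
  obtain ⟨U, h⟩ := exists_fr hS
  apply conj_eq h
  have e : Uᵀ * (_root_.cfc g S)ᵀ * U = (Uᵀ * _root_.cfc g S * U)ᵀ := by
    rw [Matrix.transpose_mul, Matrix.transpose_mul, Matrix.transpose_transpose, Matrix.mul_assoc]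
  rw [e, h.cfc, Matrix.diagonal_transpose]

lemma cfc_herm {S : Mat m} (hS : S.IsHermitian) (g : ℝ → ℝ) : (_root_.cfc g S).IsHermitian := by
  unfold Matrix.IsHermitian
  rw [conjTranspose_eq_transpose_of_trivial, cfc_tr hS]

/-- every real number in the spectrum of a positive semidefinite matrix is `≥ 0` -/
lemma spec_nonneg {S : Mat m} (hS : S.PosSemidef) {x : ℝ} (hx : x ∈ spectrum ℝ S) : 0 ≤ x := by
  rw [hS.isHermitian.spectrum_real_eq_range_eigenvalues] at hx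
  obtain ⟨i, rfl⟩ := hx
  exact hS.eigenvalues_nonneg i

/-! ### the trace functional -/

lemma TR_congr {S : Mat m} {f g : ℝ → ℝ} (h : ∀ x ∈ spectrum ℝ S, f x = g x) :
    TR f S = TR g S := by
  unfold TR; rw [cfc_congr h]

lemma TR_add {S : Mat m} (hS : S.IsHermitian) (f g : ℝ → ℝ) :
    TR (fun x => f x + g x) S = TR f S + TR g S := by
  obtain ⟨U, h⟩ := exists_fr hS
  simp only [TR_frame h, Finset.sum_add_distrib]

lemma TR_sub {S : Mat m} (hS : S.IsHermitian) (f g : ℝ → ℝ) :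
    TR (fun x => f x - g x) S = TR f S - TR g S := by
  obtain ⟨U, h⟩ := exists_fr hS
  simp only [TR_frame h, Finset.sum_sub_distrib]

lemma TR_smul {S : Mat m} (hS : S.IsHermitian) (c : ℝ) (f : ℝ → ℝ) :
    TR (fun x => c * f x) S = c * TR f S := by
  obtain ⟨U, h⟩ := exists_fr hS
  simp only [TR_frame h, Finset.mul_sum]

lemma TR_const {S : Mat m} (hS : S.IsHermitian) (c : ℝ) : TR (fun _ => c) S = m * c := by
  obtain ⟨U, h⟩ := exists_fr hS
  simp [TR_frame h]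

lemma TR_mono_spec {S : Mat m} (hS : S.IsHermitian) {f g : ℝ → ℝ}
    (h : ∀ x ∈ spectrum ℝ S, f x ≤ g x) : TR f S ≤ TR g S := by
  obtain ⟨U, hU⟩ := exists_fr hS
  rw [TR_frame hU, TR_frame hU]
  exact Finset.sum_le_sum fun i _ => h _ (hU.mem_spec i)

lemma TR_mono {S : Mat m} (hS : S.PosSemidef) {f g : ℝ → ℝ} (h : ∀ x, 0 ≤ x → f x ≤ g x) :
    TR f S ≤ TR g S :=
  TR_mono_spec hS.isHermitian fun x hx => h x (spec_nonneg hS hx)

lemma TR_nonneg {S : Mat m} (hS : S.PosSemidef) {f : ℝ → ℝ} (h : ∀ x, 0 ≤ x → 0 ≤ f x) :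
    0 ≤ TR f S := by
  obtain ⟨U, hU⟩ := exists_fr hS.isHermitian
  rw [TR_frame hU]
  exact Finset.sum_nonneg fun i _ => h _ (spec_nonneg hS (hU.mem_spec i))

/-- `tr g(S) = Σ_i g(x_i)`, `x_i ≥ 0` -/
lemma TR_sum {S : Mat m} (hS : S.PosSemidef) :
    ∃ s : Fin m → ℝ, (∀ i, 0 ≤ s i) ∧ ∀ g : ℝ → ℝ, TR g S = ∑ i, g (s i) := by
  obtain ⟨U, hU⟩ := exists_fr hS.isHermitian
  exact ⟨_, fun i => spec_nonneg hS (hU.mem_spec i), fun g => TR_frame hU g⟩

/-- weighted traces of a positive semidefinite matrix are monotone -/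
lemma tr_mul_mono {S X : Mat m} (hS : S.PosSemidef) (hX : X.PosSemidef) {f g : ℝ → ℝ}
    (h : ∀ x, 0 ≤ x → f x ≤ g x) :
    (_root_.cfc f S * X).trace ≤ (_root_.cfc g S * X).trace := by
  obtain ⟨U, hU⟩ := exists_fr hS.isHermitian
  rw [tr_mul_frame hU, tr_mul_frame hU]
  refine Finset.sum_le_sum fun i _ => mul_le_mul_of_nonneg_right
    (h _ (spec_nonneg hS (hU.mem_spec i))) ?_
  have := hX.conjTranspose_mul_mul_same U
  rw [conjTranspose_eq_transpose_of_trivial] at this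
  exact this.diag_nonneg

/-! ### the weight `P = p(S) = CᵀC` -/

/-- `C = √p(S)` -/
def CC (p : ℝ → ℝ) (S : Mat m) : Mat m := _root_.cfc (fun x => Real.sqrt (p x)) S

lemma CC_tr {S : Mat m} (hS : S.IsHermitian) (p : ℝ → ℝ) : (CC p S)ᵀ = CC p S := cfc_tr hS _

lemma CC_mul {S : Mat m} (hS : S.PosSemidef) {p : ℝ → ℝ} (hp : ∀ x, 0 ≤ x → 0 ≤ p x) :
    CC p S * CC p S = _root_.cfc p S := by
  unfold CC
  rw [cfc_mul' hS.isHermitian]
  exact cfc_congr fun x hx => Real.mul_self_sqrt (hp x (spec_nonneg hS hx))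

lemma ctc_CC {S : Mat m} (hS : S.PosSemidef) {p : ℝ → ℝ} (hp : ∀ x, 0 ≤ x → 0 ≤ p x) :
    (CC p S)ᵀ * CC p S = _root_.cfc p S := by rw [CC_tr hS.isHermitian, CC_mul hS hp]

lemma det_cfc {S U : Mat m} {s : Fin m → ℝ} (h : Fr S U s) (g : ℝ → ℝ) :
    (_root_.cfc g S).det = ∏ i, g (s i) := by
  have e : (Uᵀ * _root_.cfc g S * U).det = (_root_.cfc g S).det := by
    rw [Matrix.det_mul, Matrix.det_mul, mul_comm, ← mul_assoc, ← Matrix.det_mul, h.o',
      Matrix.det_one, one_mul]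
  rw [← e, h.cfc, Matrix.det_diagonal]

/-- **`log det p(S) = tr log p (S)`** -/
theorem logdet_cfc {S : Mat m} (hS : S.PosSemidef) {p : ℝ → ℝ} (hp : ∀ x, 0 ≤ x → 0 < p x) :
    Real.log (_root_.cfc p S).det = TR (fun x => Real.log (p x)) S := by
  obtain ⟨U, h⟩ := exists_fr hS.isHermitian
  rw [det_cfc h, TR_frame h, Real.log_prod]
  exact fun i _ => (hp _ (spec_nonneg hS (h.mem_spec i))).ne'

theorem logdet_CC {S : Mat m} (hS : S.PosSemidef) {p : ℝ → ℝ} (hp : ∀ x, 0 ≤ x → 0 < p x) :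
    Real.log ((CC p S)ᵀ * CC p S).det = TR (fun x => Real.log (p x)) S := by
  rw [ctc_CC hS fun x hx => (hp x hx).le, logdet_cfc hS hp]

theorem det_CC_ne {S : Mat m} (hS : S.PosSemidef) {p : ℝ → ℝ} (hp : ∀ x, 0 ≤ x → 0 < p x) :
    (CC p S).det ≠ 0 := by
  obtain ⟨U, h⟩ := exists_fr hS.isHermitian
  unfold CC
  rw [det_cfc h]
  exact Finset.prod_ne_zero_iff.2 fun i _ =>
    (Real.sqrt_pos.2 (hp _ (spec_nonneg hS (h.mem_spec i)))).ne'

/-! ### Hilbert–Schmidt norms -/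

lemma hs_eq' (X : Mat m) : hs X = (X * Xᵀ).trace := by
  rw [hs_eq, Matrix.trace_mul_comm]

lemma hs_tr (X : Mat m) : hs Xᵀ = hs X := by
  rw [hs_eq', hs_eq, Matrix.transpose_transpose]

lemma hs_cfc_mul {S : Mat m} (hS : S.IsHermitian) (g : ℝ → ℝ) (X : Mat m) :
    hs (_root_.cfc g S * X) = (_root_.cfc (fun x => g x ^ 2) S * (X * Xᵀ)).trace := by
  rw [hs_eq', Matrix.transpose_mul, cfc_tr hS]
  have e : _root_.cfc g S * X * (Xᵀ * _root_.cfc g S) =
      (_root_.cfc g S * (X * Xᵀ)) * _root_.cfc g S := by simp only [Matrix.mul_assoc]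
  rw [e, Matrix.trace_mul_comm, ← Matrix.mul_assoc, cfc_mul' hS]
  simp only [sq]

lemma hs_cfc {S : Mat m} (hS : S.IsHermitian) (g : ℝ → ℝ) :
    hs (_root_.cfc g S) = TR (fun x => g x ^ 2) S := by
  have := hs_cfc_mul hS g 1
  rwa [Matrix.mul_one, Matrix.transpose_one, Matrix.mul_one, Matrix.mul_one] at this

lemma hs_cfc_one_sub {S : Mat m} (hS : S.IsHermitian) (g : ℝ → ℝ) :
    hs (_root_.cfc g S * (1 - S)) = TR (fun x => g x ^ 2 * (1 - x) ^ 2) S := by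
  have e : _root_.cfc g S * (1 - S) = _root_.cfc (fun x => g x * (1 - x)) S := by
    conv_lhs => rw [← cfc_one' hS]
    rw [show _root_.cfc (fun _ : ℝ => (1 : ℝ)) S - S =
      _root_.cfc (fun _ : ℝ => (1 : ℝ)) S - _root_.cfc (fun x : ℝ => x) S by rw [cfc_id'' hS],
      cfc_sub' hS, cfc_mul' hS]
  rw [e, hs_cfc hS]
  exact TR_congr fun x _ => by ring

lemma hs_cfc_le {S : Mat m} (hS : S.IsHermitian) {g : ℝ → ℝ} {K : ℝ}
    (hg : ∀ x ∈ spectrum ℝ S, g x ^ 2 ≤ K) (X : Mat m) :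
    hs (_root_.cfc g S * X) ≤ K * hs X := by
  obtain ⟨U, h⟩ := exists_fr hS
  rw [← hs_conj h.o' (_root_.cfc g S * X), conj_mul h.o', h.cfc, ← hs_conj h.o' X]
  unfold hs
  rw [Finset.mul_sum]
  refine Finset.sum_le_sum fun i _ => ?_
  rw [Finset.mul_sum]
  refine Finset.sum_le_sum fun j _ => ?_
  rw [Matrix.diagonal_mul, mul_pow]
  exact mul_le_mul_of_nonneg_right (hg _ (h.mem_spec i)) (sq_nonneg _)

/-- `hPn` of the dual bound -/
lemma hs_CC_le {S : Mat m} (hS : S.PosSemidef) {p : ℝ → ℝ} {K : ℝ} (hp : ∀ x, 0 ≤ x → 0 ≤ p x)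
    (hK : ∀ x, 0 ≤ x → p x ≤ K) (X : Mat m) : hs (CC p S * X) ≤ K * hs X := by
  refine hs_cfc_le hS.isHermitian (fun x hx => ?_) X
  rw [Real.sq_sqrt (hp x (spec_nonneg hS hx))]
  exact hK x (spec_nonneg hS hx)

/-! ### inner products of families -/

/-- `Σ_k <A_k, B_k>` -/
def ipS (A B : Fin n → Mat m) : ℝ := ∑ k, ∑ i, ∑ j, A k i j * B k i j

lemma ip_sq_le (A B : Fin n → Mat m) :
    ipS A B ^ 2 ≤ (∑ k, hs (A k)) * ∑ k, hs (B k) := by
  have e1 : ∀ F : Fin n → Fin m → Fin m → ℝ,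
      ∑ k, ∑ i, ∑ j, F k i j = ∑ p : Fin n × Fin m × Fin m, F p.1 p.2.1 p.2.2 := by
    intro F
    rw [Fintype.sum_prod_type]
    exact Finset.sum_congr rfl fun k _ => by rw [Fintype.sum_prod_type]
  unfold ipS hs
  rw [e1, e1, e1]
  exact Finset.sum_mul_sq_le_sq_mul_sq _ _ _

lemma abs_ipS_le (A B : Fin n → Mat m) {c : ℝ} (hc : 0 < c) :
    |ipS A B| ≤ 1 / (4 * c) * ∑ k, hs (A k) + c * ∑ k, hs (B k) := by
  have h := ip_sq_le A B
  have hA : 0 ≤ ∑ k, hs (A k) := Finset.sum_nonneg fun k _ => hs_nonneg _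
  have hB : 0 ≤ ∑ k, hs (B k) := Finset.sum_nonneg fun k _ => hs_nonneg _
  set a := ∑ k, hs (A k)
  set b := ∑ k, hs (B k)
  have h2 : 0 ≤ 1 / (4 * c) * a + c * b := by positivity
  refine abs_le_of_sq_le_sq' ?_ h2 |> abs_le.2
  have e : (1 / (4 * c) * a + c * b) ^ 2 = a * b + (1 / (4 * c) * a - c * b) ^ 2 := by
    field_simp; ring
  rw [e]
  nlinarith [sq_nonneg (1 / (4 * c) * a - c * b)]

/-! ### the family `T_k`, `S = Σ T_k T_k` -/

/-- `T_k` symmetric, `S = Σ_k T_k T_k` -/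
structure Ts (T : Fin n → Mat m) (S : Mat m) : Prop where
  s : ∀ k, (T k)ᵀ = T k
  e : S = ∑ k, T k * T k

lemma Ts.psd {T : Fin n → Mat m} {S : Mat m} (h : Ts T S) : S.PosSemidef := by
  rw [h.e]
  refine Matrix.posSemidef_sum _ fun k _ => ?_
  have := Matrix.posSemidef_conjTranspose_mul_self (T k)
  rwa [conjTranspose_eq_transpose_of_trivial, h.s k] at this

lemma Ts.herm {T : Fin n → Mat m} {S : Mat m} (h : Ts T S) : S.IsHermitian := h.psd.isHermitian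

/-- **`Σ_k |g(S) T_k|² = tr (x g²)(S)`** -/
theorem Ts.sum_hs {T : Fin n → Mat m} {S : Mat m} (h : Ts T S) (g : ℝ → ℝ) :
    ∑ k, hs (_root_.cfc g S * T k) = TR (fun x => g x ^ 2 * x) S := by
  have e : ∀ k, hs (_root_.cfc g S * T k) =
      (_root_.cfc (fun x => g x ^ 2) S * (T k * T k)).trace := fun k => by
    rw [hs_cfc_mul h.herm, h.s k]
  simp only [e]
  rw [← Matrix.trace_sum, ← Matrix.mul_sum, ← h.e]
  unfold TR
  conv_lhs => rw [show _root_.cfc (fun x => g x ^ 2) S * S =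
    _root_.cfc (fun x => g x ^ 2) S * _root_.cfc (fun x : ℝ => x) S by rw [cfc_id'' h.herm]]
  rw [cfc_mul' h.herm]

theorem Ts.sum_hs_one {T : Fin n → Mat m} {S : Mat m} (h : Ts T S) :
    ∑ k, hs (T k) = TR (fun x => x) S := by
  have := h.sum_hs fun _ => 1
  simpa [cfc_one' h.herm] using this

/-- **`hK1` of the dual bound** -/
theorem Ts.hs_sum_le {T : Fin n → Mat m} {S : Mat m} (h : Ts T S) {g : ℝ → ℝ} {K : ℝ}
    (hK0 : 0 ≤ K) (hK : ∀ x, 0 ≤ x → g x ^ 2 * x ≤ K) (B : Fin n → Mat m) :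
    hs (∑ k, _root_.cfc g S * T k * B k) ≤ K * ∑ k, hs (B k) := by
  set Z : Mat m := ∑ k, _root_.cfc g S * T k * B k with hZ
  set G : Mat m := _root_.cfc g S with hG
  have hGt : Gᵀ = G := cfc_tr h.herm g
  -- `hs Z = Σ_k <(G T_k)ᵀ Z, B_k>`
  have e1 : hs Z = ∑ k, ∑ i, ∑ j, (T k * G * Z) i j * B k i j := by
    have e2 : ∀ k, (Zᵀ * (G * T k * B k)).trace = ∑ i, ∑ j, (T k * G * Z) i j * B k i j := by
      intro k
      have e3 : Zᵀ * (G * T k * B k) = (T k * G * Z)ᵀ * B k := by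
        rw [Matrix.transpose_mul, Matrix.transpose_mul, h.s k, hGt]
        simp only [Matrix.mul_assoc]
      rw [e3, Matrix.trace, Finset.sum_comm]
      refine Finset.sum_congr rfl fun j _ => ?_
      rw [Matrix.diag_apply, Matrix.mul_apply]
      exact Finset.sum_congr rfl fun i _ => by rw [Matrix.transpose_apply]
    rw [hs_eq]
    conv_lhs => rw [show Zᵀ * Z = Zᵀ * ∑ k, G * T k * B k by rw [← hZ]]
    rw [Matrix.mul_sum, Matrix.trace_sum]
    exact Finset.sum_congr rfl fun k _ => e2 k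
  have e4 : ∑ k, hs (T k * G * Z) ≤ K * hs Z := by
    have e5 : ∀ k, hs (T k * G * Z) = (Zᵀ * (G * (T k * T k) * G) * Z).trace := by
      intro k
      rw [hs_eq, Matrix.transpose_mul, Matrix.transpose_mul, h.s k, hGt]
      simp only [Matrix.mul_assoc]
    have e6 : ∑ k, hs (T k * G * Z) = (Zᵀ * (G * S * G) * Z).trace := by
      simp only [e5]
      rw [← Matrix.trace_sum, ← Matrix.sum_mul, ← Matrix.mul_sum, ← Matrix.sum_mul,
        ← Matrix.mul_sum, ← h.e]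
    have e7 : G * S * G = _root_.cfc (fun x => g x ^ 2 * x) S := by
      rw [hG]
      conv_lhs => rw [show _root_.cfc g S * S * _root_.cfc g S =
        _root_.cfc g S * _root_.cfc (fun x : ℝ => x) S * _root_.cfc g S by rw [cfc_id'' h.herm]]
      rw [cfc_mul' h.herm, cfc_mul' h.herm]
      exact cfc_congr fun x _ => by ring
    have e8 : (Zᵀ * (G * S * G) * Z).trace = (_root_.cfc (fun x => g x ^ 2 * x) S * (Z * Zᵀ)).trace := by
      rw [e7, Matrix.trace_mul_comm, ← Matrix.mul_assoc, Matrix.trace_mul_comm]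
    have hZZ : (Z * Zᵀ).PosSemidef := by
      have := Matrix.posSemidef_self_mul_conjTranspose Z
      rwa [conjTranspose_eq_transpose_of_trivial] at this
    rw [e6, e8]
    refine (tr_mul_mono h.psd hZZ (g := fun _ => K) hK).trans (le_of_eq ?_)
    have e9 : _root_.cfc (fun _ : ℝ => K) S = K • (1 : Mat m) := by
      rw [← cfc_one' h.herm, cfc_smul' h.herm]; simp
    rw [e9, Matrix.smul_mul, Matrix.one_mul, Matrix.trace_smul, smul_eq_mul, hs_eq']
  have e10 := ip_sq_le (fun k => T k * G * Z) B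
  have h0 : 0 ≤ hs Z := hs_nonneg Z
  have hB0 : 0 ≤ ∑ k, hs (B k) := Finset.sum_nonneg fun k _ => hs_nonneg _
  unfold ipS at e10
  rw [← e1] at e10
  have e11 : hs Z ^ 2 ≤ K * hs Z * ∑ k, hs (B k) :=
    e10.trans (mul_le_mul_of_nonneg_right e4 hB0)
  rcases h0.eq_or_lt with h1 | h1
  · rw [← h1]; exact mul_nonneg hK0 hB0
  · nlinarith

/-! ### cross terms with constant matrices -/

/-- Young form of Cauchy–Schwarz for `Σ_k tr (g(S) T_k Y_k)` -/
theorem Ts.cross_le {T : Fin n → Mat m} {S : Mat m} (h : Ts T S) (g : ℝ → ℝ) (Y : Fin n → Mat m)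
    {c : ℝ} (hc : 0 < c) :
    |∑ k, (_root_.cfc g S * T k * Y k).trace| ≤
      1 / (4 * c) * TR (fun x => g x ^ 2 * x) S + c * ∑ k, hs (Y k) := by
  have e : ∑ k, (_root_.cfc g S * T k * Y k).trace =
      ipS (fun k => (_root_.cfc g S * T k)ᵀ) Y := by
    unfold ipS
    refine Finset.sum_congr rfl fun k _ => ?_
    rw [Matrix.trace, Finset.sum_comm]
    refine Finset.sum_congr rfl fun j _ => ?_
    rw [Matrix.diag_apply, Matrix.mul_apply]
    exact Finset.sum_congr rfl fun i _ => by simp only [Matrix.transpose_apply]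
  rw [e]
  refine (abs_ipS_le _ _ hc).trans (le_of_eq ?_)
  simp only [hs_tr]
  rw [h.sum_hs]

/-- `tr (g(S) Y) ≤ 1/(4c) tr g²(S) + c |Y|²` -/
theorem tr_le {S : Mat m} (hS : S.IsHermitian) (g : ℝ → ℝ) (Y : Mat m) {c : ℝ} (hc : 0 < c) :
    |(_root_.cfc g S * Y).trace| ≤ 1 / (4 * c) * TR (fun x => g x ^ 2) S + c * hs Y := by
  have e : (_root_.cfc g S * Y).trace =
      ipS (fun _ : Fin 1 => (_root_.cfc g S)ᵀ) fun _ => Y := by
    unfold ipS
    rw [Fin.sum_univ_one, Matrix.trace, Finset.sum_comm]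
    refine Finset.sum_congr rfl fun j _ => ?_
    rw [Matrix.diag_apply, Matrix.mul_apply]
    exact Finset.sum_congr rfl fun i _ => by simp only [Matrix.transpose_apply]
  rw [e]
  refine (abs_ipS_le _ _ hc).trans (le_of_eq ?_)
  simp only [hs_tr, Fin.sum_univ_one]
  rw [hs_cfc hS]

/-! ### splitting the spectrum -/

/-- near part -/
def nr (X0 : ℝ) (g : ℝ → ℝ) (x : ℝ) : ℝ := if x ≤ X0 then g x else 0
/-- far part -/
def fr (X0 : ℝ) (g : ℝ → ℝ) (x : ℝ) : ℝ := if x ≤ X0 then 0 else g x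

lemma nr_add_fr (X0 : ℝ) (g : ℝ → ℝ) (x : ℝ) : nr X0 g x + fr X0 g x = g x := by
  unfold nr fr; split_ifs <;> simp

lemma cfc_split {S : Mat m} (hS : S.IsHermitian) (X0 : ℝ) (g : ℝ → ℝ) :
    _root_.cfc g S = _root_.cfc (nr X0 g) S + _root_.cfc (fr X0 g) S := by
  rw [cfc_add' hS]
  exact cfc_congr fun x _ => (nr_add_fr X0 g x).symm

lemma TR_split {S : Mat m} (hS : S.IsHermitian) (X0 : ℝ) (g : ℝ → ℝ) :
    TR g S = TR (nr X0 g) S + TR (fr X0 g) S := by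
  rw [← TR_add hS]
  exact TR_congr fun x _ => (nr_add_fr X0 g x).symm

end Crest.Agent.R253.TrC80
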