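import Crest.Agent.R253.Fin_505
import Crest.Agent.R253.TrA_395
import Crest.Agent.R253.TrC_80
import Crest.Agent.R253.DualPB_973

/-!
# Row 253 (S0391), helper214: from the trace form of the margin to `MainN`

`MainTR n` : `c * (E Σ |p_k|² + tr ((1-x)²/(1+x))(M_T)) ≤ DFun` for all normalised data, in the
letters of 973 (`ef`, `dk`, `MTm`) and 80 (`TR`).  `MainTR n → MainN n` (395's trace bound).
-/

set_option autoImplicit false

open MeasureTheory ProbabilityTheory Real Set Filter Topology Matrix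
open scoped ContDiff

noncomputable section

namespace Crest.Agent.R253.FinQ214

open Crest.Agent.R238.Gap Crest.Agent.R238.GapPoinc Crest.Agent.R238.GapPc
open Crest.Agent.R253.Meh74 hiding ip
open Crest.Agent.R253.Frame321
open Crest.Agent.R253.SpecField321 Crest.Agent.R253.SpecCalc999
open Crest.Agent.R253.Fin505 Crest.Agent.R253.TrB395 Crest.Agent.R253.TrC80
open Crest.Agent.R253.DualP973

variable {n : ℕ} {G : Fin n → E n → ℝ} {M N : Fld n} {V : E n → ℝ} {lo hi : ℝ}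

/-- the margin function -/
def mg (x : ℝ) : ℝ := (1 - x) ^ 2 / (1 + x)

/-- `E Σ |p_k|²` -/
def p2 (M : Fld n) : ℝ := EE fun x => ∑ k, hs (Mx (dk k (ef (Zf M))) x)

/-- `E |η|²` -/
def e2 (M : Fld n) : ℝ := EE fun x => hs (Mx (ef (Zf M)) x)

/-- MAIN in trace form -/
def MainTR (n : ℕ) : Prop := ∃ c : ℝ, 0 < c ∧ ∀ (G : Fin n → E n → ℝ) (M N : Fld n)
  (V : E n → ℝ) (lo hi : ℝ), Dat G M N V lo hi → Nz M →
    c * (p2 M + TR mg (MTm (Zf M))) ≤ DFun G M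

theorem MTm_eq (M : Fld n) : MTm (Zf M) = MTz M := rfl

theorem p2_eq (hM : MF M lo hi) (hlo : 0 < lo) : p2 M = Pz M := by
  have c : ∀ i j, C1 (Zf M i j) := fun i j => c1_Zf hM hlo i j
  have ce : ∀ i j, C1 (eta (Zf M i j)) := fun i j => c1_eta (c i j)
  unfold p2 Pz
  have e1 : ∀ x, (∑ k, hs (Mx (dk k (ef (Zf M))) x)) =
      ∑ i, ∑ j, ∑ k, pd k (eta (Zf M i j)) x ^ 2 := by
    intro x
    unfold hs
    rw [Finset.sum_comm]
    refine Finset.sum_congr rfl fun i _ => ?_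
    rw [Finset.sum_comm]
    rfl
  rw [EE_congr e1]
  rw [EE_sum fun i _ => CG.sum fun j _ => CG.sum fun k _ => ((ce i j).cgp k).sq]
  refine Finset.sum_congr rfl fun i _ => ?_
  rw [EE_sum fun j _ => CG.sum fun k _ => ((ce i j).cgp k).sq]
  refine Finset.sum_congr rfl fun j _ => ?_
  rw [EE_sum fun k _ => ((ce i j).cgp k).sq]
  rfl

theorem e2_eq (hM : MF M lo hi) (hlo : 0 < lo) :
    e2 M = ∑ i, ∑ j, ∫ x, eta (Zf M i j) x ^ 2 ∂(gam n) := by
  have c : ∀ i j, C1 (Zf M i j) := fun i j => c1_Zf hM hlo i j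
  have ce : ∀ i j, C1 (eta (Zf M i j)) := fun i j => c1_eta (c i j)
  unfold e2
  have e1 : ∀ x, hs (Mx (ef (Zf M)) x) = ∑ i, ∑ j, eta (Zf M i j) x ^ 2 := fun x => rfl
  rw [EE_congr e1]
  rw [EE_sum fun i _ => CG.sum fun j _ => (ce i j).cg.sq]
  refine Finset.sum_congr rfl fun i _ => ?_
  rw [EE_sum fun j _ => (ce i j).cg.sq]
  rfl

/-- `2 E|η|² ≤ E Σ |p_k|²` (chaos `≥ 2`) -/
theorem two_e2_le (hM : MF M lo hi) (hlo : 0 < lo) : 2 * e2 M ≤ p2 M := by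
  rw [e2_eq hM hlo, p2_eq hM hlo, Pz, Finset.mul_sum]
  refine Finset.sum_le_sum fun i _ => ?_
  rw [Finset.mul_sum]
  exact Finset.sum_le_sum fun j _ => eta_poincare (c1_Zf hM hlo i j)

theorem e2_nonneg : 0 ≤ e2 M := EE_nonneg fun _ => hs_nonneg _

theorem p2_nonneg : 0 ≤ p2 M := EE_nonneg fun _ => Finset.sum_nonneg fun _ _ => hs_nonneg _

theorem MTm_Ts (hM : MF M lo hi) : Ts (Tm (Zf M)) (MTm (Zf M)) :=
  ⟨fun k => Tz_symm hM k, rfl⟩

theorem MTm_psd (hM : MF M lo hi) : (MTm (Zf M)).PosSemidef := (MTm_Ts hM).psd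

/-- **the quantifiers of MAIN** -/
theorem mainN_of_TR (h : MainTR n) : MainN n := by
  obtain ⟨c, hc, H⟩ := h
  refine ⟨c / (1 + 8 * Mills37.H0 0 ^ 2 * n), by positivity,
    fun G M N V lo hi hD hz => ?_⟩
  have h1 := H G M N V lo hi hD hz
  have hM := hD.mf
  have hlo := hD.lo_pos
  obtain ⟨U, hU⟩ := exists_fr (MTz_herm hM)
  rw [MTm_eq, TR_frame hU, p2_eq hM hlo] at h1
  exact margin_of_weak hD.ma hM hlo hD.hV hz hU hc h1

/-- version with an arbitrary function of `M_T` -/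
theorem mainTR_of_fun {c : ℝ} (hc : 0 < c) {Φ : ℝ → ℝ} (hΦ : ∀ x, 0 ≤ x → c * mg x ≤ Φ x)
    (H : ∀ (G : Fin n → E n → ℝ) (M N : Fld n) (V : E n → ℝ) (lo hi : ℝ),
      Dat G M N V lo hi → Nz M → c * p2 M + TR Φ (MTm (Zf M)) ≤ DFun G M) : MainTR n := by
  refine ⟨c, hc, fun G M N V lo hi hD hz => le_trans ?_ (H G M N V lo hi hD hz)⟩
  have hS := MTm_psd hD.mf
  rw [mul_add, ← TR_smul hS.isHermitian]
  exact add_le_add_right (TR_mono hS hΦ) _

/-- version with an arbitrary function of `M_T`, directly to `MainN` -/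
theorem mainN_of_fun {c : ℝ} (hc : 0 < c) {Φ : ℝ → ℝ} (hΦ : ∀ x, 0 ≤ x → c * mg x ≤ Φ x)
    (H : ∀ (G : Fin n → E n → ℝ) (M N : Fld n) (V : E n → ℝ) (lo hi : ℝ),
      Dat G M N V lo hi → Nz M → c * p2 M + TR Φ (MTm (Zf M)) ≤ DFun G M) : MainN n :=
  mainN_of_TR (mainTR_of_fun hc hΦ H)

theorem mainQ_of_fun {c : ℝ} (hc : 0 < c) {Φ : ℝ → ℝ} (hΦ : ∀ x, 0 ≤ x → c * mg x ≤ Φ x)
    (H : ∀ (G : Fin n → E n → ℝ) (M N : Fld n) (V : E n → ℝ) (lo hi : ℝ),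
      Dat G M N V lo hi → Nz M → c * p2 M + TR Φ (MTm (Zf M)) ≤ DFun G M) : MainQ n :=
  (mainN_of_fun hc hΦ H).toW.toQ

end Crest.Agent.R253.FinQ214
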