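import Crest.Agent.R253.Stein_378

/-!
# R253: Young / Hilbert–Schmidt bounds of the error terms of `lam_point` (helper378)

All constants are parameters.  `err_point` bounds the whole error bracket of `Stein378.lam_point`
(`X = χ'(A)`, `W = v'(A)`, `f_k = KR χ χ' A Z_k`, `e_k = KR v v' A Z_k`) by
`c Σ tr B T_k p_k + (θ₁+θ₂)/2 Σ hs(T_k B) + … Σ hs p_k + … Σ slk Z_k`.
-/

set_option autoImplicit false

open Matrix Filter Topology Set MeasureTheory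

noncomputable section

namespace Crest.Agent.R253.Stein378

open Crest.Agent.R253.SpecCalc999 Crest.Agent.R253.Meh74 Crest.Agent.R238.Gap
  Crest.Agent.R253.SpecField321 Crest.Agent.R253.Jord192

variable {m n : ℕ}

/-! ### Young -/

lemma tr_eq (X Y : Mat m) : (X * Y).trace = ∑ i, ∑ j, Xᵀ j i * Y j i := by
  simp only [Matrix.trace, Matrix.diag_apply, Matrix.mul_apply, Matrix.transpose_apply]

/-- `tr (X Y) ≤ θ/2 hs X + 1/(2θ) hs Y` -/
lemma tr_young {θ : ℝ} (hθ : 0 < θ) (X Y : Mat m) :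
    (X * Y).trace ≤ θ / 2 * hs X + 1 / (2 * θ) * hs Y := by
  rw [← hs_transpose X, tr_eq]
  unfold hs
  rw [Finset.sum_comm (f := fun i j => Xᵀ j i * Y j i), Finset.mul_sum, Finset.mul_sum,
    ← Finset.sum_add_distrib]
  refine Finset.sum_le_sum fun j _ => ?_
  rw [Finset.mul_sum, Finset.mul_sum, ← Finset.sum_add_distrib]
  refine Finset.sum_le_sum fun i _ => ?_
  have h2 : 0 < 1 / (2 * θ) := by positivity
  have h3 : 0 ≤ 1 / (2 * θ) * (θ * Xᵀ j i - Y j i) ^ 2 := mul_nonneg h2.le (sq_nonneg _)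
  have h4 : 1 / (2 * θ) * (θ * Xᵀ j i - Y j i) ^ 2 =
      θ / 2 * Xᵀ j i ^ 2 - Xᵀ j i * Y j i + 1 / (2 * θ) * Y j i ^ 2 := by
    field_simp
    ring
  rw [h4] at h3
  linarith

lemma sum_tr_young {θ : ℝ} (hθ : 0 < θ) (X Y : Fin n → Mat m) :
    ∑ k, (X k * Y k).trace ≤ θ / 2 * ∑ k, hs (X k) + 1 / (2 * θ) * ∑ k, hs (Y k) := by
  rw [Finset.mul_sum, Finset.mul_sum, ← Finset.sum_add_distrib]
  exact Finset.sum_le_sum fun k _ => tr_young hθ _ _

/-! ### kernels -/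

/-- general two–variable kernel in a frame -/
lemma hs_kernel_slk {A U : Mat m} {s : Fin m → ℝ} (h : Fr A U s) {ky sl : ℝ → ℝ → ℝ} {C : ℝ}
    {Y X : Mat m} (hY : ∀ i j, (Uᵀ * Y * U) i j = ky (s i) (s j) * (Uᵀ * X * U) i j)
    (hk : ∀ a ∈ spectrum ℝ A, ∀ b ∈ spectrum ℝ A, ky a b ^ 2 ≤ C * sl a b) :
    hs Y ≤ C * slk sl U s X := by
  rw [← hs_conj h.o' Y]
  unfold hs slk
  rw [Finset.mul_sum]
  refine Finset.sum_le_sum fun i _ => ?_
  rw [Finset.mul_sum]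
  refine Finset.sum_le_sum fun j _ => ?_
  rw [hY, mul_pow, ← mul_assoc]
  exact mul_le_mul_of_nonneg_right (hk _ (h.mem_spec i) _ (h.mem_spec j)) (sq_nonneg _)

lemma conj_symm {U Z : Mat m} (hZ : Zᵀ = Z) (i j : Fin m) :
    (Uᵀ * Z * U) j i = (Uᵀ * Z * U) i j := by
  have h : (Uᵀ * Z * U)ᵀ = Uᵀ * Z * U := by
    simp only [Matrix.transpose_mul, Matrix.transpose_transpose, hZ, Matrix.mul_assoc]
  calc (Uᵀ * Z * U) j i = (Uᵀ * Z * U)ᵀ i j := rfl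
    _ = _ := by rw [h]

/-- `W eᵀ`, `e = KR v w A Z`, in the frame -/
lemma W_KRt_frame {A U : Mat m} {s : Fin m → ℝ} (h : Fr A U s) (v w : ℝ → ℝ) {Z : Mat m}
    (hZ : Zᵀ = Z) (i j : Fin m) :
    (Uᵀ * (_root_.cfc w A * (KR v w A Z)ᵀ) * U) i j =
      (w (s i) * (dd1 v w (s j) (s i) - w (s i))) * (Uᵀ * Z * U) i j := by
  rw [cfc_mul_frame h]
  have h1 : (Uᵀ * (KR v w A Z)ᵀ * U) i j = (Uᵀ * KR v w A Z * U) j i := by
    have : (Uᵀ * (KR v w A Z)ᵀ * U) = (Uᵀ * KR v w A Z * U)ᵀ := by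
      simp only [Matrix.transpose_mul, Matrix.transpose_transpose, Matrix.mul_assoc]
    rw [this, Matrix.transpose_apply]
  rw [h1, KR_frame h, conj_symm hZ i j]
  ring

/-- the combined `T`–kernel
`y(a,b) = χ[a,b] − χ'(b) + w(b)² + w(a)² − 2 w(a) v[a,b]` -/
def ky (v w χ χ1 : ℝ → ℝ) (a b : ℝ) : ℝ :=
  dd1 χ χ1 a b - χ1 b - (w a ^ 2 - w b ^ 2) - 2 * (w a * (dd1 v w b a - w a))

/-- the matrix multiplied by `B T_k` -/
def YT (v w χ χ1 : ℝ → ℝ) (A Z : Mat m) : Mat m :=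
  KR χ χ1 A Z - (_root_.cfc w A * _root_.cfc w A * Z - Z * (_root_.cfc w A * _root_.cfc w A)) -
    (2 : ℝ) • (_root_.cfc w A * (KR v w A Z)ᵀ)

lemma sq_mul_frame {A U : Mat m} {s : Fin m → ℝ} (h : Fr A U s) (w : ℝ → ℝ) (X : Mat m)
    (i j : Fin m) :
    (Uᵀ * (_root_.cfc w A * _root_.cfc w A * X) * U) i j = w (s i) ^ 2 * (Uᵀ * X * U) i j := by
  rw [Matrix.mul_assoc (_root_.cfc w A), cfc_mul_frame h, cfc_mul_frame h]
  ring

lemma mul_sq_frame {A U : Mat m} {s : Fin m → ℝ} (h : Fr A U s) (w : ℝ → ℝ) (X : Mat m)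
    (i j : Fin m) :
    (Uᵀ * (X * (_root_.cfc w A * _root_.cfc w A)) * U) i j =
      (Uᵀ * X * U) i j * w (s j) ^ 2 := by
  rw [← Matrix.mul_assoc X, mul_cfc_frame h, mul_cfc_frame h]
  ring

lemma YT_frame {A U : Mat m} {s : Fin m → ℝ} (h : Fr A U s) (v w χ χ1 : ℝ → ℝ) {Z : Mat m}
    (hZ : Zᵀ = Z) (i j : Fin m) :
    (Uᵀ * YT v w χ χ1 A Z * U) i j = ky v w χ χ1 (s i) (s j) * (Uᵀ * Z * U) i j := by
  unfold YT ky
  rw [Matrix.mul_sub, Matrix.sub_mul, Matrix.mul_sub, Matrix.sub_mul, Matrix.sub_apply,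
    Matrix.sub_apply, KR_frame h, Matrix.mul_sub, Matrix.sub_mul, Matrix.sub_apply,
    sq_mul_frame h, mul_sq_frame h, Matrix.mul_smul, Matrix.smul_mul, Matrix.smul_apply,
    W_KRt_frame h v w hZ, smul_eq_mul]
  ring

/-- the `p`–kernel `h(b) − w(a)² − c` -/
lemma hs_pker_le {A U : Mat m} {s : Fin m → ℝ} (h : Fr A U s) {w χ1 : ℝ → ℝ} {c ρ : ℝ}
    (hk : ∀ a ∈ spectrum ℝ A, ∀ b ∈ spectrum ℝ A, |χ1 b - w b ^ 2 - w a ^ 2 - c| ≤ ρ) (p : Mat m) :
    hs (p * (_root_.cfc χ1 A - _root_.cfc w A * _root_.cfc w A) -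
      _root_.cfc w A * _root_.cfc w A * p - c • p) ≤ ρ ^ 2 * hs p := by
  refine hs_le_of_frame h fun i j => ?_
  rw [Matrix.mul_sub Uᵀ, Matrix.sub_mul, Matrix.sub_apply, Matrix.mul_sub Uᵀ, Matrix.sub_mul,
    Matrix.sub_apply, sq_mul_frame h, Matrix.mul_sub p, Matrix.mul_sub Uᵀ, Matrix.sub_mul,
    Matrix.sub_apply, mul_cfc_frame h, mul_sq_frame h, Matrix.mul_smul, Matrix.smul_mul,
    Matrix.smul_apply, smul_eq_mul]
  have e : (Uᵀ * p * U) i j * χ1 (s j) - (Uᵀ * p * U) i j * w (s j) ^ 2 -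
      w (s i) ^ 2 * (Uᵀ * p * U) i j - c * (Uᵀ * p * U) i j =
      (χ1 (s j) - w (s j) ^ 2 - w (s i) ^ 2 - c) * (Uᵀ * p * U) i j := by ring
  rw [e, abs_mul]
  exact mul_le_mul_of_nonneg_right (hk _ (h.mem_spec i) _ (h.mem_spec j)) (abs_nonneg _)

/-! ### traces against a weight -/

lemma tr_psd_mul_transpose {P : Mat m} (hP : P.PosSemidef) (X : Mat m) :
    0 ≤ (P * (X * Xᵀ)).trace := by
  have h : ∀ j, 0 ≤ (fun i => X i j) ⬝ᵥ (P *ᵥ fun i => X i j) := fun j => by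
    have := hP.dotProduct_mulVec_nonneg (fun i => X i j)
    simpa using this
  have e : (P * (X * Xᵀ)).trace = ∑ j, (fun i => X i j) ⬝ᵥ (P *ᵥ fun i => X i j) := by
    simp only [Matrix.trace, Matrix.diag_apply, Matrix.mul_apply, Matrix.transpose_apply,
      dotProduct, Matrix.mulVec, Finset.mul_sum]
    rw [Finset.sum_comm]
    have : ∀ y : Fin m, ∑ x, ∑ i, P x y * (X y i * X x i) = ∑ i, ∑ x, P x y * (X y i * X x i) :=
      fun y => Finset.sum_comm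
    simp only [this]
    rw [Finset.sum_comm]
    refine Finset.sum_congr rfl fun j _ => ?_
    rw [Finset.sum_comm]
    refine Finset.sum_congr rfl fun x _ => Finset.sum_congr rfl fun y _ => ?_
    ring
  rw [e]
  exact Finset.sum_nonneg fun j _ => h j

/-- `−tr B p W² p ≤ κ² tr Q p p` for `Q ≥ 0`, `Q + B ≥ 0`, `|W| ≤ κ` -/
lemma tr_pWp_le {A : Mat m} (hA : A.IsHermitian) {w : ℝ → ℝ} {κ : ℝ}
    (hw : ∀ a ∈ spectrum ℝ A, |w a| ≤ κ) {B Q p : Mat m} (hQ : Q.PosSemidef)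
    (hBQ : (Q + B).PosSemidef) (hp : pᵀ = p) :
    -(B * (p * (_root_.cfc w A * _root_.cfc w A) * p)).trace ≤ κ ^ 2 * (Q * (p * p)).trace := by
  obtain ⟨U, hU⟩ := exists_fr hA
  have e1 : p * (_root_.cfc w A * _root_.cfc w A) * p =
      (p * _root_.cfc w A) * (p * _root_.cfc w A)ᵀ := by
    rw [Matrix.transpose_mul, cfc_transpose, hp]
    simp only [Matrix.mul_assoc]
  have h1 := tr_psd_mul_transpose hBQ (p * _root_.cfc w A)
  rw [← e1, Matrix.add_mul, Matrix.trace_add] at h1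
  -- `κ² − W² = D D`
  have h2 := tr_psd_mul_transpose hQ (p * _root_.cfc (fun a => Real.sqrt (κ ^ 2 - w a ^ 2)) A)
  have e2 : (p * _root_.cfc (fun a => Real.sqrt (κ ^ 2 - w a ^ 2)) A) *
      (p * _root_.cfc (fun a => Real.sqrt (κ ^ 2 - w a ^ 2)) A)ᵀ =
      κ ^ 2 • (p * p) - p * (_root_.cfc w A * _root_.cfc w A) * p := by
    rw [Matrix.transpose_mul, cfc_transpose, hp]
    refine conj_inj hU.o' ?_
    have e3 : p * _root_.cfc (fun a => Real.sqrt (κ ^ 2 - w a ^ 2)) A *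
        (_root_.cfc (fun a => Real.sqrt (κ ^ 2 - w a ^ 2)) A * p) =
        p * (_root_.cfc (fun a => Real.sqrt (κ ^ 2 - w a ^ 2)) A *
        (_root_.cfc (fun a => Real.sqrt (κ ^ 2 - w a ^ 2)) A * p)) := Matrix.mul_assoc _ _ _
    have e4 : p * (_root_.cfc w A * _root_.cfc w A) * p =
        p * (_root_.cfc w A * (_root_.cfc w A * p)) := by simp only [Matrix.mul_assoc]
    rw [e3, e4, Matrix.mul_sub, Matrix.sub_mul, Matrix.mul_smul, Matrix.smul_mul]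
    rw [conj_mul hU.o' p, conj_mul hU.o' p, conj_mul hU.o' p]
    ext i j
    rw [Matrix.sub_apply, Matrix.smul_apply, Matrix.mul_apply, Matrix.mul_apply, Matrix.mul_apply,
      smul_eq_mul, Finset.mul_sum, ← Finset.sum_sub_distrib]
    refine Finset.sum_congr rfl fun l _ => ?_
    rw [cfc_mul_frame hU, cfc_mul_frame hU, cfc_mul_frame hU, cfc_mul_frame hU]
    have hsq : Real.sqrt (κ ^ 2 - w (hA.eigenvalues l) ^ 2) *
        Real.sqrt (κ ^ 2 - w (hA.eigenvalues l) ^ 2) = κ ^ 2 - w (hA.eigenvalues l) ^ 2 := by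
      refine Real.mul_self_sqrt ?_
      have := hw _ (hU.mem_spec l)
      have := pow_le_pow_left₀ (abs_nonneg _) this 2
      rw [sq_abs] at this
      linarith
    calc (Uᵀ * p * U) i l * (Real.sqrt (κ ^ 2 - w (hA.eigenvalues l) ^ 2) *
          (Real.sqrt (κ ^ 2 - w (hA.eigenvalues l) ^ 2) * (Uᵀ * p * U) l j))
        = (Real.sqrt (κ ^ 2 - w (hA.eigenvalues l) ^ 2) *
          Real.sqrt (κ ^ 2 - w (hA.eigenvalues l) ^ 2)) *
            ((Uᵀ * p * U) i l * (Uᵀ * p * U) l j) := by ring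
      _ = _ := by rw [hsq]; ring
  rw [e2, Matrix.mul_sub, Matrix.trace_sub, Matrix.mul_smul, Matrix.trace_smul, smul_eq_mul] at h2
  linarith

/-! ### the bracket -/

/-- the error bracket of `lam_point` -/
def erB (v w χ χ1 : ℝ → ℝ) (A B : Mat m) (T p : Fin n → Mat m) : ℝ :=
  ∑ k, ((B * (T k * (p k * (_root_.cfc χ1 A - _root_.cfc w A * _root_.cfc w A) -
      _root_.cfc w A * _root_.cfc w A * p k))).trace +
    (B * (T k * KR χ χ1 A (T k + p k))).trace -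
    (B * (T k * (_root_.cfc w A * _root_.cfc w A * (T k + p k) -
      (T k + p k) * (_root_.cfc w A * _root_.cfc w A)))).trace -
    2 * (B * ((T k + p k) * _root_.cfc w A * (KR v w A (T k + p k))ᵀ)).trace -
    (B * (KR v w A (T k + p k) * (KR v w A (T k + p k))ᵀ)).trace -
    (B * (p k * (_root_.cfc w A * _root_.cfc w A) * p k)).trace)

/-- regrouping -/
lemma erB_eq (v w χ χ1 : ℝ → ℝ) (A B : Mat m) (T p : Fin n → Mat m) (c : ℝ) :
    erB v w χ χ1 A B T p =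
      c * ∑ k, (B * (T k * p k)).trace +
      ∑ k, ((B * T k) * (p k * (_root_.cfc χ1 A - _root_.cfc w A * _root_.cfc w A) -
        _root_.cfc w A * _root_.cfc w A * p k - c • p k)).trace +
      ∑ k, ((B * T k) * YT v w χ χ1 A (T k + p k)).trace +
      ∑ k, ((B * p k) * ((-2 : ℝ) • (_root_.cfc w A * (KR v w A (T k + p k))ᵀ))).trace +
      ∑ k, (-(B * (KR v w A (T k + p k) * (KR v w A (T k + p k))ᵀ)).trace) +
      ∑ k, (-(B * (p k * (_root_.cfc w A * _root_.cfc w A) * p k)).trace) := by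
  unfold erB YT
  rw [Finset.mul_sum, ← Finset.sum_add_distrib, ← Finset.sum_add_distrib,
    ← Finset.sum_add_distrib, ← Finset.sum_add_distrib, ← Finset.sum_add_distrib]
  refine Finset.sum_congr rfl fun k _ => ?_
  simp only [Matrix.mul_sub, Matrix.mul_add, Matrix.add_mul, Matrix.trace_sub,
    Matrix.trace_add, Matrix.mul_smul, Matrix.trace_smul, smul_eq_mul, Matrix.mul_assoc]
  ring

/-- **pointwise bound of the error bracket**, all constants parameters.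
`hBo` : `|B|_op ≤ bo`, `hBe` : `−B ≤ Q ≤ bn`. -/
theorem err_point {A U : Mat m} {s : Fin m → ℝ} (h : Fr A U s) {v w χ χ1 : ℝ → ℝ}
    {sl : ℝ → ℝ → ℝ} {Cy Cw Ce c ρ κ bo bn θ1 θ2 θ3 : ℝ}
    (hy : ∀ a ∈ spectrum ℝ A, ∀ b ∈ spectrum ℝ A, ky v w χ χ1 a b ^ 2 ≤ Cy * sl a b)
    (hw : ∀ a ∈ spectrum ℝ A, ∀ b ∈ spectrum ℝ A, (w a * (dd1 v w b a - w a)) ^ 2 ≤ Cw * sl a b)
    (he : ∀ a ∈ spectrum ℝ A, ∀ b ∈ spectrum ℝ A, (dd1 v w a b - w b) ^ 2 ≤ Ce * sl a b)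
    (hρ : ∀ a ∈ spectrum ℝ A, ∀ b ∈ spectrum ℝ A, |χ1 b - w b ^ 2 - w a ^ 2 - c| ≤ ρ)
    (hκ : ∀ a ∈ spectrum ℝ A, |w a| ≤ κ)
    (hθ1 : 0 < θ1) (hθ2 : 0 < θ2) (hθ3 : 0 < θ3) {B Q : Mat m} (hQ : Q.PosSemidef)
    (hBQ : (Q + B).PosSemidef) (hBo : ∀ X : Mat m, hs (B * X) ≤ bo ^ 2 * hs X)
    (hQn : ∀ X : Mat m, (Q * (X * Xᵀ)).trace ≤ bn * hs X) (hbn : 0 ≤ bn)
    {T p : Fin n → Mat m} (hT : ∀ k, (T k)ᵀ = T k) (hp : ∀ k, (p k)ᵀ = p k) :
    erB v w χ χ1 A B T p ≤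
      c * ∑ k, (B * (T k * p k)).trace +
      (θ1 / 2 + θ2 / 2) * ∑ k, hs (B * T k) +
      (ρ ^ 2 / (2 * θ1) + θ3 * bo ^ 2) * ∑ k, hs (p k) +
      κ ^ 2 * ∑ k, (Q * (p k * p k)).trace +
      (Cy / (2 * θ2) + Cw / θ3 + bn * Ce) * ∑ k, slk sl U s (T k + p k) := by
  rw [erB_eq v w χ χ1 A B T p c]
  have hZ : ∀ k, (T k + p k)ᵀ = T k + p k := fun k => by rw [Matrix.transpose_add, hT, hp]
  -- p-term
  have t1 := sum_tr_young hθ1 (fun k => B * T k) (fun k =>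
    p k * (_root_.cfc χ1 A - _root_.cfc w A * _root_.cfc w A) -
        _root_.cfc w A * _root_.cfc w A * p k - c • p k)
  have t1' : ∑ k, hs (p k * (_root_.cfc χ1 A - _root_.cfc w A * _root_.cfc w A) -
        _root_.cfc w A * _root_.cfc w A * p k - c • p k) ≤ ρ ^ 2 * ∑ k, hs (p k) := by
    rw [Finset.mul_sum]
    exact Finset.sum_le_sum fun k _ => hs_pker_le h hρ (p k)
  -- T-term
  have t2 := sum_tr_young hθ2 (fun k => B * T k) (fun k => YT v w χ χ1 A (T k + p k))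
  have t2' : ∑ k, hs (YT v w χ χ1 A (T k + p k)) ≤ Cy * ∑ k, slk sl U s (T k + p k) := by
    rw [Finset.mul_sum]
    exact Finset.sum_le_sum fun k _ =>
      hs_kernel_slk h (fun i j => YT_frame h v w χ χ1 (hZ k) i j) hy
  -- p W e
  have t3 := sum_tr_young (show (0 : ℝ) < 2 * θ3 by positivity) (fun k => B * p k)
    (fun k => (-2 : ℝ) • (_root_.cfc w A * (KR v w A (T k + p k))ᵀ))
  have t3' : ∑ k, hs ((-2 : ℝ) • (_root_.cfc w A * (KR v w A (T k + p k))ᵀ)) ≤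
      4 * Cw * ∑ k, slk sl U s (T k + p k) := by
    rw [Finset.mul_sum]
    refine Finset.sum_le_sum fun k _ => ?_
    rw [hs_smul]
    have := hs_kernel_slk (Y := _root_.cfc w A * (KR v w A (T k + p k))ᵀ) (X := T k + p k)
      (ky := fun a b => w a * (dd1 v w b a - w a)) h (fun i j => W_KRt_frame h v w (hZ k) i j) hw
    calc (-2 : ℝ) ^ 2 * hs (_root_.cfc w A * (KR v w A (T k + p k))ᵀ)
        ≤ (-2 : ℝ) ^ 2 * (Cw * slk sl U s (T k + p k)) :=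
          mul_le_mul_of_nonneg_left this (by norm_num)
      _ = _ := by ring
  have t3'' : ∑ k, hs (B * p k) ≤ bo ^ 2 * ∑ k, hs (p k) := by
    rw [Finset.mul_sum]
    exact Finset.sum_le_sum fun k _ => hBo _
  -- e e
  have t4 : ∑ k, (-(B * (KR v w A (T k + p k) * (KR v w A (T k + p k))ᵀ)).trace) ≤
      bn * Ce * ∑ k, slk sl U s (T k + p k) := by
    rw [Finset.mul_sum]
    refine Finset.sum_le_sum fun k _ => ?_
    have a1 := tr_psd_mul_transpose hBQ (KR v w A (T k + p k))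
    rw [Matrix.add_mul, Matrix.trace_add] at a1
    have a2 := hQn (KR v w A (T k + p k))
    have a3 := mul_le_mul_of_nonneg_left (hs_KR_le h he (T k + p k)) hbn
    rw [← mul_assoc] at a3
    linarith
  -- p W W p
  have t5 : ∑ k, (-(B * (p k * (_root_.cfc w A * _root_.cfc w A) * p k)).trace) ≤
      κ ^ 2 * ∑ k, (Q * (p k * p k)).trace := by
    rw [Finset.mul_sum]
    exact Finset.sum_le_sum fun k _ => tr_pWp_le h.herm hκ hQ hBQ (hp k)
  have u1 := mul_le_mul_of_nonneg_left t1' (show (0 : ℝ) ≤ 1 / (2 * θ1) by positivity)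
  have u2 := mul_le_mul_of_nonneg_left t2' (show (0 : ℝ) ≤ 1 / (2 * θ2) by positivity)
  have u3 := mul_le_mul_of_nonneg_left t3' (show (0 : ℝ) ≤ 1 / (2 * (2 * θ3)) by positivity)
  have u4 := mul_le_mul_of_nonneg_left t3'' (show (0 : ℝ) ≤ 2 * θ3 / 2 by positivity)
  have e1 : (1 / (2 * θ1)) * (ρ ^ 2 * ∑ k, hs (p k)) = ρ ^ 2 / (2 * θ1) * ∑ k, hs (p k) := by ring
  have e2 : (1 / (2 * θ2)) * (Cy * ∑ k, slk sl U s (T k + p k)) =
      Cy / (2 * θ2) * ∑ k, slk sl U s (T k + p k) := by ring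
  have e3 : (1 / (2 * (2 * θ3))) * (4 * Cw * ∑ k, slk sl U s (T k + p k)) =
      Cw / θ3 * ∑ k, slk sl U s (T k + p k) := by
    field_simp
    ring
  have e4 : 2 * θ3 / 2 * (bo ^ 2 * ∑ k, hs (p k)) = θ3 * bo ^ 2 * ∑ k, hs (p k) := by ring
  rw [e1] at u1
  rw [e2] at u2
  rw [e3] at u3
  rw [e4] at u4
  linarith [t1, t2, t3, t4, t5, u1, u2, u3, u4]

end Crest.Agent.R253.Stein378
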