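import Crest.Agent.R253.LamB_301
import Crest.Agent.R253.ErrL_378

/-!
# R253: lower bound of `Λ(b) = E tr b (2k(ζ) − U² − Σ U_k²)` (helper378)

Integrates `Stein378.err_point` against the exact identity `LamB301.lam_eq0`.  All constants are
parameters.
-/

set_option autoImplicit false

open MeasureTheory ProbabilityTheory Set Filter Topology Matrix

noncomputable section

namespace Crest.Agent.R253.ErrT378

open Crest.Agent.R238.Gap Crest.Agent.R253.SpecCalc999 Crest.Agent.R253.Meh74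
  Crest.Agent.R253.SpecField321 Crest.Agent.R253.S3 Crest.Agent.R253.Stein378
  Crest.Agent.R253.LamB301

variable {n : ℕ} {Z : Fld n} {lo hi : ℝ}

/-- the bracket of `lam_eq0` -/
def brk (v v1 χ χ1 : ℝ → ℝ) (Z : Fld n) (T : Fin n → Mat n) (b : Mat n) : ℝ :=
  ∑ k, (TE (fun x => b * (T k * (pk Z T k x * (sf χ1 Z x - sf v1 Z x * sf v1 Z x) -
            sf v1 Z x * sf v1 Z x * pk Z T k x))) +
          TE (fun x => b * (T k * KR χ χ1 (Mx Z x) (S3.dZ Z k x))) -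
          TE (fun x => b * (T k * (sf v1 Z x * sf v1 Z x * S3.dZ Z k x -
            S3.dZ Z k x * (sf v1 Z x * sf v1 Z x)))) -
          2 * TE (fun x => b * (S3.dZ Z k x * sf v1 Z x * (KR v v1 (Mx Z x) (S3.dZ Z k x))ᵀ)) -
          TE (fun x => b * (KR v v1 (Mx Z x) (S3.dZ Z k x) *
            (KR v v1 (Mx Z x) (S3.dZ Z k x))ᵀ)) -
          TE (fun x => b * (pk Z T k x * (sf v1 Z x * sf v1 Z x) * pk Z T k x)))

/-- one term of `erB` as a function of `x` -/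
def erx (v v1 χ χ1 : ℝ → ℝ) (Z : Fld n) (T : Fin n → Mat n) (b : Mat n) (k : Fin n) (x : E n) : ℝ :=
  (b * (T k * (pk Z T k x * (sf χ1 Z x - sf v1 Z x * sf v1 Z x) -
            sf v1 Z x * sf v1 Z x * pk Z T k x))).trace +
          (b * (T k * KR χ χ1 (Mx Z x) (S3.dZ Z k x))).trace -
          (b * (T k * (sf v1 Z x * sf v1 Z x * S3.dZ Z k x -
            S3.dZ Z k x * (sf v1 Z x * sf v1 Z x)))).trace -
          2 * (b * (S3.dZ Z k x * sf v1 Z x * (KR v v1 (Mx Z x) (S3.dZ Z k x))ᵀ)).trace -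
          (b * (KR v v1 (Mx Z x) (S3.dZ Z k x) * (KR v v1 (Mx Z x) (S3.dZ Z k x))ᵀ)).trace -
          (b * (pk Z T k x * (sf v1 Z x * sf v1 Z x) * pk Z T k x)).trace

lemma erx_eq (v v1 χ χ1 : ℝ → ℝ) (Z : Fld n) (T : Fin n → Mat n) (b : Mat n) (x : E n) :
    ∑ k, erx v v1 χ χ1 Z T b k x = erB v v1 χ χ1 (Mx Z x) b T (fun k => pk Z T k x) := by
  have hd : ∀ k, T k + pk Z T k x = S3.dZ Z k x := fun k => by unfold pk; abel
  unfold erB erx sf
  simp only [hd]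

lemma cg_erx (hZ : MF Z lo hi) {v v1 χ χ1 : ℝ → ℝ}
    (hv : ∀ z ∈ Icc lo hi, HasDerivAt v (v1 z) z) (hv1 : ContinuousOn v1 (Icc lo hi))
    (hχ : ∀ z ∈ Icc lo hi, HasDerivAt χ (χ1 z) z) (hχ1 : ContinuousOn χ1 (Icc lo hi))
    (T : Fin n → Mat n) (b : Mat n) (k : Fin n) :
    CG (erx v v1 χ χ1 Z T b k) ∧ EE (erx v v1 χ χ1 Z T b k) =
      (TE (fun x => b * (T k * (pk Z T k x * (sf χ1 Z x - sf v1 Z x * sf v1 Z x) -
            sf v1 Z x * sf v1 Z x * pk Z T k x))) +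
          TE (fun x => b * (T k * KR χ χ1 (Mx Z x) (S3.dZ Z k x))) -
          TE (fun x => b * (T k * (sf v1 Z x * sf v1 Z x * S3.dZ Z k x -
            S3.dZ Z k x * (sf v1 Z x * sf v1 Z x)))) -
          2 * TE (fun x => b * (S3.dZ Z k x * sf v1 Z x * (KR v v1 (Mx Z x) (S3.dZ Z k x))ᵀ)) -
          TE (fun x => b * (KR v v1 (Mx Z x) (S3.dZ Z k x) *
            (KR v v1 (Mx Z x) (S3.dZ Z k x))ᵀ)) -
          TE (fun x => b * (pk Z T k x * (sf v1 Z x * sf v1 Z x) * pk Z T k x))) := by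
  have cW := cgm_cfc hZ hv1
  have cX := cgm_cfc hZ hχ1
  have cWW := cW.mul cW
  have cd := cgm_dZ hZ k
  have cp := cgm_pk hZ T k
  have cB := cgm_const (n := n) b
  have cT := cgm_const (n := n) (T k)
  have cRX := cgm_KR hZ hχ hχ1 k
  have cRv := cgm_KR hZ hv hv1 k
  have c6 : CG (fun x => (b * (T k * (pk Z T k x * (sf χ1 Z x - sf v1 Z x * sf v1 Z x) -
            sf v1 Z x * sf v1 Z x * pk Z T k x))).trace) :=
    (cB.mul (cT.mul ((cp.mul (cX.sub cWW)).sub (cWW.mul cp)))).trace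
  have c7 : CG (fun x => (b * (T k * KR χ χ1 (Mx Z x) (S3.dZ Z k x))).trace) :=
    (cB.mul (cT.mul cRX)).trace
  have c8 : CG (fun x => (b * (T k * (sf v1 Z x * sf v1 Z x * S3.dZ Z k x -
            S3.dZ Z k x * (sf v1 Z x * sf v1 Z x)))).trace) :=
    (cB.mul (cT.mul ((cWW.mul cd).sub (cd.mul cWW)))).trace
  have c9 : CG (fun x => (b * (S3.dZ Z k x * sf v1 Z x *
      (KR v v1 (Mx Z x) (S3.dZ Z k x))ᵀ)).trace) :=
    (cB.mul ((cd.mul cW).mul (CGm.tr cRv))).trace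
  have c10 : CG (fun x => (b * (KR v v1 (Mx Z x) (S3.dZ Z k x) *
      (KR v v1 (Mx Z x) (S3.dZ Z k x))ᵀ)).trace) := (cB.mul (cRv.mul (CGm.tr cRv))).trace
  have c11 : CG (fun x => (b * (pk Z T k x * (sf v1 Z x * sf v1 Z x) *
      pk Z T k x)).trace) := (cB.mul ((cp.mul cWW).mul cp)).trace
  refine ⟨(((((c6.add c7).sub c8).sub (c9.smul 2)).sub c10).sub c11), ?_⟩
  have e := EE_sub ((((c6.add c7).sub c8).sub (c9.smul 2)).sub c10) c11
  rw [EE_sub (((c6.add c7).sub c8).sub (c9.smul 2)) c10, EE_sub ((c6.add c7).sub c8) (c9.smul 2),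
    EE_sub (c6.add c7) c8, EE_add c6 c7, EE_smul] at e
  exact e

lemma brk_eq (hZ : MF Z lo hi) {v v1 χ χ1 : ℝ → ℝ}
    (hv : ∀ z ∈ Icc lo hi, HasDerivAt v (v1 z) z) (hv1 : ContinuousOn v1 (Icc lo hi))
    (hχ : ∀ z ∈ Icc lo hi, HasDerivAt χ (χ1 z) z) (hχ1 : ContinuousOn χ1 (Icc lo hi))
    (T : Fin n → Mat n) (b : Mat n) :
    brk v v1 χ χ1 Z T b = EE (fun x => erB v v1 χ χ1 (Mx Z x) b T (fun k => pk Z T k x)) := by
  have h := fun k => cg_erx hZ hv hv1 hχ hχ1 T b k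
  have e1 : EE (fun x => erB v v1 χ χ1 (Mx Z x) b T (fun k => pk Z T k x)) =
      EE (fun x => ∑ k, erx v v1 χ χ1 Z T b k x) :=
    EE_congr fun x => (erx_eq v v1 χ χ1 Z T b x).symm
  rw [e1, EE_sum fun k _ => (h k).1]
  unfold brk
  exact Finset.sum_congr rfl fun k _ => ((h k).2).symm

lemma cg_erB (hZ : MF Z lo hi) {v v1 χ χ1 : ℝ → ℝ}
    (hv : ∀ z ∈ Icc lo hi, HasDerivAt v (v1 z) z) (hv1 : ContinuousOn v1 (Icc lo hi))
    (hχ : ∀ z ∈ Icc lo hi, HasDerivAt χ (χ1 z) z) (hχ1 : ContinuousOn χ1 (Icc lo hi))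
    (T : Fin n → Mat n) (b : Mat n) :
    CG (fun x => erB v v1 χ χ1 (Mx Z x) b T (fun k => pk Z T k x)) := by
  have h := fun k => (cg_erx hZ hv hv1 hχ hχ1 T b k).1
  have e : (fun x => erB v v1 χ χ1 (Mx Z x) b T (fun k => pk Z T k x)) =
      fun x => ∑ k, erx v v1 χ χ1 Z T b k x := funext fun x => (erx_eq v v1 χ χ1 Z T b x).symm
  rw [e]
  exact CG.sum fun k _ => h k

/-- linearity in `b` -/
lemma erB_neg (v w χ χ1 : ℝ → ℝ) (A b : Mat n) (T p : Fin n → Mat n) :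
    erB v w χ χ1 A (-b) T p = -erB v w χ χ1 A b T p := by
  unfold erB
  rw [← Finset.sum_neg_distrib]
  refine Finset.sum_congr rfl fun k _ => ?_
  simp only [Matrix.neg_mul, Matrix.trace_neg]
  ring

/-- **the bracket from below** -/
theorem brk_ge (hZ : MF Z lo hi) {v v1 χ χ1 : ℝ → ℝ}
    (hv : ∀ z ∈ Icc lo hi, HasDerivAt v (v1 z) z) (hv1 : ContinuousOn v1 (Icc lo hi))
    (hχ : ∀ z ∈ Icc lo hi, HasDerivAt χ (χ1 z) z) (hχ1 : ContinuousOn χ1 (Icc lo hi))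
    {T : Fin n → Mat n} (hTs : ∀ k, (T k)ᵀ = T k) (hT : ∀ k, EM (S3.dZ Z k) = T k)
    {sl : ℝ → ℝ → ℝ} {Sl : E n → ℝ} (cSl : CG Sl)
    (hSl : ∀ x, ∃ U s, Fr (Mx Z x) U s ∧ ∑ k, Jord192.slk sl U s (S3.dZ Z k x) ≤ Sl x)
    {Cy Cw Ce c ρ κ bo bn θ1 θ2 θ3 : ℝ}
    (hy : ∀ a ∈ Icc lo hi, ∀ b ∈ Icc lo hi, ky v v1 χ χ1 a b ^ 2 ≤ Cy * sl a b)
    (hw : ∀ a ∈ Icc lo hi, ∀ b ∈ Icc lo hi, (v1 a * (dd1 v v1 b a - v1 a)) ^ 2 ≤ Cw * sl a b)
    (he : ∀ a ∈ Icc lo hi, ∀ b ∈ Icc lo hi, (dd1 v v1 a b - v1 b) ^ 2 ≤ Ce * sl a b)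
    (hρ : ∀ a ∈ Icc lo hi, ∀ b ∈ Icc lo hi, |χ1 b - v1 b ^ 2 - v1 a ^ 2 - c| ≤ ρ)
    (hκ : ∀ a ∈ Icc lo hi, |v1 a| ≤ κ)
    (hC0 : 0 ≤ Cy) (hC1 : 0 ≤ Cw) (hC2 : 0 ≤ Ce)
    (hθ1 : 0 < θ1) (hθ2 : 0 < θ2) (hθ3 : 0 < θ3) {b Q : Mat n} (hQ : Q.PosSemidef)
    (hbQ : (Q - b).PosSemidef) (hbo : ∀ X : Mat n, hs (b * X) ≤ bo ^ 2 * hs X)
    (hQn : ∀ X : Mat n, (Q * (X * Xᵀ)).trace ≤ bn * hs X) (hbn : 0 ≤ bn) :
    -((θ1 / 2 + θ2 / 2) * ∑ k, hs (b * T k) +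
      (ρ ^ 2 / (2 * θ1) + θ3 * bo ^ 2) * ∑ k, EE (fun x => hs (pk Z T k x)) +
      κ ^ 2 * ∑ k, TE (fun x => Q * (pk Z T k x * pk Z T k x)) +
      (Cy / (2 * θ2) + Cw / θ3 + bn * Ce) * EE Sl) ≤ brk v v1 χ χ1 Z T b := by
  have hpt : ∀ x, -erB v v1 χ χ1 (Mx Z x) b T (fun k => pk Z T k x) ≤
      (c * ∑ k, (-b * (T k * pk Z T k x)).trace) +
      ((θ1 / 2 + θ2 / 2) * ∑ k, hs (b * T k)) +
      (ρ ^ 2 / (2 * θ1) + θ3 * bo ^ 2) * ∑ k, hs (pk Z T k x) +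
      κ ^ 2 * ∑ k, (Q * (pk Z T k x * pk Z T k x)).trace +
      (Cy / (2 * θ2) + Cw / θ3 + bn * Ce) * Sl x := by
    intro x
    obtain ⟨U, s, hU, hs1⟩ := hSl x
    have hsp : ∀ a ∈ spectrum ℝ (Mx Z x), a ∈ Icc lo hi := fun a ha => hZ.s x ha
    have hd : ∀ k, T k + pk Z T k x = S3.dZ Z k x := fun k => by unfold pk; abel
    have h := err_point (B := -b) (Q := Q) (T := T) (p := fun k => pk Z T k x) (bo := bo) (bn := bn)
      (c := c) (ρ := ρ) (κ := κ) (θ1 := θ1) (θ2 := θ2) (θ3 := θ3) hU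
      (fun a ha d hd' => hy a (hsp a ha) d (hsp d hd'))
      (fun a ha d hd' => hw a (hsp a ha) d (hsp d hd'))
      (fun a ha d hd' => he a (hsp a ha) d (hsp d hd'))
      (fun a ha d hd' => hρ a (hsp a ha) d (hsp d hd'))
      (fun a ha => hκ a (hsp a ha)) hθ1 hθ2 hθ3 hQ
      (by rw [← sub_eq_add_neg]; exact hbQ)
      (fun X => by rw [Matrix.neg_mul, Jord192.hs_neg]; exact hbo X) hQn hbn hTs
      (fun k => by unfold pk; rw [Matrix.transpose_sub, dZ_t hZ, hTs])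
    rw [erB_neg] at h
    simp only [hd] at h
    have e1 : ∑ k, hs (-b * T k) = ∑ k, hs (b * T k) :=
      Finset.sum_congr rfl fun k _ => by rw [Matrix.neg_mul, Jord192.hs_neg]
    rw [e1] at h
    have h2 : (Cy / (2 * θ2) + Cw / θ3 + bn * Ce) * ∑ k, Jord192.slk sl U s (S3.dZ Z k x) ≤
        (Cy / (2 * θ2) + Cw / θ3 + bn * Ce) * Sl x :=
      mul_le_mul_of_nonneg_left hs1 (by positivity)
    linarith
  have cp := fun k => cgm_pk hZ T k
  have c1 : CG (fun x => -erB v v1 χ χ1 (Mx Z x) b T (fun k => pk Z T k x)) :=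
    (cg_erB hZ hv hv1 hχ hχ1 T b).neg
  have c2 : ∀ k, CG (fun x => (-b * (T k * pk Z T k x)).trace) := fun k =>
    ((cgm_const (-b)).mul ((cgm_const (T k)).mul (cp k))).trace
  have c3 : ∀ k, CG (fun x => hs (pk Z T k x)) := fun k => cg_hs (cp k)
  have c4 : ∀ k, CG (fun x => (Q * (pk Z T k x * pk Z T k x)).trace) := fun k =>
    ((cgm_const Q).mul ((cp k).mul (cp k))).trace
  have d1 : CG (fun x => c * ∑ k, (-b * (T k * pk Z T k x)).trace) :=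
    (CG.sum fun k _ => c2 k).smul c
  have d2 : CG (fun _ : E n => (θ1 / 2 + θ2 / 2) * ∑ k, hs (b * T k)) := cg_const _
  have d3 : CG (fun x => (ρ ^ 2 / (2 * θ1) + θ3 * bo ^ 2) * ∑ k, hs (pk Z T k x)) :=
    (CG.sum fun k _ => c3 k).smul _
  have d4 : CG (fun x => κ ^ 2 * ∑ k, (Q * (pk Z T k x * pk Z T k x)).trace) :=
    (CG.sum fun k _ => c4 k).smul _
  have d5 : CG (fun x => (Cy / (2 * θ2) + Cw / θ3 + bn * Ce) * Sl x) := cSl.smul _
  have h := EE_mono c1 ((((d1.add d2).add d3).add d4).add d5) hpt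
  rw [EE_neg, EE_add (((d1.add d2).add d3).add d4) d5, EE_add ((d1.add d2).add d3) d4,
    EE_add (d1.add d2) d3, EE_add d1 d2, EE_const, EE_smul, EE_smul, EE_smul, EE_smul,
    EE_sum fun k _ => c2 k, EE_sum fun k _ => c3 k, EE_sum fun k _ => c4 k] at h
  have z : ∀ k, EE (fun x => (-b * (T k * pk Z T k x)).trace) = 0 := fun k => by
    have h1 : EE (fun x => (-b * (T k * pk Z T k x)).trace) =
        TE (fun x => (-b * T k) * pk Z T k x * 1) := by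
      refine EE_congr fun x => ?_
      change _ = ((-b * T k) * pk Z T k x * 1).trace
      rw [Matrix.mul_one, Matrix.mul_assoc]
    rw [h1]
    exact EM_zero_tr (cp k) (EM_pk hZ hT k) _ _
  simp only [z, Finset.sum_const_zero, mul_zero, zero_add] at h
  rw [brk_eq hZ hv hv1 hχ hχ1]
  unfold TE
  linarith

/-! ### quadratic majorants, the `η`-term -/

lemma eta0_t (hZ : MF Z lo hi) {T : Fin n → Mat n} (hTs : ∀ k, (T k)ᵀ = T k) (x : E n) :
    (eta0 Z T x)ᵀ = eta0 Z T x := by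
  unfold eta0
  rw [Matrix.transpose_sub, Mx_t hZ, Matrix.transpose_sum]
  congr 1
  exact Finset.sum_congr rfl fun k _ => by rw [Matrix.transpose_smul, hTs]

/-- `f(A) ≤ a + c z + e z²` on the spectrum gives the trace inequality against `K ≥ 0` -/
lemma tr_cfc_quad_le {A K : Mat n} (hA : A.IsHermitian) {f : ℝ → ℝ} {a c e : ℝ}
    (hf : ∀ z ∈ spectrum ℝ A, f z ≤ a + c * z + e * z ^ 2) (hK : K.PosSemidef) :
    (K * _root_.cfc f A).trace ≤ a * K.trace + c * (K * A).trace + e * (K * (A * A)).trace := by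
  obtain ⟨U, hU⟩ := exists_fr hA
  have h2 : _root_.cfc (fun z : ℝ => z ^ 2) A = A * A := by
    apply conj_inj hU.o'
    rw [hU.cfc, Jord192.conj_mul hU.o', hU.d, Matrix.diagonal_mul_diagonal]
    congr 1; funext i; ring
  have e0 : (K * _root_.cfc f A).trace = (_root_.cfc f A * K).trace := Matrix.trace_mul_comm _ _
  have e1 : (K * A).trace = (_root_.cfc (fun t : ℝ => t) A * K).trace := by
    rw [cfc_id'' hA, Matrix.trace_mul_comm]
  have e2 : (K * (A * A)).trace = (_root_.cfc (fun z : ℝ => z ^ 2) A * K).trace := by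
    rw [h2, Matrix.trace_mul_comm]
  rw [e0, e1, e2, tr_frame hU, tr_frame hU, tr_frame hU, tr_frame_one (W := K) hU,
    Finset.mul_sum, Finset.mul_sum, Finset.mul_sum, ← Finset.sum_add_distrib,
    ← Finset.sum_add_distrib]
  refine Finset.sum_le_sum fun i _ => ?_
  have := mul_le_mul_of_nonneg_right (hf _ (hU.mem_spec i)) (conj_diag_nonneg hK U i)
  linarith

/-- second moment of `ζ` against a constant -/
lemma TE_ZZ (hZ : MF Z lo hi) {T : Fin n → Mat n}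
    (hT : ∀ k, EM (S3.dZ Z k) = T k) (K : Mat n) :
    TE (fun x => K * (Mx Z x * Mx Z x)) =
      (K * ∑ k, T k * T k).trace + TE (fun x => K * (eta0 Z T x * eta0 Z T x)) := by
  have cη := cgm_eta0 hZ T
  have cM := cgm_Mx hZ
  have hC : C1m (Mx Z) := fun i j => hZ.c i j
  rw [stein0 hZ hC K T]
  have e1 : ∀ k, TE (fun x => K * (T k * S3.dM k (Mx Z) x)) = (K * (T k * T k)).trace := by
    intro k
    have h1 : TE (fun x => K * (T k * S3.dM k (Mx Z) x)) = TE (fun x => (K * T k) * S3.dZ Z k x) :=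
      TE_congr fun x => by
        rw [Matrix.mul_assoc]
        rfl
    rw [h1, TE_AF (cgm_dZ hZ k), hT, Matrix.mul_assoc]
  have e2 : TE (fun x => K * (eta0 Z T x * Mx Z x)) =
      TE (fun x => K * (eta0 Z T x * eta0 Z T x)) := by
    have h0 : ∀ x, K * (eta0 Z T x * Mx Z x) =
        K * (eta0 Z T x * eta0 Z T x) + ∑ k, K * (x k • eta0 Z T x) * T k := by
      intro x
      have h1 : Mx Z x = eta0 Z T x + ∑ k, x k • T k := by unfold eta0; abel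
      conv_lhs => rw [h1]
      rw [Matrix.mul_add, Matrix.mul_add, Matrix.mul_sum, Matrix.mul_sum]
      congr 1
      refine Finset.sum_congr rfl fun k _ => ?_
      rw [Matrix.mul_smul, Matrix.mul_smul, Matrix.mul_smul, Matrix.smul_mul, Matrix.mul_assoc]
    have cx : ∀ k : Fin n, CGm fun x : E n => x k • eta0 Z T x := fun k =>
      CGm.smul (cg_coord k) cη
    rw [TE_congr h0, TE_add ((cgm_const K).mul (cη.mul cη))
      (CGm.sum fun k _ => ((cgm_const K).mul (cx k)).mul (cgm_const _)),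
      TE_sum fun k _ => ((cgm_const K).mul (cx k)).mul (cgm_const _)]
    have z : ∀ k, TE (fun x : E n => K * (x k • eta0 Z T x) * T k) = 0 := fun k => by
      rw [TE_AFB (cx k), EM_x_eta hZ T hT k, Matrix.mul_zero, Matrix.zero_mul, Matrix.trace_zero]
    simp only [z, Finset.sum_const_zero, add_zero]
  rw [e2, Matrix.mul_sum, Matrix.trace_sum]
  simp only [e1]

/-- `E tr K f(ζ) ≤ a tr K + e (tr K M_T + E tr K η²)` -/
theorem TE_quad_le (hZ : MF Z lo hi) {T : Fin n → Mat n}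
    (hT : ∀ k, EM (S3.dZ Z k) = T k) (h0 : EM (Mx Z) = 0) {f : ℝ → ℝ}
    (hfc : ContinuousOn f (Icc lo hi)) {a c e : ℝ}
    (hf : ∀ z ∈ Icc lo hi, f z ≤ a + c * z + e * z ^ 2) {K : Mat n} (hK : K.PosSemidef) :
    TE (fun x => K * sf f Z x) ≤
      a * K.trace + e * ((K * ∑ k, T k * T k).trace +
        TE (fun x => K * (eta0 Z T x * eta0 Z T x))) := by
  have cM := cgm_Mx hZ
  rw [← TE_ZZ hZ hT K]
  have c1 : CG (fun x => (K * sf f Z x).trace) := ((cgm_const K).mul (cgm_cfc hZ hfc)).trace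
  have c2 : CG (fun x => (K * Mx Z x).trace) := ((cgm_const K).mul cM).trace
  have c3 : CG (fun x => (K * (Mx Z x * Mx Z x)).trace) := ((cgm_const K).mul (cM.mul cM)).trace
  have h := EE_mono c1 (((cg_const (a * K.trace)).add (c2.smul c)).add (c3.smul e)) fun x =>
    tr_cfc_quad_le (hZ.h x) (fun z hz => hf z (hZ.s x hz)) hK
  rw [EE_add ((cg_const (a * K.trace)).add (c2.smul c)) (c3.smul e),
    EE_add (cg_const (a * K.trace)) (c2.smul c), EE_const, EE_smul, EE_smul] at h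
  have z : EE (fun x => (K * Mx Z x).trace) = 0 := by
    have : TE (fun x => K * Mx Z x) = 0 := by rw [TE_AF cM, h0, Matrix.mul_zero, Matrix.trace_zero]
    exact this
  rw [z] at h
  unfold TE
  linarith

/-- lower version -/
theorem TE_quad_ge (hZ : MF Z lo hi) {T : Fin n → Mat n}
    (hT : ∀ k, EM (S3.dZ Z k) = T k) (h0 : EM (Mx Z) = 0) {f : ℝ → ℝ}
    (hfc : ContinuousOn f (Icc lo hi)) {a c e : ℝ}
    (hf : ∀ z ∈ Icc lo hi, a + c * z - e * z ^ 2 ≤ f z) {K : Mat n} (hK : K.PosSemidef) :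
    a * K.trace - e * ((K * ∑ k, T k * T k).trace +
        TE (fun x => K * (eta0 Z T x * eta0 Z T x))) ≤ TE (fun x => K * sf f Z x) := by
  have h := TE_quad_le hZ hT h0 (f := fun z => -f z) hfc.neg (a := -a) (c := -c) (e := e)
    (fun z hz => by have := hf z hz; linarith) hK
  have e1 : TE (fun x => K * sf (fun z => -f z) Z x) = -TE (fun x => K * sf f Z x) := by
    have h1 : ∀ x, K * sf (fun z => -f z) Z x = (-1 : ℝ) • (K * sf f Z x) := by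
      intro x
      have h2 : sf (fun z => -f z) Z x = -sf f Z x := by
        obtain ⟨U, hU⟩ := exists_fr (hZ.h x)
        apply conj_inj hU.o'
        unfold sf
        rw [hU.cfc, Matrix.mul_neg, Matrix.neg_mul, hU.cfc]
        ext i j
        by_cases hij : i = j
        · subst hij; simp
        · simp [Matrix.diagonal_apply_ne _ hij]
      rw [h2, Matrix.mul_neg, neg_smul, one_smul]
    rw [TE_congr h1, TE_smul]
    ring
  rw [e1] at h
  linarith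

/-- **the `η`-term**: `|E tr b η g(ζ)| ≤ θ/2 (a tr b² + e (tr b² M_T + E tr b² η²)) + 1/(2θ) E|η|²`
for `g² ≤ a + c z + e z²` -/
theorem eta_term (hZ : MF Z lo hi) {T : Fin n → Mat n}
    (hT : ∀ k, EM (S3.dZ Z k) = T k) (h0 : EM (Mx Z) = 0) {g : ℝ → ℝ}
    (hgc : ContinuousOn g (Icc lo hi)) {a c e θ : ℝ} (hθ : 0 < θ)
    (hg : ∀ z ∈ Icc lo hi, g z ^ 2 ≤ a + c * z + e * z ^ 2) {b : Mat n} (hb : bᵀ = b) :
    |TE (fun x => b * (eta0 Z T x * sf g Z x))| ≤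
      θ / 2 * (a * (b * b).trace + e * ((b * b * ∑ k, T k * T k).trace +
        TE (fun x => b * b * (eta0 Z T x * eta0 Z T x)))) +
      1 / (2 * θ) * EE (fun x => hs (eta0 Z T x)) := by
  have cη := cgm_eta0 hZ T
  have cg := cgm_cfc hZ hgc
  have hbb : (b * b).PosSemidef := by
    have := Matrix.posSemidef_self_mul_conjTranspose b
    rwa [conjTranspose_eq_transpose_of_trivial, hb] at this
  have hh : ∀ x, hs (sf g Z x * b) = (b * b * sf (fun z => g z ^ 2) Z x).trace := by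
    intro x
    rw [hs_eq, Matrix.transpose_mul, hb, sf_t]
    have h1 : sf (fun z => g z ^ 2) Z x = sf g Z x * sf g Z x := by
      rw [sf_mul hZ]
      exact sf_congr hZ (fun z _ => sq _) x
    rw [h1]
    calc (b * sf g Z x * (sf g Z x * b)).trace = (b * (sf g Z x * sf g Z x * b)).trace := by
          simp only [Matrix.mul_assoc]
      _ = ((sf g Z x * sf g Z x * b) * b).trace := Matrix.trace_mul_comm _ _
      _ = ((sf g Z x * sf g Z x) * (b * b)).trace := by simp only [Matrix.mul_assoc]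
      _ = _ := Matrix.trace_mul_comm _ _
  have hq := TE_quad_le hZ hT h0 (f := fun z => g z ^ 2) (hgc.pow 2) hg hbb
  have c1 : CG (fun x => (b * (eta0 Z T x * sf g Z x)).trace) :=
    ((cgm_const b).mul (cη.mul cg)).trace
  have c2 : CG (fun x => (b * b * sf (fun z => g z ^ 2) Z x).trace) :=
    ((cgm_const (b * b)).mul (cgm_cfc hZ (hgc.pow 2))).trace
  have c3 : CG (fun x => hs (eta0 Z T x)) := cg_hs cη
  have key : ∀ x, |(b * (eta0 Z T x * sf g Z x)).trace| ≤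
      θ / 2 * (b * b * sf (fun z => g z ^ 2) Z x).trace + 1 / (2 * θ) * hs (eta0 Z T x) := by
    intro x
    have h := abs_trace_three_le b (eta0 Z T x) (sf g Z x) hθ
    rw [hh, Matrix.mul_assoc] at h
    exact h
  have up := EE_mono c1 ((c2.smul (θ / 2)).add (c3.smul (1 / (2 * θ)))) fun x =>
    (abs_le.1 (key x)).2
  have dn := EE_mono c1.neg ((c2.smul (θ / 2)).add (c3.smul (1 / (2 * θ)))) fun x => by
    have := (abs_le.1 (key x)).1
    linarith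
  rw [EE_neg] at dn
  rw [EE_add (c2.smul (θ / 2)) (c3.smul (1 / (2 * θ))), EE_smul, EE_smul] at up dn
  have hq2 := mul_le_mul_of_nonneg_left hq (show (0 : ℝ) ≤ θ / 2 by positivity)
  unfold TE at hq2 ⊢
  rw [abs_le]
  constructor <;> linarith

/-! ### the final lower bound -/

lemma sum_hs_mul (b : Mat n) (hb : bᵀ = b) {T : Fin n → Mat n} (hTs : ∀ k, (T k)ᵀ = T k) :
    ∑ k, hs (b * T k) = (b * b * ∑ k, T k * T k).trace := by
  rw [Matrix.mul_sum, Matrix.trace_sum]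
  refine Finset.sum_congr rfl fun k _ => ?_
  rw [hs_eq, Matrix.transpose_mul, hb, hTs]
  calc (T k * b * (b * T k)).trace = (T k * (b * b * T k)).trace := by
        simp only [Matrix.mul_assoc]
    _ = ((b * b * T k) * T k).trace := Matrix.trace_mul_comm _ _
    _ = _ := by simp only [Matrix.mul_assoc]

/-- `Λ(b)` -/
def Lam (F v v1 : ℝ → ℝ) (Z : Fld n) (b : Mat n) : ℝ :=
  TE (fun x => b * sf F Z x) -
    ∑ k, TE (fun x => b * (DK v v1 (Mx Z x) (S3.dZ Z k x) * DK v v1 (Mx Z x) (S3.dZ Z k x)))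

/-- **the lower bound of `Λ(b)`, all constants parameters**; `Q = b₊`, `h = χ' − v'²`,
`g = χ − c₃ − c₄ z`, `g² ≤ a₅ + c₅ z + e₅ z²`. -/
theorem lam_ge (hZ : MF Z lo hi) {v v1 χ χ1 F : ℝ → ℝ}
    (hv : ∀ z ∈ Icc lo hi, HasDerivAt v (v1 z) z) (hv1 : ContinuousOn v1 (Icc lo hi))
    (hχ : ∀ z ∈ Icc lo hi, HasDerivAt χ (χ1 z) z) (hχ1 : ContinuousOn χ1 (Icc lo hi))
    (hF : ∀ z ∈ Icc lo hi, F z = 1 + z * χ z - χ1 z + v1 z ^ 2)
    {T : Fin n → Mat n} (hTs : ∀ k, (T k)ᵀ = T k) (hT : ∀ k, EM (S3.dZ Z k) = T k)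
    (h0 : EM (Mx Z) = 0)
    {sl : ℝ → ℝ → ℝ} {Sl : E n → ℝ} (cSl : CG Sl)
    (hSl : ∀ x, ∃ U s, Fr (Mx Z x) U s ∧ ∑ k, Jord192.slk sl U s (S3.dZ Z k x) ≤ Sl x)
    {Cy Cw Ce c ρ κ bo bn θ1 θ2 θ3 θ4 c3 c4 a5 c5 e5 : ℝ}
    (hy : ∀ a ∈ Icc lo hi, ∀ b ∈ Icc lo hi, ky v v1 χ χ1 a b ^ 2 ≤ Cy * sl a b)
    (hw : ∀ a ∈ Icc lo hi, ∀ b ∈ Icc lo hi, (v1 a * (dd1 v v1 b a - v1 a)) ^ 2 ≤ Cw * sl a b)
    (he : ∀ a ∈ Icc lo hi, ∀ b ∈ Icc lo hi, (dd1 v v1 a b - v1 b) ^ 2 ≤ Ce * sl a b)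
    (hρ : ∀ a ∈ Icc lo hi, ∀ b ∈ Icc lo hi, |χ1 b - v1 b ^ 2 - v1 a ^ 2 - c| ≤ ρ)
    (hκ : ∀ a ∈ Icc lo hi, |v1 a| ≤ κ)
    (hg : ∀ z ∈ Icc lo hi, (χ z - c3 - c4 * z) ^ 2 ≤ a5 + c5 * z + e5 * z ^ 2)
    (hC0 : 0 ≤ Cy) (hC1 : 0 ≤ Cw) (hC2 : 0 ≤ Ce)
    (hθ1 : 0 < θ1) (hθ2 : 0 < θ2) (hθ3 : 0 < θ3) (hθ4 : 0 < θ4) {b Q : Mat n} (hb : bᵀ = b)
    (hQ : Q.PosSemidef)
    (hbQ : (Q - b).PosSemidef) (hbo : ∀ X : Mat n, hs (b * X) ≤ bo ^ 2 * hs X)
    (hQn : ∀ X : Mat n, (Q * (X * Xᵀ)).trace ≤ bn * hs X) (hbn : 0 ≤ bn) :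
    b.trace + TE (fun x => b * ((∑ k, T k * T k) - 1) * sf (fun z => χ1 z - v1 z ^ 2) Z x) -
      (θ1 / 2 + θ2 / 2) * (b * b * ∑ k, T k * T k).trace -
      (ρ ^ 2 / (2 * θ1) + θ3 * bo ^ 2) * ∑ k, EE (fun x => hs (pk Z T k x)) -
      κ ^ 2 * ∑ k, TE (fun x => Q * (pk Z T k x * pk Z T k x)) -
      (Cy / (2 * θ2) + Cw / θ3 + bn * Ce) * EE Sl -
      (θ4 / 2 * (a5 * (b * b).trace + e5 * ((b * b * ∑ k, T k * T k).trace +
        TE (fun x => b * b * (eta0 Z T x * eta0 Z T x)))) +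
      1 / (2 * θ4) * EE (fun x => hs (eta0 Z T x))) +
      c4 * TE (fun x => b * (eta0 Z T x * eta0 Z T x)) ≤ Lam F v v1 Z b := by
  have h1 := lam_eq0 hZ hv hv1 hχ hχ1 hF hb hTs
  have h2 := brk_ge hZ hv hv1 hχ hχ1 hTs hT cSl hSl hy hw he hρ hκ hC0 hC1 hC2 hθ1 hθ2 hθ3 hQ hbQ
    hbo hQn hbn
  have hχc : ContinuousOn χ (Icc lo hi) := contOn_of_deriv hχ
  have hgc : ContinuousOn (fun z => χ z - c3 - c4 * z) (Icc lo hi) :=
    (hχc.sub continuousOn_const).sub (continuousOn_const.mul continuousOn_id)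
  have h3 := (abs_le.1 (eta_term hZ hT h0 hgc hθ4 hg hb)).1
  have h4 := center_eta' hZ hχ hχ1 hTs hT h0 hb c3 c4
  have hWW : ∀ x, sf χ1 Z x - sf v1 Z x * sf v1 Z x = sf (fun z => χ1 z - v1 z ^ 2) Z x := by
    intro x
    have e1 : sf v1 Z x * sf v1 Z x = sf (fun z => v1 z ^ 2) Z x := by
      rw [sf_mul hZ]
      exact sf_congr hZ (fun z _ => (sq _).symm) x
    rw [e1, sf_sub hZ]
  have e2 : -TE (fun x => b * ((1 - ∑ k, T k * T k) *
          (sf χ1 Z x - sf v1 Z x * sf v1 Z x))) =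
      TE (fun x => b * ((∑ k, T k * T k) - 1) * sf (fun z => χ1 z - v1 z ^ 2) Z x) := by
    unfold TE
    rw [← EE_neg]
    refine EE_congr fun x => ?_
    change -(b * ((1 - ∑ k, T k * T k) * (sf χ1 Z x - sf v1 Z x * sf v1 Z x))).trace =
      (b * ((∑ k, T k * T k) - 1) * sf (fun z => χ1 z - v1 z ^ 2) Z x).trace
    rw [hWW, ← Matrix.trace_neg, ← Matrix.mul_neg, ← Matrix.neg_mul, neg_sub, Matrix.mul_assoc]
  unfold Lam
  rw [h1]
  unfold brk at h2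
  rw [sum_hs_mul b hb hTs] at h2
  rw [h4]
  linarith

end Crest.Agent.R253.ErrT378
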