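import Crest.Agent.R253.FrameS_321

/-!
# R253: fields of `ζ = z(M)`, kernel bounds by the slack, the logarithm identity (helper321)
-/

set_option autoImplicit false

open Matrix Filter Topology Set
open scoped ContDiff

noncomputable section

namespace Crest.Agent.R253.Frame321

open Crest.Agent.R253.SpecCalc999 Crest.Agent.R253.SpecField321
  Crest.Agent.R238.Gap
open Crest.Agent.R253.Meh74 hiding ip

open Crest.Agent.R253.ScalE688 (zf zf' uf uf' phif phif' rho zf_has uf_has phif_has phif_eq SI_e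
  mu_zf zf_le)
open Crest.Agent.R253.Jord192 (slk KT KL hs_KT_le hs_KL_le)
open Crest.Agent.R253.Slack688 (aa H0_has)
open Crest.Agent.R253.Mills37 (mu H0 kk ph Q ee)

variable {m n : ℕ}

lemma Fr.map {A U : Mat m} {s : Fin m → ℝ} (h : Fr A U s) (g : ℝ → ℝ) :
    Fr (_root_.cfc g A) U (fun i => g (s i)) := ⟨h.o, h.cfc g⟩

lemma cfc_comp_h {A : Mat m} (hA : A.IsHermitian) (f g : ℝ → ℝ) :
    _root_.cfc f (_root_.cfc g A) = _root_.cfc (fun t => f (g t)) A := by
  obtain ⟨U, hU⟩ := exists_fr hA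
  apply conj_inj hU.o'
  rw [(Fr.map hU g).cfc f, hU.cfc fun t => f (g t)]

lemma cfc_congr_fr {A U : Mat m} {s : Fin m → ℝ} (h : Fr A U s) {f g : ℝ → ℝ}
    (he : ∀ i, f (s i) = g (s i)) : _root_.cfc f A = _root_.cfc g A := by
  apply conj_inj h.o'
  rw [h.cfc, h.cfc]
  congr 1
  funext i
  exact he i

lemma Fr.spec {A U : Mat m} {s : Fin m → ℝ} (h : Fr A U s) {a : ℝ} (ha : a ∈ spectrum ℝ A) :
    ∃ i, s i = a := by
  by_contra hc
  push Not at hc
  have h1 : IsUnit (algebraMap ℝ (Mat m) a - A) := by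
    have e1 : algebraMap ℝ (Mat m) a - A = U * Matrix.diagonal (fun i => a - s i) * Uᵀ := by
      have e2 : algebraMap ℝ (Mat m) a = U * Matrix.diagonal (fun _ => a) * Uᵀ := by
        have : (Matrix.diagonal fun _ : Fin m => a) = a • (1 : Mat m) := by
          rw [← Matrix.diagonal_one, ← Matrix.diagonal_smul]
          congr 1; funext i; simp
        rw [this, Matrix.mul_smul, Matrix.mul_one, Matrix.smul_mul, h.o', Algebra.algebraMap_eq_smul_one]
      rw [e2, h.eq, ← Matrix.sub_mul, ← Matrix.mul_sub, Matrix.diagonal_sub]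
    have e3 : (U * Matrix.diagonal (fun i => a - s i) * Uᵀ) *
        (U * Matrix.diagonal (fun i => (a - s i)⁻¹) * Uᵀ) = 1 := by
      calc (U * Matrix.diagonal (fun i => a - s i) * Uᵀ) *
          (U * Matrix.diagonal (fun i => (a - s i)⁻¹) * Uᵀ) =
          U * (Matrix.diagonal (fun i => a - s i) * (Uᵀ * U) *
            Matrix.diagonal (fun i => (a - s i)⁻¹)) * Uᵀ := by simp only [Matrix.mul_assoc]
        _ = U * 1 * Uᵀ := by
          rw [h.o, Matrix.mul_one, Matrix.diagonal_mul_diagonal, ← Matrix.diagonal_one]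
          congr 3; funext i
          exact mul_inv_cancel₀ (sub_ne_zero.2 (hc i).symm)
        _ = 1 := by rw [Matrix.mul_one, h.o']
    rw [e1]
    exact IsUnit.of_mul_eq_one _ e3
  exact ha h1

section field

variable {M Nn : Fld n} {G : Fin n → E n → ℝ} {V : E n → ℝ} {lo hi : ℝ}

/-- the field `f(ζ)` -/
def Ff (f : ℝ → ℝ) (M : Fld n) : Fld n := fun i j x => _root_.cfc f (Mx (Zf M) x) i j

lemma Mx_Ff (f : ℝ → ℝ) (M : Fld n) (x : E n) : Mx (Ff f M) x = _root_.cfc f (Mx (Zf M) x) := rfl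

lemma Uf_eq (hM : MF M lo hi) : Uf M = Ff H0 M := by
  funext i j x
  unfold Uf Ff
  rw [Mx_Zf, cfc_comp_h (hM.h x)]
  rfl

lemma M_eq (hM : MF M lo hi) (hlo : 0 < lo) : M = Ff mu M := by
  funext i j x
  unfold Ff
  rw [Mx_Zf, cfc_comp_h (hM.h x)]
  obtain ⟨U, hU⟩ := exists_fr (hM.h x)
  have e1 : _root_.cfc (fun t => mu (zf t)) (Mx M x) = _root_.cfc (fun t => t) (Mx M x) :=
    cfc_congr_fr hU fun i => mu_zf (lt_of_lt_of_le hlo (hM.s x (hU.mem_spec i)).1)
  rw [e1, cfc_id'' (hM.h x)]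
  rfl

/-- the frame of `ζ(x)` -/
lemma fr_Zf {x : E n} {U : Mat n} {e : Fin n → ℝ} (hU : Fr (Mx M x) U e) :
    Fr (Mx (Zf M) x) U (fun i => zf (e i)) := Fr.map hU zf

/-- `ζ` is again a matrix field -/
lemma mf_Zf (hM : MF M lo hi) (hlo : 0 < lo) : MF (Zf M) (zf lo) (zf hi) where
  c := fun i j => c1_Zf hM hlo i j
  h := fun x => by
    obtain ⟨U, hU⟩ := exists_fr (hM.h x)
    exact (fr_Zf hU).herm
  s := fun x a ha => by
    obtain ⟨U, hU⟩ := exists_fr (hM.h x)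
    obtain ⟨i, rfl⟩ := Fr.spec (fr_Zf hU) ha
    have h1 := hM.s x (hU.mem_spec i)
    exact ⟨zf_le hlo h1.1, zf_le (lt_of_lt_of_le hlo h1.1) h1.2⟩

lemma c1_Ff (hM : MF M lo hi) (hlo : 0 < lo) {f f' : ℝ → ℝ}
    (hf : ∀ z, HasDerivAt f (f' z) z) (hf' : Continuous f') (i j : Fin n) : C1 (Ff f M i j) :=
  c1_cfc (mf_Zf hM hlo) (fun z _ => hf z) hf'.continuousOn i j

lemma dM_Ff (hM : MF M lo hi) (hlo : 0 < lo) {f f' : ℝ → ℝ}
    (hf : ∀ z, HasDerivAt f (f' z) z) (x : E n) (c : Fin n) :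
    dM (Ff f M) x c = DK f f' (Mx (Zf M) x) (dM (Zf M) x c) := by
  ext i j
  exact pd_cfc (mf_Zf hM hlo) (fun z _ => hf z) x i j c

lemma Ff_symm (hM : MF M lo hi) (hlo : 0 < lo) (f : ℝ → ℝ) (i j : Fin n) :
    Ff f M i j = Ff f M j i := by
  funext x; exact cfc_symm ((mf_Zf hM hlo).h x) _ i j

lemma dM_Uf' (hM : MF M lo hi) (hlo : 0 < lo) (x : E n) (c : Fin n) :
    dM (Uf M) x c = DK H0 aa (Mx (Zf M) x) (dM (Zf M) x c) := by
  rw [Uf_eq hM, dM_Ff hM hlo H0_has]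

/-- **trapezoid kernels are paid by the slack** -/
theorem sum_KT_le (h : MA G M Nn V) (hM : MF M lo hi) (hlo : 0 < lo) {f f' : ℝ → ℝ} {C : ℝ}
    (hC : 0 ≤ C) (hk : ∀ a b, (dd1 f f' a b - (f' a + f' b) / 2) ^ 2 ≤ C * rho a b) (x : E n) :
    (∑ c, hs (KT f f' (Mx (Zf M) x) (dM (Zf M) x c))) ≤ C * Slk M Nn x := by
  obtain ⟨U, hU⟩ := exists_fr (hM.h x)
  refine le_trans ?_ (mul_le_mul_of_nonneg_left (slk_le h hM hlo x hU) hC)
  rw [Finset.mul_sum]
  exact Finset.sum_le_sum fun c _ => hs_KT_le (fr_Zf hU) (fun a _ b _ => hk a b) _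

/-- **left kernels are paid by the slack** -/
theorem sum_KL_le (h : MA G M Nn V) (hM : MF M lo hi) (hlo : 0 < lo) {f f' : ℝ → ℝ} {C : ℝ}
    (hC : 0 ≤ C) (hk : ∀ a b, (dd1 f f' a b - f' a) ^ 2 ≤ C * rho a b) (x : E n) :
    (∑ c, hs (KL f f' (Mx (Zf M) x) (dM (Zf M) x c))) ≤ C * Slk M Nn x := by
  obtain ⟨U, hU⟩ := exists_fr (hM.h x)
  refine le_trans ?_ (mul_le_mul_of_nonneg_left (slk_le h hM hlo x hU) hC)
  rw [Finset.mul_sum]
  exact Finset.sum_le_sum fun c _ => hs_KL_le (fr_Zf hU) (fun a _ b _ => hk a b) _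

/-- the scalar logarithm identity -/
lemma two_log_mu (z : ℝ) :
    2 * Real.log (mu z) = 2 * kk z - z ^ 2 - Real.log (2 * Real.pi) := by
  have hQ : 0 < Q z := Crest.Agent.R253.Mills37.Q_pos z
  have hph : 0 < ph z := Crest.Agent.R253.Mills37.ph_pos z
  unfold mu kk
  rw [Real.log_div hph.ne' hQ.ne']
  have : Real.log (ph z) = -(1 / 2) * Real.log (2 * Real.pi) - z ^ 2 / 2 := by
    unfold ph
    have h2 : (0 : ℝ) < 2 * Real.pi := by positivity
    rw [Real.log_mul (by positivity) (Real.exp_ne_zero _), Real.log_inv, Real.log_exp,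
      Real.log_sqrt h2.le]
    ring
  rw [this]; ring

/-- **the logarithm identity of the spine** -/
theorem hlog (hM : MF M lo hi) (hlo : 0 < lo) (x : E n) :
    2 * Real.log (mt M x).det = 2 * Crest.Agent.R253.Meh74.ip (Uf M) M x - hs2 (Zf M) x -
      n * Real.log (2 * Real.pi) := by
  obtain ⟨U, hU⟩ := exists_fr (hM.h x)
  set e := (hM.h x).eigenvalues with he
  have hp : ∀ i, 0 < e i := fun i => lt_of_lt_of_le hlo (hM.s x (hU.mem_spec i)).1
  have h1 : (mt M x).det = ∏ i, e i := by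
    have : mt M x = Mx M x := rfl
    rw [this, hU.eq, Matrix.det_mul, Matrix.det_mul, Matrix.det_diagonal]
    have h2 : U.det * Uᵀ.det = 1 := by rw [← Matrix.det_mul, hU.o', Matrix.det_one]
    calc U.det * (∏ i, e i) * Uᵀ.det = (U.det * Uᵀ.det) * ∏ i, e i := by ring
      _ = _ := by rw [h2, one_mul]
  have h2 : Crest.Agent.R253.Meh74.ip (Uf M) M x = ∑ i, uf (e i) * e i := by
    have e1 : Crest.Agent.R253.Meh74.ip (Uf M) M x =
        Frame321.ip (_root_.cfc uf (Mx M x)) (Mx M x) := rfl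
    rw [e1, ← ip_conj hU.o', hU.cfc, hU.d]
    unfold Frame321.ip
    refine Finset.sum_congr rfl fun i _ => ?_
    rw [Finset.sum_eq_single i]
    · rw [Matrix.diagonal_apply_eq, Matrix.diagonal_apply_eq]
    · intro j _ hj; rw [Matrix.diagonal_apply_ne _ (Ne.symm hj), zero_mul]
    · intro hh; exact absurd (Finset.mem_univ _) hh
  have h3 : hs2 (Zf M) x = ∑ i, zf (e i) ^ 2 := by
    have e1 : hs2 (Zf M) x = hs (_root_.cfc zf (Mx M x)) := rfl
    rw [e1, ← hs_conj hU.o', hU.cfc]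
    unfold hs
    refine Finset.sum_congr rfl fun i _ => ?_
    rw [Finset.sum_eq_single i]
    · rw [Matrix.diagonal_apply_eq]
    · intro j _ hj; rw [Matrix.diagonal_apply_ne _ (Ne.symm hj)]; ring
    · intro hh; exact absurd (Finset.mem_univ _) hh
  rw [h1, h2, h3, Real.log_prod fun i _ => (hp i).ne', Finset.mul_sum, Finset.mul_sum]
  have h4 : ∀ i, 2 * Real.log (e i) =
      2 * (uf (e i) * e i) - zf (e i) ^ 2 - Real.log (2 * Real.pi) := by
    intro i
    have h5 := two_log_mu (zf (e i))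
    rw [mu_zf (hp i)] at h5
    rw [h5]
    have h6 := Crest.Agent.R253.ScalE688.kf_eq (hp i)
    unfold Crest.Agent.R253.ScalE688.kf at h6
    rw [h6]; ring
  simp only [h4, Finset.sum_sub_distrib, Finset.sum_const, Finset.card_univ, Fintype.card_fin,
    nsmul_eq_mul]

end field

end Crest.Agent.R253.Frame321
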