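import Crest.Agent.R253.Mills_37

/-!
R253 (S1), pair slack: for `y < x`
`(1/mu y - 1/mu x) * (kk x^2/mu x - kk y^2/mu y) - ((x-y)^2 - (H0 x - H0 y)^2)
   ≥ (1/12) * (ee x)^2 * (x-y)^4`.
-/

noncomputable section

open Real Set

namespace Crest.Agent.R253.Slack688

open Crest.Agent.R253.Mills37

lemma nonneg_right {f f' : ℝ → ℝ} {y : ℝ} (hf : ∀ t, HasDerivAt f (f' t) t) (h0 : 0 ≤ f y)
    (hd : ∀ t, y ≤ t → 0 ≤ f' t) {x : ℝ} (hx : y ≤ x) : 0 ≤ f x := by
  have hm : MonotoneOn f (Ici y) := by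
    apply monotoneOn_of_deriv_nonneg (convex_Ici y)
    · exact fun t _ => (hf t).continuousAt.continuousWithinAt
    · exact fun t _ => (hf t).differentiableAt.differentiableWithinAt
    · intro t ht
      rw [interior_Ici] at ht
      rw [(hf t).deriv]
      exact hd t ht.le
  exact h0.trans (hm self_mem_Ici hx hx)

lemma nonneg_left {f f' : ℝ → ℝ} {x : ℝ} (hf : ∀ t, HasDerivAt f (f' t) t) (h0 : 0 ≤ f x)
    (hd : ∀ t, t ≤ x → f' t ≤ 0) {y : ℝ} (hy : y ≤ x) : 0 ≤ f y := by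
  have hm : AntitoneOn f (Iic x) := by
    apply antitoneOn_of_deriv_nonpos (convex_Iic x)
    · exact fun t _ => (hf t).continuousAt.continuousWithinAt
    · exact fun t _ => (hf t).differentiableAt.differentiableWithinAt
    · intro t ht
      rw [interior_Iic] at ht
      rw [(hf t).deriv]
      exact hd t ht.le
  exact h0.trans (hm hy self_mem_Iic hy)

/-- `a = v' = 1 - s v`. -/
def aa (z : ℝ) : ℝ := 1 - ee z * H0 z

lemma aa_pos (z : ℝ) : 0 < aa z := H0_deriv_pos z

lemma H0_has (z : ℝ) : HasDerivAt H0 (aa z) z := H0_hasDerivAt z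

lemma aa_has (z : ℝ) : HasDerivAt aa (ww z * H0 z - ee z) z := H0_deriv_hasDerivAt z

lemma aa_strictMono : StrictMono aa := H0_deriv_strictMono

lemma mu_ne (z : ℝ) : mu z ≠ 0 := (mu_pos z).ne'

lemma ee_ne (z : ℝ) : ee z ≠ 0 := (ee_pos z).ne'

/-- `phi(e) = k^2/e` as a function of `z`. -/
def PP (z : ℝ) : ℝ := kk z ^ 2 / mu z

lemma PP_has (z : ℝ) : HasDerivAt PP (kk z * (1 + aa z)) z := by
  have h := ((kk_hasDerivAt z).pow 2).div (mu_hasDerivAt z) (mu_ne z)
  refine HasDerivAt.congr_deriv (f := PP) h ?_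
  have hm := mu_ne z
  simp only [aa, H0, Pi.pow_apply]
  field_simp
  ring

/-- `g = s/c`. -/
def gq (z : ℝ) : ℝ := ee z / mu z

lemma gq_pos (z : ℝ) : 0 < gq z := div_pos (ee_pos z) (mu_pos z)

lemma inv_has (z : ℝ) : HasDerivAt (fun z => 1 / mu z) (-gq z) z := by
  have hm := mu_ne z
  have h := (hasDerivAt_const z (1 : ℝ)).div (mu_hasDerivAt z) hm
  refine HasDerivAt.congr_deriv (f := fun z => 1 / mu z) h ?_
  simp only [gq]
  field_simp
  ring

lemma gq_kk (z : ℝ) : gq z * kk z = 1 - aa z := by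
  have hm := mu_ne z
  simp only [gq, aa, H0]
  field_simp
  ring

/-- `F = (1+a) c / s`. -/
def FQ (z : ℝ) : ℝ := (1 + aa z) * (mu z / ee z)

lemma gq_FQ (z : ℝ) : gq z * FQ z = 1 + aa z := by
  have hm := mu_ne z
  have he := ee_ne z
  simp only [gq, FQ]
  field_simp

lemma FQ_has (z : ℝ) : HasDerivAt FQ
    ((ww z * H0 z - ee z) * (mu z / ee z) + (1 + aa z) * (mu z * ww z / ee z ^ 2)) z := by
  have h := ((aa_has z).const_add 1).mul ((mu_hasDerivAt z).div (ee_hasDerivAt z) (ee_ne z))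
  refine HasDerivAt.congr_deriv (f := FQ) h ?_
  have he := ee_ne z
  have hw : ww z = 1 + ee z ^ 2 - mu z * ee z := by linarith [ww_add z]
  rw [hw]
  simp only [Pi.div_apply]
  ring

lemma ww_ge (z : ℝ) : ee z ^ 2 ≤ ww z := by
  have h1 := ww_add z
  have h2 := mu_ee_lt_one z
  linarith

lemma FQ_sub_kk {x y : ℝ} (hxy : y ≤ x) : kk x - kk y ≤ FQ x - FQ y := by
  have h : 0 ≤ FQ x - kk x - (FQ y - kk y) := by
    refine nonneg_right (f := fun t => FQ t - kk t - (FQ y - kk y)) (x := x) (y := y)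
      (f' := fun z => ((ww z * H0 z - ee z) * (mu z / ee z) +
      (1 + aa z) * (mu z * ww z / ee z ^ 2)) - mu z) ?_ (by simp) ?_ hxy
    · intro t
      exact ((FQ_has t).sub (kk_hasDerivAt t)).sub_const _
    · intro t _
      have h1 := H0_deriv2_pos t
      have h2 := mu_pos t
      have h3 := ee_pos t
      have h4 := aa_pos t
      have h5 : 0 ≤ (ww t * H0 t - ee t) * (mu t / ee t) := by positivity
      have h6 : mu t ≤ (1 + aa t) * (mu t * ww t / ee t ^ 2) := by
        have h7 : mu t ≤ mu t * ww t / ee t ^ 2 := by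
          rw [le_div_iff₀ (by positivity)]
          exact mul_le_mul_of_nonneg_left (ww_ge t) h2.le
        nlinarith
      show 0 ≤ ((ww t * H0 t - ee t) * (mu t / ee t) +
        (1 + aa t) * (mu t * ww t / ee t ^ 2)) - mu t
      linarith
  linarith

lemma ee_anti : Antitone ee := by
  apply antitone_of_hasDerivAt_nonpos (f' := fun z => mu z * ee z - 1) ee_hasDerivAt
  intro z
  have := mu_ee_lt_one z
  show mu z * ee z - 1 ≤ 0
  linarith

/-- `√c`. -/
def hm (z : ℝ) : ℝ := Real.exp (1 / 2 * Real.log (mu z))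

lemma hm_pos (z : ℝ) : 0 < hm z := Real.exp_pos _

lemma hm_sq (z : ℝ) : hm z ^ 2 = mu z := by
  rw [hm, sq, ← Real.exp_add]
  have : 1 / 2 * Real.log (mu z) + 1 / 2 * Real.log (mu z) = Real.log (mu z) := by ring
  rw [this, Real.exp_log (mu_pos z)]

lemma logmu_has (z : ℝ) : HasDerivAt (fun z => Real.log (mu z)) (ee z) z := by
  have h := (mu_hasDerivAt z).log (mu_ne z)
  have hm := mu_ne z
  refine h.congr_deriv ?_
  field_simp

lemma hm_has (z : ℝ) : HasDerivAt hm (1 / 2 * ee z * hm z) z := by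
  have h := ((logmu_has z).const_mul (1 / 2)).exp
  refine HasDerivAt.congr_deriv (f := hm) h ?_
  simp only [hm]; ring

lemma logmu_ge {x y : ℝ} (hxy : y ≤ x) :
    (x - y) * ee x ≤ Real.log (mu x) - Real.log (mu y) := by
  have h : 0 ≤ Real.log (mu x) - Real.log (mu y) - (x - y) * ee x := by
    refine nonneg_left (f := fun t => Real.log (mu x) - Real.log (mu t) - (x - t) * ee x)
      (x := x) (y := y) (f' := fun t => -(ee t) + ee x) ?_ (by simp) ?_ hxy
    · intro t
      have h1 := ((logmu_has t).const_sub (Real.log (mu x)))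
      have h2 := (((hasDerivAt_id t).const_sub x).mul_const (ee x))
      refine (h1.sub h2).congr_deriv ?_
      ring
    · intro t ht
      have := ee_anti ht
      show -(ee t) + ee x ≤ 0
      linarith
  linarith

lemma hm_ge {x y : ℝ} (hxy : y ≤ x) : hm y * (1 + 1 / 2 * ((x - y) * ee x)) ≤ hm x := by
  have h1 : hm x = hm y * Real.exp (1 / 2 * (Real.log (mu x) - Real.log (mu y))) := by
    simp only [hm]
    rw [← Real.exp_add]
    congr 1; ring
  rw [h1]
  apply mul_le_mul_of_nonneg_left _ (hm_pos y).le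
  have h2 := Real.add_one_le_exp (1 / 2 * (Real.log (mu x) - Real.log (mu y)))
  have h3 := logmu_ge hxy
  linarith

lemma kk_sub_ge {x y : ℝ} (hxy : y ≤ x) : (x - y) * (hm x * hm y) ≤ kk x - kk y := by
  have h : 0 ≤ kk x - kk y - (x - y) * (hm x * hm y) := by
    refine nonneg_right (f := fun t => kk t - kk y - (t - y) * (hm t * hm y)) (x := x) (y := y)
      (f' := fun t => mu t - (1 * (hm t * hm y) +
      (t - y) * (1 / 2 * ee t * hm t * hm y))) ?_ (by simp) ?_ hxy
    · intro t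
      have h1 := (kk_hasDerivAt t).sub_const (kk y)
      have h2 := ((hasDerivAt_id t).sub_const y).mul ((hm_has t).mul_const (hm y))
      exact h1.sub h2
    · intro t ht
      have h1 := hm_ge ht
      have h2 := hm_pos t
      have h3 := hm_sq t
      show 0 ≤ mu t - (1 * (hm t * hm y) + (t - y) * (1 / 2 * ee t * hm t * hm y))
      have h4 : mu t - (1 * (hm t * hm y) + (t - y) * (1 / 2 * ee t * hm t * hm y))
          = hm t * (hm t - hm y * (1 + 1 / 2 * ((t - y) * ee t))) := by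
        rw [← h3]; ring
      rw [h4]
      exact mul_nonneg h2.le (by linarith)
  linarith

/-- pointwise kernel bound. -/
lemma kernel_ge {x y : ℝ} (hxy : y ≤ x) :
    ee x ^ 2 * (x - y) ^ 2 ≤ gq x * gq y * ((FQ x - FQ y) * (kk x - kk y)) := by
  have hk := kk_sub_ge hxy
  have hF := FQ_sub_kk hxy
  have hx := hm_pos x
  have hy := hm_pos y
  have hd : 0 ≤ x - y := by linarith
  have h0 : 0 ≤ (x - y) * (hm x * hm y) := by positivity
  have hk0 : 0 ≤ kk x - kk y := h0.trans hk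
  have h1 : ((x - y) * (hm x * hm y)) ^ 2 ≤ (FQ x - FQ y) * (kk x - kk y) := by
    calc ((x - y) * (hm x * hm y)) ^ 2 ≤ (kk x - kk y) ^ 2 := by gcongr
      _ = (kk x - kk y) * (kk x - kk y) := sq _
      _ ≤ (FQ x - FQ y) * (kk x - kk y) := by gcongr
  have hg : 0 < gq x * gq y := mul_pos (gq_pos x) (gq_pos y)
  have h2 := mul_le_mul_of_nonneg_left h1 hg.le
  refine le_trans ?_ h2
  have h3 : gq x * gq y * ((x - y) * (hm x * hm y)) ^ 2 = ee x * ee y * (x - y) ^ 2 := by
    have e1 : ((x - y) * (hm x * hm y)) ^ 2 = (x - y) ^ 2 * (mu x * mu y) := by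
      rw [← hm_sq x, ← hm_sq y]; ring
    rw [e1]
    have hm1 := mu_ne x
    have hm2 := mu_ne y
    simp only [gq]
    field_simp
  rw [h3]
  have h4 : ee x ≤ ee y := ee_anti hxy
  have h5 := ee_pos x
  have h6 : ee x ^ 2 ≤ ee x * ee y := by nlinarith
  exact mul_le_mul_of_nonneg_right h6 (sq_nonneg _)

/-- `J'`. -/
def KK1 (x y : ℝ) : ℝ :=
  gq x * (PP x - PP y) + (1 / mu y - 1 / mu x) * (kk x * (1 + aa x))
    - (2 * (x - y) - 2 * ((H0 x - H0 y) * aa x))

lemma KK1_has_y (x y : ℝ) : HasDerivAt (fun y => KK1 x y)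
    (-(gq x * gq y * ((FQ x - FQ y) * (kk x - kk y)))) y := by
  have h1 := ((PP_has y).const_sub (PP x)).const_mul (gq x)
  have h2 := ((inv_has y).sub_const (1 / mu x)).mul_const (kk x * (1 + aa x))
  have h3 := ((hasDerivAt_id y).const_sub x).const_mul 2
  have h4 := (((H0_has y).const_sub (H0 x)).mul_const (aa x)).const_mul 2
  have h := (h1.add h2).sub (h3.sub h4)
  refine HasDerivAt.congr_deriv (f := fun y => KK1 x y) h ?_
  have e1 := gq_kk x
  have e2 := gq_kk y
  have e3 := gq_FQ x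
  have e4 := gq_FQ y
  have : gq x * gq y * ((FQ x - FQ y) * (kk x - kk y))
      = gq y * kk x * (gq x * FQ x) - (gq x * FQ x) * (gq y * kk y)
        - (gq y * FQ y) * (gq x * kk x) + gq x * kk y * (gq y * FQ y) := by ring
  rw [this, e1, e2, e3, e4]
  ring

lemma KK1_ge {x y : ℝ} (hxy : y ≤ x) : 1 / 3 * ee x ^ 2 * (x - y) ^ 3 ≤ KK1 x y := by
  have h : 0 ≤ KK1 x y - 1 / 3 * ee x ^ 2 * (x - y) ^ 3 := by
    refine nonneg_left (f := fun t => KK1 x t - 1 / 3 * ee x ^ 2 * (x - t) ^ 3)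
      (x := x) (y := y) (f' := fun t =>
      -(gq x * gq t * ((FQ x - FQ t) * (kk x - kk t))) + ee x ^ 2 * (x - t) ^ 2) ?_ ?_ ?_ hxy
    · intro t
      have h1 := KK1_has_y x t
      have h2 := (((hasDerivAt_id t).const_sub x).pow 3).const_mul (1 / 3 * ee x ^ 2)
      refine HasDerivAt.congr_deriv (f := fun t => KK1 x t - 1 / 3 * ee x ^ 2 * (x - t) ^ 3)
        (h1.sub h2) ?_
      simp only [id]; norm_num; ring
    · simp [KK1]
    · intro t ht
      have := kernel_ge ht
      show -(gq x * gq t * ((FQ x - FQ t) * (kk x - kk t))) + ee x ^ 2 * (x - t) ^ 2 ≤ 0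
      linarith
  linarith

/-- the pair slack numerator. -/
def JJ (y x : ℝ) : ℝ :=
  (1 / mu y - 1 / mu x) * (PP x - PP y) - ((x - y) ^ 2 - (H0 x - H0 y) ^ 2)

lemma JJ_has (y x : ℝ) : HasDerivAt (fun x => JJ y x) (KK1 x y) x := by
  have h1 := ((inv_has x).const_sub (1 / mu y)).mul ((PP_has x).sub_const (PP y))
  have h2 := ((hasDerivAt_id x).sub_const y).pow 2
  have h3 := ((H0_has x).sub_const (H0 y)).pow 2
  have h := h1.sub (h2.sub h3)
  refine HasDerivAt.congr_deriv (f := fun x => JJ y x) h ?_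
  simp only [KK1, id]
  norm_num
  ring

theorem pair_slack' {x y : ℝ} (hxy : y ≤ x) : 1 / 12 * ee x ^ 2 * (x - y) ^ 4 ≤ JJ y x := by
  have h : 0 ≤ JJ y x - 1 / 12 * (ee x ^ 2 * (x - y) ^ 4) := by
    refine nonneg_right (f := fun t => JJ y t - 1 / 12 * (ee t ^ 2 * (t - y) ^ 4))
      (x := x) (y := y) (f' := fun t => KK1 t y - 1 / 12 *
      ((2 * ee t * (mu t * ee t - 1)) * (t - y) ^ 4 + ee t ^ 2 * (4 * (t - y) ^ 3))) ?_ ?_ ?_ hxy
    · intro t
      have h1 := JJ_has y t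
      have h2 := (((ee_hasDerivAt t).pow 2).mul
        (((hasDerivAt_id t).sub_const y).pow 4)).const_mul (1 / 12)
      refine HasDerivAt.congr_deriv (f := fun t => JJ y t - 1 / 12 * (ee t ^ 2 * (t - y) ^ 4))
        (h1.sub h2) ?_
      simp only [id, Pi.pow_apply]; norm_num
    · simp [JJ]
    · intro t ht
      have h1 := KK1_ge ht
      have h2 := mu_ee_lt_one t
      have h3 := ee_pos t
      have h4 : 0 ≤ ee t * (1 - mu t * ee t) * (t - y) ^ 4 := by
        have : 0 ≤ (t - y) ^ 4 := by positivity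
        have : 0 ≤ 1 - mu t * ee t := by linarith
        positivity
      show 0 ≤ KK1 t y - 1 / 12 *
        ((2 * ee t * (mu t * ee t - 1)) * (t - y) ^ 4 + ee t ^ 2 * (4 * (t - y) ^ 3))
      nlinarith
  linarith

/-- (S1), pair form: `phi[e_i,e_j]/(e_i e_j) - (z[]^2 - v[]^2)` times `(e_i-e_j)^2`. -/
theorem pair_slack {x y : ℝ} (hxy : y ≤ x) :
    1 / 12 * ee x ^ 2 * (x - y) ^ 4 ≤
      (1 / mu y - 1 / mu x) * (kk x ^ 2 / mu x - kk y ^ 2 / mu y)
        - ((x - y) ^ 2 - (H0 x - H0 y) ^ 2) := pair_slack' hxy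

end Crest.Agent.R253.Slack688
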