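import Crest.Agent.R253.LamB_301
import Crest.Agent.R253.HFn_741
import Crest.Agent.R253.FrameT_321
import Crest.Agent.R253.DualPB_973

/-!
# R253: `Λ(B)` in the letters of the spine (helper301)

* `wip_tr`: `wip P A B x = tr P B Aᵀ`.
* `lam_wip`: the term of `spineB` is `E tr B (2k(ζ) - U²) - Σ E tr B U_k²`.
* `lamI`: the exact centred identity for it at `ζ = Zf M` (letters `Tm`, `ef`, `dk` of `DualP_973`).
* `split_dk`, `split_hs`: `E Σ|C ζ_k|² = Σ|C T_k|² + E Σ|C p_k|²`, `E|C ζ|² = Σ|C T_k|² + E|C η|²`.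
-/

set_option autoImplicit false

open MeasureTheory ProbabilityTheory Set Filter Topology Matrix
open scoped ContDiff

noncomputable section

namespace Crest.Agent.R253.LamI301

open Crest.Agent.R238.Gap Crest.Agent.R253.SpecCalc999 Crest.Agent.R253.Meh74
  Crest.Agent.R253.SpecField321 Crest.Agent.R253.S3 Crest.Agent.R253.LamB301
open Crest.Agent.R253.DualP973 (Tm ef Lx MTm Mx_eq dk_eq c1_ef)
open Crest.Agent.R253.Frame321 (Zf Uf Ff Uf_eq M_eq mf_Zf Zf_symm)
open Crest.Agent.R253.Mills37 (mu H0 kk)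
open Crest.Agent.R253.Slack688 (aa H0_has)
open Crest.Agent.R253.ScalE688 (zf)
open Crest.Agent.R253.HFn741 (chi chi' hh)

variable {n : ℕ}

lemma wip_tr (P : Mat n) (A B : Fld n) (x : E n) :
    wip P A B x = (P * (Mx B x * (Mx A x)ᵀ)).trace := by
  unfold wip Matrix.trace
  refine Finset.sum_congr rfl fun p _ => ?_
  rw [Matrix.diag_apply, Matrix.mul_apply]
  refine Finset.sum_congr rfl fun q _ => ?_
  rw [Matrix.mul_apply]
  congr 1
  refine Finset.sum_congr rfl fun j _ => ?_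
  rw [Matrix.transpose_apply]
  exact mul_comm _ _

section field

variable {ζ : Fld n} {lo hi : ℝ}

lemma Mx_ef (h0 : ∀ i j, EE (ζ i j) = 0) (x : E n) : Mx (ef ζ) x = eta0 ζ (Tm ζ) x := by
  have h := Mx_eq h0 x
  unfold eta0
  rw [h]
  unfold Lx
  abel

lemma Mx_dk_ef (hζ : MF ζ lo hi) (k : Fin n) (x : E n) : Mx (dk k (ef ζ)) x = pk ζ (Tm ζ) k x := by
  have h := dk_eq hζ k x
  unfold pk
  have e : S3.dZ ζ k x = Mx (dk k ζ) x := rfl
  rw [e, h]
  abel

lemma Tm_t (hζ : MF ζ lo hi) (k : Fin n) : (Tm ζ k)ᵀ = Tm ζ k := by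
  have h : ∀ a b, ζ a b = ζ b a := fun a b => by
    funext y
    have := congrFun (congrFun (Mx_t hζ y) b) a
    simpa [Mx, Matrix.transpose_apply] using this
  ext a b
  change EE (pd k (ζ b a)) = EE (pd k (ζ a b))
  rw [h]

lemma EM_ζ (h0 : ∀ i j, EE (ζ i j) = 0) : EM (Mx ζ) = 0 := by
  ext i j
  exact h0 i j

lemma EM_p (hζ : MF ζ lo hi) (k : Fin n) : EM (fun x => Mx (dk k (ef ζ)) x) = 0 := by
  have h := EM_pk hζ (T := Tm ζ) (fun k => rfl) k
  have e : (fun x => Mx (dk k (ef ζ)) x) = pk ζ (Tm ζ) k := funext fun x => Mx_dk_ef hζ k x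
  rw [e]; exact h

lemma EM_xη (hζ : MF ζ lo hi) (h0 : ∀ i j, EE (ζ i j) = 0) (k : Fin n) :
    EM (fun x => x k • Mx (ef ζ) x) = 0 := by
  have h := EM_x_eta hζ (Tm ζ) (fun k => rfl) k
  have e : (fun x : E n => x k • Mx (ef ζ) x) = fun x => x k • eta0 ζ (Tm ζ) x :=
    funext fun x => by rw [Mx_ef h0]
  rw [e]; exact h

lemma cgm_p (hζ : MF ζ lo hi) (k : Fin n) : CGm (fun x => Mx (dk k (ef ζ)) x) := fun i j =>
  (c1_ef hζ i j).cgp k

lemma cgm_η (hζ : MF ζ lo hi) : CGm (fun x => Mx (ef ζ) x) := fun i j => (c1_ef hζ i j).cg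

lemma hs_add_eq (X Y : Mat n) : hs (X + Y) = hs X + hs Y + 2 * (Xᵀ * Y).trace := by
  have h : (Xᵀ * Y).trace = ∑ i, ∑ j, X i j * Y i j := by
    rw [Matrix.trace, Finset.sum_comm]
    refine Finset.sum_congr rfl fun j _ => ?_
    rw [Matrix.diag_apply, Matrix.mul_apply]
    exact Finset.sum_congr rfl fun i _ => by rw [Matrix.transpose_apply]
  rw [h]
  unfold hs
  rw [Finset.mul_sum, ← Finset.sum_add_distrib, ← Finset.sum_add_distrib]
  refine Finset.sum_congr rfl fun i _ => ?_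
  rw [Finset.mul_sum, ← Finset.sum_add_distrib, ← Finset.sum_add_distrib]
  refine Finset.sum_congr rfl fun j _ => ?_
  rw [Matrix.add_apply]
  ring

/-- `E|C ζ_k|² = |C T_k|² + E|C p_k|²` -/
theorem split_dk1 (hζ : MF ζ lo hi) (C : Mat n) (k : Fin n) :
    EE (fun x => hs (C * Mx (dk k ζ) x)) = hs (C * Tm ζ k) +
      EE (fun x => hs (C * Mx (dk k (ef ζ)) x)) := by
  have cp := cgm_p hζ k
  have cCp : CGm (fun x => C * Mx (dk k (ef ζ)) x) := (cgm_const C).mul cp
  have e : ∀ x, hs (C * Mx (dk k ζ) x) = hs (C * Tm ζ k) + hs (C * Mx (dk k (ef ζ)) x) +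
      2 * (((C * Tm ζ k)ᵀ * C) * Mx (dk k (ef ζ)) x).trace := fun x => by
    rw [dk_eq hζ k x, Matrix.mul_add, hs_add_eq, Matrix.mul_assoc (C * Tm ζ k)ᵀ]
  have c1 : CG (fun x => (((C * Tm ζ k)ᵀ * C) * Mx (dk k (ef ζ)) x).trace) :=
    ((cgm_const _).mul cp).trace
  have h2 : EE (fun x => (((C * Tm ζ k)ᵀ * C) * Mx (dk k (ef ζ)) x).trace) = 0 := by
    have := TE_AF cp ((C * Tm ζ k)ᵀ * C)
    rw [EM_p hζ k, Matrix.mul_zero, Matrix.trace_zero] at this
    exact this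
  rw [EE_congr e, EE_add ((cg_const _).add (cg_hs cCp)) (c1.smul 2),
    EE_add (cg_const _) (cg_hs cCp), EE_const, EE_smul, h2]
  ring

theorem split_dk (hζ : MF ζ lo hi) (C : Mat n) :
    EE (fun x => ∑ k, hs (C * Mx (dk k ζ) x)) = (∑ k, hs (C * Tm ζ k)) +
      EE (fun x => ∑ k, hs (C * Mx (dk k (ef ζ)) x)) := by
  have c1 : ∀ k, CG (fun x => hs (C * Mx (dk k ζ) x)) := fun k =>
    cg_hs ((cgm_const C).mul (fun i j => (hζ.c i j).cgp k))
  have c2 : ∀ k, CG (fun x => hs (C * Mx (dk k (ef ζ)) x)) := fun k =>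
    cg_hs ((cgm_const C).mul (cgm_p hζ k))
  rw [EE_sum fun k _ => c1 k, EE_sum fun k _ => c2 k, ← Finset.sum_add_distrib]
  exact Finset.sum_congr rfl fun k _ => split_dk1 hζ C k

/-- `E|C ζ|² = Σ|C T_k|² + E|C η|²` -/
theorem split_hs (hζ : MF ζ lo hi) (h0 : ∀ i j, EE (ζ i j) = 0) (C : Mat n) :
    EE (fun x => hs (C * Mx ζ x)) = (∑ k, hs (C * Tm ζ k)) +
      EE (fun x => hs (C * Mx (ef ζ) x)) := by
  have cη := cgm_η hζ
  have cCη : CGm (fun x => C * Mx (ef ζ) x) := (cgm_const C).mul cη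
  have cL : CGm (fun x : E n => ∑ k, x k • (C * Tm ζ k)) :=
    CGm.sum fun k _ => CGm.smul (cg_coord k) (cgm_const (C * Tm ζ k))
  have ck : ∀ k, CG (fun x : E n => (((C * Tm ζ k)ᵀ * C) * (x k • Mx (ef ζ) x)).trace) := fun k =>
    ((cgm_const _).mul (CGm.smul (cg_coord k) cη)).trace
  have e : ∀ x, hs (C * Mx ζ x) = hs (∑ k, x k • (C * Tm ζ k)) + hs (C * Mx (ef ζ) x) +
      2 * ∑ k, (((C * Tm ζ k)ᵀ * C) * (x k • Mx (ef ζ) x)).trace := fun x => by
    have e1 : C * Lx ζ x = ∑ k, x k • (C * Tm ζ k) := by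
      unfold Lx
      rw [Matrix.mul_sum]
      exact Finset.sum_congr rfl fun k _ => Matrix.mul_smul _ _ _
    rw [Mx_eq h0 x, Matrix.mul_add, hs_add_eq, e1]
    congr 2
    rw [Matrix.transpose_sum, Matrix.sum_mul, Matrix.trace_sum]
    refine Finset.sum_congr rfl fun k _ => ?_
    rw [Matrix.transpose_smul, Matrix.smul_mul, Matrix.mul_smul, Matrix.mul_assoc]
  have h2 : ∀ k, EE (fun x : E n => (((C * Tm ζ k)ᵀ * C) * (x k • Mx (ef ζ) x)).trace) = 0 := by
    intro k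
    have := TE_AF (CGm.smul (cg_coord k) cη) ((C * Tm ζ k)ᵀ * C)
    rw [EM_xη hζ h0 k, Matrix.mul_zero, Matrix.trace_zero] at this
    exact this
  rw [EE_congr e, EE_add ((cg_hs cL).add (cg_hs cCη)) ((CG.sum fun k _ => ck k).smul 2),
    EE_add (cg_hs cL) (cg_hs cCη), EE_smul, EE_sum fun k _ => ck k,
    Finset.sum_congr rfl fun k _ => h2 k, DualP973.EE_hs_lin, Finset.sum_const_zero]
  ring

/-- the first chaos cancels -/
theorem split_N (hζ : MF ζ lo hi) (h0 : ∀ i j, EE (ζ i j) = 0) (C : Mat n) :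
    EE (fun x => ∑ k, hs (C * Mx (dk k ζ) x)) - EE (fun x => hs (C * Mx ζ x)) =
      EE (fun x => ∑ k, hs (C * Mx (dk k (ef ζ)) x)) - EE (fun x => hs (C * Mx (ef ζ) x)) := by
  rw [split_dk hζ C, split_hs hζ h0 C]; ring

/-- unweighted version in the letters of the spine -/
theorem split_spine (hζ : MF ζ lo hi) (h0 : ∀ i j, EE (ζ i j) = 0) :
    EE (dh2 ζ) - EE (hs2 ζ) =
      EE (fun x => ∑ k, hs (Mx (dk k (ef ζ)) x)) - EE (fun x => hs (Mx (ef ζ) x)) := by
  have h := split_N hζ h0 1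
  simp only [Matrix.one_mul] at h
  rw [← h]
  congr 1
  refine EE_congr fun x => ?_
  rw [Frame321.dh2_eq]
  rfl

end field

/-! ### the term of the spine -/

section spine

variable {M : Fld n} {lo hi : ℝ}

lemma Mx_M (hM : MF M lo hi) (hlo : 0 < lo) (x : E n) : Mx M x = sf mu (Zf M) x := by
  have h := M_eq hM hlo
  have : Mx M x = Mx (Ff mu M) x := congrArg (fun A : Fld n => Mx A x) h
  rw [this]
  rfl

lemma Mx_U (hM : MF M lo hi) (x : E n) : Mx (Uf M) x = sf H0 (Zf M) x := by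
  rw [Uf_eq hM]
  rfl

lemma Mx_dkU (hM : MF M lo hi) (hlo : 0 < lo) (k : Fin n) (x : E n) :
    Mx (dk k (Uf M)) x = DK H0 aa (Mx (Zf M) x) (Mx (dk k (Zf M)) x) :=
  Frame321.dM_Uf' hM hlo x k

lemma aa_cont : Continuous aa := continuous_iff_continuousAt.2 fun z =>
  (HFn741.aa_has' z).continuousAt

/-- **the `Λ` term of `spineB`** -/
theorem lam_wip (hM : MF M lo hi) (hlo : 0 < lo) (B : Mat n) :
    EE (fun x => 2 * wip B (Uf M) M x - wip B (Uf M) (Uf M) x -
        ∑ k, wip B (dk k (Uf M)) (dk k (Uf M)) x) =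
      TE (fun x => B * sf (fun z => 2 * kk z - H0 z ^ 2) (Zf M) x) -
        ∑ k, TE (fun x => B * (DK H0 aa (Mx (Zf M) x) (S3.dZ (Zf M) k x) *
          DK H0 aa (Mx (Zf M) x) (S3.dZ (Zf M) k x))) := by
  have hZ := mf_Zf hM hlo
  have hH : ∀ z ∈ Icc (zf lo) (zf hi), HasDerivAt H0 (aa z) z := fun z _ => H0_has z
  have hac : ContinuousOn aa (Icc (zf lo) (zf hi)) := aa_cont.continuousOn
  have cD := fun k => cgm_DK hZ hH hac k
  have cH : Continuous H0 := continuous_iff_continuousAt.2 fun z => (H0_has z).continuousAt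
  have ck : Continuous (fun z => 2 * kk z - H0 z ^ 2) := by
    have e : (fun z => 2 * kk z - H0 z ^ 2) = fun z => 2 * (1 + z * H0 z - aa z) - H0 z ^ 2 := by
      funext z
      have := HFn741.zv_sub z
      linarith
    rw [e]
    exact (continuous_const.mul ((continuous_const.add (continuous_id.mul cH)).sub aa_cont)).sub
      (cH.pow 2)
  have c1 : CGm (fun x => B * sf (fun z => 2 * kk z - H0 z ^ 2) (Zf M) x) :=
    (cgm_const B).mul (cgm_cfc hZ ck.continuousOn)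
  have c2 : ∀ k, CGm (fun x => B * (DK H0 aa (Mx (Zf M) x) (S3.dZ (Zf M) k x) *
      DK H0 aa (Mx (Zf M) x) (S3.dZ (Zf M) k x))) := fun k =>
    (cgm_const B).mul ((cD k).mul (cD k))
  unfold TE
  rw [← EE_sum fun k _ => (c2 k).trace, ← EE_sub c1.trace (CG.sum fun k _ => (c2 k).trace)]
  refine EE_congr fun x => ?_
  have e1 : 2 * wip B (Uf M) M x - wip B (Uf M) (Uf M) x =
      (B * sf (fun z => 2 * kk z - H0 z ^ 2) (Zf M) x).trace := by
    rw [wip_tr, wip_tr, Mx_M hM hlo, Mx_U hM, sf_t, sf_mul hZ, sf_mul hZ,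
      ← smul_eq_mul (2 : ℝ), ← Matrix.trace_smul, ← Matrix.mul_smul, ← Matrix.trace_sub,
      ← Matrix.mul_sub]
    congr 2
    unfold sf
    obtain ⟨U, hU⟩ := exists_fr (hZ.h x)
    apply conj_inj hU.o'
    rw [hU.cfc, Matrix.mul_sub, Matrix.sub_mul, Matrix.mul_smul, Matrix.smul_mul, hU.cfc, hU.cfc]
    ext i j
    rw [Matrix.sub_apply, Matrix.smul_apply]
    by_cases h : i = j
    · subst h
      simp only [Matrix.diagonal_apply_eq, smul_eq_mul]
      have := HFn741.mu_H0 ((hZ.h x).eigenvalues i)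
      rw [this, sq]
    · simp only [Matrix.diagonal_apply_ne _ h, smul_zero, sub_zero]
  have e2 : ∀ k, wip B (dk k (Uf M)) (dk k (Uf M)) x =
      (B * (DK H0 aa (Mx (Zf M) x) (S3.dZ (Zf M) k x) *
        DK H0 aa (Mx (Zf M) x) (S3.dZ (Zf M) k x))).trace := fun k => by
    rw [wip_tr, Mx_dkU hM hlo]
    have e3 : Mx (dk k (Zf M)) x = S3.dZ (Zf M) k x := rfl
    rw [e3, DK_t _ _ _ _ (dZ_t hZ k x)]
  rw [e1, Finset.sum_congr rfl fun k _ => e2 k]

lemma chi'_cont : Continuous chi' := by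
  have h : chi' = fun z => z * chi z + 1 - (2 * kk z - H0 z ^ 2 - aa z ^ 2) := by
    funext z
    have := HFn741.chi_id z
    linarith
  have cH : Continuous H0 := continuous_iff_continuousAt.2 fun z => (H0_has z).continuousAt
  have cc : Continuous chi := continuous_iff_continuousAt.2 fun z =>
    (HFn741.chi_has z).continuousAt
  have ck : Continuous kk := by
    have e : kk = fun z => 1 + z * H0 z - aa z := by
      funext z
      have := HFn741.zv_sub z
      linarith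
    rw [e]
    exact (continuous_const.add (continuous_id.mul cH)).sub aa_cont
  rw [h]
  exact ((continuous_id.mul cc).add continuous_const).sub
    (((continuous_const.mul ck).sub (cH.pow 2)).sub (aa_cont.pow 2))

/-- **the exact centred `Λ(B)`** in the letters of the spine and of `DualP_973` -/
theorem lamI (hM : MF M lo hi) (hlo : 0 < lo) (h0 : ∀ i j, EE (Zf M i j) = 0)
    {B : Mat n} (hB : Bᵀ = B) (c1 c2 c3 c4 : ℝ) :
    EE (fun x => 2 * wip B (Uf M) M x - wip B (Uf M) (Uf M) x -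
        ∑ k, wip B (dk k (Uf M)) (dk k (Uf M)) x) =
      B.trace - TE (fun x => B * ((1 - MTm (Zf M)) * sf hh (Zf M) x)) +
      ∑ k, (TE (fun x => B * (Tm (Zf M) k *
              (Mx (dk k (ef (Zf M))) x * sf (fun z => hh z - c1) (Zf M) x -
                sf (fun z => aa z ^ 2 - c2) (Zf M) x * Mx (dk k (ef (Zf M))) x))) +
          TE (fun x => B * (Tm (Zf M) k *
            Stein378.KR chi chi' (Mx (Zf M) x) (Mx (dk k (Zf M)) x))) -
          TE (fun x => B * (Tm (Zf M) k * (sf (fun z => aa z ^ 2) (Zf M) x * Mx (dk k (Zf M)) x -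
            Mx (dk k (Zf M)) x * sf (fun z => aa z ^ 2) (Zf M) x))) -
          2 * TE (fun x => B * (Mx (dk k (Zf M)) x * sf aa (Zf M) x *
            (Stein378.KR H0 aa (Mx (Zf M) x) (Mx (dk k (Zf M)) x))ᵀ)) -
          TE (fun x => B * (Stein378.KR H0 aa (Mx (Zf M) x) (Mx (dk k (Zf M)) x) *
            (Stein378.KR H0 aa (Mx (Zf M) x) (Mx (dk k (Zf M)) x))ᵀ)) -
          TE (fun x => B * (Mx (dk k (ef (Zf M))) x * sf (fun z => aa z ^ 2) (Zf M) x *
            Mx (dk k (ef (Zf M))) x))) +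
      (TE (fun x => B * (Mx (ef (Zf M)) x * sf (fun z => chi z - c3 - c4 * z) (Zf M) x)) +
        c4 * TE (fun x => B * (Mx (ef (Zf M)) x * Mx (ef (Zf M)) x))) := by
  have hZ := mf_Zf hM hlo
  have hac : ContinuousOn aa (Icc (zf lo) (zf hi)) := aa_cont.continuousOn
  have hF : ∀ z ∈ Icc (zf lo) (zf hi), (fun z => 2 * kk z - H0 z ^ 2) z =
      1 + z * chi z - chi' z + aa z ^ 2 := fun z _ => by
    have := HFn741.chi_id z
    change 2 * kk z - H0 z ^ 2 = _
    linarith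
  have h := lam_eq hZ (v := H0) (v1 := aa) (χ := chi) (χ1 := chi')
    (F := fun z => 2 * kk z - H0 z ^ 2) (fun z _ => H0_has z) hac
    (fun z _ => HFn741.chi_has z) chi'_cont.continuousOn hF hB (T := Tm (Zf M))
    (fun k => Tm_t hZ k) (fun k => rfl) (EM_ζ h0) c1 c2 c3 c4
  have hh1 : (fun z => chi' z - aa z ^ 2) = hh := by
    funext z; unfold HFn741.chi'; ring
  have hh2 : (fun z => chi' z - aa z ^ 2 - c1) = fun z => hh z - c1 := by
    funext z; unfold HFn741.chi'; ring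
  rw [hh1, hh2] at h
  rw [lam_wip hM hlo B, h]
  simp only [Mx_dk_ef hZ, Mx_ef h0]
  rfl

end spine

end Crest.Agent.R253.LamI301
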