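import Crest.Agent.R253.TrC_80
import Crest.Agent.R253.LamI_301

/-!
# Row 253: `TrC_80` in the letters of the spine (helper80)

`S = M_T = MTm ζ`, `T_k = Tm ζ k`, `P_k = Mx (dk k (ef ζ)) x`, `η = Mx (ef ζ) x`.

* `ts` : `Ts (Tm ζ) (MTm ζ)`.
* `PW w ζ = E Σ tr w(S) P_k P_kᵀ`, `HW w ζ = E tr w(S) η ηᵀ`: additive, monotone in `w`,
  `2 HW w ≤ PW w` for `w ≥ 0`.
* `SW b g ζ = E tr b(S) g(ζ)`: additive, monotone.
-/

set_option autoImplicit false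

open MeasureTheory ProbabilityTheory Set Filter Topology Matrix
open scoped ContDiff

noncomputable section

namespace Crest.Agent.R253.TrC80

open Crest.Agent.R238.Gap Crest.Agent.R253.SpecCalc999 Crest.Agent.R253.Meh74
  Crest.Agent.R253.SpecField321 Crest.Agent.R253.S3 Crest.Agent.R253.LamB301
  Crest.Agent.R253.LamI301
open Crest.Agent.R253.DualP973 (Tm ef Lx MTm Mx_eq dk_eq c1_ef)

variable {n : ℕ} {ζ : Fld n} {lo hi : ℝ}

theorem ts (hζ : MF ζ lo hi) : Ts (Tm ζ) (MTm ζ) := ⟨fun k => Tm_t hζ k, rfl⟩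

/-! ### the weighted second Poincaré inequality -/

lemma int_pd_ef (hζ : MF ζ lo hi) (i j k : Fin n) : ∫ x, pd k (ef ζ i j) x ∂(gam n) = 0 :=
  integral_pd_eta (hζ.c i j) k

lemma int_ef (hζ : MF ζ lo hi) (i j : Fin n) : ∫ x, ef ζ i j x ∂(gam n) = 0 :=
  integral_eta (hζ.c i j)

lemma hs_mul_Mx (C : Mat n) (A : Fld n) (x : E n) :
    hs (C * Mx A x) = ∑ i, ∑ j, LM (fun i j => C i j) A i j x ^ 2 := by
  unfold hs LM Mx
  simp only [Matrix.mul_apply, Matrix.of_apply]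

theorem two_hs_le (hζ : MF ζ lo hi) (C : Mat n) :
    2 * EE (fun x => hs (C * Mx (ef ζ) x)) ≤
      EE (fun x => ∑ k, hs (C * Mx (dk k (ef ζ)) x)) := by
  have c1e : ∀ i j, C1 (ef ζ i j) := fun i j => c1_ef hζ i j
  have cL : ∀ i j, C1 (LM (fun i j => C i j) (ef ζ) i j) := fun i j => c1_LM c1e i j
  have h1 : ∀ i j, 2 * EE (fun x => LM (fun i j => C i j) (ef ζ) i j x ^ 2) ≤
      ∑ k, EE (fun x => pd k (LM (fun i j => C i j) (ef ζ) i j) x ^ 2) := by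
    intro i j
    refine poincare2 (cL i j) ?_ fun k => ?_
    · have : (∫ x, LM (fun i j => C i j) (ef ζ) i j x ∂(gam n)) = ∑ p, C i p * ∫ x, ef ζ p j x ∂(gam n) := by
        unfold LM
        rw [integral_finsetSum _ fun p _ => ((c1e p j).cg.int).const_mul (C i p)]
        exact Finset.sum_congr rfl fun p _ => integral_const_mul _ _
      rw [this]
      exact Finset.sum_eq_zero fun p _ => by rw [int_ef hζ, mul_zero]
    · have e : ∀ x, pd k (LM (fun i j => C i j) (ef ζ) i j) x = ∑ p, C i p * pd k (ef ζ p j) x := fun x => by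
        rw [pd_LM c1e]; rfl
      simp_rw [e]
      rw [integral_finsetSum _ fun p _ => (((c1e p j).cgp k).int).const_mul (C i p)]
      exact Finset.sum_eq_zero fun p _ => by rw [integral_const_mul, int_pd_ef hζ, mul_zero]
  have e1 : EE (fun x => hs (C * Mx (ef ζ) x)) = ∑ i, ∑ j, EE (fun x => LM (fun i j => C i j) (ef ζ) i j x ^ 2) := by
    rw [EE_congr fun x => hs_mul_Mx C (ef ζ) x]
    exact EE_sum2 (f := fun i j x => LM (fun i j => C i j) (ef ζ) i j x ^ 2) fun i j => (cL i j).cg.sq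
  have e2 : EE (fun x => ∑ k, hs (C * Mx (dk k (ef ζ)) x)) =
      ∑ i, ∑ j, ∑ k, EE (fun x => pd k (LM (fun i j => C i j) (ef ζ) i j) x ^ 2) := by
    have a1 : ∀ x, ∑ k, hs (C * Mx (dk k (ef ζ)) x) =
        ∑ i, ∑ j, ∑ k, pd k (LM (fun i j => C i j) (ef ζ) i j) x ^ 2 := fun x => by
      have : ∀ k, hs (C * Mx (dk k (ef ζ)) x) = ∑ i, ∑ j, pd k (LM (fun i j => C i j) (ef ζ) i j) x ^ 2 := fun k => by
        rw [hs_mul_Mx]
        refine Finset.sum_congr rfl fun i _ => Finset.sum_congr rfl fun j _ => ?_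
        rw [pd_LM (C := fun i j => C i j) c1e]
      rw [Finset.sum_congr rfl fun k _ => this k, Finset.sum_comm]
      exact Finset.sum_congr rfl fun i _ => Finset.sum_comm
    rw [EE_congr a1]
    have := EE_sum2 (f := fun i j x => ∑ k, pd k (LM (fun i j => C i j) (ef ζ) i j) x ^ 2) fun i j =>
      CG.sum fun k _ => ((cL i j).cgp k).sq
    refine this.trans ?_
    exact Finset.sum_congr rfl fun i _ => Finset.sum_congr rfl fun j _ =>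
      EE_sum fun k _ => ((cL i j).cgp k).sq
  rw [e1, e2, Finset.mul_sum]
  refine Finset.sum_le_sum fun i _ => ?_
  rw [Finset.mul_sum]
  exact Finset.sum_le_sum fun j _ => h1 i j

/-! ### weights -/

/-- `E Σ_k tr w(S) p_k p_kᵀ` -/
def PW (w : ℝ → ℝ) (ζ : Fld n) : ℝ := EE fun x => ∑ k,
  (_root_.cfc w (MTm ζ) * (Mx (dk k (ef ζ)) x * (Mx (dk k (ef ζ)) x)ᵀ)).trace

/-- `E tr w(S) η ηᵀ` -/
def HW (w : ℝ → ℝ) (ζ : Fld n) : ℝ := EE fun x =>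
  (_root_.cfc w (MTm ζ) * (Mx (ef ζ) x * (Mx (ef ζ) x)ᵀ)).trace

/-- `E tr b(S) g(ζ)` -/
def SW (b g : ℝ → ℝ) (ζ : Fld n) : ℝ := EE fun x =>
  (_root_.cfc b (MTm ζ) * _root_.cfc g (Mx ζ x)).trace

lemma cgm_tr' {F : E n → Mat n} (hF : CGm F) : CGm (fun x => (F x)ᵀ) := fun i j => hF j i

lemma cg_PW (hζ : MF ζ lo hi) (w : ℝ → ℝ) : CG fun x => ∑ k,
    (_root_.cfc w (MTm ζ) * (Mx (dk k (ef ζ)) x * (Mx (dk k (ef ζ)) x)ᵀ)).trace :=
  CG.sum fun k _ => ((cgm_const _).mul ((cgm_p hζ k).mul (cgm_tr' (cgm_p hζ k)))).trace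

lemma cg_HW (hζ : MF ζ lo hi) (w : ℝ → ℝ) : CG fun x =>
    (_root_.cfc w (MTm ζ) * (Mx (ef ζ) x * (Mx (ef ζ) x)ᵀ)).trace :=
  ((cgm_const _).mul ((cgm_η hζ).mul (cgm_tr' (cgm_η hζ)))).trace

lemma psd_mul_tr (X : Mat n) : (X * Xᵀ).PosSemidef := by
  have := Matrix.posSemidef_self_mul_conjTranspose X
  rwa [conjTranspose_eq_transpose_of_trivial] at this

lemma PW_mono (hζ : MF ζ lo hi) {v w : ℝ → ℝ} (h : ∀ x, 0 ≤ x → v x ≤ w x) : PW v ζ ≤ PW w ζ :=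
  EE_mono (cg_PW hζ v) (cg_PW hζ w) fun _ => Finset.sum_le_sum fun _ _ =>
    tr_mul_mono (ts hζ).psd (psd_mul_tr _) h

lemma HW_mono (hζ : MF ζ lo hi) {v w : ℝ → ℝ} (h : ∀ x, 0 ≤ x → v x ≤ w x) : HW v ζ ≤ HW w ζ :=
  EE_mono (cg_HW hζ v) (cg_HW hζ w) fun _ => tr_mul_mono (ts hζ).psd (psd_mul_tr _) h

lemma PW_add (hζ : MF ζ lo hi) (v w : ℝ → ℝ) : PW (fun x => v x + w x) ζ = PW v ζ + PW w ζ := by
  unfold PW
  rw [← EE_add (cg_PW hζ v) (cg_PW hζ w)]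
  refine EE_congr fun x => ?_
  rw [← Finset.sum_add_distrib]
  refine Finset.sum_congr rfl fun k _ => ?_
  rw [← cfc_add' (ts hζ).herm, Matrix.add_mul, Matrix.trace_add]

lemma HW_add (hζ : MF ζ lo hi) (v w : ℝ → ℝ) : HW (fun x => v x + w x) ζ = HW v ζ + HW w ζ := by
  unfold HW
  rw [← EE_add (cg_HW hζ v) (cg_HW hζ w)]
  refine EE_congr fun x => ?_
  rw [← cfc_add' (ts hζ).herm, Matrix.add_mul, Matrix.trace_add]

lemma PW_smul (hζ : MF ζ lo hi) (c : ℝ) (w : ℝ → ℝ) : PW (fun x => c * w x) ζ = c * PW w ζ := by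
  unfold PW
  rw [← EE_smul]
  refine EE_congr fun x => ?_
  rw [Finset.mul_sum]
  refine Finset.sum_congr rfl fun k _ => ?_
  rw [← cfc_smul' (ts hζ).herm, Matrix.smul_mul, Matrix.trace_smul, smul_eq_mul]

lemma HW_smul (hζ : MF ζ lo hi) (c : ℝ) (w : ℝ → ℝ) : HW (fun x => c * w x) ζ = c * HW w ζ := by
  unfold HW
  rw [← EE_smul]
  refine EE_congr fun x => ?_
  rw [← cfc_smul' (ts hζ).herm, Matrix.smul_mul, Matrix.trace_smul, smul_eq_mul]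

lemma PW_sub (hζ : MF ζ lo hi) (v w : ℝ → ℝ) : PW (fun x => v x - w x) ζ = PW v ζ - PW w ζ := by
  have h := PW_add hζ (fun x => v x - w x) w
  simp only [sub_add_cancel] at h
  linarith

lemma HW_sub (hζ : MF ζ lo hi) (v w : ℝ → ℝ) : HW (fun x => v x - w x) ζ = HW v ζ - HW w ζ := by
  have h := HW_add hζ (fun x => v x - w x) w
  simp only [sub_add_cancel] at h
  linarith

/-- `E Σ |C p_k|² = PW p`, `C = √p(S)` -/
theorem PW_CC (hζ : MF ζ lo hi) {p : ℝ → ℝ} (hp : ∀ x, 0 ≤ x → 0 ≤ p x) :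
    EE (fun x => ∑ k, hs (CC p (MTm ζ) * Mx (dk k (ef ζ)) x)) = PW p ζ := by
  refine EE_congr fun x => Finset.sum_congr rfl fun k _ => ?_
  unfold CC
  rw [hs_cfc_mul (ts hζ).herm]
  congr 2
  exact cfc_congr fun x hx => Real.sq_sqrt (hp x (spec_nonneg (ts hζ).psd hx))

theorem HW_CC (hζ : MF ζ lo hi) {p : ℝ → ℝ} (hp : ∀ x, 0 ≤ x → 0 ≤ p x) :
    EE (fun x => hs (CC p (MTm ζ) * Mx (ef ζ) x)) = HW p ζ := by
  refine EE_congr fun x => ?_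
  unfold CC
  rw [hs_cfc_mul (ts hζ).herm]
  congr 2
  exact cfc_congr fun x hx => Real.sq_sqrt (hp x (spec_nonneg (ts hζ).psd hx))

theorem PW_one (hζ : MF ζ lo hi) :
    PW (fun _ => 1) ζ = EE (fun x => ∑ k, hs (Mx (dk k (ef ζ)) x)) := by
  refine EE_congr fun x => Finset.sum_congr rfl fun k _ => ?_
  rw [cfc_one' (ts hζ).herm, Matrix.one_mul, hs_eq']

theorem HW_one (hζ : MF ζ lo hi) : HW (fun _ => 1) ζ = EE (fun x => hs (Mx (ef ζ) x)) := by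
  refine EE_congr fun x => ?_
  rw [cfc_one' (ts hζ).herm, Matrix.one_mul, hs_eq']

lemma PW_nonneg (hζ : MF ζ lo hi) {p : ℝ → ℝ} (hp : ∀ x, 0 ≤ x → 0 ≤ p x) : 0 ≤ PW p ζ := by
  rw [← PW_CC hζ hp]
  exact EE_nonneg fun x => Finset.sum_nonneg fun k _ => hs_nonneg _

lemma HW_nonneg (hζ : MF ζ lo hi) {p : ℝ → ℝ} (hp : ∀ x, 0 ≤ x → 0 ≤ p x) : 0 ≤ HW p ζ := by
  rw [← HW_CC hζ hp]
  exact EE_nonneg fun x => hs_nonneg _

/-- **`2 E tr w(S) ηηᵀ ≤ E Σ tr w(S) p_k p_kᵀ`** -/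
theorem two_HW_le (hζ : MF ζ lo hi) {p : ℝ → ℝ} (hp : ∀ x, 0 ≤ x → 0 ≤ p x) :
    2 * HW p ζ ≤ PW p ζ := by
  rw [← PW_CC hζ hp, ← HW_CC hζ hp]
  exact two_hs_le hζ _

/-! ### `E tr b(S) g(ζ)` -/

lemma psd_cfc {A : Mat n} (hA : A.IsHermitian) {g : ℝ → ℝ} (hg : ∀ x ∈ spectrum ℝ A, 0 ≤ g x) :
    (_root_.cfc g A).PosSemidef := by
  have e : _root_.cfc g A = _root_.cfc (fun x => Real.sqrt (g x)) A *
      (_root_.cfc (fun x => Real.sqrt (g x)) A)ᵀ := by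
    rw [cfc_tr hA, cfc_mul' hA]
    exact cfc_congr fun x hx => (Real.mul_self_sqrt (hg x hx)).symm
  rw [e]
  exact psd_mul_tr _

lemma cg_SW (hζ : MF ζ lo hi) (b : ℝ → ℝ) {g : ℝ → ℝ} (hg : ContinuousOn g (Icc lo hi)) :
    CG fun x => (_root_.cfc b (MTm ζ) * _root_.cfc g (Mx ζ x)).trace :=
  ((cgm_const _).mul (cgm_cfc hζ hg)).trace

/-- monotone in `b` if `g ≥ 0` -/
theorem SW_mono_b (hζ : MF ζ lo hi) {b c g : ℝ → ℝ} (hg : ContinuousOn g (Icc lo hi))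
    (hg0 : ∀ z ∈ Icc lo hi, 0 ≤ g z) (h : ∀ x, 0 ≤ x → b x ≤ c x) : SW b g ζ ≤ SW c g ζ :=
  EE_mono (cg_SW hζ b hg) (cg_SW hζ c hg) fun x =>
    tr_mul_mono (ts hζ).psd (psd_cfc (hζ.h x) fun a ha => hg0 a (hζ.s x ha)) h

/-- monotone in `g` if `b ≥ 0` -/
theorem SW_mono_g (hζ : MF ζ lo hi) {b g k : ℝ → ℝ} (hb : ∀ x, 0 ≤ x → 0 ≤ b x)
    (hg : ContinuousOn g (Icc lo hi)) (hk : ContinuousOn k (Icc lo hi))
    (h : ∀ z ∈ Icc lo hi, g z ≤ k z) : SW b g ζ ≤ SW b k ζ := by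
  refine EE_mono (cg_SW hζ b hg) (cg_SW hζ b hk) fun x => ?_
  obtain ⟨U, hU⟩ := exists_fr (hζ.h x)
  rw [Matrix.trace_mul_comm, Matrix.trace_mul_comm _ (_root_.cfc k (Mx ζ x)), tr_mul_frame hU,
    tr_mul_frame hU]
  have hp := psd_cfc (ts hζ).herm (g := b) fun a ha => hb a (spec_nonneg (ts hζ).psd ha)
  refine Finset.sum_le_sum fun i _ => mul_le_mul_of_nonneg_right
    (h _ (hζ.s x (hU.mem_spec i))) ?_
  have := hp.conjTranspose_mul_mul_same U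
  rw [conjTranspose_eq_transpose_of_trivial] at this
  exact this.diag_nonneg

lemma SW_add_b (hζ : MF ζ lo hi) (b c : ℝ → ℝ) {g : ℝ → ℝ} (hg : ContinuousOn g (Icc lo hi)) :
    SW (fun x => b x + c x) g ζ = SW b g ζ + SW c g ζ := by
  unfold SW
  rw [← EE_add (cg_SW hζ b hg) (cg_SW hζ c hg)]
  refine EE_congr fun x => ?_
  rw [← cfc_add' (ts hζ).herm, Matrix.add_mul, Matrix.trace_add]

lemma SW_smul_b (hζ : MF ζ lo hi) (r : ℝ) (b g : ℝ → ℝ) :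
    SW (fun x => r * b x) g ζ = r * SW b g ζ := by
  unfold SW
  rw [← EE_smul]
  refine EE_congr fun x => ?_
  rw [← cfc_smul' (ts hζ).herm, Matrix.smul_mul, Matrix.trace_smul, smul_eq_mul]

lemma SW_add_g (hζ : MF ζ lo hi) (b : ℝ → ℝ) {g k : ℝ → ℝ} (hg : ContinuousOn g (Icc lo hi))
    (hk : ContinuousOn k (Icc lo hi)) : SW b (fun z => g z + k z) ζ = SW b g ζ + SW b k ζ := by
  unfold SW
  rw [← EE_add (cg_SW hζ b hg) (cg_SW hζ b hk)]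
  refine EE_congr fun x => ?_
  rw [← cfc_add' (hζ.h x), Matrix.mul_add, Matrix.trace_add]

lemma SW_smul_g (hζ : MF ζ lo hi) (r : ℝ) (b g : ℝ → ℝ) :
    SW b (fun z => r * g z) ζ = r * SW b g ζ := by
  unfold SW
  rw [← EE_smul]
  refine EE_congr fun x => ?_
  rw [← cfc_smul' (hζ.h x), Matrix.mul_smul, Matrix.trace_smul, smul_eq_mul]

/-- `E tr b(S) = tr b(S)` -/
lemma SW_one (hζ : MF ζ lo hi) (b : ℝ → ℝ) : SW b (fun _ => 1) ζ = TR b (MTm ζ) := by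
  unfold SW
  rw [EE_congr fun x => by rw [cfc_one' (hζ.h x), Matrix.mul_one], EE_const]
  rfl

/-- `E tr b(S) ζ = 0` -/
lemma SW_id (hζ : MF ζ lo hi) (h0 : ∀ i j, EE (ζ i j) = 0) (b : ℝ → ℝ) :
    SW b (fun z => z) ζ = 0 := by
  unfold SW
  rw [EE_congr fun x => by rw [cfc_id'' (hζ.h x)]]
  have := TE_AF (cgm_Mx hζ) (_root_.cfc b (MTm ζ))
  rw [EM_ζ h0, Matrix.mul_zero, Matrix.trace_zero] at this
  exact this

/-- `E tr b(S) ζ² = tr (x b)(S) + E tr b(S) ηηᵀ` -/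
lemma SW_sq (hζ : MF ζ lo hi) (h0 : ∀ i j, EE (ζ i j) = 0) {b : ℝ → ℝ}
    (hb : ∀ x, 0 ≤ x → 0 ≤ b x) :
    SW b (fun z => z ^ 2) ζ = TR (fun x => b x * x) (MTm ζ) + HW b ζ := by
  have h := split_hs hζ h0 (CC b (MTm ζ))
  have e1 : EE (fun x => hs (CC b (MTm ζ) * Mx ζ x)) = SW b (fun z => z ^ 2) ζ := by
    refine EE_congr fun x => ?_
    unfold CC
    rw [hs_cfc_mul (ts hζ).herm]
    congr 2
    · exact cfc_congr fun x hx => Real.sq_sqrt (hb x (spec_nonneg (ts hζ).psd hx))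
    · have e2 : (Mx ζ x)ᵀ = Mx ζ x := Mx_t hζ x
      rw [e2]
      conv_lhs => rw [← cfc_id'' (hζ.h x)]
      rw [cfc_mul' (hζ.h x)]
      exact cfc_congr fun z _ => by ring
  have e3 : ∑ k, hs (CC b (MTm ζ) * Tm ζ k) = TR (fun x => b x * x) (MTm ζ) := by
    unfold CC
    rw [(ts hζ).sum_hs]
    exact TR_congr fun x hx => by rw [Real.sq_sqrt (hb x (spec_nonneg (ts hζ).psd hx))]
  rw [e1, e3, HW_CC hζ hb] at h
  exact h

end Crest.Agent.R253.TrC80
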