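import Crest.Agent.R253.BF_321
import Crest.Agent.R253.LamI_301
import Crest.Agent.R253.ErrT_378
import Crest.Agent.R253.TrI_80

/-!
# R253: the instantiation layer on the data `Dat G M N V lo hi`, `Nz M` (helper321)
-/

set_option autoImplicit false

open MeasureTheory ProbabilityTheory Real Set Filter Topology Matrix
open scoped ContDiff

noncomputable section

namespace Crest.Agent.R253.Inst321

open Crest.Agent.R238.Gap Crest.Agent.R238.GapPoinc Crest.Agent.R238.GapPc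
open Crest.Agent.R253.SpecCalc999 Crest.Agent.R253.Meh74 Crest.Agent.R253.SpecField321
open Crest.Agent.R253.Frame321 (Zf Uf Slk mf_Zf)
open Crest.Agent.R253.DualP973 Crest.Agent.R253.ErrT378
open Crest.Agent.R253.S3 (TE EM sf pk eta0)
open Crest.Agent.R253.ScalE688 (zf rho)
open Crest.Agent.R253.Mills37 (mu kk H0 ee)
open Crest.Agent.R253.Slack688 (aa H0_has)
open Crest.Agent.R253.HFn741 (chi chi' hh bb2 chi_has chi_id bb2_eq aa_has' aa_lt bb2_pos bb2_lt)

variable {n : ℕ} {G : Fin n → E n → ℝ} {M N : Fld n} {V : E n → ℝ} {lo hi : ℝ}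

/-- `F = 2k - v²` -/
def FF (z : ℝ) : ℝ := 2 * kk z - H0 z ^ 2

/-- `w = v' - 1/4` -/
def wq (z : ℝ) : ℝ := aa z - 1 / 4

lemma FF_eq (z : ℝ) : FF z = 1 + z * chi z - chi' z + aa z ^ 2 := by
  have := chi_id z
  unfold FF; linarith

lemma wq_add : (fun t => wq t + 1 / 4) = aa := by
  funext t; unfold wq; ring

lemma wq_has (z : ℝ) : HasDerivAt wq (bb2 z) z := by
  have := (aa_has' z).sub_const (1 / 4)
  exact this

lemma abs_wq_le (z : ℝ) : |wq z| ≤ 1 / 4 := by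
  have h1 := aa_lt z
  have h2 := Crest.Agent.R253.Slack688.aa_pos z
  unfold wq
  rw [abs_le]
  constructor <;> linarith

lemma bb2_cont : Continuous bb2 := by
  unfold bb2
  have h1 : Continuous Crest.Agent.R253.Mills37.ww := by
    unfold Crest.Agent.R253.Mills37.ww
    exact continuous_const.sub (continuous_id.mul Crest.Agent.R253.ScalE688.ee_cont)
  exact (h1.mul Crest.Agent.R253.ScalE688.H0_cont).sub Crest.Agent.R253.ScalE688.ee_cont

lemma aa_cont' : Continuous aa := Crest.Agent.R253.ScalE688.aa_cont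

lemma wq_cont : Continuous wq := aa_cont'.sub continuous_const

section dat

variable (D : Fin505.Dat G M N V lo hi) (hz : Fin505.Nz M)

include D

/-- `ζ` is a matrix field -/
lemma mfZ : MF (Zf M) (zf lo) (zf hi) := mf_Zf D.mf D.lo_pos

lemma cgS : CG (Slk M N) := Frame321.cg_Slk D.ma D.mf D.lo_pos

lemma slk_nonneg (x : E n) : 0 ≤ Slk M N x := Frame321.Slk_nonneg D.ma D.mf D.lo_pos x

lemma EE_slk_nonneg : 0 ≤ EE (Slk M N) := EE_nonneg (slk_nonneg D)

/-- the slack hypothesis of `lam_ge`, `eo_ge`, ... -/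
theorem hSl (x : E n) : ∃ U s, Fr (Mx (Zf M) x) U s ∧
    ∑ k, Jord192.slk rho U s (S3.dZ (Zf M) k x) ≤ Slk M N x := by
  obtain ⟨U, hU⟩ := exists_fr (D.mf.h x)
  exact ⟨U, _, Frame321.fr_Zf hU, Frame321.slk_le D.ma D.mf D.lo_pos x hU⟩

/-- right kernels are paid by the slack -/
theorem sum_KR_le {f f' : ℝ → ℝ} {C : ℝ} (hC : 0 ≤ C)
    (hk : ∀ a b, (dd1 f f' a b - f' b) ^ 2 ≤ C * rho a b) (x : E n) :
    (∑ k, hs (DualP973.KR f f' (Mx (Zf M) x) (Mx (dk k (Zf M)) x))) ≤ C * Slk M N x := by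
  obtain ⟨U, s, hU, h1⟩ := hSl D x
  refine le_trans ?_ (mul_le_mul_of_nonneg_left h1 hC)
  rw [Finset.mul_sum]
  exact Finset.sum_le_sum fun k _ => DualP973.hs_KR_le hU (fun a _ b _ => hk a b) _

/-- `M − U = ζ (w + 1/4) − v''` -/
theorem hMU (x : E n) : Mx M x - Mx (Uf M) x =
    Mx (Zf M) x * (_root_.cfc wq (Mx (Zf M) x) + (1 / 4 : ℝ) • 1) -
      _root_.cfc bb2 (Mx (Zf M) x) := by
  have hZ := mfZ D
  have hA := hZ.h x
  have h1 : Mx M x = _root_.cfc mu (Mx (Zf M) x) := LamI301.Mx_M D.mf D.lo_pos x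
  have h2 : Mx (Uf M) x = _root_.cfc H0 (Mx (Zf M) x) := LamI301.Mx_U D.mf x
  have h3 : _root_.cfc wq (Mx (Zf M) x) + (1 / 4 : ℝ) • (1 : Mat n) =
      _root_.cfc aa (Mx (Zf M) x) := by
    rw [← cfc_add_const hA wq (1 / 4), wq_add]
  rw [h1, h2, h3]
  obtain ⟨U, hU⟩ := exists_fr hA
  refine conj_inj hU.o' ?_
  have e1 : Uᵀ * (_root_.cfc mu (Mx (Zf M) x) - _root_.cfc H0 (Mx (Zf M) x)) * U =
      Matrix.diagonal fun i => mu (hA.eigenvalues i) - H0 (hA.eigenvalues i) := by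
    rw [Matrix.mul_sub, Matrix.sub_mul, hU.cfc, hU.cfc, Matrix.diagonal_sub]
  have e2 : Uᵀ * (Mx (Zf M) x * _root_.cfc aa (Mx (Zf M) x) - _root_.cfc bb2 (Mx (Zf M) x)) * U =
      Matrix.diagonal fun i => hA.eigenvalues i * aa (hA.eigenvalues i) -
        bb2 (hA.eigenvalues i) := by
    have e3 : Uᵀ * (Mx (Zf M) x * _root_.cfc aa (Mx (Zf M) x)) * U =
        (Uᵀ * Mx (Zf M) x * U) * (Uᵀ * _root_.cfc aa (Mx (Zf M) x) * U) := by
      calc Uᵀ * (Mx (Zf M) x * _root_.cfc aa (Mx (Zf M) x)) * U =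
          Uᵀ * Mx (Zf M) x * 1 * _root_.cfc aa (Mx (Zf M) x) * U := by
            rw [Matrix.mul_one]; simp only [Matrix.mul_assoc]
        _ = _ := by rw [← hU.o']; simp only [Matrix.mul_assoc]
    rw [Matrix.mul_sub, Matrix.sub_mul, e3, hU.d, hU.cfc, hU.cfc, Matrix.diagonal_mul_diagonal,
      Matrix.diagonal_sub]
  rw [e1, e2]
  congr 1
  funext i
  rw [bb2_eq]; ring

include hz in
/-- **the weak identity with 973's field**, `r` any constant matrix -/
theorem wk (r : Mat n) : WkF M (Uf M) (Yf (Zf M) wq r) (Gf (Zf M) wq bb2 r) :=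
  wkf (mfZ D) (fun i j => hz i j) (fun z _ => wq_has z) bb2_cont.continuousOn
    (fun i j => (D.ma.hd.m i j).cg) (fun i j => (Frame321.c1_Uf D.mf D.lo_pos i j).cg)
    (hMU D) r

lemma cgY (r : Mat n) (k i j : Fin n) : CG (Yf (Zf M) wq r k i j) := by
  have h1 := (c1_Y0 (mfZ D) (fun z _ => wq_has z) bb2_cont.continuousOn r k i j).cg
  have h2 : CG (pd k (Rs (ef (Zf M) i j))) := (c1_Rs (c1_ef (mfZ D) i j)).cgp k
  exact h1.add (h2.smul (1 / 2))

lemma cgG (r : Mat n) (i j : Fin n) : CG (Gf (Zf M) wq bb2 r i j) := by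
  have hZ := mfZ D
  have cW := cg_cfc hZ wq_cont.continuousOn
  have cV2 := cg_cfc hZ bb2_cont.continuousOn
  have ce : CM (fun x => Mx (ef (Zf M)) x) := CM.mx fun i j => (c1_ef hZ i j).cg
  have cp : ∀ k, CM (fun x => Mx (dk k (ef (Zf M))) x) := fun k =>
    CM.mx fun i j => (c1_ef hZ i j).cgp k
  have cd : ∀ k, CM (fun x => Mx (dk k (Zf M)) x) := fun k => CM.mx fun i j => (hZ.c i j).cgp k
  have cDK : ∀ k, CM (fun x => DK wq bb2 (Mx (Zf M) x) (Mx (dk k (Zf M)) x)) := fun k i j => by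
    have h1 := (SpecField321.c1_cfc hZ (fun z _ => wq_has z) bb2_cont.continuousOn i j).cgp k
    have e : (fun x => DK wq bb2 (Mx (Zf M) x) (Mx (dk k (Zf M)) x) i j) =
        pd k (fun x => _root_.cfc wq (Mx (Zf M) x) i j) := by
      funext x
      exact (SpecField321.pd_cfc hZ (fun z _ => wq_has z) x i j k).symm
    rw [e]; exact h1
  have cL : CM (fun x => Lx (Zf M) x) := CM.sum fun k _ => CM.fsmul (cg_coord k) (CM.const _)
  have cG0 : CM (fun x => G0 (Zf M) wq bb2 r x) := by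
    unfold G0
    refine CM.add (CM.sub (CM.add (CM.add ?_ ?_) ?_) ?_) ?_
    · exact (ce.mul cW).add (ce.smul _)
    · exact CM.cmul _ (CM.sum fun k _ => CM.cmul _ ((cDK k).sub ((cd k).mul cV2)))
    · exact (CM.cmul _ cL).mul cW
    · exact (CM.const _).mul cV2
    · exact (CM.cmul _ (CM.sum fun k _ => CM.cmul _ (cp k))).mul cV2
  have h2 : CG (fun x => ef (Zf M) i j x - Rs (ef (Zf M) i j) x) :=
    ((c1_ef hZ i j).cg).sub (c1_Rs (c1_ef hZ i j)).cg
  exact (cG0 i j).sub (h2.smul (1 / 2))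

include hz in
/-- **(L0)** in the letters of `lam_ge`: `A = 1 - b = Cᵀ C` -/
theorem l0 {Y : Fin n → Fld n} {Gg : Fld n} (hY : ∀ k i j, CG (Y k i j)) (hG : ∀ i j, CG (Gg i j))
    (hW : WkF M (Uf M) Y Gg) {b C : Mat n} (hC : C.det ≠ 0) (hCb : Cᵀ * C = 1 - b) :
    Real.log ((1 - b).det) + Lam FF H0 aa (Zf M) b + EE (Slk M N) +
      (EE (fun x => ∑ k, hs (Mx (dk k (ef (Zf M))) x)) - EE (fun x => hs (Mx (ef (Zf M)) x))) -
      (EE (fun x => ∑ k, hs (C * (Mx (dk k (Uf M)) x - Mx (Y k) x))) +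
        EE (fun x => hs (C * Mx Gg x))) ≤ DFun G M := by
  have h1 := BF321.bf D.ma D.mf D.lo_pos D.hV hY hG hW (B := -b) (C := C) hC
    (by rw [hCb, sub_eq_add_neg])
  have h2 := LamI301.lam_wip D.mf D.lo_pos (-b)
  rw [h2, LamI301.split_spine (mfZ D) fun i j => hz i j] at h1
  have e1 : ∀ F : E n → Mat n, TE (fun x => -b * F x) = -TE (fun x => b * F x) := by
    intro F
    unfold TE
    rw [← EE_neg]
    refine EE_congr fun x => ?_
    change (-b * F x).trace = -(b * F x).trace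
    rw [Matrix.neg_mul, Matrix.trace_neg]
  have e2 : TE (fun x => -b * sf (fun z => 2 * kk z - H0 z ^ 2) (Zf M) x) -
        ∑ k, TE (fun x => -b * (DK H0 aa (Mx (Zf M) x) (S3.dZ (Zf M) k x) *
          DK H0 aa (Mx (Zf M) x) (S3.dZ (Zf M) k x))) = -Lam FF H0 aa (Zf M) b := by
    unfold Lam
    rw [e1]
    have : ∀ k, TE (fun x => -b * (DK H0 aa (Mx (Zf M) x) (S3.dZ (Zf M) k x) *
          DK H0 aa (Mx (Zf M) x) (S3.dZ (Zf M) k x))) =
        -TE (fun x => b * (DK H0 aa (Mx (Zf M) x) (S3.dZ (Zf M) k x) *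
          DK H0 aa (Mx (Zf M) x) (S3.dZ (Zf M) k x))) := fun k => e1 _
    simp only [this, Finset.sum_neg_distrib]
    change -TE (fun x => b * sf FF (Zf M) x) - _ = _
    ring
  rw [e2, ← sub_eq_add_neg] at h1
  refine le_trans (le_of_eq ?_) h1
  ring

end dat

end Crest.Agent.R253.Inst321
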