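import Crest.Agent.R253.LossC_80
import Crest.Agent.R253.Inst_321
import Crest.Agent.R253.FinQ_214

/-!
# Row 253: assembly of MAIN in one real variable (helper80)

`comb`: near part, far part and loss, each as
`tr f(S) - PW u ζ - HW h ζ - k E Slk`, give `c p2 + tr Φ(S) ≤ DFun`.
-/

set_option autoImplicit false

open MeasureTheory ProbabilityTheory Set Filter Topology Matrix
open scoped ContDiff

noncomputable section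

namespace Crest.Agent.R253.TrC80

open Crest.Agent.R238.Gap Crest.Agent.R253.SpecCalc999 Crest.Agent.R253.Meh74
  Crest.Agent.R253.SpecField321 Crest.Agent.R253.S3 Crest.Agent.R253.LamB301
  Crest.Agent.R253.LamI301
open Crest.Agent.R253.DualP973 (Tm ef Lx MTm Mx_eq dk_eq c1_ef Yf Gf)
open Crest.Agent.R253.ErrT378 (Lam lam_ge)
open Crest.Agent.R253.Frame321 (Zf Uf Ff Uf_eq M_eq mf_Zf Zf_symm Slk)
open Crest.Agent.R253.Mills37 (mu H0 kk ee)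
open Crest.Agent.R253.Slack688 (aa H0_has)
open Crest.Agent.R253.ScalE688 (zf)
open Crest.Agent.R253.HFn741 (chi chi' hh bb2)
open Crest.Agent.R253.Inst321
open Crest.Agent.R253.Stein378 (ky)

variable {n : ℕ} {G : Fin n → E n → ℝ} {M N : Fld n} {V : E n → ℝ} {lo hi : ℝ}

/-- the loss of the dual bound with `C = √A(S)`, `r = r(S)` -/
def LossF (M : Fld n) (A r : ℝ → ℝ) : ℝ :=
  EE (fun x => ∑ k, hs (CC A (MTm (Zf M)) * (Mx (dk k (Uf M)) x -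
    Mx (Yf (Zf M) wq (_root_.cfc r (MTm (Zf M))) k) x))) +
  EE (fun x => hs (CC A (MTm (Zf M)) * Mx (Gf (Zf M) wq bb2 (_root_.cfc r (MTm (Zf M)))) x))

/-- (L0) on 505's data -/
theorem l0D (D : Fin505.Dat G M N V lo hi) (hz : Fin505.Nz M) {A b1 b2 r : ℝ → ℝ}
    (hA : ∀ x, 0 ≤ x → 0 < A x) (hb : ∀ x, 0 ≤ x → 1 - A x = b1 x + b2 x) :
    TR (fun x => Real.log (A x)) (MTm (Zf M)) +
      Lam FF H0 aa (Zf M) (_root_.cfc b1 (MTm (Zf M))) +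
      Lam FF H0 aa (Zf M) (_root_.cfc b2 (MTm (Zf M))) +
      EE (Slk M N) + (PW (fun _ => 1) (Zf M) - HW (fun _ => 1) (Zf M)) - LossF M A r ≤
      DFun G M := by
  have h := l0R D.ma D.mf D.lo_pos D.hV (fun i j => hz i j)
    (Y := Yf (Zf M) wq (_root_.cfc r (MTm (Zf M))))
    (Gf := Gf (Zf M) wq bb2 (_root_.cfc r (MTm (Zf M))))
    (fun k i j => cgY D _ k i j) (fun i j => cgG D _ i j) (wk D hz _) hA hb
  have e : (F0 : ℝ → ℝ) = FF := rfl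
  rw [e] at h
  unfold LossF
  linarith

/-- **the combination**: everything in one real variable -/
theorem comb (D : Fin505.Dat G M N V lo hi) (hz : Fin505.Nz M) {A b1 b2 r : ℝ → ℝ}
    (hA : ∀ x, 0 ≤ x → 0 < A x) (hb : ∀ x, 0 ≤ x → 1 - A x = b1 x + b2 x)
    {f1 f2 f3 u1 u2 u3 h1 h2 h3 : ℝ → ℝ} {k1 k2 k3 : ℝ}
    (near : TR f1 (MTm (Zf M)) - PW u1 (Zf M) - HW h1 (Zf M) - k1 * EE (Slk M N) ≤
      Lam FF H0 aa (Zf M) (_root_.cfc b1 (MTm (Zf M))))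
    (far : TR f2 (MTm (Zf M)) - PW u2 (Zf M) - HW h2 (Zf M) - k2 * EE (Slk M N) ≤
      Lam FF H0 aa (Zf M) (_root_.cfc b2 (MTm (Zf M))))
    (loss : LossF M A r ≤ TR f3 (MTm (Zf M)) + PW u3 (Zf M) + HW h3 (Zf M) +
      k3 * EE (Slk M N))
    {c : ℝ} {Φ : ℝ → ℝ} (hk : k1 + k2 + k3 ≤ 1)
    (hΦ : ∀ x, 0 ≤ x → Φ x ≤ Real.log (A x) + f1 x + f2 x - f3 x)
    (hP : ∀ x, 0 ≤ x → c ≤ 1 - u1 x - u2 x - u3 x)
    (hH : ∀ x, 0 ≤ x → 2 * c ≤ 2 * (1 - u1 x - u2 x - u3 x) - (1 + h1 x + h2 x + h3 x)) :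
    c * FinQ214.p2 M + TR Φ (MTm (Zf M)) ≤ DFun G M := by
  have h0 := l0D D hz (r := r) hA hb
  obtain ⟨s, P, H, hs0, hH0, hPH, eT, eP, eH⟩ := rows (mfZ D)
  have hS := EE_slk_nonneg D
  have ep2 : FinQ214.p2 M = ∑ i, P i := by
    have := eP (fun _ => 1)
    rw [PW_one (mfZ D)] at this
    simp only [one_mul] at this
    exact this
  rw [eT, eP, eH] at near far loss
  rw [eT, eP, eH] at h0
  rw [ep2, eT, Finset.mul_sum]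
  have key : ∑ i, (c * P i) + ∑ i, Φ (s i) ≤
      ∑ i, Real.log (A (s i)) + ∑ i, f1 (s i) + ∑ i, f2 (s i) - ∑ i, f3 (s i) +
      (∑ i, 1 * P i - ∑ i, u1 (s i) * P i - ∑ i, u2 (s i) * P i - ∑ i, u3 (s i) * P i) -
      (∑ i, 1 * H i + ∑ i, h1 (s i) * H i + ∑ i, h2 (s i) * H i + ∑ i, h3 (s i) * H i) := by
    simp only [← Finset.sum_add_distrib, ← Finset.sum_sub_distrib]
    refine Finset.sum_le_sum fun i _ => ?_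
    have a1 := hΦ (s i) (hs0 i)
    have a2 := hP (s i) (hs0 i)
    have a3 := hH (s i) (hs0 i)
    have a4 := hH0 i
    have a5 := hPH i
    -- `(w - c) P ≥ 2 (w - c) H ≥ (wH) H`
    have a6 : 0 ≤ (1 - u1 (s i) - u2 (s i) - u3 (s i) - c) * (P i - 2 * H i) :=
      mul_nonneg (by linarith) (by linarith)
    have a7 : 0 ≤ (2 * (1 - u1 (s i) - u2 (s i) - u3 (s i)) -
        (1 + h1 (s i) + h2 (s i) + h3 (s i)) - 2 * c) * H i := mul_nonneg (by linarith) a4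
    nlinarith [a6, a7]
  have h9 : (k1 + k2 + k3) * EE (Slk M N) ≤ 1 * EE (Slk M N) :=
    mul_le_mul_of_nonneg_right hk hS
  linarith

/-! ### the near part -/

/-- `f` of the near part -/
def nf (b a e : ℝ → ℝ) (θ1 θ2 θ4 a5 e5 : ℝ) (x : ℝ) : ℝ :=
  b x + b x * (x - 1) * (a x - e x * x) - (θ1 / 2 + θ2 / 2) * (b x ^ 2 * x) -
    θ4 / 2 * (a5 * b x ^ 2 + e5 * (b x ^ 2 * x))
/-- `u` of the near part -/
def nu (b : ℝ → ℝ) (ρ κ bo θ1 θ3 : ℝ) (x : ℝ) : ℝ :=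
  ρ ^ 2 / (2 * θ1) + θ3 * bo ^ 2 + κ ^ 2 * max (b x) 0
/-- `h` of the near part -/
def nh (b e : ℝ → ℝ) (θ4 e5 c4 : ℝ) (x : ℝ) : ℝ :=
  b x * (x - 1) * e x + θ4 / 2 * e5 * b x ^ 2 + 1 / (2 * θ4) - c4 * b x

/-- **the near part in one real variable** -/
theorem nearR {ζ : Fld n} (hζ : MF ζ lo hi) (h0 : ∀ i j, EE (ζ i j) = 0)
    {v v1 χ χ1 F h : ℝ → ℝ}
    (hv : ∀ z ∈ Icc lo hi, HasDerivAt v (v1 z) z) (hv1 : ContinuousOn v1 (Icc lo hi))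
    (hχ : ∀ z ∈ Icc lo hi, HasDerivAt χ (χ1 z) z) (hχ1 : ContinuousOn χ1 (Icc lo hi))
    (hF : ∀ z ∈ Icc lo hi, F z = 1 + z * χ z - χ1 z + v1 z ^ 2)
    (hh : ∀ z ∈ Icc lo hi, χ1 z - v1 z ^ 2 = h z)
    {sl : ℝ → ℝ → ℝ} {Sl : E n → ℝ} (cSl : CG Sl)
    (hSl : ∀ x, ∃ U s, Fr (Mx ζ x) U s ∧ ∑ k, Jord192.slk sl U s (S3.dZ ζ k x) ≤ Sl x)
    {Cy Cw Ce c ρ κ bo bn θ1 θ2 θ3 θ4 c3 c4 a5 c5 e5 : ℝ}
    (hy : ∀ a ∈ Icc lo hi, ∀ b ∈ Icc lo hi, ky v v1 χ χ1 a b ^ 2 ≤ Cy * sl a b)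
    (hw : ∀ a ∈ Icc lo hi, ∀ b ∈ Icc lo hi, (v1 a * (dd1 v v1 b a - v1 a)) ^ 2 ≤ Cw * sl a b)
    (he : ∀ a ∈ Icc lo hi, ∀ b ∈ Icc lo hi, (dd1 v v1 a b - v1 b) ^ 2 ≤ Ce * sl a b)
    (hρ : ∀ a ∈ Icc lo hi, ∀ b ∈ Icc lo hi, |χ1 b - v1 b ^ 2 - v1 a ^ 2 - c| ≤ ρ)
    (hκ : ∀ a ∈ Icc lo hi, |v1 a| ≤ κ)
    (hg : ∀ z ∈ Icc lo hi, (χ z - c3 - c4 * z) ^ 2 ≤ a5 + c5 * z + e5 * z ^ 2)
    (hC0 : 0 ≤ Cy) (hC1 : 0 ≤ Cw) (hC2 : 0 ≤ Ce)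
    (hθ1 : 0 < θ1) (hθ2 : 0 < θ2) (hθ3 : 0 < θ3) (hθ4 : 0 < θ4) {b α γ ε : ℝ → ℝ}
    (hbo : ∀ x, 0 ≤ x → b x ^ 2 ≤ bo ^ 2) (hbn : ∀ x, 0 ≤ x → b x ≤ bn) (hbn0 : 0 ≤ bn)
    (hbx : ∀ x, 0 ≤ x → 0 ≤ b x * (x - 1))
    (hm : ∀ x, 0 ≤ x → ∀ z, α x + γ x * z - ε x * z ^ 2 ≤ h z) :
    TR (nf b α ε θ1 θ2 θ4 a5 e5) (MTm ζ) - PW (nu b ρ κ bo θ1 θ3) ζ -
      HW (nh b ε θ4 e5 c4) ζ - (Cy / (2 * θ2) + Cw / θ3 + bn * Ce) * EE Sl ≤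
      Lam F v v1 ζ (_root_.cfc b (MTm ζ)) := by
  have h1 := lam_ge_R hζ h0 hv hv1 hχ hχ1 hF hh cSl hSl hy hw he hρ hκ hg hC0 hC1 hC2 hθ1 hθ2
    hθ3 hθ4 (b := b) hbo hbn hbn0
  have hhc : ContinuousOn h (Icc lo hi) :=
    (hχ1.sub (hv1.pow 2)).congr fun z hz => (hh z hz).symm
  have h2 := SW_rows hζ h0 (β := fun x => b x * (x - 1)) (a := α) (c := γ) (e := ε) hhc hbx
    fun x hx z _ => hm x hx z
  obtain ⟨s, P, H, hs0, hH0, hPH, eT, eP, eH⟩ := rows hζ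
  simp only [eT, eP, eH] at h1 h2 ⊢
  have e1 : ∑ i, nf b α ε θ1 θ2 θ4 a5 e5 (s i) - ∑ i, nu b ρ κ bo θ1 θ3 (s i) * P i -
      ∑ i, nh b ε θ4 e5 c4 (s i) * H i =
      ∑ i, b (s i) + (∑ i, b (s i) * (s i - 1) * α (s i) -
        ∑ i, b (s i) * (s i - 1) * ε (s i) * s i - ∑ i, b (s i) * (s i - 1) * ε (s i) * H i) -
      (θ1 / 2 + θ2 / 2) * ∑ i, b (s i) ^ 2 * s i -
      (ρ ^ 2 / (2 * θ1) + θ3 * bo ^ 2) * ∑ i, 1 * P i -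
      κ ^ 2 * ∑ i, max (b (s i)) 0 * P i -
      (θ4 / 2 * (a5 * ∑ i, b (s i) ^ 2 + e5 * (∑ i, b (s i) ^ 2 * s i +
        ∑ i, b (s i) ^ 2 * H i)) + 1 / (2 * θ4) * ∑ i, 1 * H i) +
      c4 * ∑ i, b (s i) * H i := by
    simp only [Finset.mul_sum, ← Finset.sum_add_distrib, ← Finset.sum_sub_distrib]
    refine Finset.sum_congr rfl fun i _ => ?_
    unfold nf nu nh
    ring
  linarith

end Crest.Agent.R253.TrC80
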