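import Mathlib
import Crest.Agent.R238.ECalE12
import Crest.Agent.R253.BrDefs_505
import Crest.Agent.R253.BrSys_649

/-!
Row 253, T6 (Brenier map), nodes B5 / B6: the concrete instance of `SysB` on the algebra
`XInst.SA n` of smooth functions for a smooth solution `v` of `MAb P lam s v`
(helper649; port of `R238.ECalInst` / `R238.ECalE12` of helpers 640, 703).
-/

set_option autoImplicit false
open scoped ContDiff Topology
open Set Filter Finset

noncomputable section

namespace Crest.Agent.R253.BrCal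

open Crest.Agent.R238 Crest.Agent.R238.XInst Crest.Agent.R253.Br

variable {n : ℕ}

/-- the coordinate facts of the instance -/
structure FactsB (P : E n → ℝ) (lam s : ℝ) (v : E n → ℝ) (Z : SysB n (SA n)) : Prop where
  D : ∀ (a : Fin n) (f : SA n) (x : E n), (Z.D a f).1 x = fderiv ℝ f.1 x (ee a)
  X : ∀ a x, (Z.X a).1 x = x a + gr v x a
  g : ∀ a b x, (Z.g a b).1 x = gm v x a b
  t : ∀ a b x, (Z.t a b).1 x = tauf v x a b
  p : ∀ a x, (Z.p a).1 x = x a + s * gr P x a - lam * gr v x a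

/-- The differentiated equation: in the algebra `SA n`,
`D_e (log det g) = ∑ X_a g_ae - p_e`. -/
theorem pd_logdet {v P : E n → ℝ} (hv : ContDiff ℝ ∞ v) (hP : ContDiff ℝ ∞ P)
    {lam s : ℝ} (hma : MAb P lam s v) (LD : SA n) (hLD : ∀ y, LD.1 y = Real.log (gm v y).det)
    (G : Fin n → Fin n → SA n) (hG : ∀ a b, G a b = (if a = b then 1 else 0) + pd a (pd b ⟨v, hv⟩))
    (e : Fin n) :
    pd e LD = ∑ a, (co a + pd a ⟨v, hv⟩) * G a e
      - (co e + s • pd e ⟨P, hP⟩ - lam • pd e ⟨v, hv⟩) := by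
  set V : SA n := ⟨v, hv⟩ with hV
  set PP : SA n := ⟨P, hP⟩ with hPP
  have h1 : LD = ∑ j, co j * pd j V + (1 / 2 : ℝ) • ∑ i, pd i V * pd i V + lam • V - s • PP := by
    refine ext_ev fun y => ?_
    simp only [map_sub, map_add, map_sum, map_mul, map_smul, smul_eq_mul]
    have h2 : ev y LD = Real.log (gm v y).det := hLD y
    have h3 := hma y
    rw [clm_eq_sum (fderiv ℝ v y) y] at h3
    have h4 : ∀ j, ev y (co j) * ev y (pd j V) = y j * fderiv ℝ v y (ee j) := fun j => rfl
    have h5 : ∀ i, ev y (pd i V) * ev y (pd i V) = gr v y i ^ 2 := fun i => by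
      rw [sq]; rfl
    have h6 : ev y V = v y := rfl
    have h7 : ev y PP = P y := rfl
    rw [h2]
    simp only [h4, h5, h6, h7]
    linarith
  rw [h1]
  have e1 : ∀ j, pd e (co j * pd j V) = co j * pd e (pd j V) + (if e = j then 1 else 0) * pd j V := by
    intro j
    rw [Derivation.leibniz, smul_eq_mul, smul_eq_mul, pd_co]
    ring
  have e2 : ∀ j, pd e (pd j V * pd j V) = (2 : ℝ) • (pd j V * pd e (pd j V)) := by
    intro j
    rw [Derivation.leibniz, smul_eq_mul, two_smul]
  have e3 : ∀ a, (co a + pd a V) * G a e =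
      (co a + pd a V) * (if a = e then 1 else 0) + co a * pd e (pd a V)
        + pd a V * pd e (pd a V) := by
    intro a
    rw [hG, pd_comm e a V]
    ring
  simp only [map_sub, map_add, map_sum, Derivation.map_smul, e1, e2, e3, Finset.sum_add_distrib,
    Finset.smul_sum, smul_smul]
  simp
  ring

theorem exists_factsB {v P : E n → ℝ} (hv : ContDiff ℝ ∞ v) (hP : ContDiff ℝ ∞ P)
    {lam s lo hi : ℝ} (hlo : 0 < lo) (hell : ∀ x, Ell lo hi (gm v x)) (hma : MAb P lam s v) :
    ∃ Z : SysB n (SA n), FactsB P lam s v Z := by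
  have hd : ∀ x, (gm v x).det ≠ 0 := fun x => (Ell.sm_det_pos hlo (hell x)).ne'
  let V : SA n := ⟨v, hv⟩
  let PP : SA n := ⟨P, hP⟩
  let G : Fin n → Fin n → SA n := fun a b => ⟨fun x => gm v x a b, ECal.smooth_gm hv a b⟩
  let T : Fin n → Fin n → SA n := fun a b => ⟨fun x => tauf v x a b, ECal.smooth_tauf hv hd a b⟩
  have hG : ∀ a b, G a b = (if a = b then 1 else 0) + pd a (pd b V) := by
    intro a b
    refine ext_ev fun x => ?_
    have h1 : ev x (pd a (pd b V)) = Hs v x a b := pd_pd_apply a b V x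
    have h2 : ev x (G a b) = gm v x a b := rfl
    rw [map_add, h1, h2]
    simp only [gm, Matrix.add_apply, Matrix.of_apply, Matrix.one_apply]
    split_ifs <;> simp
  have hDd : ∀ a i j : Fin n, pd a ((if i = j then 1 else 0 : SA n)) = 0 := by
    intro a i j
    split_ifs <;> simp
  let LD : SA n := ⟨fun y => Real.log (gm v y).det,
    (XInst.contDiff_det (fun i j => ECal.smooth_gm hv i j)).log hd⟩
  refine ⟨{
    D := pd
    comm := pd_comm
    X := fun a => co a + pd a V
    g := G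
    gsymm := ?_
    gcod := ?_
    DX := ?_
    t := T
    tsymm := ?_
    tg := ?_
    p := fun a => co a + s • pd a PP - lam • pd a V
    pcod := ?_
    eq := ?_ }, ?_, ?_, ?_, ?_, ?_⟩
  · intro a b
    refine ext_ev fun x => ?_
    exact (hell x).1 a b
  · intro a b c
    rw [hG, hG, map_add, map_add, hDd, hDd, pd_comm c a, pd_comm c b]
  · intro a b
    rw [hG, map_add, pd_co]
  · intro a b
    refine ext_ev fun x => ?_
    exact Ell.sm_inv_symm (hell x) a b
  · intro a b
    refine ext_ev fun x => ?_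
    have h := congrFun (congrFun (Ell.sm_inv_mul hlo (hell x)) a) b
    rw [Matrix.mul_apply] at h
    simp only [map_sum, map_mul]
    have h1 : ∀ c, ev x (T a c) * ev x (G c b) = (gm v x)⁻¹ a c * gm v x c b := fun c => rfl
    simp only [h1, h, Matrix.one_apply]
    split_ifs <;> simp
  · intro a b
    simp only [map_add, map_sub, Derivation.map_smul, pd_co, pd_comm a b PP, pd_comm a b V]
    simp only [eq_comm]
  · intro e
    rw [← pd_logdet hv hP hma LD (fun y => rfl) G hG e]
    refine ext_ev fun x => ?_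
    have h2 : ev x (pd e LD) = fderiv ℝ (fun y => Real.log (gm v y).det) x (ee e) := rfl
    rw [h2, ECal.fderiv_log_det_gm hv (hd x)]
    simp only [map_sum, map_mul]
    rfl
  · intro a f x
    rfl
  · intro a x
    rfl
  · intro a b x
    rfl
  · intro a b x
    rfl
  · intro a x
    rfl

section conv

variable {v P : E n → ℝ} {lam s : ℝ} {Z : SysB n (SA n)} (hZ : FactsB P lam s v Z)
include hZ

theorem FactsB.D_eq (a : Fin n) (f : SA n) : Z.D a f = pd a f := by
  refine ext_ev fun x => ?_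
  exact hZ.D a f x

theorem FactsB.DD (a b : Fin n) (f : SA n) (x : E n) :
    ev x (Z.D a (Z.D b f)) = Hs f.1 x a b := by
  rw [hZ.D_eq, hZ.D_eq]
  exact pd_pd_apply a b f x

/-- `(Z.L f)(x) = LA (tauf v) f x - ∇v·∇f` -/
theorem FactsB.L (f : SA n) (x : E n) :
    ev x (Z.L f) = LA (tauf v) f.1 x - ∑ i, gr v x i * gr f.1 x i := by
  unfold SysB.L LA
  simp only [map_sub, map_sum, map_mul]
  have h1 : ∀ a b, ev x (Z.t a b) = tauf v x a b := fun a b => hZ.t a b x
  have h2 : ∀ a, ev x (Z.X a) = x a + gr v x a := fun a => hZ.X a x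
  have h3 : ∀ a, ev x (Z.D a f) = fderiv ℝ f.1 x (ee a) := fun a => hZ.D a f x
  simp only [h1, h2, h3, hZ.DD]
  rw [clm_eq_sum (fderiv ℝ f.1 x) x]
  simp only [gr, add_mul, Finset.sum_add_distrib]
  ring

theorem FactsB.g_fun (a b : Fin n) : (Z.g a b).1 = fun y => gm v y a b :=
  funext fun y => hZ.g a b y

/-- `D_c g_ab = ∂_c (D²v)_ab` -/
theorem FactsB.Dg (a b c : Fin n) (x : E n) :
    ev x (Z.D c (Z.g a b)) = fderiv ℝ (fun y => Hs v y a b) x (ee c) := by
  have h : ev x (Z.D c (Z.g a b)) = fderiv ℝ (Z.g a b).1 x (ee c) := hZ.D c _ x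
  rw [h, hZ.g_fun]
  have h1 : (fun y => gm v y a b) =
      fun y => (1 : Matrix (Fin n) (Fin n) ℝ) a b + Hs v y a b := by
    funext y; simp [gm]
  rw [h1, fderiv_const_add]

/-- `D_b p_a = δ_ab + s P_ab - lam v_ab` -/
theorem FactsB.Dp (hv : ContDiff ℝ ∞ v) (hP : ContDiff ℝ ∞ P) (a b : Fin n) (x : E n) :
    ev x (Z.D b (Z.p a)) = (if a = b then 1 else 0) + s * Hs P x a b - lam * Hs v x a b := by
  have h : Z.p a = co a + s • pd a (⟨P, hP⟩ : SA n) - lam • pd a (⟨v, hv⟩ : SA n) := by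
    refine ext_ev fun y => ?_
    exact hZ.p a y
  rw [h, hZ.D_eq, map_sub, map_add, pd_co, Derivation.map_smul, Derivation.map_smul, map_sub,
    map_add, map_smul, map_smul, smul_eq_mul, smul_eq_mul]
  have h2 : ev x (pd b (pd a (⟨P, hP⟩ : SA n))) = Hs P x b a := pd_pd_apply b a _ x
  have h3 : ev x (pd b (pd a (⟨v, hv⟩ : SA n))) = Hs v x b a := pd_pd_apply b a _ x
  rw [h2, h3, Hs_symm (hP.of_le (by norm_cast)) x b a, Hs_symm (hv.of_le (by norm_cast)) x b a]
  congr 2
  simp only [eq_comm]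
  split_ifs <;> simp

/-- `D_c D_b p_a = s P_abc - lam v_abc` -/
theorem FactsB.DDp (hv : ContDiff ℝ ∞ v) (hP : ContDiff ℝ ∞ P) (a b c : Fin n) (x : E n) :
    ev x (Z.D c (Z.D b (Z.p a))) = s * fderiv ℝ (fun y => Hs P y a b) x (ee c)
      - lam * fderiv ℝ (fun y => Hs v y a b) x (ee c) := by
  have h : (Z.D b (Z.p a)).1 =
      fun y => (if a = b then (1 : ℝ) else 0) + s * Hs P y a b - lam * Hs v y a b := by
    funext y
    exact hZ.Dp hv hP a b y
  have h1 : ev x (Z.D c (Z.D b (Z.p a))) = fderiv ℝ (Z.D b (Z.p a)).1 x (ee c) := hZ.D c _ x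
  have hp : DifferentiableAt ℝ (fun y => Hs P y a b) x :=
    ((smooth_Hs hP a b).differentiable (by simp)) x
  have hq : DifferentiableAt ℝ (fun y => Hs v y a b) x :=
    ((smooth_Hs hv a b).differentiable (by simp)) x
  have h2 : HasFDerivAt (fun y => (if a = b then (1 : ℝ) else 0) + s * Hs P y a b - lam * Hs v y a b)
      (s • fderiv ℝ (fun y => Hs P y a b) x - lam • fderiv ℝ (fun y => Hs v y a b) x) x :=
    ((hp.hasFDerivAt.const_mul s).const_add _).sub (hq.hasFDerivAt.const_mul lam)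
  rw [h1, h, h2.fderiv]
  simp

end conv

/-- the algebra element `log det g`, and its derivatives -/
theorem FactsB.logdet {v P : E n → ℝ} {lam s lo hi : ℝ} {Z : SysB n (SA n)}
    (hZ : FactsB P lam s v Z) (hv : ContDiff ℝ ∞ v) (hlo : 0 < lo)
    (hell : ∀ x, Ell lo hi (gm v x)) :
    ∃ LD : SA n, LD.1 = (fun y => Real.log (gm v y).det) ∧
      ∀ b, Z.D b LD = ∑ a, Z.X a * Z.g a b - Z.p b := by
  have hd : ∀ x, (gm v x).det ≠ 0 := fun x => (Ell.sm_det_pos hlo (hell x)).ne'
  refine ⟨⟨fun y => Real.log (gm v y).det,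
    (XInst.contDiff_det (fun i j => ECal.smooth_gm hv i j)).log hd⟩, rfl, ?_⟩
  intro b
  rw [← Z.eq b]
  refine ext_ev fun y => ?_
  have h2 : ev y (Z.D b ⟨fun y => Real.log (gm v y).det,
      (XInst.contDiff_det (fun i j => ECal.smooth_gm hv i j)).log hd⟩) =
      fderiv ℝ (fun y => Real.log (gm v y).det) y (ee b) := hZ.D b _ y
  rw [h2, ECal.fderiv_log_det_gm hv (hd y)]
  simp only [map_sum, map_mul]
  refine Finset.sum_congr rfl fun i _ => Finset.sum_congr rfl fun j _ => ?_
  have h3 : ev y (Z.t i j) = tauf v y i j := hZ.t i j y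
  have h4 : ev y (Z.D b (Z.g i j)) = fderiv ℝ (Z.g i j).1 y (ee b) := hZ.D b _ y
  rw [h3, h4, hZ.g_fun]

end Crest.Agent.R253.BrCal
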