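import Mathlib
import Crest.Agent.R253.BrInst_649

/-!
Row 253, T6 (Brenier map) (helper649): the once differentiated equation
`Lb (v_e) = v_e - s P_e` for a smooth solution of `MAb P lam s v`.
-/

set_option autoImplicit false
open scoped ContDiff Topology
open Set Filter Finset

noncomputable section

namespace Crest.Agent.R253.BrCal

open Crest.Agent.R238 Crest.Agent.R238.XInst Crest.Agent.R253.Br

variable {n : ℕ}

/-- In the algebra: `L (∂_e v) = X_e - p_e`. -/
theorem FactsB.L_pd {v P : E n → ℝ} {lam s : ℝ} {Z : SysB n (SA n)} (hZ : FactsB P lam s v Z)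
    (hv : ContDiff ℝ ∞ v) (e : Fin n) :
    Z.L (pd e ⟨v, hv⟩) = Z.X e - Z.p e := by
  set V : SA n := ⟨v, hv⟩ with hV
  have hX : ∀ a, Z.X a = co a + pd a V := by
    intro a
    refine ext_ev fun y => ?_
    exact hZ.X a y
  have hD : ∀ a, Z.D a (pd e V) = Z.g a e - (if a = e then 1 else 0) := by
    intro a
    rw [← Z.DX a e, hX e, map_add, hZ.D_eq a (co e), pd_co]
    ring
  have hDD : ∀ a b, Z.D a (Z.D b (pd e V)) = Z.D e (Z.g a b) := by
    intro a b
    rw [hD b, map_sub, Z.D_delta, sub_zero, Z.gcod b e a, Z.T_symm1 a e b, Z.gcod e a b,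
      Z.T_symm1 b a e]
  unfold SysB.L
  simp only [hDD]
  simp only [hD, mul_sub, Finset.sum_sub_distrib]
  rw [Z.eq e]
  simp

/-- **the differentiated equation**: `Lb (∂_e v) = ∂_e v - s ∂_e P`. -/
theorem ma_diffB {v P : E n → ℝ} {lam s lo hi : ℝ} (hP : ContDiff ℝ ∞ P) (hv : ContDiff ℝ ∞ v)
    (hlo : 0 < lo) (hell : ∀ x, Ell lo hi (gm v x)) (hma : MAb P lam s v) (e : Fin n) (x : E n) :
    Lb lam (gr v) (tauf v) (fun y => gr v y e) x = gr v x e - s * gr P x e := by
  obtain ⟨Z, hZ⟩ := exists_factsB hv hP hlo hell hma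
  have h1 := congrArg (ev x) (hZ.L_pd hv e)
  rw [hZ.L _ x, map_sub] at h1
  have h2 : ev x (Z.X e) = x e + gr v x e := hZ.X e x
  have h3 : ev x (Z.p e) = x e + s * gr P x e - lam * gr v x e := hZ.p e x
  have h4 : (pd e (⟨v, hv⟩ : SA n)).1 = fun y => gr v y e := rfl
  rw [h2, h3, h4] at h1
  unfold Lb
  rw [h1]
  ring

end Crest.Agent.R253.BrCal
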