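import Mathlib
import Crest.Agent.R253.BrInst_649

/-!
Row 253, T6 (Brenier map), node B5 `Br.PwB` (helper649): the pointwise identities for the second
derivatives and for `log det` of a smooth solution of `MAb P lam s v`
(port of `R238.ECalE12` of helper640).
-/

set_option autoImplicit false
open scoped ContDiff Topology
open Set Filter Finset

noncomputable section

namespace Crest.Agent.R253.BrCal

open Crest.Agent.R238 Crest.Agent.R238.XInst Crest.Agent.R253.Br

variable {n : ℕ}

/-- `(g²)(z,z) = |z|² + 2 D²v(z,z) + |D²v z|²`. -/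
theorem sum_gg (v : E n → ℝ) (hv : ContDiff ℝ ∞ v) (z : Fin n → ℝ) (x : E n) :
    ∑ e, ∑ f, z e * z f * ∑ a, gm v x e a * gm v x a f =
      ∑ i, z i ^ 2 + 2 * qfB v z x + ∑ a, (∑ e, z e * Hs v x e a) ^ 2 := by
  have hs : ∀ i j, Hs v x i j = Hs v x j i := fun i j => Hs_symm (hv.of_le (by norm_cast)) x i j
  have hg : ∀ a, ∑ e, z e * gm v x e a = z a + ∑ e, z e * Hs v x e a := by
    intro a
    simp only [gm, Matrix.add_apply, Matrix.of_apply, Matrix.one_apply, mul_add,
      Finset.sum_add_distrib]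
    simp
  have hg2 : ∀ a, ∑ f, z f * gm v x a f = z a + ∑ e, z e * Hs v x e a := by
    intro a
    rw [← hg a]
    refine Finset.sum_congr rfl fun f _ => ?_
    have h3 : (1 : Matrix (Fin n) (Fin n) ℝ) a f = (1 : Matrix (Fin n) (Fin n) ℝ) f a := by
      rw [Matrix.one_apply, Matrix.one_apply]
      simp only [eq_comm]
    simp only [gm, Matrix.add_apply, Matrix.of_apply, h3, hs a f]
  have h1 : ∑ e, ∑ f, z e * z f * ∑ a, gm v x e a * gm v x a f =
      ∑ a, (∑ e, z e * gm v x e a) * ∑ f, z f * gm v x a f := by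
    simp only [Finset.mul_sum, Finset.sum_mul]
    rw [Finset.sum_congr rfl fun e _ => Finset.sum_comm, Finset.sum_comm]
    refine Finset.sum_congr rfl fun a _ => ?_
    rw [Finset.sum_comm]
    refine Finset.sum_congr rfl fun e _ => Finset.sum_congr rfl fun f _ => by ring
  have h2 : ∑ a, z a * ∑ e, z e * Hs v x e a = qfB v z x := by
    unfold qfB
    simp only [Finset.mul_sum]
    refine Finset.sum_congr rfl fun a _ => Finset.sum_congr rfl fun e _ => ?_
    rw [hs a e]; ring
  rw [h1, ← h2]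
  simp only [hg, hg2, Finset.mul_sum, ← Finset.sum_add_distrib]
  refine Finset.sum_congr rfl fun a _ => ?_
  rw [← Finset.mul_sum, ← Finset.mul_sum]
  ring

/-- quadratic form of (E1): `LA τ u_zz - ∇v·∇u_zz = tr(τ G τ G) + |D²u z|² - Dp(z,z)`. -/
theorem FactsB.L_qf {v P : E n → ℝ} {lam s : ℝ} {Z : SysB n (SA n)} (hZ : FactsB P lam s v Z)
    (hv : ContDiff ℝ ∞ v) (hP : ContDiff ℝ ∞ P)
    (hsym : ∀ x i j, tauf v x i j = tauf v x j i) (z : Fin n → ℝ) (x : E n) :
    LA (tauf v) (qfB v z) x - ∑ i, gr v x i * gr (qfB v z) x i =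
      (tauf v x * (Matrix.of fun i j => ∑ e, z e * fderiv ℝ (fun y => Hs v y i j) x (ee e)) *
        tauf v x *
        (Matrix.of fun i j => ∑ e, z e * fderiv ℝ (fun y => Hs v y i j) x (ee e))).trace +
      ∑ a, (∑ e, z e * Hs v x e a) ^ 2 + 2 * qfB v z x
      - ∑ i, ∑ j, pmB P s x i j * z i * z j + lam * qfB v z x := by
  set W : SA n := ∑ e, ∑ f, (z e * z f) • Z.g e f - algebraMap ℝ (SA n) (∑ i, z i ^ 2) with hW
  have hWf : W.1 = qfB v z := by
    funext y
    have h1 : W.1 y = ev y W := rfl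
    rw [h1, hW]
    simp only [map_sub, map_sum, map_smul, smul_eq_mul]
    have h2 : ∀ e f, ev y (Z.g e f) = (1 : Matrix (Fin n) (Fin n) ℝ) e f + Hs v y e f :=
      fun e f => hZ.g e f y
    have h3 : ∀ c : ℝ, ev y (algebraMap ℝ (SA n) c) = c := fun c => rfl
    simp only [h2, h3, qfB, mul_add, Finset.sum_add_distrib, Matrix.one_apply]
    simp only [mul_ite, mul_one, mul_zero, Finset.sum_ite_eq, Finset.mem_univ, if_true]
    have h4 : ∑ e, ∑ f, z e * z f * Hs v y e f = ∑ e, ∑ f, Hs v y e f * z e * z f :=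
      Finset.sum_congr rfl fun e _ => Finset.sum_congr rfl fun f _ => by ring
    rw [h4]
    have h5 : ∑ e, z e * z e = ∑ i, z i ^ 2 := Finset.sum_congr rfl fun e _ => by ring
    rw [h5]
    ring
  rw [← hWf, ← hZ.L W x]
  have hLW : Z.L W = ∑ e, ∑ f, (z e * z f) • Z.L (Z.g e f) := by
    have h1 : W = ∑ e, ∑ f, (z e * z f) • Z.g e f + (-1 : ℝ) •
        algebraMap ℝ (SA n) (∑ i, z i ^ 2) := by
      rw [hW]; simp [sub_eq_add_neg]
    rw [h1, Z.L_add, Z.L_smul, Z.L_algebraMap, smul_zero, add_zero, Z.L_sum]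
    refine Finset.sum_congr rfl fun e _ => ?_
    rw [Z.L_sum]
    exact Finset.sum_congr rfl fun f _ => Z.L_smul _ _
  rw [hLW, hWf]
  have hT : ∀ a b, ev x (Z.t a b) = tauf v x a b := fun a b => hZ.t a b x
  have hg : ∀ a b, ev x (Z.g a b) = gm v x a b := fun a b => hZ.g a b x
  simp only [map_sum, map_smul, smul_eq_mul, Z.E1, map_sub, map_add, map_mul, hT, hg,
    hZ.Dg, hZ.Dp hv hP]
  have e0 := sum_gg v hv z x
  have e2 : ∑ e, ∑ f, z e * z f * (if e = f then (1 : ℝ) else 0) = ∑ i, z i ^ 2 := by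
    simp only [mul_ite, mul_one, mul_zero, Finset.sum_ite_eq, Finset.mem_univ, if_true]
    exact Finset.sum_congr rfl fun e _ => by ring
  have e3 : ∑ e, ∑ f, z e * z f * (s * Hs P x e f) = ∑ i, ∑ j, pmB P s x i j * z i * z j := by
    simp only [pmB, Matrix.of_apply]
    exact Finset.sum_congr rfl fun e _ => Finset.sum_congr rfl fun f _ => by ring
  have e4 : ∑ e, ∑ f, z e * z f * (lam * Hs v x e f) = lam * qfB v z x := by
    simp only [qfB, Finset.mul_sum]
    exact Finset.sum_congr rfl fun e _ => Finset.sum_congr rfl fun f _ => by ring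
  have hGs : ∀ i j e, fderiv ℝ (fun y => Hs v y i j) x (ee e) =
      fderiv ℝ (fun y => Hs v y j i) x (ee e) := by
    intro i j e
    have h1 : (fun y => Hs v y i j) = fun y => Hs v y j i := by
      funext y
      exact Hs_symm (hv.of_le (by norm_cast)) y i j
    rw [h1]
  rw [ECal.trace_rearr (tauf v x) (fun i j => hsym x i j)
    (fun i j e => fderiv ℝ (fun y => Hs v y i j) x (ee e)) hGs z]
  simp only [mul_sub, mul_add, Finset.sum_sub_distrib, Finset.sum_add_distrib] at e0 ⊢
  rw [e0, e2, e3, e4]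
  ring

/-- (i) of `PwB` -/
theorem pw_i {v P : E n → ℝ} {lam s lo hi : ℝ} (hP : ContDiff ℝ ∞ P) (hv : ContDiff ℝ ∞ v)
    (hlo : 0 < lo) (hell : ∀ x, Ell lo hi (gm v x)) (hma : MAb P lam s v)
    (z : Fin n → ℝ) (x : E n) :
    2 * qfB v z x - ∑ i, ∑ j, pmB P s x i j * z i * z j ≤
      Lb lam (gr v) (tauf v) (qfB v z) x := by
  obtain ⟨Z, hZ⟩ := exists_factsB hv hP hlo hell hma
  have h0 := hZ.L_qf hv hP (fun x i j => Ell.sm_inv_symm (hell x) i j) z x
  have h1 := MaxP.trace_sandwich_nonneg (A := tauf v x)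
    (G := Matrix.of fun i j => ∑ e, z e * fderiv ℝ (fun y => Hs v y i j) x (ee e))
    (MaxP.Ell.posDef hlo (hell x)).inv.posSemidef (by
      ext i j
      simp only [Matrix.transpose_apply, Matrix.of_apply]
      refine Finset.sum_congr rfl fun e _ => ?_
      have h1 : (fun y => Hs v y j i) = fun y => Hs v y i j := by
        funext y
        exact Hs_symm (hv.of_le (by norm_cast)) y j i
      rw [h1])
  have h2 : 0 ≤ ∑ a, (∑ e, z e * Hs v x e a) ^ 2 := Finset.sum_nonneg fun a _ => sq_nonneg _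
  unfold Lb
  linarith

/-- (ii) of `PwB` -/
theorem pw_ii {v P : E n → ℝ} {lam s lo hi : ℝ} (hP : ContDiff ℝ ∞ P) (hv : ContDiff ℝ ∞ v)
    (hlo : 0 < lo) (hell : ∀ x, Ell lo hi (gm v x)) (hma : MAb P lam s v) (x : E n) :
    LA (tauf v) (fun y => Real.log (gm v y).det) x
        - ∑ i, gr v x i * gr (fun y => Real.log (gm v y).det) x i
      = (gm v x).trace - (tauf v x * (1 + pmB P s x)).trace + lam * (n - (tauf v x).trace) := by
  obtain ⟨Z, hZ⟩ := exists_factsB hv hP hlo hell hma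
  obtain ⟨LD, hLD, hb⟩ := hZ.logdet hv hlo hell
  have h5 := congrArg (ev x) (Z.L_logdet LD hb)
  rw [hZ.L LD x, hLD] at h5
  rw [h5]
  have hT : ∀ a b, ev x (Z.t a b) = tauf v x a b := fun a b => hZ.t a b x
  have hg : ∀ a b, ev x (Z.g a b) = gm v x a b := fun a b => hZ.g a b x
  have h6 := congrArg (ev x) Z.tr_tg
  simp only [map_sum, map_mul, map_natCast, hT, hg] at h6
  simp only [map_sub, map_sum, map_mul, hZ.Dp hv hP, hT, hg]
  have hs : ∀ i j, Hs v x i j = Hs v x j i := fun i j => Hs_symm (hv.of_le (by norm_cast)) x i j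
  have hsP : ∀ i j, Hs P x i j = Hs P x j i := fun i j => Hs_symm (hP.of_le (by norm_cast)) x i j
  have e1 : ∑ a, gm v x a a = (gm v x).trace := rfl
  have e2 : (tauf v x * (1 + pmB P s x)).trace =
      ∑ a, ∑ b, tauf v x a b * ((if b = a then 1 else 0) + s * Hs P x b a) := by
    simp only [Matrix.trace, Matrix.diag_apply, Matrix.mul_apply, Matrix.add_apply,
      Matrix.one_apply, pmB, Matrix.of_apply]
  have e3 : ∑ a, ∑ b, tauf v x a b * (lam * Hs v x b a) = lam * (n - (tauf v x).trace) := by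
    have h7 : ∀ a b, Hs v x b a = gm v x a b - (if a = b then 1 else 0) := by
      intro a b
      simp only [gm, Matrix.add_apply, Matrix.of_apply, Matrix.one_apply, hs b a]
      ring
    have h8 : ∑ a, ∑ b, tauf v x a b * (if a = b then (1 : ℝ) else 0) = (tauf v x).trace := by
      simp [Matrix.trace]
    have h9 : ∀ a b, tauf v x a b * (lam * Hs v x b a) =
        lam * (tauf v x a b * gm v x a b) - lam * (tauf v x a b * (if a = b then 1 else 0)) := by
      intro a b
      rw [h7]; ring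
    simp only [h9, Finset.sum_sub_distrib, ← Finset.mul_sum]
    rw [h6, h8]
    ring
  rw [e1, e2, ← e3]
  simp only [mul_sub, mul_add, Finset.sum_sub_distrib, Finset.sum_add_distrib]
  ring

/-- **B5** of task T6. -/
theorem pwB : Br.PwB := by
  intro n P v lam s lo hi hP hv hlo hell hma
  exact ⟨fun z x => pw_i hP hv hlo hell hma z x, fun x => pw_ii hP hv hlo hell hma x⟩

end Crest.Agent.R253.BrCal
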