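import Crest.Agent.R253.MaxB_505
import Crest.Agent.R253.BrPC_505
import Crest.Agent.R238.MaxPE
import Crest.Agent.R253.PwB_649
import Crest.Agent.R253.MaDiff_649

/-!
Row 253 (S0391), task T6, node B7 half 1 (helper932): uniform bounds of solutions of `MAb`:
ellipticity (E1, E2), decay of the second derivatives at infinity (E3).
Port of R238/MaxPE with a drift and the zero order term `- lam v`.
-/

set_option autoImplicit false

open Set Filter
open scoped ContDiff Topology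

namespace Crest.Agent.R253.Br

open Crest.Agent.R238 Crest.Agent.R238.MaxP

variable {n : ℕ}

/-- exterior comparison, the differential inequality is needed only where `w > 0` -/
theorem ext_cmp {τ : E n → Matrix (Fin n) (Fin n) ℝ} (hτ : ∀ x, (τ x).PosSemidef)
    {T : ℝ} (hT : ∀ x, (τ x).trace ≤ T) {b : E n → Fin n → ℝ} {B : ℝ}
    (hb : ∀ x i, |b x i| ≤ B) {w : E n → ℝ} (hw : ContDiff ℝ 2 w) {M : ℝ}
    (hM : ∀ x, w x ≤ M) {R K κ : ℝ} (hR : 0 ≤ R) (hRT : 5 * T ≤ 1 + R ^ 2)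
    (hRB : 4 * (n * B) ≤ R) (hK : 0 ≤ K) (hκ : 8 * κ ≤ K)
    (hin : ∀ x, ‖x‖ ≤ R → w x ≤ K * Bar x)
    (hout : ∀ x, R < ‖x‖ → 0 < w x →
      w x - κ * Bar x ≤ LA τ w x - ∑ i, b x i * gr w x i) (x : E n) :
    w x ≤ K * Bar x := by
  have hc : ContDiff ℝ 2 (fun y : E n => K * Bar y) := contDiff_const.mul contDiff_Bar
  have hw2 : ContDiff ℝ 2 (fun y => w y - K * Bar y) := hw.sub hc
  have hd1 : Differentiable ℝ w := hw.differentiable (by norm_num)
  have hd2 : Differentiable ℝ (fun y : E n => K * Bar y) := hc.differentiable (by norm_num)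
  have hd3 : Differentiable ℝ (Bar : E n → ℝ) := contDiff_Bar.differentiable (by norm_num)
  have key := maxB hτ hT hb hw2 (M := M) (c0 := 1) (a := 0) (fun y => ?_) one_pos ?_ x
  · linarith
  · have := hM y
    have := mul_nonneg hK (Bar_pos y).le
    linarith
  · intro y hy
    have hyR : R < ‖y‖ := by
      by_contra hcon
      have := hin y (not_lt.1 hcon)
      linarith
    have hy0 : 0 < ‖y‖ := hR.trans_lt hyR
    have hs : 5 * T ≤ 1 + ‖y‖ ^ 2 := by
      have : R ^ 2 ≤ ‖y‖ ^ 2 := pow_le_pow_left₀ hR hyR.le 2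
      linarith
    have hs2 : 4 * (n * B) * ‖y‖ ≤ 1 + ‖y‖ ^ 2 := by
      have h1 : 4 * (n * B) * ‖y‖ ≤ ‖y‖ * ‖y‖ :=
        mul_le_mul_of_nonneg_right (hRB.trans hyR.le) hy0.le
      nlinarith
    rw [LA_sub τ hw hc, LA_const_mul τ contDiff_Bar]
    have h4 := mul_nonneg hK (Bar_pos y).le
    have h1 := hout y hyR (by linarith)
    have h2 := LbBar_le hτ hT hb y hs hs2
    have h3 := mul_le_mul_of_nonneg_left h2 hK
    have h5 : 8 * κ * Bar y ≤ K * Bar y := mul_le_mul_of_nonneg_right hκ (Bar_pos y).le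
    have h6 : ∑ i, b y i * gr (fun y => w y - K * Bar y) y i
        = ∑ i, b y i * gr w y i - K * ∑ i, b y i * gr Bar y i := by
      rw [Finset.mul_sum, ← Finset.sum_sub_distrib]
      refine Finset.sum_congr rfl fun i _ => ?_
      rw [gr_sub hd1 hd2, gr_const_mul hd3]
      ring
    rw [h6]
    linarith

/-- (E1) global upper bound: `D²v ≤ κ`, `κ ≥ 0`. -/
theorem E1B {v : E n → ℝ} (hv : ContDiff ℝ 4 v) {lo0 hi0 : ℝ} (hlo0 : 0 < lo0)
    (hell : ∀ x, Ell lo0 hi0 (gm v x)) {B lam : ℝ} (hlam : 0 ≤ lam)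
    (hb : ∀ x i, |gr v x i| ≤ B)
    {p : E n → Matrix (Fin n) (Fin n) ℝ} {κ : ℝ} (hκ : 0 ≤ κ)
    (hp : ∀ x z, Q (p x) z ≤ κ * ∑ i, z i ^ 2)
    (H1 : ∀ z x, 2 * qf v z x - Q (p x) z ≤ Lb lam (gr v) (tauf v) (qf v z) x) :
    ∀ x z, qf v z x ≤ κ * ∑ i, z i ^ 2 := by
  intro x z
  have hτ : ∀ x, (tauf v x).PosSemidef := fun x => (Ell.posDef hlo0 (hell x)).inv.posSemidef
  have hT : ∀ x, (tauf v x).trace ≤ n / lo0 := fun x => Ell.trace_inv_le hlo0 (hell x)
  have h3 : 0 ≤ ∑ i, z i ^ 2 := Finset.sum_nonneg fun i _ => sq_nonneg _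
  refine maxB hτ hT hb (contDiff_qf hv z) (M := hi0 * ∑ i, z i ^ 2) (c0 := 1)
    (a := κ * ∑ i, z i ^ 2) (fun y => ?_) one_pos (fun y hy => ?_) x
  · have h1 := ((hell y).2 z).2
    have h2 := Q_gm v y z
    unfold Q at h2
    linarith
  · have h1 := H1 z y
    have h2 := hp y z
    have h4 : 0 ≤ qf v z y := (mul_nonneg hκ h3).trans hy.le
    have h5 : 0 ≤ lam * qf v z y := mul_nonneg hlam h4
    unfold Lb at h1
    linarith

theorem trace_le_of_form {A : Matrix (Fin n) (Fin n) ℝ} {C : ℝ}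
    (h : ∀ z : Fin n → ℝ, Q A z ≤ C * ∑ i, z i ^ 2) : A.trace ≤ n * C := by
  have h1 : ∀ i : Fin n, A i i ≤ C := by
    intro i
    have h2 := h (fun k => if k = i then 1 else 0)
    have e1 : Q A (fun k => if k = i then 1 else 0) = A i i := by
      unfold Q
      simp
    have e2 : ∑ k : Fin n, (if k = i then (1 : ℝ) else 0) ^ 2 = 1 := by
      simp
    rw [e1, e2, mul_one] at h2
    exact h2
  unfold Matrix.trace
  calc ∑ i, A.diag i ≤ ∑ _i : Fin n, C := Finset.sum_le_sum fun i _ => h1 i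
    _ = n * C := by simp

/-- (E2) global lower bound of the determinant. -/
theorem E2B_det {v : E n → ℝ} (hv : ContDiff ℝ 4 v) {lo0 hi0 : ℝ} (hlo0 : 0 < lo0)
    (hell : ∀ x, Ell lo0 hi0 (gm v x)) {B lam : ℝ} (hlam : 0 ≤ lam) (hlam1 : lam ≤ 1)
    (hb : ∀ x i, |gr v x i| ≤ B)
    {p : E n → Matrix (Fin n) (Fin n) ℝ} {c C : ℝ}
    (hc : 0 < c) (hps : ∀ x i j, p x i j = p x j i)
    (hup : ∀ x z, Q (gm v x) z ≤ C * ∑ i, z i ^ 2)
    (hp : ∀ x z, c * ∑ i, z i ^ 2 ≤ ∑ i, z i ^ 2 + Q (p x) z)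
    (H2 : ∀ x, LA (tauf v) (fun y => Real.log (gm v y).det) x
        - ∑ i, gr v x i * gr (fun y => Real.log (gm v y).det) x i
      = (gm v x).trace - (tauf v x * (1 + p x)).trace + lam * (n - (tauf v x).trace)) :
    ∀ x, -(n * C - n * Real.log c) ≤ Real.log (gm v x).det := by
  intro x
  have hpd : ∀ x, (gm v x).PosDef := fun x => Ell.posDef hlo0 (hell x)
  have hτ : ∀ x, (tauf v x).PosSemidef := fun x => (hpd x).inv.posSemidef
  have hT : ∀ x, (tauf v x).trace ≤ n / lo0 := fun x => Ell.trace_inv_le hlo0 (hell x)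
  have hcd : ContDiff ℝ 2 (fun y => Real.log (gm v y).det) :=
    (contDiff_det (contDiff_gm hv)).log (fun y => (hpd y).det_pos.ne')
  have key := maxB hτ hT hb hcd.neg (M := n / lo0 - n) (c0 := 1)
    (a := n * C - n * Real.log c) (fun y => ?_) one_pos (fun y hy => ?_) x
  · linarith
  · have h1 := log_det_ge (hpd y) one_pos
    have h2 := hT y
    simp only [Real.log_one, mul_zero, add_zero, one_mul] at h1
    unfold tauf at h2
    show -Real.log (gm v y).det ≤ _
    linarith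
  · rw [LA_neg _ hcd]
    have h1 := H2 y
    have h2 : c * (tauf v y).trace ≤ (tauf v y * (1 + p y)).trace := by
      refine trace_mul_ge (hτ y) ?_ ?_
      · ext i j
        simp [Matrix.transpose_apply, Matrix.one_apply, hps y j i, eq_comm]
      · intro z
        have h3 := hp y z
        have h4 : Q (1 + p y) z = ∑ i, z i ^ 2 + Q (p y) z := by
          have h5 : (1 + p y) = p y - (-1 : ℝ) • (1 : Matrix _ _ ℝ) := by
            simp [add_comm]
          rw [h5, Q_sub, Q_smul_one]; ring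
        rw [h4]; exact h3
    have h3 := log_det_ge (hpd y) hc
    have h6 : (gm v y).trace ≤ n * C := trace_le_of_form (hup y)
    have h7 : 0 ≤ (tauf v y).trace := (hτ y).trace_nonneg
    have h8 : 0 ≤ lam * (tauf v y).trace := mul_nonneg hlam h7
    have h9 : lam * n ≤ 1 * n := mul_le_mul_of_nonneg_right hlam1 (Nat.cast_nonneg n)
    have h10 : ∑ i, gr v y i * gr (fun y => -Real.log (gm v y).det) y i
        = - ∑ i, gr v y i * gr (fun y => Real.log (gm v y).det) y i := by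
      rw [← Finset.sum_neg_distrib]
      refine Finset.sum_congr rfl fun i _ => ?_
      rw [gr_neg]; ring
    rw [mul_sub] at h1
    unfold tauf at h2 h7 h8 ⊢
    unfold tauf at h1
    show 1 * (-Real.log (gm v y).det - (n * C - n * Real.log c)) ≤ _
    rw [h10]
    linarith

/-- (E3) decay of `D²v` at infinity. -/
theorem E3B {v : E n → ℝ} (hv : ContDiff ℝ 4 v) {lo C R : ℝ} (hlo : 0 < lo)
    (hell : ∀ x, Ell lo C (gm v x)) {B lam : ℝ} (hlam : 0 ≤ lam)
    (hb : ∀ x i, |gr v x i| ≤ B) {l : ℝ} (hl : ∀ x, -l ≤ Real.log (gm v x).det)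
    (hR : 0 ≤ R) (hRT : 5 * (n / lo) ≤ 1 + R ^ 2) (hRB : 4 * (n * B) ≤ R)
    (H1 : ∀ z x, R < ‖x‖ → 2 * qf v z x ≤ Lb lam (gr v) (tauf v) (qf v z) x)
    (H2 : ∀ x, R < ‖x‖ → LA (tauf v) (fun y => Real.log (gm v y).det) x
        - ∑ i, gr v x i * gr (fun y => Real.log (gm v y).det) x i
      = (gm v x).trace - (tauf v x).trace + lam * (n - (tauf v x).trace)) {K1 K2 : ℝ}
    (hK1 : 0 ≤ K1) (hK2 : 8 * (n * K1) ≤ K2)
    (hK1' : C - 1 ≤ K1 * (1 + R ^ 2) ^ (-(1/4) : ℝ))
    (hK2' : l ≤ K2 * (1 + R ^ 2) ^ (-(1/4) : ℝ)) :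
    ∀ x i j, |Hs v x i j| ≤ n * (K1 + K2) * Bar x := by
  intro x
  have hn0 : (0 : ℝ) ≤ n := Nat.cast_nonneg n
  have hK20 : 0 ≤ K2 := by
    have : 0 ≤ n * K1 := mul_nonneg hn0 hK1
    linarith
  have hpd : ∀ x, (gm v x).PosDef := fun x => Ell.posDef hlo (hell x)
  have hτ : ∀ x, (tauf v x).PosSemidef := fun x => (hpd x).inv.posSemidef
  have hT : ∀ x, (tauf v x).trace ≤ n / lo := fun x => Ell.trace_inv_le hlo (hell x)
  have hcd : ContDiff ℝ 2 (fun y => Real.log (gm v y).det) :=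
    (contDiff_det (contDiff_gm hv)).log (fun y => (hpd y).det_pos.ne')
  have hform : ∀ y z, qf v z y ≤ (C - 1) * ∑ i, z i ^ 2 := by
    intro y z
    have h1 := ((hell y).2 z).2
    have h2 := Q_gm v y z
    unfold Q at h2
    linarith
  have hKB : ∀ K : ℝ, 0 ≤ K → ∀ y : E n, ‖y‖ ≤ R →
      K * (1 + R ^ 2) ^ (-(1/4) : ℝ) ≤ K * Bar y := fun K hK y hy =>
    mul_le_mul_of_nonneg_left (Bar_anti hy) hK
  -- upper bound
  have hup : ∀ x z, qf v z x ≤ K1 * Bar x * ∑ i, z i ^ 2 := by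
    intro x z
    set N := ∑ i, z i ^ 2 with hN
    have hN0 : 0 ≤ N := Finset.sum_nonneg fun i _ => sq_nonneg _
    have := ext_cmp hτ hT hb (contDiff_qf hv z) (M := (C - 1) * N) (R := R)
      (K := K1 * N) (κ := 0) (fun y => hform y z) hR hRT hRB (mul_nonneg hK1 hN0)
      (by rw [mul_zero]; exact mul_nonneg hK1 hN0) (fun y hy => ?_)
      (fun y hy hpos => ?_) x
    · linarith
    · have h1 := hform y z
      have h2 := hKB K1 hK1 y hy
      have h3 : (C - 1) * N ≤ K1 * Bar y * N := mul_le_mul_of_nonneg_right (hK1'.trans h2) hN0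
      linarith
    · have h1 := H1 z y hy
      have h5 : 0 ≤ lam * qf v z y := mul_nonneg hlam hpos.le
      unfold Lb at h1
      rw [zero_mul, sub_zero]
      linarith
  -- trace
  have htr : ∀ y, (gm v y).trace ≤ n + n * (K1 * Bar y) := by
    intro y
    have h1 := trace_le_of_form (A := gm v y) (C := 1 + K1 * Bar y) (fun z => by
      rw [Q_gm]
      have := hup y z
      linarith)
    linarith
  have hdet : ∀ x, -(K2 * Bar x) ≤ Real.log (gm v x).det := by
    intro x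
    have := ext_cmp hτ hT hb hcd.neg (M := l) (R := R) (K := K2) (κ := n * K1)
      (fun y => by have := hl y; show -Real.log (gm v y).det ≤ _; linarith) hR hRT hRB hK20 hK2
      (fun y hy => ?_) (fun y hy hpos => ?_) x
    · have h0 : -Real.log (gm v x).det ≤ K2 * Bar x := this
      linarith
    · have h1 := hl y
      have h2 := hKB K2 hK20 y hy
      show -Real.log (gm v y).det ≤ _
      linarith
    · have hpos' : 0 < -Real.log (gm v y).det := hpos
      rw [LA_neg _ hcd]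
      have h1 := H2 y hy
      have h2 := log_det_ge (hpd y) one_pos
      simp only [Real.log_one, mul_zero, add_zero, one_mul] at h2
      have h3 := htr y
      have h7 : 0 ≤ lam * ((tauf v y).trace - n) := by
        refine mul_nonneg hlam ?_
        unfold tauf
        linarith
      have h10 : ∑ i, gr v y i * gr (fun y => -Real.log (gm v y).det) y i
          = - ∑ i, gr v y i * gr (fun y => Real.log (gm v y).det) y i := by
        rw [← Finset.sum_neg_distrib]
        refine Finset.sum_congr rfl fun i _ => ?_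
        rw [gr_neg]; ring
      unfold tauf at h1 h7 ⊢
      show -Real.log (gm v y).det - n * K1 * Bar y ≤ _
      rw [h10]
      linarith
  set K := K1 + K2 with hKdef
  have hK : 0 ≤ K := add_nonneg hK1 hK20
  have hB0 := (Bar_pos x).le
  have hK1B : 0 ≤ K1 * Bar x := mul_nonneg hK1 hB0
  have hK2B : 0 ≤ K2 * Bar x := mul_nonneg hK20 hB0
  have hKe : K * Bar x = K1 * Bar x + K2 * Bar x := by rw [hKdef]; ring
  have hup' : ∀ z, qf v z x ≤ K * Bar x * ∑ i, z i ^ 2 := by
    intro z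
    refine (hup x z).trans (mul_le_mul_of_nonneg_right (by linarith)
      (Finset.sum_nonneg fun i _ => sq_nonneg _))
  have hdet' : -(K * Bar x) ≤ Real.log (gm v x).det := by
    have := hdet x
    linarith
  have hKB0 : 0 ≤ K * Bar x := mul_nonneg hK hB0
  have hlow : ∀ z, -(n * (K * Bar x)) * ∑ i, z i ^ 2 ≤ qf v z x := by
    intro z
    have h1 := form_ge_of_det (hpd x) (a := K * Bar x) (b := K * Bar x)
      (fun z => by
        rw [Q_gm]
        have h2 := hup' z
        have h3 : 1 + K * Bar x ≤ Real.exp (K * Bar x) := by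
          linarith [Real.add_one_le_exp (K * Bar x)]
        have h4 : 0 ≤ ∑ i, z i ^ 2 := Finset.sum_nonneg fun i _ => sq_nonneg _
        have h5 := mul_le_mul_of_nonneg_right h3 h4
        linarith) hdet' z
    rw [Q_gm] at h1
    have h2 : -(K * Bar x) - ((n : ℝ) - 1) * (K * Bar x) = -(n * (K * Bar x)) := by ring
    rw [h2] at h1
    have h3 : 1 - n * (K * Bar x) ≤ Real.exp (-(n * (K * Bar x))) := by
      linarith [Real.add_one_le_exp (-(n * (K * Bar x)))]
    have h4 : 0 ≤ ∑ i, z i ^ 2 := Finset.sum_nonneg fun i _ => sq_nonneg _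
    have h5 := mul_le_mul_of_nonneg_right h3 h4
    linarith
  have habs : ∀ z, |qf v z x| ≤ n * K * Bar x * ∑ i, z i ^ 2 := by
    intro z
    have h4 : 0 ≤ ∑ i, z i ^ 2 := Finset.sum_nonneg fun i _ => sq_nonneg _
    rcases Nat.eq_zero_or_pos n with hn | hn
    · subst hn
      simp [qf]
    · have h6 : (1 : ℝ) ≤ n := by exact_mod_cast hn
      rw [abs_le]
      constructor
      · have := hlow z; linarith
      · refine (hup' z).trans ?_
        have : K * Bar x ≤ n * (K * Bar x) := by nlinarith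
        nlinarith
  have hsym : ∀ i j, Hs v x i j = Hs v x j i := by
    intro i j
    have := (hell x).1 i j
    rw [gm_apply, gm_apply] at this
    have h1 : (1 : Matrix (Fin n) (Fin n) ℝ) i j = (1 : Matrix (Fin n) (Fin n) ℝ) j i := by
      simp [Matrix.one_apply, eq_comm]
    linarith
  intro i j
  exact entry_le_of_form (A := Matrix.of (fun i j => Hs v x i j)) hsym
    (fun z => by simpa [Q, qf] using habs z) i j

/-! ### the two sup bounds -/

theorem NiceB.bd0 {v : E n → ℝ} (hv : NiceB v) : ∃ C : ℝ, ∀ x, |v x| ≤ C := by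
  obtain ⟨C, hC⟩ := hv.bdd 0
  refine ⟨C, fun x => ?_⟩
  have := hC x
  rwa [norm_iteratedFDeriv_zero, Real.norm_eq_abs] at this

theorem NiceB.bd1 {v : E n → ℝ} (hv : NiceB v) : ∃ C : ℝ, ∀ x i, |gr v x i| ≤ C := by
  obtain ⟨C, hC⟩ := hv.bdd 1
  refine ⟨C, fun x i => ?_⟩
  have h1 := hC x
  rw [norm_iteratedFDeriv_one] at h1
  have h2 := (fderiv ℝ v x).le_opNorm (ee i)
  rw [norm_ee, mul_one, Real.norm_eq_abs] at h2
  exact h2.trans h1

theorem contDiff_gr {v : E n → ℝ} (hv : ContDiff ℝ ∞ v) (i : Fin n) :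
    ContDiff ℝ 2 (fun x => gr v x i) := by
  unfold gr
  have h1 : ContDiff ℝ 3 v := by exact_mod_cast contDiff_infty.1 hv 3
  have h2 : ContDiff ℝ 2 (fderiv ℝ v) := h1.fderiv_right (by norm_num)
  exact h2.clm_apply contDiff_const

/-- **gradient bound** -/
theorem gr_le {P v : E n → ℝ} {lam s lo hi M1 : ℝ} (hv : NiceB v) (hlo : 0 < lo)
    (hell : ∀ x, Ell lo hi (gm v x)) (hma : MAb P lam s v) (hlam : 0 < lam) (hs0 : 0 ≤ s)
    (hs1 : s ≤ 1) (hPs : ContDiff ℝ ∞ P) (hP1 : ∀ x i, |gr P x i| ≤ M1) :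
    ∀ x i, |gr v x i| ≤ M1 := by
  intro x e
  have hτ : ∀ x, (tauf v x).PosSemidef := fun x => (Ell.posDef hlo (hell x)).inv.posSemidef
  have hT : ∀ x, (tauf v x).trace ≤ n / lo := fun x => Ell.trace_inv_le hlo (hell x)
  obtain ⟨B, hB⟩ := hv.bd1
  have hM1 : 0 ≤ M1 := (abs_nonneg _).trans (hP1 0 e)
  have h1 := supB hτ hT hB (lam := 1 + lam) (by linarith) (h := fun y => gr v y e)
    (contDiff_gr hv.smooth e) ⟨B, fun y => hB y e⟩ (N := M1) (fun y => ?_) x
  · refine h1.trans (div_le_self hM1 (by linarith))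
  · have h2 := BrCal.ma_diffB hPs hv.smooth hlo hell hma e y
    have h3 : Lb (1 + lam) (gr v) (tauf v) (fun y => gr v y e) y = -(s * gr P y e) := by
      have h4 : Lb (1 + lam) (gr v) (tauf v) (fun y => gr v y e) y
          = Lb lam (gr v) (tauf v) (fun y => gr v y e) y - gr v y e := by
        unfold Lb; ring
      rw [h4, h2]; ring
    rw [h3, abs_neg, abs_mul, abs_of_nonneg hs0]
    calc s * |gr P y e| ≤ 1 * M1 := mul_le_mul hs1 (hP1 y e) (abs_nonneg _) zero_le_one
      _ = M1 := one_mul _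

theorem LA_one_eq (v : E n → ℝ) (x : E n) :
    LA (fun _ => (1 : Matrix (Fin n) (Fin n) ℝ)) v x = (gm v x).trace - n - fderiv ℝ v x x := by
  unfold LA
  have h1 : ∑ i, ∑ j, (1 : Matrix (Fin n) (Fin n) ℝ) i j * Hs v x i j = ∑ i, Hs v x i i := by
    refine Finset.sum_congr rfl fun i _ => ?_
    simp [Matrix.one_apply]
  have h2 : (gm v x).trace = n + ∑ i, Hs v x i i := by
    unfold Matrix.trace
    simp only [Matrix.diag_apply, gm_apply, Matrix.one_apply_eq, Finset.sum_add_distrib]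
    simp
  rw [h1, h2]; ring

theorem LA_tau_eq {v : E n → ℝ} {lo hi : ℝ} (hlo : 0 < lo) {x : E n}
    (hell : Ell lo hi (gm v x)) :
    LA (tauf v) v x = n - (tauf v x).trace - fderiv ℝ v x x := by
  have hpd := Ell.posDef hlo hell
  have hsym : ∀ i j, Hs v x i j = Hs v x j i := by
    intro i j
    have := hell.1 i j
    rw [gm_apply, gm_apply] at this
    have h1 : (1 : Matrix (Fin n) (Fin n) ℝ) i j = (1 : Matrix (Fin n) (Fin n) ℝ) j i := by
      simp [Matrix.one_apply, eq_comm]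
    linarith
  have h1 : ((gm v x)⁻¹ * gm v x).trace = n := by
    rw [Matrix.nonsing_inv_mul _ (hpd.isUnit.map Matrix.detMonoidHom), Matrix.trace_one,
      Fintype.card_fin]
  have h2 : ((gm v x)⁻¹ * gm v x).trace
      = (tauf v x).trace + ∑ i, ∑ j, tauf v x i j * Hs v x i j := by
    have e1 : gm v x = 1 + Matrix.of (fun i j => Hs v x i j) := rfl
    have e2 : (gm v x)⁻¹ * gm v x = tauf v x + tauf v x * Matrix.of (fun i j => Hs v x i j) := by
      have e3 : (gm v x)⁻¹ * gm v x = tauf v x * (1 + Matrix.of (fun i j => Hs v x i j)) := rfl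
      rw [e3, Matrix.mul_add, Matrix.mul_one]
    rw [e2, Matrix.trace_add]
    congr 1
    unfold Matrix.trace
    refine Finset.sum_congr rfl fun i _ => ?_
    rw [Matrix.diag_apply, Matrix.mul_apply]
    refine Finset.sum_congr rfl fun j _ => ?_
    rw [Matrix.of_apply, hsym j i]
  unfold LA
  linarith

/-- **sup bound** of `lam v` -/
theorem lamv_le {P v : E n → ℝ} {lam s lo hi M0 : ℝ} (hv : NiceB v) (hlo : 0 < lo)
    (hell : ∀ x, Ell lo hi (gm v x)) (hma : MAb P lam s v) (hlam : 0 < lam) (hs0 : 0 ≤ s)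
    (hs1 : s ≤ 1) (hP : ∀ x, |P x| ≤ M0) : ∀ x, lam * |v x| ≤ M0 := by
  have hpd : ∀ x, (gm v x).PosDef := fun x => Ell.posDef hlo (hell x)
  have hτ : ∀ x, (tauf v x).PosSemidef := fun x => (hpd x).inv.posSemidef
  have hT : ∀ x, (tauf v x).trace ≤ n / lo := fun x => Ell.trace_inv_le hlo (hell x)
  have hv2 : ContDiff ℝ 2 v := by exact_mod_cast contDiff_infty.1 hv.smooth 2
  obtain ⟨B, hB⟩ := hv.bd1
  obtain ⟨S, hS⟩ := hv.bd0
  have hsP : ∀ x, |s * P x| ≤ M0 := fun x => by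
    rw [abs_mul, abs_of_nonneg hs0]
    calc s * |P x| ≤ 1 * M0 := mul_le_mul hs1 (hP x) (abs_nonneg _) zero_le_one
      _ = M0 := one_mul _
  -- upper
  have hup : ∀ x, v x ≤ M0 / lam := by
    have hτ1 : ∀ x : E n, ((fun _ => (1 : Matrix (Fin n) (Fin n) ℝ)) x).PosSemidef :=
      fun _ => Matrix.PosSemidef.one
    have hT1 : ∀ x : E n, ((fun _ => (1 : Matrix (Fin n) (Fin n) ℝ)) x).trace ≤ (n : ℝ) :=
      fun _ => by simp
    have hb : ∀ x i, |(1 / 2) * gr v x i| ≤ |B| := fun x i => by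
      rw [abs_mul]
      have h1 := hB x i
      have h2 := le_abs_self B
      have h3 : |(1 / 2 : ℝ)| = 1 / 2 := abs_of_pos (by norm_num)
      rw [h3]
      linarith [abs_nonneg (gr v x i)]
    refine supB_le hτ1 hT1 (b := fun x i => (1 / 2) * gr v x i) hb hlam hv2
      (fun x => (le_abs_self _).trans (hS x)) (N := M0) fun x => ?_
    have h1 := hma x
    have h2 : Real.log (gm v x).det ≤ (gm v x).trace - n := by
      have h3 := log_det_ge (hpd x).inv one_pos
      simp only [Real.log_one, mul_zero, add_zero, one_mul] at h3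
      rw [Matrix.nonsing_inv_nonsing_inv _ ((hpd x).isUnit.map Matrix.detMonoidHom),
        Matrix.det_nonsing_inv, Ring.inverse_eq_inv', Real.log_inv] at h3
      linarith
    have h4 : ∑ i, (1 / 2) * gr v x i * gr v x i = (∑ i, gr v x i ^ 2) / 2 := by
      rw [Finset.sum_div]
      exact Finset.sum_congr rfl fun i _ => by ring
    unfold Lb
    rw [LA_one_eq, h4]
    have h5 := (abs_le.1 (hsP x)).2
    linarith
  have hlow : ∀ x, -v x ≤ M0 / lam := by
    refine supB_le hτ hT hB hlam hv2.neg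
      (fun x => (neg_le_abs _).trans (hS x)) (N := M0) fun x => ?_
    have h1 := hma x
    have h3 := log_det_ge (hpd x) one_pos
    simp only [Real.log_one, mul_zero, add_zero, one_mul] at h3
    have h4 : Lb lam (gr v) (tauf v) (fun y => -v y) x = - Lb lam (gr v) (tauf v) v x :=
      Lb_neg lam _ _ hv2 x
    show -M0 ≤ Lb lam (gr v) (tauf v) (fun y => -v y) x
    rw [h4]
    unfold Lb
    rw [LA_tau_eq hlo (hell x)]
    have h5 := (abs_le.1 (hsP x)).1
    have h6 : ∑ i, gr v x i * gr v x i = ∑ i, gr v x i ^ 2 :=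
      Finset.sum_congr rfl fun i _ => by ring
    have h7 : 0 ≤ ∑ i, gr v x i ^ 2 := Finset.sum_nonneg fun i _ => sq_nonneg _
    rw [h6]
    unfold tauf
    linarith
  intro x
  have h1 : |v x| ≤ M0 / lam := abs_le.2 ⟨by linarith [hlow x], hup x⟩
  calc lam * |v x| ≤ lam * (M0 / lam) := mul_le_mul_of_nonneg_left h1 hlam.le
    _ = M0 := by field_simp

/-- **B7 half 1** -/
theorem bndU : BndU := by
  intro n c C2 C3 M0 M1 R0
  by_cases hgood : 0 < c ∧ c ≤ 1 ∧ 1 ≤ C2
  swap
  · refine ⟨1, 1, 0, 0, one_pos, le_rfl, fun P hP => ?_⟩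
    exact absurd ⟨hP.pc.c_pos, hP.pc.c_le, hP.pc.C2_ge⟩ hgood
  obtain ⟨hc0, hc1, hC21⟩ := hgood
  have hC2pos : 0 < C2 := one_pos.trans_le hC21
  have hn0 : (0 : ℝ) ≤ n := Nat.cast_nonneg n
  have hlogc : Real.log c ≤ 0 := Real.log_nonpos hc0.le hc1
  have hlogC : 0 ≤ Real.log C2 := Real.log_nonneg hC21
  set l : ℝ := n * C2 - n * Real.log c with hl
  have hl0 : 0 ≤ l := by
    have h1 : 0 ≤ n * C2 := mul_nonneg hn0 hC2pos.le
    have h2 : n * Real.log c ≤ 0 := mul_nonpos_of_nonneg_of_nonpos hn0 hlogc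
    linarith
  set lo : ℝ := Real.exp (-l - (n - 1) * Real.log C2) with hlo_def
  have hlo : 0 < lo := Real.exp_pos _
  have hlohi : lo ≤ C2 := by
    have h1 : -l - (n - 1) * Real.log C2 ≤ Real.log C2 := by
      have h3 : 0 ≤ n * Real.log C2 := mul_nonneg hn0 hlogC
      linarith
    calc lo ≤ Real.exp (Real.log C2) := Real.exp_le_exp.2 h1
      _ = C2 := Real.exp_log hC2pos
  -- radius
  set R : ℝ := |R0| + 5 * (n / lo) + 4 * (n * |M1|) with hR
  have ht1 : 0 ≤ 5 * (n / lo) := by positivity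
  have ht2 : 0 ≤ 4 * (n * |M1|) := by positivity
  have hR0 : 0 ≤ R := by positivity
  have hRT : 5 * (n / lo) ≤ 1 + R ^ 2 := by
    have h1 : 5 * (n / lo) ≤ R := by linarith [abs_nonneg R0]
    nlinarith [sq_nonneg (R - 1)]
  have hRB : 4 * (n * |M1|) ≤ R := by linarith [abs_nonneg R0]
  have hRR0 : R0 ≤ R := by linarith [le_abs_self R0]
  set pr : ℝ := (1 + R ^ 2) ^ (-(1 / 4) : ℝ) with hpr
  have hpr0 : 0 < pr := Real.rpow_pos_of_pos (by positivity) _
  set K1 : ℝ := (C2 - 1) / pr with hK1d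
  have hK10 : 0 ≤ K1 := div_nonneg (by linarith) hpr0.le
  have hK1 : C2 - 1 ≤ K1 * pr := (div_mul_cancel₀ _ hpr0.ne').ge
  set K2 : ℝ := l / pr + 8 * (n * K1) with hK2d
  have hK2a : 8 * (n * K1) ≤ K2 := by
    have : 0 ≤ l / pr := div_nonneg hl0 hpr0.le
    linarith
  have hK2 : l ≤ K2 * pr := by
    have h1 : l / pr * pr = l := div_mul_cancel₀ _ hpr0.ne'
    have h2 : 0 ≤ 8 * (n * K1) * pr := by positivity
    have h3 : K2 * pr = l / pr * pr + 8 * (n * K1) * pr := by rw [hK2d]; ring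
    rw [h3, h1]; linarith
  refine ⟨lo, C2, max M0 M1, n * (K1 + K2), hlo, hlohi, ?_⟩
  intro P hP lam s hlam hlam1 hs0 hs1 v hv hell' hma
  obtain ⟨lo', hi', hlo', hell'⟩ := hell'
  have hPC := hP.pc
  have hv4 : ContDiff ℝ 4 v := by exact_mod_cast contDiff_infty.1 hv.smooth 4
  have hP2 : ContDiff ℝ 2 P := by exact_mod_cast contDiff_infty.1 hP.tst.smooth 2
  obtain ⟨H1, H2⟩ := BrCal.pwB n P v lam s lo' hi' hP.tst.smooth hv.smooth hlo' hell' hma
  have hgr : ∀ x i, |gr v x i| ≤ M1 :=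
    gr_le hv hlo' hell' hma hlam hs0 hs1 hP.tst.smooth hP.grad
  have hgr' : ∀ x i, |gr v x i| ≤ |M1| := fun x i => (hgr x i).trans (le_abs_self _)
  have hQ : ∀ (x : E n) (z : Fin n → ℝ),
      Q (pmB P s x) z = s * ∑ i, ∑ j, Hs P x i j * z i * z j := by
    intro x z
    simp only [Q, pmB, Matrix.of_apply, Finset.mul_sum]
    exact Finset.sum_congr rfl fun i _ => Finset.sum_congr rfl fun j _ => by ring
  have hpsym : ∀ x i j, pmB P s x i j = pmB P s x j i := by
    intro x i j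
    simp only [pmB, Matrix.of_apply]
    rw [ExtInv.Hs_symm hP2]
  have hE1 : ∀ x z, qf v z x ≤ (C2 - 1) * ∑ i, z i ^ 2 := by
    refine E1B hv4 hlo' hell' hlam.le hgr' (p := pmB P s) (by linarith) (fun x z => ?_)
      (fun z x => H1 z x)
    rw [hQ]
    linarith [hPC.upper s hs0 hs1 x z]
  have hup : ∀ x z, Q (gm v x) z ≤ C2 * ∑ i, z i ^ 2 := by
    intro x z
    rw [Q_gm]
    linarith [hE1 x z]
  have hdet : ∀ x, -l ≤ Real.log (gm v x).det :=
    E2B_det hv4 hlo' hell' hlam.le hlam1 hgr' (p := pmB P s) hc0 hpsym hup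
      (fun x z => by rw [hQ]; exact hPC.lower s hs0 hs1 x z) H2
  have hell : ∀ x, Ell lo C2 (gm v x) := by
    intro x
    refine ⟨(hell' x).1, fun z => ⟨?_, hup x z⟩⟩
    exact form_ge_of_det (Ell.posDef hlo' (hell' x)) (a := Real.log C2) (b := l)
      (by rw [Real.exp_log hC2pos]; exact hup x) (hdet x) z
  have hfar : ∀ x, R < ‖x‖ → pmB P s x = 0 := by
    intro x hx
    ext i j
    simp [pmB, Apr.Hs_eq_zero_of_eventually (hPC.far x (hRR0.trans hx.le))]
  refine ⟨hell, fun x => (lamv_le hv hlo' hell' hma hlam hs0 hs1 hPC.bdd x).trans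
    (le_max_left _ _), fun x i => (hgr x i).trans (le_max_right _ _), ?_⟩
  have h3 := E3B hv4 hlo hell hlam.le hgr' (l := l) hdet hR0 hRT hRB
    (fun z x hx => by
      have h := H1 z x
      rw [hfar x hx] at h
      have h0 : ∑ i, ∑ j, (0 : Matrix (Fin n) (Fin n) ℝ) i j * z i * z j = 0 := by simp
      rw [h0, sub_zero] at h
      exact h)
    (fun x hx => by
      have h := H2 x
      rw [hfar x hx, add_zero, mul_one] at h
      exact h)
    hK10 hK2a hK1 hK2
  intro x i j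
  exact h3 x i j

end Crest.Agent.R253.Br
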