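import Crest.Agent.R253.CalB5_957
import Crest.Agent.R253.MaxB_505
import Crest.Agent.R253.BrPC_505
import Crest.Agent.R238.ECalD3

/-!
Row 253, T6, node B6 (helper957): `D3U`, the uniform bound of the third derivatives
(Calabi + maximum principle).
-/

set_option autoImplicit false

open scoped ContDiff Topology
open Set Filter Finset

noncomputable section

namespace Crest.Agent.R253.CalB

open Crest.Agent.R238 Crest.Agent.R238.XInst Crest.Agent.R253.Br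
open Crest.Agent.R238.ECal (D3)

variable {n : ℕ}

theorem niceB_d3 {v : E n → ℝ} (hv : NiceB v) :
    ∃ C : ℝ, 0 ≤ C ∧ ∀ x a b c, |D3 v x a b c| ≤ C := by
  obtain ⟨C, hC⟩ := hv.bdd 3
  have hC0 : 0 ≤ C := (norm_nonneg _).trans (hC 0)
  refine ⟨C, hC0, fun x a b c => ?_⟩
  have h := ECal.third_le hv.smooth x (ee a) (ee b) (ee c)
  have hn : ∀ i : Fin n, ‖(ee i : E n)‖ = 1 := fun i => by simp
  rw [hn, hn, hn, one_mul, one_mul, mul_one] at h
  exact h.trans (hC x)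

theorem niceB_gr {v : E n → ℝ} (hv : NiceB v) : ∃ C : ℝ, ∀ x i, |gr v x i| ≤ C := by
  obtain ⟨C, hC⟩ := hv.bdd 1
  refine ⟨C, fun x i => ?_⟩
  have h1 : ‖fderiv ℝ v x (ee i)‖ ≤ ‖fderiv ℝ v x‖ * ‖(ee i : E n)‖ :=
    ContinuousLinearMap.le_opNorm _ _
  have h2 : ‖(ee i : E n)‖ = 1 := by simp
  rw [h2, mul_one, ← norm_iteratedFDeriv_one] at h1
  exact h1.trans (hC x)

/-- elementary: `t²/(2n) - lam t - 2κ√t ≥ t - a` for `t > a = 2n(2+4κ) + 1` -/
theorem calabi_elem {n : ℕ} (hn : 0 < n) {κ lam t : ℝ} (hκ : 0 ≤ κ) (hlam : lam ≤ 1)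
    (ht : 2 * n * (2 + 4 * κ) + 1 < t) :
    1 * (t - (2 * n * (2 + 4 * κ) + 1)) ≤ t ^ 2 / (2 * n) - lam * t - 2 * κ * Real.sqrt t := by
  have hn' : (0:ℝ) < n := by exact_mod_cast hn
  have ht1 : 1 ≤ t := by
    have : 0 ≤ 2 * (n:ℝ) * (2 + 4 * κ) := by positivity
    linarith
  have h1 : Real.sqrt t ≤ t := by
    rw [Real.sqrt_le_left (by linarith)]
    nlinarith
  have h2 : t * (2 + 4 * κ) ≤ t ^ 2 / (2 * n) := by
    rw [le_div_iff₀ (by positivity)]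
    nlinarith
  have h3 : 2 * κ * Real.sqrt t ≤ 2 * κ * t := by
    apply mul_le_mul_of_nonneg_left h1; positivity
  have h4 : lam * t ≤ t := by nlinarith
  have h5 : 0 ≤ κ * t := by positivity
  have h6 : 0 ≤ 2 * (n:ℝ) * (2 + 4 * κ) := by positivity
  nlinarith

/-- bound of the third derivatives of a solution -/
theorem d3_boundB (hn : 0 < n) {v P : E n → ℝ} (hv : NiceB v) (hP : ContDiff ℝ ∞ P)
    {lam s lo hi : ℝ} (hlam : 0 ≤ lam) (hlam1 : lam ≤ 1) (hlo : 0 < lo)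
    (hell : ∀ x, Ell lo hi (gm v x)) (hma : MAb P lam s v)
    (hconv : ∀ x (z : Fin n → ℝ),
      0 ≤ ∑ i, ∑ j, ((if i = j then 1 else 0) + s * Hs P x i j) * z i * z j)
    {K : ℝ} (hK : ∀ x, ∑ a, ∑ b, ∑ c, (s * D3 P x a b c) ^ 2 ≤ K) (hhi : 0 ≤ hi) :
    ∀ x, ∑ a, ∑ b, ∑ c, D3 v x a b c ^ 2 ≤
      hi ^ 3 * (2 * n * (2 + 4 * Real.sqrt (lo⁻¹ ^ 3 * K)) + 1) := by
  obtain ⟨S, hS, hS0, hS1, hS2, hS3⟩ := calabi_ineqB hn hv.smooth hP hlam hlo hell hma hconv hK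
  obtain ⟨C, hC0, hC⟩ := niceB_d3 hv
  obtain ⟨B, hB⟩ := niceB_gr hv
  have hlo3 : 0 ≤ lo⁻¹ ^ 3 := by positivity
  have hbd : ∀ x, S x ≤ lo⁻¹ ^ 3 * ((n : ℝ) ^ 3 * C ^ 2) := by
    intro x
    refine (hS1 x).trans (mul_le_mul_of_nonneg_left ?_ hlo3)
    have h1 : ∀ a b c, D3 v x a b c ^ 2 ≤ C ^ 2 := fun a b c => by
      rw [← sq_abs]
      exact pow_le_pow_left₀ (abs_nonneg _) (hC x a b c) 2
    calc ∑ a, ∑ b, ∑ c, D3 v x a b c ^ 2 ≤ ∑ a : Fin n, ∑ b : Fin n, ∑ c : Fin n, C ^ 2 :=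
          Finset.sum_le_sum fun a _ => Finset.sum_le_sum fun b _ =>
            Finset.sum_le_sum fun c _ => h1 a b c
      _ = (n : ℝ) ^ 3 * C ^ 2 := by
          simp only [Finset.sum_const, Finset.card_univ, Fintype.card_fin, nsmul_eq_mul]
          ring
  have key : ∀ x, S x ≤ 2 * n * (2 + 4 * Real.sqrt (lo⁻¹ ^ 3 * K)) + 1 := by
    refine maxB (τ := tauf v) (T := n / lo) (fun x => ?_) (fun x => ?_) hB
      (hS.of_le (by norm_cast)) hbd (c0 := 1) one_pos (fun x hx => ?_)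
    · exact (MaxP.Ell.posDef hlo (hell x)).inv.posSemidef
    · exact MaxP.Ell.trace_inv_le hlo (hell x)
    · exact (calabi_elem hn (Real.sqrt_nonneg _) hlam1 hx).trans (hS3 x)
  intro x
  exact (hS2 x).trans (mul_le_mul_of_nonneg_left (key x) (by positivity))

/-- **B6** -/
theorem d3U : D3U := by
  intro n c C2 C3 M0 M1 R0 lo hi hlo hlohi
  set K : ℝ := (n : ℝ) ^ 3 * C3 ^ 2 with hKdef
  have hK0 : 0 ≤ K := by positivity
  refine ⟨Real.sqrt (hi ^ 3 * (2 * n * (2 + 4 * Real.sqrt (lo⁻¹ ^ 3 * K)) + 1)), ?_⟩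
  intro P hPC lam s hlam hlam1 hs0 hs1 v hv hell hma x i j k
  have hn : 0 < n := i.pos
  have hc := hPC.pc
  have hsum : ∀ (f : Fin n → Fin n → Fin n → ℝ) (M : ℝ), (∀ a b c, |f a b c| ≤ M) →
      ∑ a, ∑ b, ∑ c, f a b c ^ 2 ≤ (n : ℝ) ^ 3 * M ^ 2 := by
    intro f M hf
    have h1 : ∀ a b c, f a b c ^ 2 ≤ M ^ 2 := fun a b c => by
      rw [← sq_abs]
      exact pow_le_pow_left₀ (abs_nonneg _) (hf a b c) 2
    calc ∑ a, ∑ b, ∑ c, f a b c ^ 2 ≤ ∑ a : Fin n, ∑ b : Fin n, ∑ c : Fin n, M ^ 2 :=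
          Finset.sum_le_sum fun a _ => Finset.sum_le_sum fun b _ =>
            Finset.sum_le_sum fun c _ => h1 a b c
      _ = (n : ℝ) ^ 3 * M ^ 2 := by
          simp only [Finset.sum_const, Finset.card_univ, Fintype.card_fin, nsmul_eq_mul]
          ring
  have h := d3_boundB hn hv hPC.tst.smooth hlam.le hlam1 hlo hell hma (K := K) (by
      intro y z
      have h1 := hc.lower s hs0 hs1 y z
      have h2 : ∑ i, ∑ j, ((if i = j then (1:ℝ) else 0) + s * Hs P y i j) * z i * z j =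
          ∑ i, z i ^ 2 + s * ∑ i, ∑ j, Hs P y i j * z i * z j := by
        simp only [add_mul, Finset.sum_add_distrib, Finset.mul_sum]
        congr 1
        · refine Finset.sum_congr rfl fun i _ => ?_
          simp [pow_two]
        · refine Finset.sum_congr rfl fun i _ => Finset.sum_congr rfl fun j _ => by ring
      rw [h2]
      exact le_trans (mul_nonneg hc.c_pos.le (Finset.sum_nonneg fun i _ => sq_nonneg _)) h1) (by
      intro y
      refine hsum (fun a b c => s * D3 P y a b c) C3 fun a b c => ?_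
      rw [abs_mul, abs_of_nonneg hs0]
      have := hc.third y a b c
      calc s * |D3 P y a b c| ≤ 1 * |D3 P y a b c| :=
            mul_le_mul_of_nonneg_right hs1 (abs_nonneg _)
        _ ≤ C3 := by rw [one_mul]; exact this) (hlo.le.trans hlohi) x
  have h1 : D3 v x i j k ^ 2 ≤ ∑ a, ∑ b, ∑ c, D3 v x a b c ^ 2 := by
    have e1 : D3 v x i j k ^ 2 ≤ ∑ c, D3 v x i j c ^ 2 :=
      Finset.single_le_sum (f := fun c => D3 v x i j c ^ 2) (fun c _ => sq_nonneg _)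
        (Finset.mem_univ k)
    have e2 : ∑ c, D3 v x i j c ^ 2 ≤ ∑ b, ∑ c, D3 v x i b c ^ 2 :=
      Finset.single_le_sum (f := fun b => ∑ c, D3 v x i b c ^ 2)
        (fun b _ => Finset.sum_nonneg fun c _ => sq_nonneg _) (Finset.mem_univ j)
    have e3 : ∑ b, ∑ c, D3 v x i b c ^ 2 ≤ ∑ a, ∑ b, ∑ c, D3 v x a b c ^ 2 :=
      Finset.single_le_sum (f := fun a => ∑ b, ∑ c, D3 v x a b c ^ 2)
        (fun a _ => Finset.sum_nonneg fun b _ => Finset.sum_nonneg fun c _ => sq_nonneg _)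
        (Finset.mem_univ i)
    exact e1.trans (e2.trans e3)
  exact Real.abs_le_sqrt (h1.trans h)

end Crest.Agent.R253.CalB
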