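import Crest.Agent.R253.BrDefs_505
import Crest.Agent.R238.EReg
import Crest.Agent.R238.RegNL

/-!
Row 253, task T6, node B8 (helper342): regularity of a solution of `MAb` of class `ClsB`.

`MAb P lam s v` is row 238's `MAeq P' 1 v` with `P' = s P - |∇v|²/2 - (1 + lam) v`; the nonlinear
first step (`NL.nonlin_DQ`) and the linear induction (`Boot.lin`) are used with this `P'`.
-/

set_option autoImplicit false
set_option maxHeartbeats 400000

open MeasureTheory Set Filter
open scoped ContDiff Topology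

namespace Crest.Agent.R253.Br

open Crest.Agent.R238

variable {n : ℕ}

/-- the potential that turns `MAb` into row 238's `MAeq` -/
noncomputable def PmB (P v : E n → ℝ) (lam s : ℝ) : E n → ℝ :=
  fun y => s * P y - (∑ i, gr v y i ^ 2) / 2 - (1 + lam) * v y

theorem maeq_of_mab {P v : E n → ℝ} {lam s : ℝ} (h : MAb P lam s v) :
    MAeq (PmB P v lam s) 1 v := by
  intro x
  have h1 := h x
  unfold PmB
  linear_combination h1

theorem gr_eq_pd (v : E n → ℝ) (i : Fin n) : (fun y => gr v y i) = Boot.pd i v := rfl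

theorem differentiable_gr342 {v : E n → ℝ} (hv : ContDiff ℝ 2 v) (i : Fin n) :
    Differentiable ℝ (fun y => gr v y i) := by
  have : ContDiff ℝ ((1 : ℕ) + 1) v := by exact_mod_cast hv
  exact (Boot.contDiff_pd i this).differentiable (by norm_num)

theorem hasFDerivAt_PmB {P v : E n → ℝ} {lam s : ℝ} (hP : Differentiable ℝ P)
    (hv : ContDiff ℝ 2 v) (x : E n) :
    HasFDerivAt (PmB P v lam s) (s • fderiv ℝ P x
      - ∑ i, gr v x i • fderiv ℝ (fun y => gr v y i) x - (1 + lam) • fderiv ℝ v x) x := by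
  have h1 : HasFDerivAt (fun y => s * P y) (s • fderiv ℝ P x) x :=
    (hP x).hasFDerivAt.const_mul s
  have h2 : HasFDerivAt (fun y => ∑ i, (1 / 2) * gr v y i ^ 2)
      (∑ i, gr v x i • fderiv ℝ (fun y => gr v y i) x) x := by
    refine HasFDerivAt.fun_sum fun i _ => ?_
    have h3 := ((differentiable_gr342 hv i x).hasFDerivAt.pow 2).const_mul (1 / 2 : ℝ)
    refine h3.congr_fderiv ?_
    ext z
    simp
    ring
  have h4 : HasFDerivAt (fun y => (1 + lam) * v y) ((1 + lam) • fderiv ℝ v x) x :=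
    ((hv.differentiable (by norm_num)) x).hasFDerivAt.const_mul (1 + lam)
  have h5 := (h1.sub h2).sub h4
  refine h5.congr_of_eventuallyEq (Eventually.of_forall fun y => ?_)
  simp only [PmB, Pi.sub_apply, ← Finset.mul_sum]
  ring

theorem pd_PmB {P v : E n → ℝ} {lam s : ℝ} (hP : Differentiable ℝ P)
    (hv : ContDiff ℝ 2 v) (e : Fin n) (x : E n) :
    Boot.pd e (PmB P v lam s) x = s * fderiv ℝ P x (ee e)
      - ∑ i, gr v x i * Hs v x e i - (1 + lam) * gr v x e := by
  have h1 : Boot.pd e (PmB P v lam s) x = fderiv ℝ (PmB P v lam s) x (ee e) := rfl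
  rw [h1, (hasFDerivAt_PmB hP hv x).fderiv]
  have h2 : ∀ i, fderiv ℝ (fun y => gr v y i) x (ee e) = Hs v x e i := fun i =>
    Boot.pd_pd_eq hv e i x
  simp only [_root_.sub_apply, _root_.smul_apply, _root_.sum_apply, smul_eq_mul, h2]
  rfl

/-- `gr v` has one more derivative than `Hs v` -/
theorem ck_gr {a : ℝ} {k : ℕ} {v : E n → ℝ} (hv : ContDiff ℝ 2 v)
    (h1 : ∀ i, ∃ M, HB a M (fun x => gr v x i)) (h2 : ∀ i j, CK a k (fun x => Hs v x i j))
    (i : Fin n) : CK a (k + 1) (fun x => gr v x i) := by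
  refine ⟨h1 i, differentiable_gr342 hv i, fun e => ?_⟩
  exact (h2 e i).congr fun x => (Boot.pd_pd_eq hv e i x).symm

theorem ck_v_of {a M : ℝ} {k : ℕ} {v : E n → ℝ} (h : ClsB a M v)
    (h2 : ∀ i j, CK a k (fun x => Hs v x i j)) : CK a (k + 2) v := by
  refine ⟨⟨M, h.h0⟩, h.c2.differentiable (by norm_num), fun i => ?_⟩
  exact ck_gr h.c2 (fun i => ⟨M, h.h1 i⟩) h2 i

theorem ck_pd_PmB {a M : ℝ} {k : ℕ} {P v : E n → ℝ} {lam s : ℝ} (ha : 0 < a) (ha1 : a < 1)
    (hP : Tst P) (h : ClsB a M v) (h2 : ∀ i j, CK a k (fun x => Hs v x i j)) (e : Fin n) :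
    CK a k (Boot.pd e (PmB P v lam s)) := by
  have hPd : Differentiable ℝ P := hP.smooth.differentiable (by simp)
  have hg : ∀ i, CK a k (fun x => gr v x i) := fun i =>
    (ck_gr h.c2 (fun i => ⟨M, h.h1 i⟩) h2 i).pred
  have hPe : CK a k (fun x => fderiv ℝ P x (ee e)) :=
    (CK.of_tst (k := k + 1) ha.le ha1.le hP).der e
  have h3 := ((hPe.const_mul s).sub (CK.sum Finset.univ
    (F := fun i x => gr v x i * Hs v x e i) fun i _ => (hg i).mul (h2 e i))).sub
    ((hg e).const_mul (1 + lam))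
  exact h3.congr fun x => (pd_PmB hPd h.c2 e x).symm

/-- the gradient of `PmB` in `HB`, in all directions -/
theorem hb_fderiv_PmB {a M : ℝ} {P v : E n → ℝ} {lam s : ℝ} (ha : 0 < a) (ha1 : a < 1)
    (hP : Tst P) (h : ClsB a M v) :
    ∃ M1 : ℝ, ∀ z : E n, HB a (M1 * ‖z‖) (fun x => fderiv ℝ (PmB P v lam s) x z) := by
  choose K hK using fun e => (ck_pd_PmB (k := 0) (lam := lam) (s := s) ha ha1 hP h
    (fun i j => ⟨M, h.h2 i j⟩) e)
  refine ⟨∑ i, |K i|, fun z => ?_⟩
  have e1 : (fun x => fderiv ℝ (PmB P v lam s) x z)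
      = fun x => ∑ i, z i * Boot.pd i (PmB P v lam s) x := by
    funext x
    rw [Boot.fderiv_eq_sum_pd]
  rw [e1]
  have h2 : HB a (∑ i, |z i| * K i) (fun x => ∑ i, z i * Boot.pd i (PmB P v lam s) x) :=
    Boot.hb_sum Finset.univ (fun i _ => Boot.HB.const_mul (z i) (hK i))
  refine Boot.HB.mono h2 ?_
  rw [Finset.sum_mul]
  refine Finset.sum_le_sum fun i _ => ?_
  have h3 := Boot.abs_coord_le z i
  calc |z i| * K i ≤ |z i| * |K i| :=
        mul_le_mul_of_nonneg_left (le_abs_self _) (abs_nonneg _)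
    _ ≤ ‖z‖ * |K i| := mul_le_mul_of_nonneg_right h3 (abs_nonneg _)
    _ = |K i| * ‖z‖ := by ring

/-- the nonlinear first step -/
theorem first_step {a M lo hi : ℝ} {P v : E n → ℝ} {lam s : ℝ} (ha : 0 < a) (ha1 : a < 1)
    (hlo : 0 < lo) (hP : Tst P) (h : ClsB a M v) (hE : ∀ x, Ell lo hi (gm v x))
    (hMA : MAb P lam s v) (hT : Boot.SchT a (tauf v)) (i j : Fin n) :
    CK a 1 (fun x => Hs v x i j) := by
  obtain ⟨M1, hM1⟩ := hb_fderiv_PmB (lam := lam) (s := s) ha ha1 hP h
  obtain ⟨C, R', hC⟩ := hT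
  have hPd : Differentiable ℝ (PmB P v lam s) := fun x =>
    (hasFDerivAt_PmB (hP.smooth.differentiable (by simp)) h.c2 x).differentiableAt
  have hma := maeq_of_mab hMA
  have hDQ := NL.nonlin_DQ (P := PmB P v lam s) ha hlo h.c2 h.h2 hE hPd hM1
    (fun x => by
      have h1 := hma x
      have h2 : Real.log (gM v x).det = Real.log (gm v x).det := rfl
      rw [h2]
      linear_combination h1)
    ⟨max C 1, max R' 0, lt_of_lt_of_le one_pos (le_max_right _ _), fun h N S h2 hB hL hS i j => by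
      have hN : 0 ≤ N := Boot.HB.nonneg hL
      have hL' : HB a N (fun x => LA (tauf v) h x + 0 * h x) := by
        have e1 : (fun x => LA (tauf v) h x + 0 * h x) = fun x => LA (tauM v) h x := by
          funext x
          rw [zero_mul, add_zero]
          rfl
        rw [e1]; exact hL
      have hS0 : 0 ≤ S := (abs_nonneg _).trans (hS 0 (by simp))
      have h5 := hC 0 (Or.inl rfl) h N S h2 hB hL'
        (fun x hx => hS x (hx.trans (le_max_left _ _))) i j
      exact Boot.HB.mono h5 (mul_le_mul_of_nonneg_right (le_max_left _ _) (add_nonneg hN hS0))⟩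
  obtain ⟨-, N, hN⟩ := NL.C3_of_DQ ha h.c2 hDQ
  refine ⟨⟨M, h.h2 i j⟩, (hN i j).1.differentiable (by simp), fun k => ?_⟩
  exact ⟨_, (hN i j).2 (ee k)⟩

/-- all orders -/
theorem ck_all {a M lo hi : ℝ} {P v : E n → ℝ} {lam s : ℝ} (ha : 0 < a) (ha1 : a < 1)
    (hlo : 0 < lo) (hP : Tst P) (h : ClsB a M v) (hE : ∀ x, Ell lo hi (gm v x))
    (hMA : MAb P lam s v) (hT : Boot.SchT a (tauf v)) (k : ℕ) :
    ∀ i j, CK a k (fun x => Hs v x i j) := by
  have h1 := first_step ha ha1 hlo hP h hE hMA hT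
  have hv := h.c2
  have hma := maeq_of_mab hMA
  have hstep : Boot.StepStmt a (tauf v) := Boot.step0 ha ha1.le hT
    fun i j => EReg.ck_iff.2 (CK_tauf' h1 hlo hE i j)
  have hpd1 : ∀ e i x, Boot.pd i (Boot.pd e v) x = Hs v x i e := fun e i x =>
    Boot.pd_pd_eq hv i e x
  have hv3 : ContDiff ℝ 3 v := by
    refine Boot.contDiff_three hv fun e => ?_
    have h2 : ContDiff ℝ ((1 : ℕ) + 1) (Boot.pd e v) := by
      refine Boot.contDiff_succ_of_pd ?_ fun i => ?_
      · have : ContDiff ℝ ((1 : ℕ) + 1) v := by exact_mod_cast hv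
        exact (Boot.contDiff_pd e this).differentiable (by norm_num)
      · have e1 : Boot.pd i (Boot.pd e v) = fun x => Hs v x i e := by
          funext x; exact hpd1 e i x
        rw [e1]
        exact (h1 i e).contDiff ha
    exact_mod_cast h2
  have hdet : ∀ x, 0 < (gm v x).det := fun x => (hE x).sm_det_pos hlo
  have hPd : Differentiable ℝ (PmB P v lam s) := fun x =>
    (hasFDerivAt_PmB (hP.smooth.differentiable (by simp)) h.c2 x).differentiableAt
  induction k with
  | zero => intro i j; exact (h1 i j).mono (Nat.zero_le _)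
  | succ k ih =>
    intro i j
    have hfk : ∀ e, CK a k (Boot.pd e (fun y => -1 * PmB P v lam s y)) := by
      intro e
      have h3 := (ck_pd_PmB (lam := lam) (s := s) ha ha1 hP h ih e).const_mul (-1)
      refine h3.congr fun x => ?_
      have h4 : HasFDerivAt (fun y => -1 * PmB P v lam s y)
          ((-1 : ℝ) • fderiv ℝ (PmB P v lam s) x) x := (hPd x).hasFDerivAt.const_mul (-1)
      show _ = fderiv ℝ (fun y => -1 * PmB P v lam s y) x (ee e)
      rw [h4.fderiv]
      rfl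
    have hτ : ∀ i j, CK a k (fun x => tauf v x i j) := fun i j => CK_tauf' ih hlo hE i j
    refine ⟨(h1 i j).hb, (h1 i j).diff, fun e => ?_⟩
    have hp2 : ContDiff ℝ 2 (Boot.pd e v) := by
      have h3 : ContDiff ℝ ((2 : ℕ) + 1) v := by exact_mod_cast hv3
      exact_mod_cast Boot.contDiff_pd e h3
    have hHe : ∀ i j, (fun x => Hs (Boot.pd e v) x i j)
        = fun x => fderiv ℝ (fun y => Hs v y i j) x (ee e) := by
      intro i j
      funext x
      exact (Boot.pd_Hs hv3 e i j x).symm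
    have hHb : ∀ i j, ∃ M, HB a M (fun x => Hs (Boot.pd e v) x i j) := by
      intro i j
      rw [hHe]
      exact ((h1 i j).der e).hb
    have hG : ∃ G, ∀ x, ‖fderiv ℝ (Boot.pd e v) x‖ ≤ G := by
      choose M hM using fun i => (h1 i e).hb
      have hM0 : ∀ i, 0 ≤ M i := fun i => Boot.HB.nonneg (hM i)
      refine ⟨n * ∑ i, M i, fun x => Boot.norm_fderiv_le (fun i => ?_)
        (Finset.sum_nonneg fun i _ => hM0 i)⟩
      rw [hpd1]
      exact ((hM i).1 x).trans (Finset.single_le_sum (fun j _ => hM0 j) (Finset.mem_univ i))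
    have h5 := Boot.lin ha ha1.le hstep k (Boot.pd e (fun y => -1 * PmB P v lam s y))
      (Boot.pd e v) (fun i j => EReg.ck_iff.2 (hτ i j)) (EReg.ck_iff.2 (hfk e)) hp2 hHb hG
      (fun x => EReg.ma_diff hv3 hdet hPd hma e x) i j
    rw [hHe] at h5
    exact EReg.ck_iff.1 h5

/-- **B8** -/
theorem regB : RegB := by
  intro n a lo hi ha ha1 hlo hlohi
  obtain ⟨ε₁, hε₁, H⟩ := EReg.schT_of Apr.schStmt_all n ha ha1 hlo hlohi
  refine ⟨ε₁, hε₁, fun M R P hP lam s v _ _ hcls hE hMA hext => ?_⟩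
  have hT := H M R v hcls.h2 hE hext
  have hk : ∀ k, CK a k v := by
    intro k
    exact (ck_v_of hcls (ck_all ha ha1 hlo hP hcls hE hMA hT k)).mono (by omega)
  exact ⟨CK.contDiff_top ha hk, fun k => CK.iter_bdd ha (hk k)⟩

end Crest.Agent.R253.Br
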