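import Crest.Agent.R253.BrDefs_505
import Crest.Agent.R238.SchAll
import Crest.Agent.R238.SchInt
import Crest.Agent.R238.MaxPL
import Crest.Agent.R238.HBAlg
import Crest.Agent.R238.AprLin

/-!
Row 253, T6, node B3 (helper944): Schauder a priori estimate for
`Lb lam b τ h = tr(τ D²h) - x·∇h - b·∇h - lam h`  (`schB : SchB`).
-/

set_option autoImplicit false

open Set Filter
open scoped ContDiff Topology

namespace Crest.Agent.R253.Br

open Crest.Agent.R238

variable {n : ℕ}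

/-- one-sided maximum principle for `Lb` -/
theorem Lb_one_side {lo hi lam M N B : ℝ} (hlo : 0 < lo) (hlam : 0 < lam)
    {τ : E n → Matrix (Fin n) (Fin n) ℝ} (hτ : ∀ x, Ell lo hi (τ x))
    {b : E n → Fin n → ℝ} (hb : ∀ x i, |b x i| ≤ M) {w : E n → ℝ} (hw : ContDiff ℝ 2 w)
    (hB : ∀ x, w x ≤ B) (hN : ∀ x, -N ≤ Lb lam b τ w x) (x0 : E n) : w x0 ≤ N / lam := by
  have hpos : ∀ x, (τ x).PosSemidef := fun x => (Apr.Ell.posDef (hτ x) hlo).posSemidef
  have htr : ∀ x, (τ x).trace ≤ ∑ _i : Fin n, hi := by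
    intro x
    rw [Matrix.trace]
    refine Finset.sum_le_sum fun i _ => ?_
    exact (le_abs_self _).trans (Apr.Ell.entry (hτ x) hlo.le i i)
  refine le_of_forall_pos_le_add fun δ hδ => ?_
  have hq : 0 < 1 + (1 + n * |M|) / lam := by positivity
  set ε : ℝ := δ / (1 + (1 + n * |M|) / lam) with hε
  have hε0 : 0 < ε := by positivity
  obtain ⟨x, hx1, hx2, hx3, -⟩ := MaxP.omori_yau_LA hpos htr hw hB x0 hε0
  have h1 : |∑ i, b x i * gr w x i| ≤ n * |M| * ε := by
    refine (Finset.abs_sum_le_sum_abs _ _).trans ?_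
    calc ∑ i : Fin n, |b x i * gr w x i| ≤ ∑ _i : Fin n, |M| * ε := by
          refine Finset.sum_le_sum fun i _ => ?_
          rw [abs_mul]
          refine mul_le_mul ((hb x i).trans (le_abs_self M)) ?_ (abs_nonneg _) (abs_nonneg _)
          have h2 := hx3 (ee i)
          have h3 : ‖(ee i : E n)‖ = 1 := by simp [ee]
          rw [h3, mul_one] at h2
          exact h2
      _ = n * |M| * ε := by simp; ring
  have h2 := hN x
  unfold Lb at h2
  have h3 := abs_le.1 h1
  have h4 : lam * w x ≤ N + (1 + n * |M|) * ε := by nlinarith [h3.1, h3.2]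
  have h5 : w x ≤ N / lam + (1 + n * |M|) / lam * ε := by
    have : w x = (lam * w x) / lam := by field_simp
    rw [this]
    calc lam * w x / lam ≤ (N + (1 + n * |M|) * ε) / lam :=
          div_le_div_of_nonneg_right h4 hlam.le
      _ = N / lam + (1 + n * |M|) / lam * ε := by ring
  have h6 : (1 + (1 + n * |M|) / lam) * ε = δ := by
    rw [hε]; field_simp
  nlinarith

theorem Lb_neg944 (lam : ℝ) (b : E n → Fin n → ℝ) (τ : E n → Matrix (Fin n) (Fin n) ℝ)
    {h : E n → ℝ} (hh : ContDiff ℝ 2 h) (x : E n) :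
    Lb lam b τ (fun x => -h x) x = -Lb lam b τ h x := by
  have h1 : LA τ (fun x => -h x) x = -LA τ h x := MaxP.LA_neg τ hh x
  have h2 : ∀ i, gr (fun x => -h x) x i = -gr h x i := by
    intro i
    unfold gr
    have : fderiv ℝ (fun x => -h x) x = -fderiv ℝ h x := fderiv_neg
    rw [this]; rfl
  unfold Lb
  rw [h1]
  simp only [h2, mul_neg, Finset.sum_neg_distrib]
  ring

/-- sup bound for `Lb` -/
theorem Lb_sup {lo hi lam M N B : ℝ} (hlo : 0 < lo) (hlam : 0 < lam)
    {τ : E n → Matrix (Fin n) (Fin n) ℝ} (hτ : ∀ x, Ell lo hi (τ x))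
    {b : E n → Fin n → ℝ} (hb : ∀ x i, |b x i| ≤ M) {h : E n → ℝ} (hh : ContDiff ℝ 2 h)
    (hB : ∀ x, |h x| ≤ B) (hN : ∀ x, |Lb lam b τ h x| ≤ N) (x : E n) : |h x| ≤ N / lam := by
  rw [abs_le]
  constructor
  · have h1 := Lb_one_side (w := fun x => -h x) (N := N) (B := B) hlo hlam hτ hb hh.neg
      (fun x => (neg_le_abs _).trans (hB x))
      (fun x => by rw [Lb_neg944 lam b τ hh x]; linarith [le_abs_self (Lb lam b τ h x), hN x]) x
    linarith
  · exact Lb_one_side (w := h) (N := N) (B := B) hlo hlam hτ hb hh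
      (fun x => (le_abs_self _).trans (hB x))
      (fun x => by linarith [neg_le_abs (Lb lam b τ h x), hN x]) x

/-- global interpolation -/
theorem interp_global (n : ℕ) (a ε : ℝ) (ha0 : 0 < a) (ha1 : a < 1) (hε : 0 < ε) :
    ∃ K : ℝ, 0 ≤ K ∧ ∀ h : E n → ℝ, ContDiff ℝ 2 h → ∀ B S : ℝ, 0 ≤ B →
      (∀ x i j, |Hs h x i j| ≤ B) → (∀ x, |h x| ≤ S) →
      HB a (ε * B + K * S) h ∧ ∀ i, HB a (ε * B + K * S) (fun x => gr h x i) := by
  obtain ⟨t, δ, ht0, ht1, hδ, e1, e2⟩ := SchI.exists_scale a 1 ((n : ℝ) ^ 2) ε ha0 ha1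
    zero_le_one (by positivity) hε
  have hA : 0 < t ^ (1 - a) := Real.rpow_pos_of_pos ht0 _
  have hD : 0 < t ^ (-a) := Real.rpow_pos_of_pos ht0 _
  set A : ℝ := t ^ (1 - a) with hAd
  set D : ℝ := t ^ (-a) with hDd
  set r : ℝ := min 1 (δ / ((n : ℝ) ^ 2 + 1)) with hr
  have hr0 : 0 < r := lt_min one_pos (by positivity)
  have hr1 : r ≤ 1 := min_le_left _ _
  have hr2 : (n : ℝ) ^ 2 * r ≤ δ := by
    have h1 : r ≤ δ / ((n : ℝ) ^ 2 + 1) := min_le_right _ _
    have h2 : (0:ℝ) < (n : ℝ) ^ 2 + 1 := by positivity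
    rw [le_div_iff₀ h2] at h1
    nlinarith
  have hK1 : 0 ≤ 2 / r := by positivity
  refine ⟨1 + 2 / r * (1 + A + 2 * D) + 2 * D, by positivity, fun h hh B S hB0 hB hS => ?_⟩
  have hS0 : 0 ≤ S := (abs_nonneg _).trans (hS 0)
  have hG : ∀ x, ‖fderiv ℝ h x‖ ≤ δ * B + 2 / r * S := by
    intro x
    refine (SchI.grad_scale (ρ := ‖x‖) hh hB hB0 (fun x _ => hS x) hr0 hr1 le_rfl).trans ?_
    have h1 : (n : ℝ) ^ 2 * B * r ≤ δ * B := by
      calc (n : ℝ) ^ 2 * B * r = ((n : ℝ) ^ 2 * r) * B := by ring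
        _ ≤ δ * B := mul_le_mul_of_nonneg_right hr2 hB0
    have h2 : 2 * S / r = 2 / r * S := by ring
    linarith
  have hei : ∀ i : Fin n, ‖(ee i : E n)‖ = 1 := fun i => by simp [ee]
  have q1 : δ ≤ ε / 2 := by nlinarith
  have q2 : δ * A ≤ ε / 2 := by nlinarith
  have q3 : 2 * δ * D ≤ ε / 2 := by nlinarith
  have q4 : (n : ℝ) ^ 2 * A ≤ ε / 2 := by linarith
  have hKS : 0 ≤ 2 / r * S := by positivity
  constructor
  · refine SchI.hb_of_lip ha0 ha1 ht0 hS (L := δ * B + 2 / r * S) ?_ ?_ ?_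
    · intro x y
      have hd : Differentiable ℝ h := hh.differentiable (by norm_num)
      have := convex_univ.norm_image_sub_le_of_norm_fderiv_le (fun z _ => hd z)
        (fun z _ => hG z) (Set.mem_univ y) (Set.mem_univ x)
      simpa [Real.norm_eq_abs] using this
    · have h1 : 0 ≤ ε * B := by positivity
      have h2 : 0 ≤ (2 / r * (1 + A + 2 * D) + 2 * D) * S := by positivity
      nlinarith
    · rw [← hAd, ← hDd]
      have h1 : δ * A * B ≤ ε * B := by
        refine mul_le_mul_of_nonneg_right ?_ hB0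
        linarith
      have h2 : 0 ≤ S * (1 + 2 / r * (1 + 2 * D)) := by positivity
      nlinarith
  · intro i
    refine SchI.hb_of_lip ha0 ha1 ht0 (S := δ * B + 2 / r * S) (L := (n : ℝ) ^ 2 * B) ?_ ?_ ?_ ?_
    · intro x
      have h1 := (fderiv ℝ h x).le_opNorm (ee i)
      rw [hei, mul_one, Real.norm_eq_abs] at h1
      exact h1.trans (hG x)
    · intro x y
      have h1 := (fderiv ℝ h x - fderiv ℝ h y).le_opNorm (ee i)
      rw [hei, mul_one, Real.norm_eq_abs] at h1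
      exact h1.trans (SchI.norm_fderiv_sub_le hh hB hB0 y x)
    · have h1 : δ * B ≤ ε * B := by
        refine mul_le_mul_of_nonneg_right ?_ hB0
        linarith
      have h2 : 0 ≤ S * (1 + 2 / r * (A + 2 * D) + 2 * D) := by positivity
      nlinarith
    · rw [← hAd, ← hDd]
      have h1 : ((n : ℝ) ^ 2 * A + 2 * δ * D) * B ≤ ε * B := by
        refine mul_le_mul_of_nonneg_right ?_ hB0
        linarith
      have h2 : 0 ≤ S * (1 + 2 / r * (1 + A) + 2 * D) := by positivity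
      nlinarith

/-- closedness of `HB` -/
theorem hb_lim {a K : ℝ} {u : ℕ → ℝ} {f : E n → ℝ} (hu : Tendsto u atTop (𝓝 K))
    (h : ∀ k, HB a (u k) f) : HB a K f := by
  refine ⟨fun x => ge_of_tendsto' hu fun k => (h k).1 x, fun x y => ?_⟩
  exact ge_of_tendsto' (hu.mul_const _) fun k => (h k).2 x y

/-- **B3** -/
theorem schB : SchB := by
  intro n a lo hi ha ha1 hlo hlohi
  obtain ⟨ε₀, hε₀, H⟩ := Apr.schStmt_all n a lo hi ha ha1 hlo hlohi
  refine ⟨ε₀, hε₀, fun lam M R hlam hlam1 => ?_⟩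
  obtain ⟨C, R', hC, HC⟩ := H M R
  set D : ℝ := 2 * n * |M| + 1 with hD
  have hD0 : 0 < D := by positivity
  set ε : ℝ := 1 / (2 * C * D) with hε
  have hε0 : 0 < ε := by positivity
  obtain ⟨K, hK, HK⟩ := interp_global n a ε ha ha1 hε0
  set K2 : ℝ := 2 * (C * (1 + (D * K + 1) / lam)) with hK2
  have hK20 : 0 < K2 := by positivity
  refine ⟨K2 + (ε * K2 + K / lam), by positivity, ?_⟩
  intro τ b hell hτ hb hfar h N hcls hN
  obtain ⟨B0, hB0⟩ := hcls
  have hNN : 0 ≤ N := hN.nonneg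
  have hB00 : 0 ≤ B0 := hB0.h0.nonneg
  have hS : ∀ x, |h x| ≤ N / lam :=
    Lb_sup hlo hlam hell (M := M) (fun x i => (hb i).1 x) hB0.c2 (fun x => hB0.h0.1 x)
      (fun x => hN.1 x)
  have hS0 : 0 ≤ N / lam := by positivity
  have step : ∀ B : ℝ, 0 ≤ B → (∀ i j, HB a B (fun x => Hs h x i j)) →
      ∀ i j, HB a (B / 2 + K2 / 2 * N) (fun x => Hs h x i j) := by
    intro B hB hBH i j
    obtain ⟨k0, k1⟩ := HK h hB0.c2 B (N / lam) hB (fun x i j => (hBH i j).1 x) hS
    set G : ℝ := ε * B + K * (N / lam) with hG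
    have hG0 : 0 ≤ G := k0.nonneg
    have g1 : HB a (n * (2 * |M| * G)) (fun x => ∑ i, b x i * gr h x i) :=
      HB.sum_univ fun i => ((hb i).mono (le_abs_self M)).mul (k1 i)
    have g2 : HB a (|lam| * G) (fun x => lam * h x) := k0.const_mul lam
    have g3 : HB a (N + n * (2 * |M| * G) + |lam| * G) (fun x => LA τ h x + 0 * h x) :=
      ((hN.add g1).add g2).congr fun x => by unfold Lb; ring
    have g4 : HB a (N + D * G) (fun x => LA τ h x + 0 * h x) := by
      refine g3.mono ?_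
      rw [abs_of_pos hlam, hD]
      nlinarith
    have g5 := HC τ hell hτ hfar 0 (Or.inl rfl) h (N + D * G) (N / lam) hB0.c2 ⟨B, hBH⟩ g4
      (fun x _ => hS x) i j
    refine g5.mono (le_of_eq ?_)
    rw [hG, hK2, hε]
    field_simp
    ring
  have iter : ∀ k : ℕ, ∀ i j, HB a (B0 / 2 ^ k + K2 * N) (fun x => Hs h x i j) := by
    intro k
    induction k with
    | zero =>
      intro i j
      refine (hB0.h2 i j).mono ?_
      simp only [pow_zero, div_one]
      have : 0 ≤ K2 * N := by positivity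
      linarith
    | succ k ih =>
      intro i j
      refine (step _ (by positivity) ih i j).mono (le_of_eq ?_)
      rw [pow_succ]
      field_simp
      ring
  have hlim : Tendsto (fun k : ℕ => B0 / 2 ^ k + K2 * N) atTop (𝓝 (K2 * N)) := by
    have h1 : Tendsto (fun k : ℕ => B0 * (1 / 2 : ℝ) ^ k) atTop (𝓝 (B0 * 0)) :=
      (tendsto_pow_atTop_nhds_zero_of_lt_one (by norm_num) (by norm_num)).const_mul B0
    have h2 : (fun k : ℕ => B0 / 2 ^ k + K2 * N) = fun k : ℕ => B0 * (1 / 2 : ℝ) ^ k + K2 * N := by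
      funext k
      rw [one_div, inv_pow]; rfl
    rw [h2]
    simpa using h1.add_const (K2 * N)
  have fin : ∀ i j, HB a (K2 * N) (fun x => Hs h x i j) := fun i j =>
    hb_lim hlim fun k => iter k i j
  obtain ⟨k0, k1⟩ := HK h hB0.c2 (K2 * N) (N / lam) (by positivity)
    (fun x i j => (fin i j).1 x) hS
  have e1 : ε * (K2 * N) + K * (N / lam) ≤ (K2 + (ε * K2 + K / lam)) * N := by
    have : 0 ≤ K2 * N := by positivity
    have e : K * (N / lam) = K / lam * N := by ring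
    rw [e]; nlinarith
  refine ⟨hB0.c2, k0.mono e1, fun i => (k1 i).mono e1, fun i j => (fin i j).mono ?_⟩
  have : 0 ≤ (ε * K2 + K / lam) * N := by positivity
  nlinarith

end Crest.Agent.R253.Br
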