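import Crest.Agent.R238.Hol4
import Crest.Agent.R253.BrDefs_505

/-!
Row 253 (T6, node B1, helper932): the resolvent of the Ornstein-Uhlenbeck operator,
`(L₀ - lam) v = r` with `L₀ v = Δ v - x·∇v`, `lam > 0`, for bounded Hölder `r` (no evenness).
`v = -∫₀^∞ e^{-lam t} P_t r dt`, parametrisation `e^{-t} = cos φ` (port of R238 Hol1 / Hol4).
-/

set_option autoImplicit false
set_option maxSynthPendingDepth 3

open MeasureTheory Set Filter SchwartzMap
open scoped ContDiff Topology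

namespace Crest.Agent.R253.Br

open Crest.Agent.R238 Crest.Agent.R238.HolK

variable {n : ℕ}

/-- facts about the heat family which are used -/
structure HFL (a C N : ℝ) (r : E n → ℝ) (F : ℝ → E n → ℝ)
    (F1 : ℝ → E n → (E n →L[ℝ] ℝ)) (F2 : ℝ → E n → (E n →L[ℝ] E n →L[ℝ] ℝ)) : Prop where
  nn : 0 ≤ C
  nN : 0 ≤ N
  zero : ∀ x, F 0 x = r x
  d1 : ∀ s, 0 < s → ∀ x, HasFDerivAt (F s) (F1 s x) x
  d2 : ∀ s, 0 < s → ∀ x, HasFDerivAt (F1 s) (F2 s x) x
  b0 : ∀ s, 0 < s → ∀ x, |F s x| ≤ N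
  b1 : ∀ s, 0 < s → ∀ x, ‖F1 s x‖ ≤ C * s ^ (a - 1)
  b2 : ∀ s, 0 < s → ∀ x, ‖F2 s x‖ ≤ C * s ^ (a - 2)
  b3 : ∀ s, 0 < s → ∀ x y, ‖F2 s x - F2 s y‖ ≤ C * s ^ (a - 3) * ‖x - y‖
  cF : Continuous fun q : ℝ × E n => F q.1 q.2
  c1 : ContinuousOn (fun q : ℝ × E n => F1 q.1 q.2) (Ioi 0 ×ˢ univ)
  c2 : ContinuousOn (fun q : ℝ × E n => F2 q.1 q.2) (Ioi 0 ×ˢ univ)
  dp : ∀ x, ∀ p ∈ JJ, HasDerivAt (fun p => F (Real.sin p) (Real.cos p • x))
    (Real.cos p * Real.sin p * trB (F2 (Real.sin p) (Real.cos p • x))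
      - Real.sin p * F1 (Real.sin p) (Real.cos p • x) x) p

/-! ### the weight `cos^(lam-1) sin` -/

theorem cos_rpow_deriv {lam : ℝ} {p : ℝ} (hp : p ∈ JJ) :
    HasDerivAt (fun p : ℝ => Real.cos p ^ lam)
      (-(lam * (Real.cos p ^ (lam - 1) * Real.sin p))) p := by
  have hc := JJ.cos_pos hp
  have h := (Real.hasDerivAt_cos p).rpow_const (p := lam) (Or.inl hc.ne')
  refine h.congr_deriv ?_
  ring

theorem wt_int {lam : ℝ} (hl : 0 < lam) :
    IntegrableOn (fun p : ℝ => Real.cos p ^ (lam - 1) * Real.sin p) JJ ∧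
      ∫ p in JJ, Real.cos p ^ (lam - 1) * Real.sin p = 1 / lam := by
  have hpi : (0 : ℝ) ≤ Real.pi / 2 := by positivity
  have hcont : ContinuousOn (fun p : ℝ => -(Real.cos p ^ lam) / lam) (Icc 0 (Real.pi / 2)) := by
    have h1 : Continuous fun p : ℝ => Real.cos p ^ lam :=
      Real.continuous_cos.rpow_const fun _ => Or.inr hl.le
    exact (h1.neg.div_const lam).continuousOn
  have hder : ∀ p ∈ Ioo 0 (Real.pi / 2), HasDerivAt (fun p : ℝ => -(Real.cos p ^ lam) / lam)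
      (Real.cos p ^ (lam - 1) * Real.sin p) p := by
    intro p hp
    have h := ((cos_rpow_deriv (lam := lam) (show p ∈ JJ from hp)).neg).div_const lam
    refine h.congr_deriv ?_
    field_simp
  have hnn : ∀ p ∈ Ioo 0 (Real.pi / 2), 0 ≤ Real.cos p ^ (lam - 1) * Real.sin p := by
    intro p hp
    exact mul_nonneg (Real.rpow_nonneg (JJ.cos_pos (show p ∈ JJ from hp)).le _)
      (JJ.sin_pos (show p ∈ JJ from hp)).le
  have hi := intervalIntegral.integrableOn_deriv_of_nonneg hcont hder hnn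
  have hi' : IntegrableOn (fun p : ℝ => Real.cos p ^ (lam - 1) * Real.sin p)
      (Ioo 0 (Real.pi / 2)) := hi.mono_set Ioo_subset_Ioc_self
  refine ⟨hi', ?_⟩
  have h1 := intervalIntegral.integral_eq_sub_of_hasDerivAt_of_le hpi hcont hder
    ((intervalIntegrable_iff_integrableOn_Ioo_of_le hpi).2 hi')
  rw [intervalIntegral.integral_of_le hpi, integral_Ioc_eq_integral_Ioo] at h1
  have h2 : ∫ p in JJ, Real.cos p ^ (lam - 1) * Real.sin p
      = -(Real.cos (Real.pi / 2) ^ lam) / lam - -(Real.cos 0 ^ lam) / lam := h1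
  rw [h2, Real.cos_pi_div_two, Real.cos_zero, Real.zero_rpow hl.ne', Real.one_rpow]
  field_simp
  ring

theorem cos_rpow_le_one {lam p : ℝ} (hl : 0 ≤ lam) (hp : p ∈ JJ) : Real.cos p ^ lam ≤ 1 :=
  Real.rpow_le_one (JJ.cos_pos hp).le (Real.cos_le_one p) hl

theorem vol_JJ : (volume.restrict JJ) univ = ENNReal.ofReal (Real.pi / 2) := by
  rw [Measure.restrict_apply_univ, JJ, Real.volume_Ioo, sub_zero]

instance : IsFiniteMeasure (volume.restrict JJ) :=
  ⟨by rw [vol_JJ]; exact ENNReal.ofReal_lt_top⟩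

namespace HFL

variable {a C N : ℝ} {r : E n → ℝ} {F : ℝ → E n → ℝ}
  {F1 : ℝ → E n → (E n →L[ℝ] ℝ)} {F2 : ℝ → E n → (E n →L[ℝ] E n →L[ℝ] ℝ)} {lam : ℝ}

/-- integrands -/
noncomputable def B0 (lam : ℝ) (F : ℝ → E n → ℝ) (x : E n) (p : ℝ) : ℝ :=
  Real.cos p ^ (lam - 1) * Real.sin p * F (Real.sin p) (Real.cos p • x)

noncomputable def B1 (lam : ℝ) (F1 : ℝ → E n → (E n →L[ℝ] ℝ)) (x : E n) (p : ℝ) : E n →L[ℝ] ℝ :=
  (Real.cos p ^ lam * Real.sin p) • F1 (Real.sin p) (Real.cos p • x)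

noncomputable def B2 (lam : ℝ) (F2 : ℝ → E n → (E n →L[ℝ] E n →L[ℝ] ℝ)) (x : E n) (p : ℝ) :
    E n →L[ℝ] E n →L[ℝ] ℝ :=
  (Real.cos p ^ (lam + 1) * Real.sin p) • F2 (Real.sin p) (Real.cos p • x)

theorem B0_le (h : HFL a C N r F F1 F2) (x : E n) {p : ℝ} (hp : p ∈ JJ) :
    ‖B0 lam F x p‖ ≤ N * (Real.cos p ^ (lam - 1) * Real.sin p) := by
  have hs := JJ.sin_pos hp
  have hc := JJ.cos_pos hp
  have h1 : 0 ≤ Real.cos p ^ (lam - 1) * Real.sin p :=
    mul_nonneg (Real.rpow_nonneg hc.le _) hs.le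
  unfold B0
  rw [norm_mul, Real.norm_of_nonneg h1, Real.norm_eq_abs, mul_comm N]
  exact mul_le_mul_of_nonneg_left (h.b0 _ hs _) h1

theorem B1_le (h : HFL a C N r F F1 F2) (ha : 0 < a) (hl : 0 ≤ lam) (x : E n) {p : ℝ}
    (hp : p ∈ JJ) : ‖B1 lam F1 x p‖ ≤ C := by
  have hs := JJ.sin_pos hp
  have hc := JJ.cos_pos hp
  have h1 : 0 ≤ Real.cos p ^ lam := Real.rpow_nonneg hc.le _
  unfold B1
  rw [norm_smul, Real.norm_of_nonneg (mul_nonneg h1 hs.le)]
  have h2 : Real.sin p * ‖F1 (Real.sin p) (Real.cos p • x)‖ ≤ C := by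
    have h3 := mul_le_mul_of_nonneg_left (h.b1 _ hs (Real.cos p • x)) hs.le
    refine h3.trans ?_
    have h4 : Real.sin p * (C * Real.sin p ^ (a - 1)) = C * Real.sin p ^ a := by
      rw [← HF.rp1 hs a]; ring
    rw [h4]
    have h5 : Real.sin p ^ a ≤ 1 := Real.rpow_le_one hs.le (Real.sin_le_one p) ha.le
    calc C * Real.sin p ^ a ≤ C * 1 := mul_le_mul_of_nonneg_left h5 h.nn
      _ = C := mul_one C
  calc Real.cos p ^ lam * Real.sin p * ‖F1 (Real.sin p) (Real.cos p • x)‖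
      = Real.cos p ^ lam * (Real.sin p * ‖F1 (Real.sin p) (Real.cos p • x)‖) := by ring
    _ ≤ 1 * C := mul_le_mul (cos_rpow_le_one hl hp) h2
        (mul_nonneg hs.le (norm_nonneg _)) zero_le_one
    _ = C := one_mul C

theorem B2_le (h : HFL a C N r F F1 F2) (hl : 0 ≤ lam) (x : E n) {p : ℝ} (hp : p ∈ JJ) :
    ‖B2 lam F2 x p‖ ≤ C * Real.sin p ^ (a - 1) := by
  have hs := JJ.sin_pos hp
  have hc := JJ.cos_pos hp
  have h1 : 0 ≤ Real.cos p ^ (lam + 1) := Real.rpow_nonneg hc.le _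
  unfold B2
  rw [norm_smul, Real.norm_of_nonneg (mul_nonneg h1 hs.le), ← HF.rp2 hs]
  have h3 := mul_le_mul_of_nonneg_left (h.b2 _ hs (Real.cos p • x)) hs.le
  calc Real.cos p ^ (lam + 1) * Real.sin p * ‖F2 (Real.sin p) (Real.cos p • x)‖
      = Real.cos p ^ (lam + 1) * (Real.sin p * ‖F2 (Real.sin p) (Real.cos p • x)‖) := by ring
    _ ≤ 1 * (Real.sin p * (C * Real.sin p ^ (a - 2))) :=
        mul_le_mul (cos_rpow_le_one (by linarith) hp) h3
          (mul_nonneg hs.le (norm_nonneg _)) zero_le_one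
    _ = _ := by ring

theorem B2_sub_le (h : HFL a C N r F F1 F2) (hl : 0 ≤ lam) (x y : E n) {p : ℝ} (hp : p ∈ JJ) :
    ‖B2 lam F2 x p - B2 lam F2 y p‖ ≤ C * (Real.sin p ^ (a - 2) * ‖x - y‖) := by
  have hs := JJ.sin_pos hp
  have hc := JJ.cos_pos hp
  have h1 : 0 ≤ Real.cos p ^ (lam + 1) := Real.rpow_nonneg hc.le _
  unfold B2
  rw [← smul_sub, norm_smul, Real.norm_of_nonneg (mul_nonneg h1 hs.le), ← HF.rp3 hs]
  have h4 := h.b3 _ hs (Real.cos p • x) (Real.cos p • y)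
  have h5 : ‖Real.cos p • x - Real.cos p • y‖ ≤ ‖x - y‖ := by
    rw [← smul_sub, norm_smul, Real.norm_of_nonneg hc.le]
    calc Real.cos p * ‖x - y‖ ≤ 1 * ‖x - y‖ :=
          mul_le_mul_of_nonneg_right (Real.cos_le_one p) (norm_nonneg _)
      _ = _ := one_mul _
  have h6 : 0 ≤ C * Real.sin p ^ (a - 3) := mul_nonneg h.nn (Real.rpow_nonneg hs.le _)
  have h7 : ‖F2 (Real.sin p) (Real.cos p • x) - F2 (Real.sin p) (Real.cos p • y)‖
      ≤ C * Real.sin p ^ (a - 3) * ‖x - y‖ := h4.trans (mul_le_mul_of_nonneg_left h5 h6)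
  have h3 := mul_le_mul_of_nonneg_left h7 hs.le
  calc Real.cos p ^ (lam + 1) * Real.sin p
        * ‖F2 (Real.sin p) (Real.cos p • x) - F2 (Real.sin p) (Real.cos p • y)‖
      = Real.cos p ^ (lam + 1) * (Real.sin p
        * ‖F2 (Real.sin p) (Real.cos p • x) - F2 (Real.sin p) (Real.cos p • y)‖) := by ring
    _ ≤ 1 * (Real.sin p * (C * Real.sin p ^ (a - 3) * ‖x - y‖)) :=
        mul_le_mul (cos_rpow_le_one (by linarith) hp) h3
          (mul_nonneg hs.le (norm_nonneg _)) zero_le_one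
    _ = _ := by ring

theorem cosr_cont (b : ℝ) : ContinuousOn (fun p : ℝ => Real.cos p ^ b) JJ := by
  intro p hp
  exact ((Real.continuous_cos.continuousAt).rpow_const
    (Or.inl (JJ.cos_pos hp).ne')).continuousWithinAt

theorem B0_cont (h : HFL a C N r F F1 F2) (x : E n) : ContinuousOn (B0 lam F x) JJ := by
  unfold B0
  refine ContinuousOn.mul ((cosr_cont _).mul Real.continuous_sin.continuousOn) ?_
  have h1 : Continuous fun p : ℝ => F (Real.sin p) (Real.cos p • x) := h.cF.comp (HF.cont_curve x)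
  exact h1.continuousOn

theorem B1_cont (h : HFL a C N r F F1 F2) (x : E n) : ContinuousOn (B1 lam F1 x) JJ := by
  unfold B1
  refine ContinuousOn.smul ((cosr_cont _).mul Real.continuous_sin.continuousOn) ?_
  exact h.c1.comp (HF.cont_curve x).continuousOn fun p hp => ⟨JJ.sin_pos hp, mem_univ _⟩

theorem B2_cont (h : HFL a C N r F F1 F2) (x : E n) : ContinuousOn (B2 lam F2 x) JJ := by
  unfold B2
  refine ContinuousOn.smul ((cosr_cont _).mul Real.continuous_sin.continuousOn) ?_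
  exact h.c2.comp (HF.cont_curve x).continuousOn fun p hp => ⟨JJ.sin_pos hp, mem_univ _⟩

theorem B0_int (h : HFL a C N r F F1 F2) (hl : 0 < lam) (x : E n) :
    IntegrableOn (B0 lam F x) JJ := by
  refine Integrable.mono' ((wt_int hl).1.const_mul N)
    ((h.B0_cont x).aestronglyMeasurable measurableSet_JJ) ?_
  filter_upwards [ae_restrict_mem measurableSet_JJ] with p hp
  exact h.B0_le x hp

theorem B1_int (h : HFL a C N r F F1 F2) (ha : 0 < a) (hl : 0 < lam) (x : E n) :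
    IntegrableOn (B1 lam F1 x) JJ := by
  refine Integrable.mono' (integrable_const C)
    ((h.B1_cont x).aestronglyMeasurable measurableSet_JJ) ?_
  filter_upwards [ae_restrict_mem measurableSet_JJ] with p hp
  exact h.B1_le ha hl.le x hp

theorem B2_int (h : HFL a C N r F F1 F2) (ha : 0 < a) (ha1 : a < 1) (hl : 0 < lam) (x : E n) :
    IntegrableOn (B2 lam F2 x) JJ := by
  refine Integrable.mono' ((integrableOn_sin_rpow ha ha1).const_mul C)
    ((h.B2_cont x).aestronglyMeasurable measurableSet_JJ) ?_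
  filter_upwards [ae_restrict_mem measurableSet_JJ] with p hp
  exact h.B2_le hl.le x hp

theorem cos_rp {p : ℝ} (hp : p ∈ JJ) (b : ℝ) :
    Real.cos p ^ (b - 1) * Real.cos p = Real.cos p ^ b := by
  rw [mul_comm]; exact HF.rp1 (JJ.cos_pos hp) b

theorem B0_deriv (h : HFL a C N r F F1 F2) (x : E n) {p : ℝ} (hp : p ∈ JJ) :
    HasFDerivAt (fun x => B0 lam F x p) (B1 lam F1 x p) x := by
  have hs := JJ.sin_pos hp
  have hc := JJ.cos_pos hp
  have h1 : HasFDerivAt (fun x : E n => F (Real.sin p) (Real.cos p • x))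
      ((F1 (Real.sin p) (Real.cos p • x)).comp (Real.cos p • ContinuousLinearMap.id ℝ (E n))) x :=
    (h.d1 _ hs _).comp x ((hasFDerivAt_id x).const_smul (Real.cos p))
  have h2 := h1.const_mul (Real.cos p ^ (lam - 1) * Real.sin p)
  refine h2.congr_fderiv ?_
  unfold B1
  rw [← cos_rp hp lam]
  ext v
  simp only [smul_apply, ContinuousLinearMap.comp_apply,
    ContinuousLinearMap.id_apply, map_smul, smul_eq_mul]
  ring

theorem B1_deriv (h : HFL a C N r F F1 F2) (x : E n) {p : ℝ} (hp : p ∈ JJ) :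
    HasFDerivAt (fun x => B1 lam F1 x p) (B2 lam F2 x p) x := by
  have hs := JJ.sin_pos hp
  have hc := JJ.cos_pos hp
  have h1 : HasFDerivAt (fun x : E n => F1 (Real.sin p) (Real.cos p • x))
      ((F2 (Real.sin p) (Real.cos p • x)).comp (Real.cos p • ContinuousLinearMap.id ℝ (E n))) x :=
    (h.d2 _ hs _).comp x ((hasFDerivAt_id x).const_smul (Real.cos p))
  have h2 := h1.const_smul (Real.cos p ^ lam * Real.sin p)
  refine h2.congr_fderiv ?_
  unfold B2
  have h3 := cos_rp hp (lam + 1)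
  rw [show lam + 1 - 1 = lam by ring] at h3
  rw [← h3]
  ext v w
  simp only [smul_apply, ContinuousLinearMap.comp_apply,
    ContinuousLinearMap.id_apply, map_smul, smul_eq_mul]
  ring

/-- the three integrals -/
noncomputable def U0 (lam : ℝ) (F : ℝ → E n → ℝ) (x : E n) : ℝ := - ∫ p in JJ, B0 lam F x p

noncomputable def U1 (lam : ℝ) (F1 : ℝ → E n → (E n →L[ℝ] ℝ)) (x : E n) : E n →L[ℝ] ℝ :=
  - ∫ p in JJ, B1 lam F1 x p

noncomputable def U2 (lam : ℝ) (F2 : ℝ → E n → (E n →L[ℝ] E n →L[ℝ] ℝ)) (x : E n) :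
    E n →L[ℝ] E n →L[ℝ] ℝ := - ∫ p in JJ, B2 lam F2 x p

theorem U0_deriv (h : HFL a C N r F F1 F2) (ha : 0 < a) (hl : 0 < lam) (x : E n) :
    HasFDerivAt (U0 lam F) (U1 lam F1 x) x := by
  have h1 := hasFDerivAt_integral_of_dominated_of_fderiv_le (𝕜 := ℝ)
    (μ := volume.restrict JJ) (F := fun x p => B0 lam F x p) (F' := fun x p => B1 lam F1 x p)
    (x₀ := x) (s := Metric.ball x 1) (bound := fun _ => C)
    (Metric.ball_mem_nhds x one_pos)
    (Eventually.of_forall fun y => (h.B0_cont y).aestronglyMeasurable measurableSet_JJ)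
    (h.B0_int hl x) ((h.B1_cont x).aestronglyMeasurable measurableSet_JJ)
    (by
      filter_upwards [ae_restrict_mem measurableSet_JJ] with p hp y hy
      exact h.B1_le ha hl.le y hp)
    (integrable_const C)
    (by
      filter_upwards [ae_restrict_mem measurableSet_JJ] with p hp y _
      exact h.B0_deriv y hp)
  exact h1.neg

theorem U1_deriv (h : HFL a C N r F F1 F2) (ha : 0 < a) (ha1 : a < 1) (hl : 0 < lam) (x : E n) :
    HasFDerivAt (U1 lam F1) (U2 lam F2 x) x := by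
  have h1 := hasFDerivAt_integral_of_dominated_of_fderiv_le (𝕜 := ℝ)
    (μ := volume.restrict JJ) (F := fun x p => B1 lam F1 x p) (F' := fun x p => B2 lam F2 x p)
    (x₀ := x) (s := Metric.ball x 1) (bound := fun p => C * Real.sin p ^ (a - 1))
    (Metric.ball_mem_nhds x one_pos)
    (Eventually.of_forall fun y => (h.B1_cont y).aestronglyMeasurable measurableSet_JJ)
    (h.B1_int ha hl x) ((h.B2_cont x).aestronglyMeasurable measurableSet_JJ)
    (by
      filter_upwards [ae_restrict_mem measurableSet_JJ] with p hp y hy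
      exact h.B2_le hl.le y hp)
    ((integrableOn_sin_rpow ha ha1).const_mul C)
    (by
      filter_upwards [ae_restrict_mem measurableSet_JJ] with p hp y _
      exact h.B1_deriv y hp)
  exact h1.neg

theorem U2_hol (h : HFL a C N r F F1 F2) (ha : 0 < a) (ha1 : a < 1) (hl : 0 < lam) (x y : E n) :
    ‖U2 lam F2 x - U2 lam F2 y‖ ≤ C * cg a * ‖x - y‖ ^ a := by
  by_cases hxy : x = y
  · subst hxy; simp [Real.zero_rpow ha.ne']
  have hδ : 0 < ‖x - y‖ := norm_pos_iff.2 (sub_ne_zero.2 hxy)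
  have e : U2 lam F2 x - U2 lam F2 y = - ∫ p in JJ, (B2 lam F2 x p - B2 lam F2 y p) := by
    unfold U2
    rw [integral_sub (h.B2_int ha ha1 hl x) (h.B2_int ha ha1 hl y)]; abel
  rw [e, norm_neg]
  refine split_bound ha ha1 h.nn hδ (fun p hp => ?_) (fun p hp => h.B2_sub_le hl.le x y hp)
  refine (norm_sub_le _ _).trans ?_
  have h1 := h.B2_le hl.le x hp
  have h2 := h.B2_le hl.le y hp
  linarith

theorem U2_bd (h : HFL a C N r F F1 F2) (ha : 0 < a) (ha1 : a < 1) (hl : 0 < lam) (x : E n) :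
    ‖U2 lam F2 x‖ ≤ C * HF.cs a := by
  unfold U2 HF.cs
  rw [norm_neg, ← integral_const_mul]
  refine norm_integral_le_of_norm_le ((integrableOn_sin_rpow ha ha1).const_mul C) ?_
  filter_upwards [ae_restrict_mem measurableSet_JJ] with p hp
  exact h.B2_le hl.le x hp

theorem U1_bd (h : HFL a C N r F F1 F2) (ha : 0 < a) (hl : 0 < lam) (x : E n) :
    ‖U1 lam F1 x‖ ≤ C * (Real.pi / 2) := by
  unfold U1
  rw [norm_neg]
  have h1 : ‖∫ p in JJ, B1 lam F1 x p‖ ≤ ∫ p in JJ, C := by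
    refine norm_integral_le_of_norm_le (integrable_const C) ?_
    filter_upwards [ae_restrict_mem measurableSet_JJ] with p hp
    exact h.B1_le ha hl.le x hp
  refine h1.trans (le_of_eq ?_)
  rw [integral_const, smul_eq_mul, measureReal_def, vol_JJ,
    ENNReal.toReal_ofReal (by positivity), mul_comm]

theorem U0_bd (h : HFL a C N r F F1 F2) (hl : 0 < lam) (x : E n) :
    |U0 lam F x| ≤ N / lam := by
  unfold U0
  rw [abs_neg, ← Real.norm_eq_abs]
  have h1 : ‖∫ p in JJ, B0 lam F x p‖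
      ≤ ∫ p in JJ, N * (Real.cos p ^ (lam - 1) * Real.sin p) := by
    refine norm_integral_le_of_norm_le ((wt_int hl).1.const_mul N) ?_
    filter_upwards [ae_restrict_mem measurableSet_JJ] with p hp
    exact h.B0_le x hp
  refine h1.trans (le_of_eq ?_)
  rw [integral_const_mul, (wt_int hl).2]
  ring

/-- the primitive -/
theorem PL_cont (h : HFL a C N r F F1 F2) (hl : 0 < lam) (x : E n) :
    ContinuousOn (fun p => Real.cos p ^ lam * F (Real.sin p) (Real.cos p • x))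
      (Icc 0 (Real.pi / 2)) := by
  have h1 : Continuous fun p : ℝ => Real.cos p ^ lam :=
    Real.continuous_cos.rpow_const fun _ => Or.inr hl.le
  exact (h1.mul (h.cF.comp (HF.cont_curve x))).continuousOn

theorem PL_deriv (h : HFL a C N r F F1 F2) (x : E n) {p : ℝ} (hp : p ∈ JJ) :
    HasDerivAt (fun p => Real.cos p ^ lam * F (Real.sin p) (Real.cos p • x))
      (trB (B2 lam F2 x p) - B1 lam F1 x p x - lam * B0 lam F x p) p := by
  have h1 := (cos_rpow_deriv (lam := lam) hp).mul (h.dp x p hp)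
  refine h1.congr_deriv ?_
  have e1 : trB (B2 lam F2 x p) = Real.cos p ^ (lam + 1) * Real.sin p
      * trB (F2 (Real.sin p) (Real.cos p • x)) := by
    simp only [trB, B2, smul_apply, smul_eq_mul, Finset.mul_sum]
  have h3 := cos_rp hp (lam + 1)
  rw [show lam + 1 - 1 = lam by ring] at h3
  rw [e1, ← h3]
  simp only [B1, B0, smul_apply, smul_eq_mul]
  ring

theorem pde (h : HFL a C N r F F1 F2) (ha : 0 < a) (ha1 : a < 1) (hl : 0 < lam) (x : E n) :
    trB (U2 lam F2 x) - U1 lam F1 x x - lam * U0 lam F x = r x := by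
  have hpi : (0 : ℝ) ≤ Real.pi / 2 := by positivity
  obtain ⟨i1, e1⟩ := HF.trB_int (h.B2_int ha ha1 hl x)
  have i3 := h.B1_int ha hl x
  have i3' : IntegrableOn (fun p => B1 lam F1 x p x) JJ :=
    (ContinuousLinearMap.apply ℝ ℝ x).integrable_comp i3
  have i4 := (h.B0_int hl x).const_mul lam
  have i5 : IntegrableOn
      (fun p => trB (B2 lam F2 x p) - B1 lam F1 x p x - lam * B0 lam F x p) JJ :=
    (i1.sub i3').sub i4
  have h1 := intervalIntegral.integral_eq_sub_of_hasDerivAt_of_le hpi (h.PL_cont hl x)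
    (fun p hp => h.PL_deriv x (show p ∈ JJ from hp))
    ((intervalIntegrable_iff_integrableOn_Ioo_of_le hpi).2 i5)
  rw [intervalIntegral.integral_of_le hpi, integral_Ioc_eq_integral_Ioo] at h1
  have h2 : ∫ p in JJ, (trB (B2 lam F2 x p) - B1 lam F1 x p x - lam * B0 lam F x p)
      = trB (∫ p in JJ, B2 lam F2 x p) - (∫ p in JJ, B1 lam F1 x p) x
        - lam * ∫ p in JJ, B0 lam F x p := by
    have j1 : IntegrableOn (fun p => trB (B2 lam F2 x p) - B1 lam F1 x p x) JJ := i1.sub i3'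
    rw [integral_sub j1 i4, integral_sub i1 i3',
      e1, ContinuousLinearMap.integral_apply i3, integral_const_mul]
  have h3 : ∫ p in JJ, (trB (B2 lam F2 x p) - B1 lam F1 x p x - lam * B0 lam F x p)
      = Real.cos (Real.pi / 2) ^ lam * F (Real.sin (Real.pi / 2)) (Real.cos (Real.pi / 2) • x)
        - Real.cos 0 ^ lam * F (Real.sin 0) (Real.cos 0 • x) := h1
  rw [h2, Real.cos_pi_div_two, Real.zero_rpow hl.ne', zero_mul, Real.cos_zero, Real.one_rpow,
    Real.sin_zero, one_smul, h.zero, one_mul, zero_sub] at h3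
  have tn : ∀ B : E n →L[ℝ] E n →L[ℝ] ℝ, trB (-B) = - trB B := by
    intro B; simp [trB]
  simp only [U2, U1, U0, tn, neg_apply]
  linarith

/-- RESULT of the abstract part -/
theorem sol (h : HFL a C N r F F1 F2) (ha : 0 < a) (ha1 : a < 1) (hl : 0 < lam) :
    ∃ v : E n → ℝ, ContDiff ℝ 2 v ∧ (∀ x, |v x| ≤ N / lam) ∧
      (∀ x, ‖fderiv ℝ v x‖ ≤ C * (Real.pi / 2)) ∧
      (∀ x, ‖fderiv ℝ (fderiv ℝ v) x‖ ≤ C * HF.cs a) ∧
      (∀ i j, HB a (C * (HF.cs a + cg a)) (fun x => Hs v x i j)) ∧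
      ∀ x, LA (fun _ => (1 : Matrix (Fin n) (Fin n) ℝ)) v x - lam * v x = r x := by
  set v := U0 lam F with hv
  have d0 : ∀ x, HasFDerivAt v (U1 lam F1 x) x := fun x => h.U0_deriv ha hl x
  have d1 : ∀ x, HasFDerivAt (U1 lam F1) (U2 lam F2 x) x := fun x => h.U1_deriv ha ha1 hl x
  have f0 : fderiv ℝ v = U1 lam F1 := funext fun x => (d0 x).fderiv
  have f1 : fderiv ℝ (U1 lam F1) = U2 lam F2 := funext fun x => (d1 x).fderiv
  have hH : ∀ x i j, Hs v x i j = U2 lam F2 x (ee i) (ee j) := by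
    intro x i j
    simp only [Hs, f0, f1]
  have c2 : Continuous (U2 lam F2) := by
    rw [continuous_iff_continuousAt]
    intro x
    have t1 : Tendsto (fun y : E n => C * cg a * ‖y - x‖ ^ a) (𝓝 x) (𝓝 0) := by
      have t2 : Continuous fun y : E n => C * cg a * ‖y - x‖ ^ a :=
        continuous_const.mul ((continuous_norm.comp
          (continuous_id.sub continuous_const)).rpow_const fun _ => Or.inr ha.le)
      have t3 := t2.tendsto x
      simpa [Real.zero_rpow ha.ne'] using t3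
    rw [ContinuousAt, tendsto_iff_norm_sub_tendsto_zero]
    exact squeeze_zero (fun _ => norm_nonneg _) (fun y => h.U2_hol ha ha1 hl y x) t1
  have hne : ∀ i : Fin n, ‖(ee i : E n)‖ = 1 := fun i => by simp
  have hap : ∀ (B : E n →L[ℝ] E n →L[ℝ] ℝ) (i j : Fin n), |B (ee i) (ee j)| ≤ ‖B‖ := by
    intro B i j
    have := B.le_opNorm₂ (ee i : E n) (ee j)
    rwa [hne, hne, mul_one, mul_one] at this
  refine ⟨v, ?_, fun x => h.U0_bd hl x, fun x => ?_, fun x => ?_,
    fun i j => ⟨fun x => ?_, fun x y => ?_⟩, fun x => ?_⟩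
  · have e : (2 : WithTop ℕ∞) = (1 : ℕ) + 1 := by norm_num
    rw [e, contDiff_succ_iff_hasFDerivAt]
    refine ⟨U1 lam F1, ?_, d0⟩
    exact_mod_cast contDiff_one_iff_hasFDerivAt.2 ⟨U2 lam F2, c2, d1⟩
  · rw [f0]; exact h.U1_bd ha hl x
  · rw [f0, f1]; exact h.U2_bd ha ha1 hl x
  · show |Hs v x i j| ≤ _
    rw [hH]
    refine (hap _ i j).trans ((h.U2_bd ha ha1 hl x).trans ?_)
    exact mul_le_mul_of_nonneg_left (by linarith [cg_pos ha ha1]) h.nn
  · show |Hs v x i j - Hs v y i j| ≤ _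
    rw [hH, hH]
    have e : U2 lam F2 x (ee i) (ee j) - U2 lam F2 y (ee i) (ee j)
        = (U2 lam F2 x - U2 lam F2 y) (ee i) (ee j) := by
      simp
    rw [e]
    refine (hap _ i j).trans ((h.U2_hol ha ha1 hl x y).trans ?_)
    refine mul_le_mul_of_nonneg_right ?_ (Real.rpow_nonneg (norm_nonneg _) _)
    exact mul_le_mul_of_nonneg_left (by linarith [HF.cs_nonneg a]) h.nn
  · have e1 : ∑ i, ∑ j, (1 : Matrix (Fin n) (Fin n) ℝ) i j * Hs v x i j = trB (U2 lam F2 x) := by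
      unfold trB
      refine Finset.sum_congr rfl fun i _ => ?_
      rw [Finset.sum_eq_single i]
      · rw [Matrix.one_apply_eq, one_mul, hH]
      · intro j _ hj
        rw [Matrix.one_apply_ne (Ne.symm hj), zero_mul]
      · intro hi; exact absurd (Finset.mem_univ i) hi
    unfold LA
    rw [e1, f0]
    exact h.pde ha ha1 hl x

end HFL

/-! ### the Gaussian family -/

theorem FF_bound {r : E n → ℝ} {M : ℝ} (hM : ∀ x, |r x| ≤ M)
    (s : ℝ) (x : E n) : |FF r s x| ≤ M := by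
  have hc := cn_pos n
  have hM0 : 0 ≤ M := (abs_nonneg _).trans (hM 0)
  unfold FF ZZ
  rw [abs_mul, abs_of_pos hc]
  have hp : ∀ z : E n, 0 < g0 n z := fun z => by rw [g0_apply]; exact Real.exp_pos _
  have h1 : |∫ z, r (x + s • z) • g0 n z| ≤ ∫ z, M * g0 n z := by
    rw [← Real.norm_eq_abs]
    refine norm_integral_le_of_norm_le ((g0 n).integrable.const_mul M)
      (Eventually.of_forall fun z => ?_)
    rw [norm_smul, Real.norm_eq_abs, Real.norm_of_nonneg (hp z).le]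
    exact mul_le_mul_of_nonneg_right (hM _) (hp z).le
  rw [integral_const_mul] at h1
  calc cn n * |∫ z, r (x + s • z) • g0 n z| ≤ cn n * (M * ∫ z, g0 n z) :=
        mul_le_mul_of_nonneg_left h1 hc.le
    _ = M := by
        rw [cn]
        field_simp [(int_g0_pos n).ne']

theorem inv_one_rpow {s : ℝ} (hs : 0 < s) (a : ℝ) : s⁻¹ * s ^ a = s ^ (a - 1) := by
  rw [Real.rpow_sub hs, Real.rpow_one]
  field_simp

theorem FF1_bound {a : ℝ} (ha : 0 < a) (ha1 : a < 1) {r : E n → ℝ} {N : ℝ} (h : HB a N r)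
    {s : ℝ} (hs : 0 < s) (x : E n) : ‖FF1 r s x‖ ≤ cn n * mm a (g1 n) * N * s ^ (a - 1) := by
  have h1 := ZZ_bound ha ha1 h (g1 n) (int_fderiv_zero (g0 n)) hs x
  have hi : 0 < s⁻¹ := by positivity
  have hc := cn_pos n
  unfold FF1
  rw [norm_neg, norm_smul, Real.norm_of_nonneg (by positivity), ← inv_one_rpow hs]
  calc cn n * s⁻¹ * ‖ZZ r (g1 n) s x‖
      ≤ cn n * s⁻¹ * (mm a (g1 n) * N * s ^ a) :=
        mul_le_mul_of_nonneg_left h1 (by positivity)
    _ = _ := by ring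

/-- the facts `HFL` for the heat family -/
theorem HFL_heat {a : ℝ} (ha : 0 < a) (ha1 : a < 1) {r : E n → ℝ} {N : ℝ} (h : HB a N r) :
    HFL a (cn n * (mm a (g1 n) + mm a (g2 n) + mm a (g3 n)) * N) N r (FF r) (FF1 r) (FF2 r) where
  nn := by
    have hN : 0 ≤ N := (abs_nonneg _).trans (h.1 0)
    have := mm_nonneg a (g1 n : E n → _)
    have := mm_nonneg a (g2 n : E n → _)
    have := mm_nonneg a (g3 n : E n → _)
    have := cn_pos n
    positivity
  nN := (abs_nonneg _).trans (h.1 0)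
  zero := fun x => FF_zero x
  d1 := fun s hs x => FF_deriv (h.continuous ha) h.1 hs x
  d2 := fun s hs x => FF1_deriv (h.continuous ha) h.1 hs x
  b0 := fun s _ x => FF_bound h.1 s x
  b1 := fun s hs x => by
    refine (FF1_bound ha ha1 h hs x).trans (mul_le_mul_of_nonneg_right ?_
      (Real.rpow_nonneg hs.le _))
    have hN : 0 ≤ N := (abs_nonneg _).trans (h.1 0)
    refine mul_le_mul_of_nonneg_right (mul_le_mul_of_nonneg_left ?_ (cn_pos n).le) hN
    linarith [mm_nonneg a (g3 n : E n → _), mm_nonneg a (g2 n : E n → _)]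
  b2 := fun s hs x => by
    refine (FF2_bound ha ha1 h hs x).trans (mul_le_mul_of_nonneg_right ?_
      (Real.rpow_nonneg hs.le _))
    have hN : 0 ≤ N := (abs_nonneg _).trans (h.1 0)
    refine mul_le_mul_of_nonneg_right (mul_le_mul_of_nonneg_left ?_ (cn_pos n).le) hN
    linarith [mm_nonneg a (g3 n : E n → _), mm_nonneg a (g1 n : E n → _)]
  b3 := fun s hs x y => by
    have hN : 0 ≤ N := (abs_nonneg _).trans (h.1 0)
    have h1 := (convex_univ (𝕜 := ℝ) (E := E n)).norm_image_sub_le_of_norm_hasFDerivWithin_le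
      (f := FF2 r s) (C := cn n * mm a (g3 n) * N * s ^ (a - 3))
      (fun x _ => (FF2_deriv (h.continuous ha) h.1 hs x).hasFDerivWithinAt)
      (fun x _ => FF3_bound ha ha1 h hs x) (mem_univ y) (mem_univ x)
    refine h1.trans (mul_le_mul_of_nonneg_right (mul_le_mul_of_nonneg_right
      (mul_le_mul_of_nonneg_right (mul_le_mul_of_nonneg_left ?_ (cn_pos n).le) hN)
      (Real.rpow_nonneg hs.le _)) (norm_nonneg _))
    linarith [mm_nonneg a (g2 n : E n → _), mm_nonneg a (g1 n : E n → _)]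
  cF := continuous_const.mul (ZZ_cont (h.continuous ha) h.1 (g0 n))
  c1 := by
    have h1 : ContinuousOn (fun q : ℝ × E n => q.1⁻¹) (Ioi 0 ×ˢ univ) :=
      continuousOn_fst.inv₀ fun q hq => (ne_of_gt hq.1)
    have h2 : ContinuousOn (fun q : ℝ × E n => cn n * q.1⁻¹) (Ioi 0 ×ˢ univ) :=
      continuousOn_const.mul h1
    have h3 := (h2.smul (ZZ_cont (h.continuous ha) h.1 (g1 n)).continuousOn).neg
    exact h3
  c2 := by
    have h1 : ContinuousOn (fun q : ℝ × E n => q.1⁻¹) (Ioi 0 ×ˢ univ) :=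
      continuousOn_fst.inv₀ fun q hq => (ne_of_gt hq.1)
    have h2 : ContinuousOn (fun q : ℝ × E n => cn n * (q.1⁻¹ * q.1⁻¹)) (Ioi 0 ×ˢ univ) :=
      continuousOn_const.mul (h1.mul h1)
    have h3 := h2.smul (ZZ_cont (h.continuous ha) h.1 (g2 n)).continuousOn
    exact h3
  dp := fun x p hp => FF_angle (h.continuous ha) h.1 x hp

/-- uniform version of **B1**: solvability of `(L₀ - lam) v = r` on bounded Hölder functions; the constant `C`
does not depend on `lam`, `r`, `N`. -/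
theorem solB_unif (n : ℕ) (a : ℝ) (ha : 0 < a) (ha1 : a < 1) : ∃ C : ℝ, 0 < C ∧
    ∀ lam : ℝ, 0 < lam → ∀ (r : E n → ℝ) (N : ℝ), HB a N r →
      ∃ v : E n → ℝ, ContDiff ℝ 2 v ∧ (∀ x, |v x| ≤ N / lam) ∧
        (∀ x, ‖fderiv ℝ v x‖ ≤ C * N) ∧ (∀ x, ‖fderiv ℝ (fderiv ℝ v) x‖ ≤ C * N) ∧
        (∀ i j, HB a (C * N) (fun x => Hs v x i j)) ∧
        ∀ x, LA (fun _ => (1 : Matrix (Fin n) (Fin n) ℝ)) v x - lam * v x = r x := by
  have hcg := cg_pos ha ha1
  have hcs := HF.cs_nonneg a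
  have h1 := mm_nonneg a (g1 n : E n → _)
  have h2 := mm_nonneg a (g2 n : E n → _)
  have h3 := mm_nonneg a (g3 n : E n → _)
  have hc := cn_pos n
  have hpi := Real.pi_pos
  set K : ℝ := cn n * (mm a (g1 n) + mm a (g2 n) + mm a (g3 n)) with hK
  have hK0 : 0 ≤ K := by positivity
  refine ⟨K * (HF.cs a + cg a + Real.pi / 2) + 1, by positivity, ?_⟩
  intro lam hl r N h
  have hN : 0 ≤ N := (abs_nonneg _).trans (h.1 0)
  obtain ⟨v, hv1, hv2, hv3, hv4, hv5, hv6⟩ := (HFL_heat ha ha1 h).sol ha ha1 hl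
  have hKN : 0 ≤ K * N := mul_nonneg hK0 hN
  have e1 : K * N * (Real.pi / 2) ≤ (K * (HF.cs a + cg a + Real.pi / 2) + 1) * N := by
    nlinarith [mul_nonneg hKN hcs, mul_nonneg hKN hcg.le]
  have e2 : K * N * HF.cs a ≤ (K * (HF.cs a + cg a + Real.pi / 2) + 1) * N := by
    nlinarith [mul_nonneg hKN hpi.le, mul_nonneg hKN hcg.le]
  have e3 : K * N * (HF.cs a + cg a) ≤ (K * (HF.cs a + cg a + Real.pi / 2) + 1) * N := by
    nlinarith [mul_nonneg hKN hpi.le]
  refine ⟨v, hv1, hv2, fun x => (hv3 x).trans e1, fun x => (hv4 x).trans e2,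
    fun i j => ⟨fun x => ((hv5 i j).1 x).trans e3, fun x y => ((hv5 i j).2 x y).trans
    (mul_le_mul_of_nonneg_right e3 (Real.rpow_nonneg (norm_nonneg _) _))⟩, hv6⟩

/-- a bounded Lipschitz function is Hölder -/
theorem hb_of_lip {a M L : ℝ} (ha : 0 < a) (ha1 : a < 1) {f : E n → ℝ} (hM : ∀ x, |f x| ≤ M)
    (hL0 : 0 ≤ L) (hL : ∀ x y, |f x - f y| ≤ L * ‖x - y‖) : HB a (2 * M + L) f := by
  have hM0 : 0 ≤ M := (abs_nonneg _).trans (hM 0)
  refine ⟨fun x => (hM x).trans (by linarith), fun x y => ?_⟩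
  rcases le_total ‖x - y‖ 1 with h | h
  · have h2 : ‖x - y‖ ≤ ‖x - y‖ ^ a := by
      rcases eq_or_lt_of_le (norm_nonneg (x - y)) with h0 | h0
      · rw [← h0, Real.zero_rpow ha.ne']
      · calc ‖x - y‖ = ‖x - y‖ ^ (1 : ℝ) := (Real.rpow_one _).symm
          _ ≤ ‖x - y‖ ^ a := Real.rpow_le_rpow_of_exponent_ge h0 h ha1.le
    have h3 : 0 ≤ ‖x - y‖ ^ a := Real.rpow_nonneg (norm_nonneg _) _
    calc |f x - f y| ≤ L * ‖x - y‖ := hL x y
      _ ≤ L * ‖x - y‖ ^ a := mul_le_mul_of_nonneg_left h2 hL0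
      _ ≤ (2 * M + L) * ‖x - y‖ ^ a := mul_le_mul_of_nonneg_right (by linarith) h3
  · have h2 : 1 ≤ ‖x - y‖ ^ a := Real.one_le_rpow h ha.le
    have h3 : |f x - f y| ≤ 2 * M := by
      have h4 := abs_sub (f x) (f y)
      linarith [hM x, hM y]
    calc |f x - f y| ≤ (2 * M + L) * 1 := by linarith
      _ ≤ (2 * M + L) * ‖x - y‖ ^ a := mul_le_mul_of_nonneg_left h2 (by linarith)

theorem lip_of_fderiv {f : E n → ℝ} {L : ℝ} (hf : Differentiable ℝ f)
    (h : ∀ x, ‖fderiv ℝ f x‖ ≤ L) (x y : E n) : |f x - f y| ≤ L * ‖x - y‖ := by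
  have h1 := (convex_univ (𝕜 := ℝ) (E := E n)).norm_image_sub_le_of_norm_fderiv_le
    (f := f) (C := L) (fun x _ => hf x) (fun x _ => h x) (mem_univ y) (mem_univ x)
  rwa [Real.norm_eq_abs] at h1

theorem hb_up {a M M' : ℝ} {f : E n → ℝ} (h : HB a M f) (hM : M ≤ M') : HB a M' f :=
  ⟨fun x => (h.1 x).trans hM, fun x y => (h.2 x y).trans
    (mul_le_mul_of_nonneg_right hM (Real.rpow_nonneg (norm_nonneg _) _))⟩

/-- **B1 (SolB)** -/
theorem solB : SolB := by
  intro n a lam ha ha1 hl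
  obtain ⟨C, hC, h⟩ := solB_unif n a ha ha1
  refine ⟨2 / lam + 3 * C, by positivity, ?_⟩
  intro r N hr
  have hN : 0 ≤ N := (abs_nonneg _).trans (hr.1 0)
  obtain ⟨v, v1, v2, v3, v4, v5, v6⟩ := h lam hl r N hr
  have hCN : 0 ≤ C * N := mul_nonneg hC.le hN
  have hNl : 0 ≤ N / lam := div_nonneg hN hl.le
  have hne : ∀ i : Fin n, ‖(ee i : E n)‖ = 1 := fun i => by simp
  have hd1 : Differentiable ℝ v := v1.differentiable (by norm_num)
  have hd2 : Differentiable ℝ (fderiv ℝ v) :=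
    (v1.fderiv_right (m := 1) (by norm_num)).differentiable (by norm_num)
  have e0 : (2 / lam + 3 * C) * N = 2 * (N / lam) + 3 * (C * N) := by ring
  refine ⟨v, ⟨v1, ?_, fun i => ?_, fun i j => ?_⟩, v6⟩
  · refine hb_up (hb_of_lip ha ha1 v2 hCN (lip_of_fderiv hd1 v3)) ?_
    rw [e0]; linarith
  · have hg : ∀ x, HasFDerivAt (fun x => gr v x i)
        ((ContinuousLinearMap.apply ℝ ℝ (ee i : E n)).comp (fderiv ℝ (fderiv ℝ v) x)) x := fun x =>
      (ContinuousLinearMap.apply ℝ ℝ (ee i : E n)).hasFDerivAt.comp x (hd2 x).hasFDerivAt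
    have b1 : ∀ x, |gr v x i| ≤ C * N := fun x => by
      have h1 := (fderiv ℝ v x).le_opNorm (ee i : E n)
      rw [hne, mul_one] at h1
      exact h1.trans (v3 x)
    have b2 : ∀ x, ‖fderiv ℝ (fun x => gr v x i) x‖ ≤ C * N := fun x => by
      rw [(hg x).fderiv]
      refine ContinuousLinearMap.opNorm_le_bound _ hCN fun y => ?_
      have h1 := (fderiv ℝ (fderiv ℝ v) x).le_opNorm₂ y (ee i : E n)
      rw [hne, mul_one] at h1
      exact h1.trans (mul_le_mul_of_nonneg_right (v4 x) (norm_nonneg _))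
    refine hb_up (hb_of_lip ha ha1 b1 hCN
      (lip_of_fderiv (fun x => (hg x).differentiableAt) b2)) ?_
    rw [e0]; linarith
  · refine hb_up (v5 i j) ?_
    rw [e0]; linarith

end Crest.Agent.R253.Br
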