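import Crest.Agent.R253.BrStep_175

/-!
Row 253, T6 (smooth Brenier map), node B4 (helper175): `stepB : SolB → StepB`.
Port of `R238/StepFin` (helper487).
-/

set_option autoImplicit false

open MeasureTheory Set Filter Metric
open scoped ContDiff Topology BoundedContinuousFunction

namespace Crest.Agent.R253.Br

open Crest.Agent.R238 Crest.Agent.R238.Step Crest.Agent.R238.EStep Crest.Agent.R253.BrSt

/-- **B4**: the uniform step of the continuity method. -/
theorem stepB (hS : SolB) : StepB := by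
  intro n a lam lo hi M M2 NP δ h0 h1 hlam _ hlo hhi hδ
  obtain ⟨D⟩ := exists_KDat hS n h0 h1 hlam
  -- constants
  set Cτ : ℝ := 1 / lo + (n : ℝ) ^ 2 * (1 / lo) ^ 2 * (1 + |M|) with hCτ
  have hCτ0 : 0 < Cτ := by positivity
  set M0 : ℝ := 2 * n * Cτ + 1 with hM0
  have hM00 : 0 < M0 := by positivity
  set M2' : ℝ := 1 + ((n : ℝ) ^ 2 * (2 * (1 + |Cτ|) * |M2|) + n * (2 * |M| * |M2|)) with hM2'
  have hM20 : 0 < M2' := by positivity
  set δ₁ : ℝ := min δ (lo / (2 * (n + 1))) with hδ₁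
  have hδ₁0 : 0 < δ₁ := by positivity
  set d0 : ℝ := δ₁ / D.C with hd0
  have hC := D.hC
  have hd00 : 0 < d0 := by positivity
  obtain ⟨t₀, ht₀, H⟩ := ode_stepQ (Kt h0 D) (trY n h0) (Qt h0 D) (max NP 0) M0 M2' d0 hM00 hM20
    hd00 (le_max_right _ _)
  refine ⟨t₀, ht₀, ?_⟩
  intro P hP s v hv hE hMA hA hSr s' hs'
  obtain ⟨PY, hPY, hPYn⟩ := exists_YZ h0 hP
  have hgm : ∀ i j, HB a (1 + |M|) (fun x => gm v x i j) := by
    intro i j
    have h1 : HB a 1 (fun _ : E n => (1 : Matrix (Fin n) (Fin n) ℝ) i j) := by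
      have h2 := HB.const (n := n) (a := a) ((1 : Matrix (Fin n) (Fin n) ℝ) i j)
      refine HB.mono h2 ?_
      rw [Matrix.one_apply]; split_ifs <;> simp
    have h3 := HB.add h1 (HB.mono (hv.h2 i j) (le_abs_self M))
    have h4 : (fun x => gm v x i j)
        = fun x => (1 : Matrix (Fin n) (Fin n) ℝ) i j + Hs v x i j := funext fun x => by
      rw [ExtInv.gm_apply]
    rw [h4]; exact h3
  have hL : ∃ N, HB a N (fun x => Real.log (gm v x).det) :=
    hb_logdet h0 hlo hE hgm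
  obtain ⟨r, hr⟩ := exists_r h0 D hv hP hMA hL
  obtain ⟨τ, hτ, hτn⟩ := exists_tau h0 hlo hhi hv hE
  have hτr : ∀ i j x, fn (τ i j) x = tauf (D.vv r) x i j := by rw [hr]; exact hτ
  have hEr : ∀ x, Ell lo hi (gm (D.vv r) x) := by rw [hr]; exact hE
  have hu := unit_of h0 D hlo hEr hτr
  have hUD : IsUnit (DQ (Kt h0 D) (trY n h0) (Qt h0 D) r) :=
    isUnit_DQ h0 D hr hv hA hSr hτ hτn hu.2
  have hG0 : GoodQ (Kt h0 D) (trY n h0) (Qt h0 D) r := ⟨hu.1, hUD⟩
  have hi0 : ‖ginv (Kt h0 D) r‖ ≤ M0 := by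
    rw [hu.2]
    refine (MO_norm h0 τ).trans ?_
    have : ‖τ‖ ≤ Cτ := (pi_norm_le_iff_of_nonneg hCτ0.le).2 fun i =>
      (pi_norm_le_iff_of_nonneg hCτ0.le).2 fun j => hτn i j
    have h2 : 2 * (n : ℝ) * ‖τ‖ ≤ 2 * n * Cτ := by gcongr
    linarith
  have hi2 : ‖Ring.inverse (DQ (Kt h0 D) (trY n h0) (Qt h0 D) r)‖ ≤ M2' :=
    inverse_le_of_antilip hUD hM20.le (antilip h0 D hr hv hA hτ hτn hu.2)
  obtain ⟨α, hα0, hα⟩ := H PY (hPYn.trans (le_max_left _ _)) r hG0 hi0 hi2 s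
  have hsub : Icc s s' ⊆ Icc s (s + t₀) := Icc_subset_Icc le_rfl hs'.2
  -- closeness along the path
  have hclose : ∀ t ∈ Icc s s', ClsB a δ₁ (fun x => D.vv (α t) x - v x) := by
    intro t ht
    have h1 := cls_diff h0 D (α t) r
    rw [hr] at h1
    have hle : D.C * ‖α t - r‖ ≤ δ₁ := by
      calc D.C * ‖α t - r‖ ≤ D.C * d0 := by
            gcongr; exact (hα t (hsub ht)).2.2
        _ = δ₁ := by rw [hd0]; field_simp
    exact ⟨h1.c2, HB.mono h1.h0 hle, fun i => HB.mono (h1.h1 i) hle,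
      fun i j => HB.mono (h1.h2 i j) hle⟩
  have hclose2 : ∀ t ∈ Icc s s', ∀ i j,
      HB a δ₁ (fun x => Hs (D.vv (α t)) x i j - Hs v x i j) := by
    intro t ht i j
    have h1 := (hclose t ht).h2 i j
    have h2 : (fun x => Hs (fun x => D.vv (α t) x - v x) x i j)
        = fun x => Hs (D.vv (α t)) x i j - Hs v x i j := by
      funext x; exact Step.Hs_sub (D.c2 _) hv.c2 x i j
    rwa [h2] at h1
  have hEll : ∀ t ∈ Icc s s', ∀ x, Ell (lo / 2) (hi + lo / 2) (gm (D.vv (α t)) x) := by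
    intro t ht x
    have h1 : gm (D.vv (α t)) x
        = gm v x + Matrix.of (fun i j => Hs (D.vv (α t)) x i j - Hs v x i j) := by
      ext i j
      rw [Matrix.add_apply, ExtInv.gm_apply, ExtInv.gm_apply, Matrix.of_apply]; ring
    rw [h1]
    refine Ell.sm_add_small hlo.le (hE x) (fun i j => ?_) (fun i j => ?_)
    · rw [Matrix.of_apply, Matrix.of_apply, ExtInv.Hs_symm (D.c2 (α t)) x i j,
        ExtInv.Hs_symm hv.c2 x i j]
    · rw [Matrix.of_apply]
      refine ((hclose2 t ht i j).1 x).trans ?_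
      refine (min_le_right _ _).trans ?_
      have hn : (0 : ℝ) < n := by
        have : 0 < n := Fin.pos i
        exact_mod_cast this
      exact div_le_div_of_nonneg_left hlo.le (by positivity) (by linarith)
  have hcls : ∀ t ∈ Icc s s', ClsB a (M + δ) (D.vv (α t)) := by
    intro t ht
    have hc := hclose t ht
    have hm : δ₁ ≤ δ := min_le_left _ _
    refine ⟨D.c2 _, ?_, fun i => ?_, fun i j => ?_⟩
    · have h1 := HB.add hv.h0 (HB.mono hc.h0 hm)
      have h2 : (fun x => v x + (D.vv (α t) x - v x)) = D.vv (α t) := by funext x; ring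
      rwa [h2] at h1
    · have h1 := HB.add (hv.h1 i) (HB.mono (hc.h1 i) hm)
      have h2 : (fun x => gr v x i + gr (fun x => D.vv (α t) x - v x) x i)
          = fun x => gr (D.vv (α t)) x i := by
        funext x; rw [gr_sub (D.c2 _) hv.c2]; ring
      rwa [h2] at h1
    · have h1 := HB.add (hv.h2 i j) (HB.mono (hclose2 t ht i j) hm)
      have h2 : (fun x => Hs v x i j + (Hs (D.vv (α t)) x i j - Hs v x i j))
          = fun x => Hs (D.vv (α t)) x i j := by funext x; ring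
      rwa [h2] at h1
  have hhi2 : lo / 2 ≤ hi + lo / 2 := by linarith
  have htau : ∀ t ∈ Icc s s', ∃ τ : Fin n → Fin n → YZ n a,
      ∀ i j x, fn (τ i j) x = tauf (D.vv (α t)) x i j := by
    intro t ht
    obtain ⟨τ', h1, -⟩ := exists_tau h0 (half_pos hlo) hhi2 (hcls t ht) (hEll t ht)
    exact ⟨τ', h1⟩
  have hs1 : s' ∈ Icc s s' := ⟨hs'.1, le_rfl⟩
  refine ⟨D.vv (α s'), hcls s' hs1, fun i j => HB.mono (hclose2 s' hs1 i j) (min_le_left _ _),
    hEll s' hs1, ?_, ?_⟩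
  · refine ma_path h0 D (fun x => congrFun hPY x) hs'.1 (half_pos hlo) hEll htau
      (fun t ht => ⟨(hα t (hsub ht)).1, (hα t (hsub ht)).2.1.mono hsub⟩) ?_
    rw [hα0, hr]; exact hMA
  · obtain ⟨τ', h1⟩ := htau s' hs1
    have hu' := unit_of h0 D (half_pos hlo) (hEll s' hs1) h1
    exact srj_of h0 D h1 hu'.2 (hα s' (hsub hs1)).1.2

end Crest.Agent.R253.Br
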