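import Crest.Agent.R253.AprU_214
import Crest.Agent.R253.D3U_957
import Crest.Agent.R253.StepB_175
import Crest.Agent.R253.SchB_944
import Crest.Agent.R253.RegB_342
import Crest.Agent.R253.SolB_932
import Crest.Agent.R253.BndU_932
import Crest.Agent.R253.Bind_441

/-!
Row 253 (S0391), task T6 (helper505): the complete existence statement `∀ n, ExiU n`
(from `BndU`), and the packed t-side data for a datum `P` with constants `PCB`.
-/

set_option autoImplicit false

open Set Filter
open scoped ContDiff Topology

namespace Crest.Agent.R253.Br

open Crest.Agent.R238

/-- everything except the bounds `BndU` -/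
theorem exiU_of_bndU (hB : BndU) : ∀ n, ExiU n :=
  exiU solB (stepB solB) (aprStmtU_of hB CalB.d3U schB) regB

/-- **T6, complete**: uniform existence of smooth solutions of the regularised equation -/
theorem exiU_all : ∀ n, ExiU n := exiU_of_bndU bndU

end Crest.Agent.R253.Br
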