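import Crest.Agent.R253.LimLam_140

/-!
# R253 (helper140): sequence limits for the normalisation and the diagonal argument

* `Cv.tendsto_ex_seq` : moments with varying test functions;
* `cv_pot` : convergence of densities `K0 exp (-W k)` from convergence of the potentials;
* `L¹` isometry of affine images, compatibility of `aff`;
* `SB Good f` : the output of step B; `diag`.
-/

set_option autoImplicit false
open MeasureTheory Set Filter Topology Matrix
open Crest.GeometryTopology.Isotropic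
open Crest.Agent.R253.Cpt435

namespace Crest.Agent.R253.Lim140

variable {m : ℕ}

/-- moments with varying test functions -/
theorem Cv.tendsto_ex_seq {f : ℕ → (Fin m → ℝ) → ℝ} {g : (Fin m → ℝ) → ℝ} (h : Cv f g)
    {ψ : ℕ → (Fin m → ℝ) → ℝ} {χ : (Fin m → ℝ) → ℝ} (hψm : ∀ k, Measurable (ψ k))
    {K : ℝ} {N : ℕ} (hK : ∀ k x, |ψ k x| ≤ K * (1 + ‖x‖) ^ N)
    (hlim : ∀ᵐ x, Tendsto (fun k => ψ k x) atTop (𝓝 (χ x))) :
    Tendsto (fun k => ∫ x, ψ k x * f k x) atTop (𝓝 (∫ x, χ x * g x)) := by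
  obtain ⟨C, c, hC, hc, hb⟩ := h.bound
  have hPB : PB (fun x : Fin m → ℝ => |K| * (1 + ‖x‖) ^ N) :=
    ⟨by fun_prop, |K|, N, abs_nonneg _, fun x => by
      rw [abs_of_nonneg (by positivity)]⟩
  obtain ⟨K1, hK10, hK1⟩ := hPB.exp_bound (c := c / 2) (by positivity)
  have hK' : ∀ k x, |ψ k x| ≤ K1 * Real.exp (c / 2 * ‖x‖) := by
    intro k x
    refine (hK k x).trans (le_trans ?_ ((le_abs_self _).trans (hK1 x)))
    exact mul_le_mul_of_nonneg_right (le_abs_self K) (by positivity)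
  refine tendsto_integral_of_dominated_convergence
    (fun x => K1 * C * Real.exp (-(c / 2) * ‖x‖)) ?_ ?_ ?_ ?_
  · intro k; exact ((hψm k).mul (h.meas k)).aestronglyMeasurable
  · exact (integrable_exp_neg_norm (by positivity)).const_mul _
  · intro k
    refine ae_of_all _ fun x => ?_
    rw [Real.norm_eq_abs, abs_mul, abs_of_nonneg (h.nonneg k x)]
    have hK2 : 0 ≤ K1 * Real.exp (c / 2 * ‖x‖) := (abs_nonneg _).trans (hK' k x)
    calc |ψ k x| * f k x ≤ (K1 * Real.exp (c / 2 * ‖x‖)) * (C * Real.exp (-c * ‖x‖)) :=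
          mul_le_mul (hK' k x) (hb k x) (h.nonneg k x) hK2
      _ = K1 * C * (Real.exp (c / 2 * ‖x‖) * Real.exp (-c * ‖x‖)) := by ring
      _ = _ := by rw [← Real.exp_add]; ring_nf
  · filter_upwards [h.lim, hlim] with x hx hx'
    exact hx'.mul hx

/-- convergence of densities from convergence of potentials -/
theorem cv_pot {W : ℕ → (Fin m → ℝ) → ℝ} {Ws : (Fin m → ℝ) → ℝ} {c : ℕ → ℝ} {a C : ℝ}
    (ha : 0 < a) (hWm : ∀ k, Measurable (W k)) (hWs : Measurable Ws)
    (hb : ∀ k x, a * sq x - C ≤ W k x - c k)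
    (hlim : ∀ x, Tendsto (fun k => W k x - c k) atTop (𝓝 (Ws x))) :
    Cv (fun k x => Real.exp (-(W k x - c k))) (fun x => Real.exp (-(Ws x))) := by
  refine ⟨fun k => Real.measurable_exp.comp ((hWm k).sub_const _).neg,
    Real.measurable_exp.comp hWs.neg, fun k x => (Real.exp_pos _).le,
    fun x => (Real.exp_pos _).le,
    ⟨Real.exp (C + 1 / (4 * a)), 1, (Real.exp_pos _).le, one_pos, fun k x => ?_⟩,
    ae_of_all _ fun x => (Real.continuous_exp.tendsto _).comp (hlim x).neg⟩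
  rw [← Real.exp_add]
  apply Real.exp_le_exp.mpr
  have h1 := hb k x
  have h2 := norm_sq_le x
  have h3 : ‖x‖ ≤ a * ‖x‖ ^ 2 + 1 / (4 * a) := by
    have h4 : 0 ≤ (2 * a * ‖x‖ - 1) ^ 2 / (4 * a) := by positivity
    have h5 : (2 * a * ‖x‖ - 1) ^ 2 / (4 * a) = a * ‖x‖ ^ 2 - ‖x‖ + 1 / (4 * a) := by
      field_simp; ring
    linarith
  nlinarith

/-- the same for densities `K0 exp (-W k)` of total mass one -/
theorem cv_pot_one {W : ℕ → (Fin m → ℝ) → ℝ} {Ws : (Fin m → ℝ) → ℝ} {c : ℕ → ℝ} {a C : ℝ}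
    (ha : 0 < a) (hWm : ∀ k, Measurable (W k)) (hWs : Measurable Ws)
    (hb : ∀ k x, a * sq x - C ≤ W k x - c k)
    (hlim : ∀ x, Tendsto (fun k => W k x - c k) atTop (𝓝 (Ws x)))
    {K0 : ℕ → ℝ} (h1 : ∀ k, ∫ x, K0 k * Real.exp (-(W k x)) = 1) :
    Cv (fun k x => K0 k * Real.exp (-(W k x))) (nrm (fun x => Real.exp (-(Ws x)))) ∧
      0 < ∫ x, Real.exp (-(Ws x)) := by
  have h2 := cv_pot ha hWm hWs hb hlim
  have hEB : EB (fun x : Fin m → ℝ => Real.exp (-(Ws x))) := by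
    obtain ⟨C', c', hC', hc', hb', hL⟩ := h2.boundL
    refine ⟨h2.measL, C', c', hC', hc', fun x => ?_⟩
    rw [abs_of_pos (Real.exp_pos _)]
    exact le_of_tendsto ((Real.continuous_exp.tendsto _).comp (hlim x).neg)
      (Eventually.of_forall fun k => hb' k x)
  have hpos : 0 < ∫ x, Real.exp (-(Ws x)) := integral_exp_pos hEB.integrable
  refine ⟨?_, hpos⟩
  have h3 : (fun (k : ℕ) (x : Fin m → ℝ) => K0 k * Real.exp (-(W k x))) =
      fun k => nrm (fun x => Real.exp (-(W k x - c k))) := by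
    funext k
    have hK : K0 k ≠ 0 := by
      intro h0
      have := h1 k
      rw [h0] at this
      simp at this
    have h4 : (fun x => K0 k * Real.exp (-(W k x))) = nrm (fun x => K0 k * Real.exp (-(W k x))) := by
      funext x; unfold nrm; rw [h1 k, div_one]
    rw [h4, nrm_const_mul _ hK]
    have h5 : (fun x => Real.exp (-(W k x)))
        = fun x => Real.exp (-(c k)) * Real.exp (-(W k x - c k)) := by
      funext x; rw [← Real.exp_add]; congr 1; ring
    rw [h5, nrm_const_mul _ (Real.exp_pos _).ne']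
  rw [h3]
  exact h2.nrm hpos

/-! ### affine images and `L¹` -/

theorem aff_aff (f : (Fin m → ℝ) → ℝ) (S T : Matrix (Fin m) (Fin m) ℝ) :
    aff (aff f S 0) T 0 = aff f (S * T) 0 := by
  funext u
  simp only [aff, zero_add, mulVec_mulVec, det_mul, abs_mul]
  ring

theorem aff_one (f : (Fin m → ℝ) → ℝ) : aff f 1 0 = f := by
  funext u; simp [aff]

theorem L1_aff {f g : (Fin m → ℝ) → ℝ} (hf : Measurable f) (hg : Measurable g)
    {T : Matrix (Fin m) (Fin m) ℝ} (hT : T.det ≠ 0) :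
    ∫ x, |aff f T 0 x - aff g T 0 x| = ∫ x, |f x - g x| := by
  rw [← integral_comp_affine (fun x => |f x - g x|) ((hf.sub hg).abs) T hT 0]
  congr 1; funext u
  simp only [aff]
  rw [← mul_sub, abs_mul, abs_abs]

theorem L1_triangle {f g h : (Fin m → ℝ) → ℝ} (hf : Integrable f) (hg : Integrable g)
    (hh : Integrable h) :
    ∫ x, |f x - h x| ≤ (∫ x, |f x - g x|) + ∫ x, |g x - h x| := by
  have e : (∫ x, |f x - g x|) + ∫ x, |g x - h x| = ∫ x, (|f x - g x| + |g x - h x|) :=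
    (integral_add (hf.sub hg).abs (hg.sub hh).abs).symm
  rw [e]
  refine integral_mono (hf.sub hh).abs ((hf.sub hg).abs.add (hg.sub hh).abs) fun x => ?_
  exact abs_sub_le _ _ _

/-- mean and covariance of scalar images -/
theorem densCov_scal {f : (Fin m → ℝ) → ℝ} (hf : LCD f) {t : ℝ} (ht : 0 < t) (i j : Fin m) :
    densCov (aff f (t • (1 : Matrix (Fin m) (Fin m) ℝ)) 0) i j = (t ^ 2)⁻¹ * densCov f i j := by
  have hT : (t • (1 : Matrix (Fin m) (Fin m) ℝ)).det ≠ 0 := by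
    rw [det_smul, det_one, mul_one]; exact (pow_pos ht _).ne'
  rw [densCov_aff hf hT 0]
  simp only [transpose_smul, transpose_one, smul_mul_assoc, mul_smul_comm, one_mul, mul_one,
    Matrix.smul_apply, smul_eq_mul]
  field_simp

theorem densMean_scal {f : (Fin m → ℝ) → ℝ} (hf : LCD f) {t : ℝ} (ht : 0 < t) (i : Fin m) :
    densMean (aff f (t • (1 : Matrix (Fin m) (Fin m) ℝ)) 0) i = t⁻¹ * densMean f i := by
  have hT : (t • (1 : Matrix (Fin m) (Fin m) ℝ)).det ≠ 0 := by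
    rw [det_smul, det_one, mul_one]; exact (pow_pos ht _).ne'
  have h1 := ex_aff (f := f) (ψ := fun x => x i) hf.meas (measurable_pi_apply i) hT 0
  have h2 : densMean f i = t * densMean (aff f (t • (1 : Matrix (Fin m) (Fin m) ℝ)) 0) i := by
    rw [densMean_eq, densMean_eq, ← h1]
    simp only [zero_add, smul_mulVec, one_mulVec, Pi.smul_apply, smul_eq_mul]
    rw [ex_const_mul]
  rw [h2, ← mul_assoc, inv_mul_cancel₀ ht.ne', one_mul]

/-! ### the diagonal argument -/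

/-- output of step B (and of the whole approximation) for the density `f` -/
def SB (Good : ((Fin m → ℝ) → ℝ) → Prop) (f : (Fin m → ℝ) → ℝ) : Prop :=
  ∃ (g : ℕ → (Fin m → ℝ) → ℝ) (A : ℕ → Matrix (Fin m) (Fin m) ℝ),
    (∀ k, Good (g k)) ∧ (∀ k, (A k).PosDef) ∧
    Tendsto (fun k => ∫ x, |aff (g k) (A k) 0 x - f x|) atTop (𝓝 0) ∧
    Tendsto (fun k => DD (g k)) atTop (𝓝 (DD f)) ∧
    (∀ i j, Tendsto (fun k => densCov (aff (g k) (A k) 0) i j) atTop (𝓝 (densCov f i j))) ∧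
    (∀ i, Tendsto (fun k => densMean (aff (g k) (A k) 0) i) atTop (𝓝 (densMean f i)))

variable {Good : ((Fin m → ℝ) → ℝ) → Prop}

theorem ev_lt {u : ℕ → ℝ} {l ε : ℝ} (h : Tendsto u atTop (𝓝 l)) (hε : 0 < ε) :
    ∀ᶠ k in atTop, |u k - l| < ε := by
  have := (h.sub_const l).abs
  rw [sub_self, abs_zero] at this
  exact this.eventually (gt_mem_nhds hε)

/-- `ε`-form of `SB` -/
theorem SB.exists_lt {f : (Fin m → ℝ) → ℝ} (h : SB Good f) {ε : ℝ} (hε : 0 < ε) :
    ∃ (g : (Fin m → ℝ) → ℝ) (A : Matrix (Fin m) (Fin m) ℝ), Good g ∧ A.PosDef ∧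
      ∫ x, |aff g A 0 x - f x| < ε ∧ |DD g - DD f| < ε ∧
      (∀ i j, |densCov (aff g A 0) i j - densCov f i j| < ε) ∧
      (∀ i, |densMean (aff g A 0) i - densMean f i| < ε) := by
  obtain ⟨g, A, h1, h2, h3, h4, hc, hm⟩ := h
  have h5 : ∀ᶠ k in atTop, ∫ x, |aff (g k) (A k) 0 x - f x| < ε :=
    h3.eventually (gt_mem_nhds hε)
  have h6 := ev_lt h4 hε
  have h7 : ∀ᶠ k in atTop, ∀ i j, |densCov (aff (g k) (A k) 0) i j - densCov f i j| < ε :=
    eventually_all.mpr fun i => eventually_all.mpr fun j => ev_lt (hc i j) hε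
  have h8 : ∀ᶠ k in atTop, ∀ i, |densMean (aff (g k) (A k) 0) i - densMean f i| < ε :=
    eventually_all.mpr fun i => ev_lt (hm i) hε
  obtain ⟨k, ⟨⟨hk1, hk2⟩, hk3⟩, hk4⟩ := (((h5.and h6).and h7).and h8).exists
  exact ⟨g k, A k, h1 k, h2 k, hk1, hk2, hk3, hk4⟩

theorem tendsto_of_lt {u : ℕ → ℝ} {l : ℝ} (h : ∀ k : ℕ, |u k - l| < 1 / ((k : ℝ) + 1)) :
    Tendsto u atTop (𝓝 l) := by
  have h5 : Tendsto (fun k => u k - l) atTop (𝓝 0) := by
    refine squeeze_zero_norm (fun k => ?_) tendsto_one_div_add_atTop_nhds_zero_nat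
    rw [Real.norm_eq_abs]; exact (h k).le
  simpa using h5.add_const l

theorem SB.of_eps {f : (Fin m → ℝ) → ℝ}
    (h : ∀ ε : ℝ, 0 < ε → ∃ (g : (Fin m → ℝ) → ℝ) (A : Matrix (Fin m) (Fin m) ℝ), Good g ∧
      A.PosDef ∧ ∫ x, |aff g A 0 x - f x| < ε ∧ |DD g - DD f| < ε ∧
      (∀ i j, |densCov (aff g A 0) i j - densCov f i j| < ε) ∧
      (∀ i, |densMean (aff g A 0) i - densMean f i| < ε)) : SB Good f := by
  have hpos : ∀ k : ℕ, (0 : ℝ) < 1 / ((k : ℝ) + 1) := fun k => Nat.one_div_pos_of_nat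
  choose g A h1 h2 h3 h4 h5 h6 using fun k : ℕ => h _ (hpos k)
  refine ⟨g, A, h1, h2, ?_, tendsto_of_lt h4, fun i j => tendsto_of_lt fun k => h5 k i j,
    fun i => tendsto_of_lt fun k => h6 k i⟩
  exact squeeze_zero (fun k => integral_nonneg fun x => abs_nonneg _) (fun k => (h3 k).le)
    tendsto_one_div_add_atTop_nhds_zero_nat

/-- affine images by positive scalar matrices -/
theorem SB.scale {f : (Fin m → ℝ) → ℝ} (hf : LCD f) {t : ℝ} (ht : 0 < t)
    (hG : ∀ g, Good g → LCD g)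
    (h : SB Good (aff f (t • (1 : Matrix (Fin m) (Fin m) ℝ)) 0)) : SB Good f := by
  have hdet : ∀ s : ℝ, 0 < s → (s • (1 : Matrix (Fin m) (Fin m) ℝ)).det ≠ 0 := by
    intro s hs
    rw [det_smul, det_one, mul_one]
    exact (pow_pos hs _).ne'
  obtain ⟨g, A, h1, h2, h3, h4, hc, hm⟩ := h
  have hti : 0 < t⁻¹ := inv_pos.mpr ht
  have hL : ∀ k, LCD (aff (g k) (A k) 0) := fun k =>
    (hG _ (h1 k)).comp_affine _ (h2 k).det_pos.ne' 0
  have hLf : LCD (aff f (t • (1 : Matrix (Fin m) (Fin m) ℝ)) 0) := hf.comp_affine _ (hdet t ht) 0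
  have e1 : ∀ k, aff (g k) (t⁻¹ • A k) 0
      = aff (aff (g k) (A k) 0) (t⁻¹ • (1 : Matrix (Fin m) (Fin m) ℝ)) 0 := by
    intro k
    rw [aff_aff]; congr 1
    rw [mul_smul_comm, mul_one]
  have e2 : f = aff (aff f (t • (1 : Matrix (Fin m) (Fin m) ℝ)) 0)
      (t⁻¹ • (1 : Matrix (Fin m) (Fin m) ℝ)) 0 := by
    rw [aff_aff, smul_mul_smul_comm, mul_one, mul_inv_cancel₀ ht.ne', one_smul, aff_one]
  refine ⟨g, fun k => t⁻¹ • A k, h1, fun k => (h2 k).smul hti, ?_, ?_, fun i j => ?_,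
    fun i => ?_⟩
  · have e3 : ∀ k, ∫ x, |aff (g k) (t⁻¹ • A k) 0 x - f x|
        = ∫ x, |aff (g k) (A k) 0 x - aff f (t • (1 : Matrix (Fin m) (Fin m) ℝ)) 0 x| := by
      intro k
      rw [← L1_aff (hL k).meas hLf.meas (hdet _ hti), ← e1 k, ← e2]
    simp only [e3]
    exact h3
  · rw [DD_aff hf (hdet t ht) 0] at h4
    exact h4
  · simp only [e1, densCov_scal (hL _) hti]
    conv_rhs => rw [e2, densCov_scal hLf hti]
    exact (hc i j).const_mul _
  · simp only [e1, densMean_scal (hL _) hti]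
    conv_rhs => rw [e2, densMean_scal hLf hti]
    exact (hm i).const_mul _

/-- **diagonal argument**: `f` is a limit of densities `F j` having `SB` -/
theorem SB.of_limit {f : (Fin m → ℝ) → ℝ} (hf : LCD f) {F : ℕ → (Fin m → ℝ) → ℝ}
    (hF : ∀ k, LCD (F k)) (hcv : Cv F f) (hSB : ∀ k, SB Good (F k))
    (hG : ∀ g, Good g → LCD g) : SB Good f := by
  apply SB.of_eps
  intro ε hε
  have hε2 := half_pos hε
  have h1 := hcv.tendsto_L1
  have h2 := hcv.tendsto_DD hf (fun k => (hF k).int1)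
  have h5 : ∀ᶠ k in atTop, ∫ x, |F k x - f x| < ε / 2 := h1.eventually (gt_mem_nhds hε2)
  have h6 := ev_lt h2 hε2
  have h7 : ∀ᶠ k in atTop, ∀ i j, |densCov (F k) i j - densCov f i j| < ε / 2 :=
    eventually_all.mpr fun i => eventually_all.mpr fun j =>
      ev_lt (hcv.tendsto_densCov hf.eb (fun k => (hF k).int1) hf.int1 i j) hε2
  have h8 : ∀ᶠ k in atTop, ∀ i, |densMean (F k) i - densMean f i| < ε / 2 :=
    eventually_all.mpr fun i => ev_lt (hcv.tendsto_densMean i) hε2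
  obtain ⟨k, ⟨⟨hk1, hk2⟩, hk3⟩, hk4⟩ := (((h5.and h6).and h7).and h8).exists
  obtain ⟨g, A, h7, h8, h9, h10, h11, h12⟩ := (hSB k).exists_lt hε2
  refine ⟨g, A, h7, h8, ?_, ?_, fun i j => ?_, fun i => ?_⟩
  · have hi : Integrable (aff g A 0) := ((hG g h7).comp_affine A h8.det_pos.ne' 0).integrable
    have := L1_triangle hi (hF k).integrable hf.integrable
    linarith
  · calc |DD g - DD f| ≤ |DD g - DD (F k)| + |DD (F k) - DD f| := abs_sub_le _ _ _
      _ < ε / 2 + ε / 2 := add_lt_add h10 hk2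
      _ = ε := by ring
  · calc |densCov (aff g A 0) i j - densCov f i j|
        ≤ |densCov (aff g A 0) i j - densCov (F k) i j| + |densCov (F k) i j - densCov f i j| :=
          abs_sub_le _ _ _
      _ < ε / 2 + ε / 2 := add_lt_add (h11 i j) (hk3 i j)
      _ = ε := by ring
  · calc |densMean (aff g A 0) i - densMean f i|
        ≤ |densMean (aff g A 0) i - densMean (F k) i| + |densMean (F k) i - densMean f i| :=
          abs_sub_le _ _ _
      _ < ε / 2 + ε / 2 := add_lt_add (h12 i) (hk4 i)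
      _ = ε := by ring

/-- the inequality half -/
theorem SB.nonneg {f : (Fin m → ℝ) → ℝ} (h : SB Good f) (hG : ∀ g, Good g → 0 ≤ DD g) :
    0 ≤ DD f := by
  obtain ⟨g, A, h1, _, _, h4, _⟩ := h
  exact ge_of_tendsto h4 (Eventually.of_forall fun k => hG _ (h1 k))

/-- weak convergence from `L¹` convergence -/
theorem tendsto_bounded {g : ℕ → (Fin m → ℝ) → ℝ} {f : (Fin m → ℝ) → ℝ}
    (hg : ∀ k, Integrable (g k)) (hf : Integrable f)
    (h : Tendsto (fun k => ∫ x, |g k x - f x|) atTop (𝓝 0)) {ψ : (Fin m → ℝ) → ℝ}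
    (hψm : Measurable ψ) {K : ℝ} (hK : ∀ x, |ψ x| ≤ K) :
    Tendsto (fun k => ∫ x, ψ x * g k x) atTop (𝓝 (∫ x, ψ x * f x)) := by
  have hint : ∀ u : (Fin m → ℝ) → ℝ, Integrable u → Integrable (fun x => ψ x * u x) := by
    intro u hu
    exact hu.bdd_mul hψm.aestronglyMeasurable (ae_of_all _ fun x => by
      rw [Real.norm_eq_abs]; exact hK x)
  have h1 : Tendsto (fun k => (∫ x, ψ x * g k x) - ∫ x, ψ x * f x) atTop (𝓝 0) := by
    have h2 : Tendsto (fun k => K * ∫ x, |g k x - f x|) atTop (𝓝 0) := by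
      simpa using h.const_mul K
    refine squeeze_zero_norm (fun k => ?_) h2
    rw [← integral_sub (hint _ (hg k)) (hint _ hf), ← integral_const_mul]
    refine (norm_integral_le_integral_norm _).trans (integral_mono_of_nonneg
      (ae_of_all _ fun x => norm_nonneg _) (((hg k).sub hf).abs.const_mul K)
      (ae_of_all _ fun x => ?_))
    simp only
    rw [← mul_sub, norm_mul, Real.norm_eq_abs, Real.norm_eq_abs]
    exact mul_le_mul_of_nonneg_right (hK x) (abs_nonneg _)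
  simpa using h1.add_const (∫ x, ψ x * f x)

end Crest.Agent.R253.Lim140
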