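import Crest.Agent.R238.MaxPE
import Crest.Agent.R238.HBLog
import Crest.Agent.R238.Sch138a
import Crest.Agent.R238.SchInt

/-!
Row 253, T6 node B11 (helper666): uniqueness and Lipschitz dependence on `P` for the Monge-Ampere
equation with drift and zero order term

`log det (1 + D²v) - x·∇v - |∇v|²/2 - lam v = - s P`,

together with the interpolation "sup small + `D²` Hoelder ⇒ gradient and Hessian small".
-/

set_option autoImplicit false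

open MeasureTheory Set Filter
open scoped ContDiff Topology

namespace Crest.Agent.R253.BrUni666

open Crest.Agent.R238 Crest.Agent.R238.MaxP Crest.Agent.R238.Sch138 Crest.Agent.R238.SchI

variable {n : ℕ}

/-- `|∇v|²(x)` as the sum of the squares of the partial derivatives -/
noncomputable def grad2 (v : E n → ℝ) (x : E n) : ℝ := ∑ i, (fderiv ℝ v x (ee i)) ^ 2

/-- `log det (1 + D²v) - x·∇v - |∇v|²/2 - lam v = - s P` -/
def MAb (P : E n → ℝ) (lam s : ℝ) (v : E n → ℝ) : Prop :=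
  ∀ x, Real.log (gm v x).det - fderiv ℝ v x x - grad2 v x / 2 - lam * v x = - s * P x

/-- **maximum principle** with bounded drift and zero order term -/
theorem maxB {τ : E n → Matrix (Fin n) (Fin n) ℝ} (hτ : ∀ x, (τ x).PosSemidef)
    {T : ℝ} (hT : ∀ x, (τ x).trace ≤ T) {w : E n → ℝ} (hw : ContDiff ℝ 2 w) {M : ℝ}
    (hM : ∀ x, w x ≤ M) {b : E n → E n} {K : ℝ} (hb : ∀ x, ‖b x‖ ≤ K) {lam D : ℝ}
    (hlam : 0 < lam)
    (h : ∀ x, lam * w x - D ≤ LA τ w x - fderiv ℝ w x (b x)) : ∀ x, w x ≤ D / lam := by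
  intro x0
  have hK : 0 ≤ K := (norm_nonneg _).trans (hb 0)
  rw [le_div_iff₀ hlam, mul_comm]
  refine le_of_forall_pos_le_add fun η hη => ?_
  set ε : ℝ := η / (1 + K + lam) with hε
  have hpos : 0 < 1 + K + lam := by linarith
  have hε0 : 0 < ε := by positivity
  obtain ⟨x, hx1, hx2, hx3, -⟩ := omori_yau_LA hτ hT hw hM x0 hε0
  have h1 := h x
  have h2 := hx3 (b x)
  have h3 : ε * ‖b x‖ ≤ ε * K := mul_le_mul_of_nonneg_left (hb x) hε0.le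
  have h4 : lam * (w x0 - ε) ≤ lam * w x := mul_le_mul_of_nonneg_left hx1 hlam.le
  have h5 : ε * (1 + K + lam) = η := by rw [hε]; field_simp
  rw [abs_le] at h2
  nlinarith [h2.1, h2.2]

/-- one-sided comparison -/
theorem lip_one {P₁ P₂ : E n → ℝ} {lam s₁ s₂ : ℝ} (hlam : 0 < lam) {v₁ v₂ : E n → ℝ}
    (c₁ : ContDiff ℝ 2 v₁) (c₂ : ContDiff ℝ 2 v₂) {B K : ℝ} (b₁ : ∀ x, |v₁ x| ≤ B)
    (b₂ : ∀ x, |v₂ x| ≤ B) (k₁ : ∀ x i, |fderiv ℝ v₁ x (ee i)| ≤ K)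
    (k₂ : ∀ x i, |fderiv ℝ v₂ x (ee i)| ≤ K) {lo hi : ℝ} (hlo : 0 < lo)
    (e₁ : ∀ x, Ell lo hi (gm v₁ x)) (e₂ : ∀ x, Ell lo hi (gm v₂ x))
    (m₁ : MAb P₁ lam s₁ v₁) (m₂ : MAb P₂ lam s₂ v₂) {D : ℝ}
    (hD : ∀ x, s₁ * P₁ x - s₂ * P₂ x ≤ D) : ∀ x, v₁ x - v₂ x ≤ D / lam := by
  rcases Nat.eq_zero_or_pos n with hn | hn
  · subst hn
    intro x
    have h1 := m₁ x
    have h2 := m₂ x
    have hx : x = 0 := Subsingleton.elim _ _
    have h3 : fderiv ℝ v₁ x x = 0 := by rw [hx]; simp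
    have h4 : fderiv ℝ v₂ x x = 0 := by rw [hx]; simp
    rw [h3] at h1
    rw [h4] at h2
    simp only [grad2, Finset.univ_eq_empty, Finset.sum_empty, Matrix.det_isEmpty, Real.log_one]
      at h1 h2
    have h5 := hD x
    rw [le_div_iff₀ hlam]
    nlinarith
  have hhi : lo ≤ hi := by
    have h := (e₁ 0).2 (Pi.single ⟨0, hn⟩ 1)
    have h2 : ∑ i, (Pi.single (⟨0, hn⟩ : Fin n) (1 : ℝ) : Fin n → ℝ) i ^ 2 = 1 := by
      rw [Finset.sum_eq_single ⟨0, hn⟩]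
      · simp
      · intro j _ hj; simp [Pi.single_eq_of_ne hj]
      · intro h; exact absurd (Finset.mem_univ _) h
    rw [h2] at h
    linarith [h.1, h.2]
  -- the averaged coefficient matrix
  set τ : E n → Matrix (Fin n) (Fin n) ℝ := fun x => avgI (gm v₂ x) (gm v₁ x) with hτdef
  have hτE : ∀ x, Ell (1 / hi) (1 / lo) (τ x) := fun x => Ell.avgInv hlo hhi (e₂ x) (e₁ x)
  have hhi0 : 0 < hi := hlo.trans_le hhi
  have hτp : ∀ x, (τ x).PosSemidef := fun x => (MaxP.Ell.posDef (by positivity) (hτE x)).posSemidef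
  have hτT : ∀ x, (τ x).trace ≤ n * (1 / lo) := by
    intro x
    rw [Matrix.trace]
    calc ∑ i, (τ x).diag i ≤ ∑ _i : Fin n, (1 / lo) := by
          refine Finset.sum_le_sum fun i _ => ?_
          have h := ((hτE x).2 (Pi.single i 1)).2
          have h2 : ∑ k, (Pi.single i (1 : ℝ) : Fin n → ℝ) k ^ 2 = 1 := by
            rw [Finset.sum_eq_single i]
            · simp
            · intro j _ hj; simp [Pi.single_eq_of_ne hj]
            · intro h; exact absurd (Finset.mem_univ _) h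
          have h3 : ∑ k, ∑ l, τ x k l * (Pi.single i (1 : ℝ) : Fin n → ℝ) k
              * (Pi.single i (1 : ℝ) : Fin n → ℝ) l = τ x i i := by
            rw [Finset.sum_eq_single i, Finset.sum_eq_single i]
            · simp
            · intro j _ hj; simp [Pi.single_eq_of_ne hj]
            · intro h; exact absurd (Finset.mem_univ _) h
            · intro j _ hj
              refine Finset.sum_eq_zero fun l _ => ?_
              simp [Pi.single_eq_of_ne hj]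
            · intro h; exact absurd (Finset.mem_univ _) h
          rw [h2, h3, mul_one] at h
          exact h
      _ = n * (1 / lo) := by simp
  set w : E n → ℝ := fun x => v₁ x - v₂ x with hw
  have hwc : ContDiff ℝ 2 w := c₁.sub c₂
  have hwM : ∀ x, w x ≤ 2 * B := by
    intro x
    have h1 := abs_le.1 (b₁ x)
    have h2 := abs_le.1 (b₂ x)
    simp only [hw]; linarith [h1.1, h1.2, h2.1, h2.2]
  have hfd : ∀ x, fderiv ℝ w x = fderiv ℝ v₁ x - fderiv ℝ v₂ x := fun x =>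
    (((c₁.differentiable (by norm_num)) x).hasFDerivAt.sub
      ((c₂.differentiable (by norm_num)) x).hasFDerivAt).fderiv
  set b : E n → E n := fun x =>
    ∑ i, ((fderiv ℝ v₁ x (ee i) + fderiv ℝ v₂ x (ee i)) / 2) • ee i with hbdef
  have hbn : ∀ x, ‖b x‖ ≤ n * K := by
    intro x
    calc ‖b x‖ ≤ ∑ i : Fin n, ‖((fderiv ℝ v₁ x (ee i) + fderiv ℝ v₂ x (ee i)) / 2) • ee i‖ :=
          norm_sum_le _ _
      _ ≤ ∑ _i : Fin n, K := by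
          refine Finset.sum_le_sum fun i _ => ?_
          rw [norm_smul, norm_ee, mul_one, Real.norm_eq_abs]
          have h1 := abs_le.1 (k₁ x i)
          have h2 := abs_le.1 (k₂ x i)
          rw [abs_le]
          constructor <;> linarith [h1.1, h1.2, h2.1, h2.2]
      _ = n * K := by simp
  have key : ∀ x, LA τ w x - fderiv ℝ w x (b x) = lam * w x - (s₁ * P₁ x - s₂ * P₂ x) := by
    intro x
    have h1 := m₁ x
    have h2 := m₂ x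
    have h3 := Ell.logdet_eq_avgInv hlo (e₂ x) (e₁ x)
    have h4 : ∑ i, ∑ j, avgI (gm v₂ x) (gm v₁ x) i j * (gm v₁ x i j - gm v₂ x i j)
        = ∑ i, ∑ j, τ x i j * Hs w x i j := by
      refine Finset.sum_congr rfl fun i _ => Finset.sum_congr rfl fun j _ => ?_
      have h5 : Hs w x i j = Hs v₁ x i j - Hs v₂ x i j := Hs_sub c₁ c₂ x i j
      rw [h5, gm_apply, gm_apply]
      ring
    have h6 : fderiv ℝ w x (b x) = (grad2 v₁ x - grad2 v₂ x) / 2 := by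
      simp only [hbdef, map_sum, map_smul, smul_eq_mul, hfd, grad2, ← Finset.sum_sub_distrib,
        Finset.sum_div, _root_.sub_apply]
      refine Finset.sum_congr rfl fun i _ => ?_
      ring
    have h7 : LA τ w x = ∑ i, ∑ j, τ x i j * Hs w x i j - (fderiv ℝ v₁ x x - fderiv ℝ v₂ x x) := by
      unfold LA
      rw [hfd]
      rfl
    rw [h6, h7, ← h4, ← h3]
    simp only [hw]
    linarith
  refine maxB hτp hτT hwc hwM hbn hlam fun x => ?_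
  rw [key x]
  have := hD x
  linarith

/-- **Lipschitz dependence on the data** -/
theorem lipB {P₁ P₂ : E n → ℝ} {lam s₁ s₂ : ℝ} (hlam : 0 < lam) {v₁ v₂ : E n → ℝ}
    (c₁ : ContDiff ℝ 2 v₁) (c₂ : ContDiff ℝ 2 v₂) {B₁ B₂ K₁ K₂ : ℝ} (b₁ : ∀ x, |v₁ x| ≤ B₁)
    (b₂ : ∀ x, |v₂ x| ≤ B₂) (k₁ : ∀ x i, |fderiv ℝ v₁ x (ee i)| ≤ K₁)
    (k₂ : ∀ x i, |fderiv ℝ v₂ x (ee i)| ≤ K₂) {lo₁ hi₁ lo₂ hi₂ : ℝ} (hlo₁ : 0 < lo₁)
    (hlo₂ : 0 < lo₂) (e₁ : ∀ x, Ell lo₁ hi₁ (gm v₁ x)) (e₂ : ∀ x, Ell lo₂ hi₂ (gm v₂ x))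
    (m₁ : MAb P₁ lam s₁ v₁) (m₂ : MAb P₂ lam s₂ v₂) {D : ℝ}
    (hD : ∀ x, |s₁ * P₁ x - s₂ * P₂ x| ≤ D) : ∀ x, |v₁ x - v₂ x| ≤ D / lam := by
  intro x
  have hE : ∀ {lo hi lo' hi' : ℝ} {A : Matrix (Fin n) (Fin n) ℝ}, lo' ≤ lo → hi ≤ hi' →
      Ell lo hi A → Ell lo' hi' A := fun h h' hA => hA.mono h h'
  have b₁' : ∀ x, |v₁ x| ≤ max B₁ B₂ := fun x => (b₁ x).trans (le_max_left _ _)
  have b₂' : ∀ x, |v₂ x| ≤ max B₁ B₂ := fun x => (b₂ x).trans (le_max_right _ _)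
  have k₁' : ∀ x i, |fderiv ℝ v₁ x (ee i)| ≤ max K₁ K₂ := fun x i =>
    (k₁ x i).trans (le_max_left _ _)
  have k₂' : ∀ x i, |fderiv ℝ v₂ x (ee i)| ≤ max K₁ K₂ := fun x i =>
    (k₂ x i).trans (le_max_right _ _)
  have e₁' : ∀ x, Ell (min lo₁ lo₂) (max hi₁ hi₂) (gm v₁ x) := fun x =>
    hE (min_le_left _ _) (le_max_left _ _) (e₁ x)
  have e₂' : ∀ x, Ell (min lo₁ lo₂) (max hi₁ hi₂) (gm v₂ x) := fun x =>
    hE (min_le_right _ _) (le_max_right _ _) (e₂ x)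
  have hlo : 0 < min lo₁ lo₂ := lt_min hlo₁ hlo₂
  rw [abs_le]
  constructor
  · have h := lip_one hlam c₂ c₁ b₂' b₁' k₂' k₁' hlo e₂' e₁' m₂ m₁ (D := D) (fun x => by
      have := (abs_le.1 (hD x)).1; linarith) x
    linarith
  · exact lip_one hlam c₁ c₂ b₁' b₂' k₁' k₂' hlo e₁' e₂' m₁ m₂ (D := D) (fun x =>
      (abs_le.1 (hD x)).2) x

/-- **uniqueness** -/
theorem uniB {P : E n → ℝ} {lam s : ℝ} (hlam : 0 < lam) {v₁ v₂ : E n → ℝ}
    (c₁ : ContDiff ℝ 2 v₁) (c₂ : ContDiff ℝ 2 v₂) {B₁ B₂ K₁ K₂ : ℝ} (b₁ : ∀ x, |v₁ x| ≤ B₁)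
    (b₂ : ∀ x, |v₂ x| ≤ B₂) (k₁ : ∀ x i, |fderiv ℝ v₁ x (ee i)| ≤ K₁)
    (k₂ : ∀ x i, |fderiv ℝ v₂ x (ee i)| ≤ K₂) {lo₁ hi₁ lo₂ hi₂ : ℝ} (hlo₁ : 0 < lo₁)
    (hlo₂ : 0 < lo₂) (e₁ : ∀ x, Ell lo₁ hi₁ (gm v₁ x)) (e₂ : ∀ x, Ell lo₂ hi₂ (gm v₂ x))
    (m₁ : MAb P lam s v₁) (m₂ : MAb P lam s v₂) : v₁ = v₂ := by
  funext x
  have h := lipB hlam c₁ c₂ b₁ b₂ k₁ k₂ hlo₁ hlo₂ e₁ e₂ m₁ m₂ (D := 0) (fun x => by simp) x
  rw [zero_div] at h
  have := abs_nonpos_iff.1 h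
  linarith

/-- gradient bound from a sup bound and a bound of the Hessian (global form) -/
theorem grad_le {h : E n → ℝ} {B m : ℝ} (hh : ContDiff ℝ 2 h)
    (hB : ∀ x i j, |Hs h x i j| ≤ B) (hB0 : 0 ≤ B) (hm : ∀ x, |h x| ≤ m) {r : ℝ} (hr0 : 0 < r)
    (hr1 : r ≤ 1) (x : E n) : ‖fderiv ℝ h x‖ ≤ (n : ℝ) ^ 2 * B * r + 2 * m / r :=
  grad_scale hh hB hB0 (ρ := ‖x‖) (fun y _ => hm y) hr0 hr1 le_rfl

/-- Hessian bound from a sup bound and a Hoelder bound of the Hessian (global form) -/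
theorem hess_le {a : ℝ} (ha : 0 < a) (ha1 : a < 1) {h : E n → ℝ} (hh : ContDiff ℝ 2 h) {M m t : ℝ}
    (hM : ∀ i j, HB a M (fun x => Hs h x i j)) (hM0 : 0 ≤ M) (hm : ∀ x, |h x| ≤ m) (ht : 0 < t)
    (ht1 : t ≤ 1 / 2) (x : E n) (i j : Fin n) :
    |Hs h x i j| ≤ 4 * m / t ^ 2 + 2 * M * t ^ a :=
  int2 ha ha1 hh hM hM0 (r := ‖x‖) (fun y _ => hm y) ht ht1 le_rfl i j

/-- **interpolation**: a small function with a bounded Hoelder norm of the Hessian has small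
gradient and Hessian. -/
theorem smallB (n : ℕ) (a M ε : ℝ) (ha : 0 < a) (ha1 : a < 1) (hM0 : 0 ≤ M) (hε : 0 < ε) :
    ∃ δ : ℝ, 0 < δ ∧ ∀ h : E n → ℝ, ContDiff ℝ 2 h → (∀ i j, HB a M (fun x => Hs h x i j)) →
      (∀ x, |h x| ≤ δ) → (∀ x, ‖fderiv ℝ h x‖ ≤ ε) ∧ ∀ x i j, |Hs h x i j| ≤ ε := by
  -- scale for the Hessian
  obtain ⟨t, ht0, ht1, ht2⟩ : ∃ t : ℝ, 0 < t ∧ t ≤ 1 / 2 ∧ 2 * M * t ^ a ≤ ε / 2 := by
    have hc : Tendsto (fun t : ℝ => 2 * M * t ^ a) (𝓝[>] 0) (𝓝 (2 * M * 0)) := by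
      refine Tendsto.const_mul _ ?_
      have h1 : Tendsto (fun t : ℝ => t ^ a) (𝓝 0) (𝓝 ((0 : ℝ) ^ a)) :=
        (Real.continuousAt_rpow_const 0 a (Or.inr ha.le)).tendsto
      rw [Real.zero_rpow ha.ne'] at h1
      exact h1.mono_left nhdsWithin_le_nhds
    rw [mul_zero] at hc
    have h1 : ∀ᶠ t : ℝ in 𝓝[>] 0, 2 * M * t ^ a < ε / 2 :=
      hc.eventually (gt_mem_nhds (by positivity))
    have h2 : ∀ᶠ t : ℝ in 𝓝[>] 0, t ∈ Ioo (0 : ℝ) (1 / 2) := Ioo_mem_nhdsGT (by norm_num)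
    obtain ⟨t, h3, h4⟩ := (h1.and h2).exists
    exact ⟨t, h4.1, h4.2.le, h3.le⟩
  -- scale for the gradient
  set r : ℝ := min 1 (ε / (2 * ((n : ℝ) ^ 2 * M + 1))) with hr
  have hq : (0 : ℝ) < 2 * ((n : ℝ) ^ 2 * M + 1) := by positivity
  have hr0 : 0 < r := lt_min one_pos (by positivity)
  have hr1 : r ≤ 1 := min_le_left _ _
  have hr2 : (n : ℝ) ^ 2 * M * r ≤ ε / 2 := by
    have h1 : r ≤ ε / (2 * ((n : ℝ) ^ 2 * M + 1)) := min_le_right _ _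
    rw [le_div_iff₀ hq] at h1
    nlinarith
  refine ⟨min (ε * r / 4) (ε * t ^ 2 / 8), lt_min (by positivity) (by positivity),
    fun h hh hM hm => ⟨fun x => ?_, fun x i j => ?_⟩⟩
  · have h1 := grad_le hh (fun x i j => (hM i j).1 x) hM0
      (fun y => (hm y).trans (min_le_left _ _)) hr0 hr1 x
    have h2 : 2 * (ε * r / 4) / r = ε / 2 := by field_simp; ring
    rw [h2] at h1
    linarith
  · have h1 := hess_le ha ha1 hh hM hM0 (fun y => (hm y).trans (min_le_right _ _)) ht0 ht1 x i j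
    have h2 : 4 * (ε * t ^ 2 / 8) / t ^ 2 = ε / 2 := by field_simp; ring
    rw [h2] at h1
    linarith

/-- **continuous dependence in `C²`**: the solution of `(MAb)` with `C^{2,a}` bounds depends
continuously on the right hand side, gradient and Hessian included. -/
theorem contB (n : ℕ) (a M lam ε : ℝ) (ha : 0 < a) (ha1 : a < 1) (hlam : 0 < lam) (hM0 : 0 ≤ M)
    (hε : 0 < ε) :
    ∃ δ : ℝ, 0 < δ ∧ ∀ (P₁ P₂ : E n → ℝ) (s₁ s₂ : ℝ) (v₁ v₂ : E n → ℝ), ContDiff ℝ 2 v₁ →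
      ContDiff ℝ 2 v₂ → (∃ B, ∀ x, |v₁ x| ≤ B) → (∃ B, ∀ x, |v₂ x| ≤ B) →
      (∃ K, ∀ x i, |fderiv ℝ v₁ x (ee i)| ≤ K) → (∃ K, ∀ x i, |fderiv ℝ v₂ x (ee i)| ≤ K) →
      (∃ lo hi : ℝ, 0 < lo ∧ ∀ x, Ell lo hi (gm v₁ x)) →
      (∃ lo hi : ℝ, 0 < lo ∧ ∀ x, Ell lo hi (gm v₂ x)) →
      (∀ i j, HB a M (fun x => Hs v₁ x i j)) → (∀ i j, HB a M (fun x => Hs v₂ x i j)) →
      MAb P₁ lam s₁ v₁ → MAb P₂ lam s₂ v₂ → (∀ x, |s₁ * P₁ x - s₂ * P₂ x| ≤ δ) →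
      (∀ x, |v₁ x - v₂ x| ≤ ε) ∧ (∀ x, ‖fderiv ℝ v₁ x - fderiv ℝ v₂ x‖ ≤ ε) ∧
        ∀ x i j, |Hs v₁ x i j - Hs v₂ x i j| ≤ ε := by
  obtain ⟨δ, hδ, H⟩ := smallB n a (M + M) ε ha ha1 (by positivity) hε
  refine ⟨min δ ε * lam, by positivity, ?_⟩
  rintro P₁ P₂ s₁ s₂ v₁ v₂ c₁ c₂ ⟨B₁, b₁⟩ ⟨B₂, b₂⟩ ⟨K₁, k₁⟩ ⟨K₂, k₂⟩ ⟨lo₁, hi₁, hlo₁, e₁⟩
    ⟨lo₂, hi₂, hlo₂, e₂⟩ hM₁ hM₂ m₁ m₂ hD
  have h1 := lipB hlam c₁ c₂ b₁ b₂ k₁ k₂ hlo₁ hlo₂ e₁ e₂ m₁ m₂ hD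
  rw [mul_div_cancel_right₀ _ hlam.ne'] at h1
  have h2 := H (fun x => v₁ x - v₂ x) (c₁.sub c₂) (fun i j => ?_)
    (fun x => (h1 x).trans (min_le_left _ _))
  · refine ⟨fun x => (h1 x).trans (min_le_right _ _), fun x => ?_, fun x i j => ?_⟩
    · have h3 : fderiv ℝ (fun x => v₁ x - v₂ x) x = fderiv ℝ v₁ x - fderiv ℝ v₂ x :=
        (((c₁.differentiable (by norm_num)) x).hasFDerivAt.sub
          ((c₂.differentiable (by norm_num)) x).hasFDerivAt).fderiv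
      rw [← h3]
      exact h2.1 x
    · rw [← Hs_sub c₁ c₂ x i j]
      exact h2.2 x i j
  · have h3 : (fun x => Hs (fun x => v₁ x - v₂ x) x i j)
        = fun x => Hs v₁ x i j - Hs v₂ x i j := funext fun x => Hs_sub c₁ c₂ x i j
    rw [h3]
    refine ⟨fun x => ?_, fun x y => ?_⟩
    · refine (abs_sub _ _).trans ?_
      have := (hM₁ i j).1 x
      have := (hM₂ i j).1 x
      linarith
    · have h4 := (hM₁ i j).2 x y
      have h5 := (hM₂ i j).2 x y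
      have e : (Hs v₁ x i j - Hs v₂ x i j) - (Hs v₁ y i j - Hs v₂ y i j)
          = (Hs v₁ x i j - Hs v₁ y i j) - (Hs v₂ x i j - Hs v₂ y i j) := by ring
      show |(Hs v₁ x i j - Hs v₂ x i j) - (Hs v₁ y i j - Hs v₂ y i j)| ≤ _
      rw [e, add_mul]
      exact (abs_sub _ _).trans (add_le_add h4 h5)

end Crest.Agent.R253.BrUni666
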