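import Crest.Agent.R253.MAI_74
import Crest.Agent.R238.GapDat
import Crest.Agent.R238.HBMat
import Crest.Agent.R238.LimC2
import Crest.Agent.R253.BrDefs_505

/-!
# R253, B10: the t-side data of the Brenier map (helper441)

`G` = inverse of `x ↦ x + Dv(x)`, `M = (1 + D²v)⁻¹ ∘ G = DG`, `N = (1 + D²v) ∘ G`.
-/

set_option autoImplicit false

open MeasureTheory Real Set Filter Topology
open scoped ContDiff

noncomputable section

namespace Crest.Agent.R253.Dual441

open Crest.Agent.R238.Gap Crest.Agent.R238.GapPoinc Crest.Agent.R238.GapPc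
open Crest.Agent.R253.Meh74

variable {n : ℕ}

/-- `G` is the (smooth) inverse of `x ↦ x + Dv(x)` -/
structure IsInv (v : E n → ℝ) (G : E n → E n) : Prop where
  sm : ContDiff ℝ ∞ G
  eq : ∀ t i, G t i + pd i v (G t) = t i

/-- components -/
def Gi (G : E n → E n) (i : Fin n) (t : E n) : ℝ := G t i

/-- `M = (1 + D²v)⁻¹ ∘ G` -/
def Mi (v : E n → ℝ) (G : E n → E n) (i j : Fin n) (t : E n) : ℝ :=
  (Crest.Agent.R238.gm v (G t))⁻¹ i j

/-- `N = (1 + D²v) ∘ G` -/
def Ni (v : E n → ℝ) (G : E n → E n) (i j : Fin n) (t : E n) : ℝ :=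
  Crest.Agent.R238.gm v (G t) i j

lemma Gv_Gi (G : E n → E n) (t : E n) : Gv (Gi G) t = G t := by
  ext i; rw [Gv_apply]; rfl

lemma contDiff_Gi {G : E n → E n} {m : WithTop ℕ∞} (hG : ContDiff ℝ m G) (i : Fin n) :
    ContDiff ℝ m (Gi G i) := by
  have h : Gi G i = fun t => (EuclideanSpace.proj i : E n →L[ℝ] ℝ) (G t) := rfl
  rw [h]
  exact (EuclideanSpace.proj i : E n →L[ℝ] ℝ).contDiff.comp hG

/-- chain rule -/
lemma pd_comp {G : E n → E n} (hG : ContDiff ℝ ∞ G) {f : E n → ℝ} (hf : Differentiable ℝ f)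
    (k : Fin n) (t : E n) :
    pd k (fun t => f (G t)) t = ∑ c, pd c f (G t) * pd k (Gi G c) t := by
  have h := pd_comp_Gv (G := Gi G)
    (fun i => (contDiff_Gi hG i).differentiable (by simp)) hf k t
  simp only [Gv_Gi] at h
  exact h

/-- the smooth functions with all derivatives of order `≥ m` bounded -/
structure Bk (m : ℕ) (f : E n → ℝ) : Prop where
  sm : ContDiff ℝ ∞ f
  b : ∀ k : ℕ, m ≤ k → ∃ C : ℝ, ∀ x, ‖iteratedFDeriv ℝ k f x‖ ≤ C

lemma Bk.of_nice {v : E n → ℝ} (hv : Crest.Agent.R238.Nice v) : Bk 2 v := ⟨hv.smooth, hv.bdd⟩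

lemma Bk.pd {m : ℕ} {f : E n → ℝ} (hf : Bk (m + 1) f) (i : Fin n) :
    Bk m (Crest.Agent.R238.Gap.pd i f) := by
  have h0 : ContDiff ℝ ∞ (fderiv ℝ f) := hf.sm.fderiv_right (by norm_num)
  refine ⟨?_, fun k hk => ?_⟩
  · exact h0.clm_apply contDiff_const
  · obtain ⟨C, hC⟩ := hf.b (k + 1) (by omega)
    refine ⟨C, fun x => ?_⟩
    have h1 : ‖iteratedFDeriv ℝ k (fun y => fderiv ℝ f y (e i)) x‖ ≤
        ‖(e i : E n)‖ * ‖iteratedFDeriv ℝ k (fderiv ℝ f) x‖ :=
      norm_iteratedFDeriv_clm_apply_const (h0.contDiffAt) (by exact_mod_cast le_top)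
    rw [norm_iteratedFDeriv_fderiv] at h1
    have h2 : ‖(e i : E n)‖ = 1 := by simp
    rw [h2, one_mul] at h1
    exact h1.trans (hC x)

lemma Bk.bdd {f : E n → ℝ} (hf : Bk 0 f) : ∃ C : ℝ, ∀ x, |f x| ≤ C := by
  obtain ⟨C, hC⟩ := hf.b 0 le_rfl
  refine ⟨C, fun x => ?_⟩
  have := hC x
  rwa [norm_iteratedFDeriv_zero] at this

lemma Bk.mono {m m' : ℕ} (h : m ≤ m') {f : E n → ℝ} (hf : Bk m f) : Bk m' f :=
  ⟨hf.sm, fun k hk => hf.b k (h.trans hk)⟩

lemma contDiff_pdi {f : E n → ℝ} (hf : ContDiff ℝ ∞ f) (i : Fin n) : ContDiff ℝ ∞ (pd i f) :=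
  (hf.fderiv_right (m := ∞) (by norm_num)).clm_apply contDiff_const

section
variable {v : E n → ℝ} {G : E n → E n} {lo hi : ℝ}

lemma gm_eq (hv : ContDiff ℝ 2 v) (x : E n) (i j : Fin n) :
    Crest.Agent.R238.gm v x i j = (if i = j then 1 else 0) + pd i (pd j v) x := by
  rw [← H_eq_pd hv x i j]
  show (1 : Matrix (Fin n) (Fin n) ℝ) i j + _ = _
  rw [Matrix.one_apply]
  rfl

/-- the Jacobian of `G` -/
lemma jac (hv : ContDiff ℝ ∞ v) (hG : IsInv v G) (t : E n) :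
    Crest.Agent.R238.gm v (G t) * Matrix.of (fun j k => pd k (Gi G j) t) = 1 := by
  have hv2 : ContDiff ℝ 2 v := contDiff_infty.1 hv 2
  ext i k
  rw [Matrix.mul_apply, Matrix.one_apply]
  have h1 : (fun t => Gi G i t + pd i v (G t)) = fun t : E n => t i := by
    funext t; exact hG.eq t i
  have hGi := (contDiff_Gi hG.sm i).differentiable (by simp)
  have hpd : Differentiable ℝ (pd i v) := (contDiff_pdi hv i).differentiable (by simp)
  have hcomp : Differentiable ℝ (fun t => pd i v (G t)) :=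
    hpd.comp (hG.sm.differentiable (by simp))
  have h2 := Crest.Agent.R238.Gap.pd_add (hGi t) (hcomp t) k
  rw [h1, pd_comp hG.sm hpd] at h2
  have h3 : pd k (fun t : E n => t i) t = if i = k then 1 else 0 := by
    unfold pd
    have : fderiv ℝ (fun t : E n => t i) t = (EuclideanSpace.proj i : E n →L[ℝ] ℝ) :=
      (EuclideanSpace.proj i : E n →L[ℝ] ℝ).fderiv
    rw [this]
    simp
  rw [h3] at h2
  rw [h2]
  simp only [Matrix.of_apply, gm_eq hv2, add_mul, Finset.sum_add_distrib, ite_mul, one_mul,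
    zero_mul, Finset.sum_ite_eq, Finset.mem_univ, if_true]
  congr 1
  refine Finset.sum_congr rfl fun c _ => ?_
  rw [← H_eq_pd hv2, ← H_eq_pd hv2, H_symm hv2]

lemma jac_inv (hv : ContDiff ℝ ∞ v) (hG : IsInv v G) (i k : Fin n) :
    pd k (Gi G i) = Mi v G i k := by
  funext t
  have h := Matrix.inv_eq_right_inv (jac hv hG t)
  unfold Mi
  rw [h, Matrix.of_apply]

lemma abs_Mi (hlo : 0 < lo) (hell : ∀ x, Crest.Agent.R238.Ell lo hi (Crest.Agent.R238.gm v x))
    (i j : Fin n) (t : E n) : |Mi v G i j t| ≤ 1 / lo := (hell (G t)).abs_inv_le hlo i j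

lemma Mi_symm (hlo : 0 < lo) (hell : ∀ x, Crest.Agent.R238.Ell lo hi (Crest.Agent.R238.gm v x))
    (i j : Fin n) : Mi v G i j = Mi v G j i := by
  funext t
  exact (hell (G t)).inv_symm i j

lemma Ni_symm (hell : ∀ x, Crest.Agent.R238.Ell lo hi (Crest.Agent.R238.gm v x))
    (i j : Fin n) : Ni v G i j = Ni v G j i := by
  funext t
  exact (hell (G t)).1 i j

/-- linear growth of `G` -/
lemma growth (hv : ContDiff ℝ ∞ v) (hG : IsInv v G) (hlo : 0 < lo)
    (hell : ∀ x, Crest.Agent.R238.Ell lo hi (Crest.Agent.R238.gm v x)) :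
    ∃ A : ℝ, 0 ≤ A ∧ ∀ t, 1 + ‖G t‖ ≤ A * (1 + ‖t‖) := by
  have hd : Differentiable ℝ G := hG.sm.differentiable (by simp)
  have hB : ∀ t, ‖fderiv ℝ G t‖ ≤ n * (n * (1 / lo)) := by
    intro t
    refine Crest.Agent.R238.LimC2.opnorm1_le _ (by positivity) fun k => ?_
    have h1 : ∀ i, |(fderiv ℝ G t (e k)) i| ≤ 1 / lo := by
      intro i
      have h2 : (fderiv ℝ G t (e k)) i = pd k (Gi G i) t := by
        have h3 : HasFDerivAt (Gi G i) ((EuclideanSpace.proj i : E n →L[ℝ] ℝ).comp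
            (fderiv ℝ G t)) t :=
          (EuclideanSpace.proj i : E n →L[ℝ] ℝ).hasFDerivAt.comp t (hd t).hasFDerivAt
        unfold pd
        rw [h3.fderiv]
        rfl
      rw [h2, jac_inv hv hG]
      exact abs_Mi hlo hell i k t
    calc ‖fderiv ℝ G t (e k)‖ = ‖∑ i, (fderiv ℝ G t (e k)) i • (e i : E n)‖ := by
          rw [sum_single]
      _ ≤ ∑ i, ‖(fderiv ℝ G t (e k)) i • (e i : E n)‖ := norm_sum_le _ _
      _ ≤ ∑ _i : Fin n, (1 / lo) := Finset.sum_le_sum fun i _ => by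
          rw [norm_smul]
          simpa using h1 i
      _ = n * (1 / lo) := by simp
  set B : ℝ := n * (n * (1 / lo)) with hBdef
  have hB0 : 0 ≤ B := by positivity
  refine ⟨1 + ‖G 0‖ + B, by positivity, fun t => ?_⟩
  have h1 : ‖G t - G 0‖ ≤ B * ‖t - 0‖ :=
    convex_univ.norm_image_sub_le_of_norm_fderiv_le (fun x _ => hd x) (fun x _ => hB x)
      (mem_univ _) (mem_univ _)
  rw [sub_zero] at h1
  have h2 : ‖G t‖ ≤ ‖G t - G 0‖ + ‖G 0‖ := by
    have := norm_add_le (G t - G 0) (G 0)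
    simpa using this
  nlinarith [norm_nonneg t, norm_nonneg (G 0), mul_nonneg (norm_nonneg (G 0)) (norm_nonneg t)]

lemma pg_comp {A : ℝ} (hA : 0 ≤ A) (hg : ∀ t, 1 + ‖G t‖ ≤ A * (1 + ‖t‖)) {f : E n → ℝ}
    (hf : PG f) : PG (fun t => f (G t)) := by
  obtain ⟨K, k, hK0, hK⟩ := pg_nonneg hf
  refine ⟨K * A ^ k, k, fun t => ?_⟩
  calc |f (G t)| ≤ K * (1 + ‖G t‖) ^ k := hK _
    _ ≤ K * (A * (1 + ‖t‖)) ^ k := by
        gcongr
        exact hg t
    _ = K * A ^ k * (1 + ‖t‖) ^ k := by rw [mul_pow]; ring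

/-- composition with `G` preserves the class `C1` -/
lemma c1_comp (hv : ContDiff ℝ ∞ v) (hG : IsInv v G) (hlo : 0 < lo)
    (hell : ∀ x, Crest.Agent.R238.Ell lo hi (Crest.Agent.R238.gm v x)) {f : E n → ℝ}
    (hf : C1 f) : C1 (fun t => f (G t)) := by
  obtain ⟨A, hA, hg⟩ := growth hv hG hlo hell
  refine ⟨hf.c.comp (hG.sm.of_le (by exact_mod_cast le_top)), pg_comp hA hg hf.g, fun k => ?_⟩
  have h1 : pd k (fun t => f (G t)) = fun t => ∑ c, pd c f (G t) * Mi v G c k t := by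
    funext t
    rw [pd_comp hG.sm hf.diff]
    refine Finset.sum_congr rfl fun c _ => ?_
    rw [jac_inv hv hG]
  rw [h1]
  exact PG.sum _ fun c _ => (pg_comp hA hg (hf.p c)).mul
    (PG.of_bdd (K := 1 / lo) fun t => abs_Mi hlo hell c k t)

lemma Bk.c1 {f : E n → ℝ} (hf : Bk 0 f) : C1 f := by
  obtain ⟨C, hC⟩ := hf.bdd
  refine ⟨hf.sm.of_le (by exact_mod_cast le_top), PG.of_bdd hC, fun i => ?_⟩
  obtain ⟨C', hC'⟩ := ((hf.mono (Nat.zero_le 1)).pd i).bdd
  exact PG.of_bdd hC'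

lemma c1_gm (hv : Bk 2 v) (i j : Fin n) : C1 (fun x => Crest.Agent.R238.gm v x i j) := by
  have hv2 : ContDiff ℝ 2 v := contDiff_infty.1 hv.sm 2
  have h1 : (fun x => Crest.Agent.R238.gm v x i j) =
      fun x => (if i = j then (1 : ℝ) else 0) + pd i (pd j v) x := by
    funext x; exact gm_eq hv2 x i j
  rw [h1]
  exact (c1_const _).add ((hv.pd j).pd i).c1

lemma c1_pd_gm (hv : Bk 2 v) (c i j : Fin n) :
    C1 (pd c (fun x => Crest.Agent.R238.gm v x i j)) := by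
  have hv2 : ContDiff ℝ 2 v := contDiff_infty.1 hv.sm 2
  have h1 : pd c (fun x => Crest.Agent.R238.gm v x i j) = pd c (pd i (pd j v)) := by
    have h2 : (fun x => Crest.Agent.R238.gm v x i j) =
        fun x => (if i = j then (1 : ℝ) else 0) + pd i (pd j v) x := by
      funext x; exact gm_eq hv2 x i j
    rw [h2]
    funext x
    rw [Crest.Agent.R238.Gap.pd_add (differentiableAt_const _)
      ((((hv.pd j).pd i).sm.differentiable (by simp)) x)]
    simp [pd]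
  rw [h1]
  exact ((((hv.pd j).pd i).mono (Nat.zero_le 1)).pd c).c1

lemma c1_Ni (hv : Bk 2 v) (hG : IsInv v G) (hlo : 0 < lo)
    (hell : ∀ x, Crest.Agent.R238.Ell lo hi (Crest.Agent.R238.gm v x)) (i j : Fin n) :
    C1 (Ni v G i j) := c1_comp hv.sm hG hlo hell (c1_gm hv i j)

lemma pd_Ni (hv : Bk 2 v) (hG : IsInv v G) (k i j : Fin n) :
    pd k (Ni v G i j) = fun t => ∑ c, pd c (fun x => Crest.Agent.R238.gm v x i j) (G t)
      * Mi v G c k t := by
  funext t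
  have h := pd_comp hG.sm (f := fun x => Crest.Agent.R238.gm v x i j) (c1_gm hv i j).diff k t
  have h2 : pd k (Ni v G i j) t = pd k (fun t => Crest.Agent.R238.gm v (G t) i j) t := rfl
  rw [h2, h]
  refine Finset.sum_congr rfl fun c _ => ?_
  rw [jac_inv hv.sm hG]

lemma det_ne (hlo : 0 < lo) (hell : ∀ x, Crest.Agent.R238.Ell lo hi (Crest.Agent.R238.gm v x))
    (x : E n) : (Crest.Agent.R238.gm v x).det ≠ 0 := ((hell x).det_pos hlo).ne'

lemma pd_Mi (hv : Bk 2 v) (hG : IsInv v G) (hlo : 0 < lo)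
    (hell : ∀ x, Crest.Agent.R238.Ell lo hi (Crest.Agent.R238.gm v x)) (k i j : Fin n) :
    pd k (Mi v G i j) = fun t => -∑ a, ∑ b, Mi v G i a t * pd k (Ni v G a b) t * Mi v G b j t := by
  funext t
  exact Crest.Agent.R238.GapD.pd_inv (A := fun t => Crest.Agent.R238.gm v (G t))
    (fun a b => (c1_Ni hv hG hlo hell a b).c) (fun t => det_ne hlo hell _) k i j t

lemma contDiff_Mi (hv : ContDiff ℝ ∞ v) (hG : IsInv v G) (i j : Fin n) :
    ContDiff ℝ ∞ (Mi v G i j) := by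
  rw [← jac_inv hv hG]
  exact contDiff_pdi (contDiff_Gi hG.sm i) j

lemma c1_Mi (hv : Bk 2 v) (hG : IsInv v G) (hlo : 0 < lo)
    (hell : ∀ x, Crest.Agent.R238.Ell lo hi (Crest.Agent.R238.gm v x)) (i j : Fin n) :
    C1 (Mi v G i j) := by
  have hb : ∀ i j, PG (Mi v G i j) := fun i j =>
    PG.of_bdd (K := 1 / lo) fun t => abs_Mi hlo hell i j t
  refine ⟨(contDiff_Mi hv.sm hG i j).of_le (by exact_mod_cast le_top), hb i j, fun k => ?_⟩
  rw [pd_Mi hv hG hlo hell]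
  exact (PG.sum _ fun a _ => PG.sum _ fun b _ =>
    ((hb i a).mul ((c1_Ni hv hG hlo hell a b).p k)).mul (hb b j)).neg

lemma c1_pd_Ni (hv : Bk 2 v) (hG : IsInv v G) (hlo : 0 < lo)
    (hell : ∀ x, Crest.Agent.R238.Ell lo hi (Crest.Agent.R238.gm v x)) (k i j : Fin n) :
    C1 (pd k (Ni v G i j)) := by
  rw [pd_Ni hv hG]
  exact C1.sum fun c _ => (c1_comp hv.sm hG hlo hell (c1_pd_gm hv c i j)).mul
    (c1_Mi hv hG hlo hell c k)

lemma c1_pd_Mi (hv : Bk 2 v) (hG : IsInv v G) (hlo : 0 < lo)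
    (hell : ∀ x, Crest.Agent.R238.Ell lo hi (Crest.Agent.R238.gm v x)) (k i j : Fin n) :
    C1 (pd k (Mi v G i j)) := by
  rw [pd_Mi hv hG hlo hell]
  exact (C1.sum fun a _ => C1.sum fun b _ =>
    ((c1_Mi hv hG hlo hell i a).mul (c1_pd_Ni hv hG hlo hell k a b)).mul
      (c1_Mi hv hG hlo hell b j)).neg

lemma c1_Gi (hv : Bk 2 v) (hG : IsInv v G) (hlo : 0 < lo)
    (hell : ∀ x, Crest.Agent.R238.Ell lo hi (Crest.Agent.R238.gm v x)) (i : Fin n) :
    C1 (Gi G i) := by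
  have h : C1 (fun x : E n => x i) := by
    refine ⟨(EuclideanSpace.proj i : E n →L[ℝ] ℝ).contDiff, pg_coord i, fun k => ?_⟩
    have : pd k (fun x : E n => x i) = fun _ => if i = k then 1 else 0 := by
      funext t
      unfold pd
      have : fderiv ℝ (fun t : E n => t i) t = (EuclideanSpace.proj i : E n →L[ℝ] ℝ) :=
        (EuclideanSpace.proj i : E n →L[ℝ] ℝ).fderiv
      rw [this]
      simp [Pi.single_apply]
    rw [this]
    exact pg_const _
  exact c1_comp hv.sm hG hlo hell h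

/-- **gradient / Hessian data** of `Φ`, `DΦ = G` -/
theorem hd (hv : Bk 2 v) (hG : IsInv v G) (hlo : 0 < lo)
    (hell : ∀ x, Crest.Agent.R238.Ell lo hi (Crest.Agent.R238.gm v x)) :
    HD (Gi G) (Mi v G) where
  g := c1_Gi hv hG hlo hell
  m := c1_Mi hv hG hlo hell
  d := fun i j => jac_inv hv.sm hG i j
  s := Mi_symm hlo hell
  t := fun i j k => by
    rw [← jac_inv hv.sm hG, ← jac_inv hv.sm hG]
    funext x
    have h2 : ContDiff ℝ 2 (Gi G i) := contDiff_infty.1 (contDiff_Gi hG.sm i) 2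
    rw [← H_eq_pd h2, ← H_eq_pd h2, H_symm h2]

lemma inv_mul (hlo : 0 < lo) (hell : ∀ x, Crest.Agent.R238.Ell lo hi (Crest.Agent.R238.gm v x))
    (t : E n) (i j : Fin n) :
    ∑ k, Ni v G i k t * Mi v G k j t = if i = j then 1 else 0 := by
  have := congrFun (congrFun (Matrix.mul_nonsing_inv (Crest.Agent.R238.gm v (G t))
    (det_ne hlo hell _).isUnit) i) j
  rwa [Matrix.mul_apply, Matrix.one_apply] at this

/-! ### the Monge-Ampère equation -/

/-- `V_lam = |x|²/2 + P - lam v` -/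
def Vl (P v : E n → ℝ) (lam : ℝ) (x : E n) : ℝ := ‖x‖ ^ 2 / 2 + P x - lam * v x

lemma contDiff_Vl {P : E n → ℝ} (hP : ContDiff ℝ ∞ P) (hv : ContDiff ℝ ∞ v) (lam : ℝ) :
    ContDiff ℝ ∞ (Vl P v lam) :=
  (((contDiff_norm_sq ℝ).div_const 2).add hP).sub (contDiff_const.mul hv)

/-- `V_lam(G t) + log det (1 + D²v)(G t) = |t|²/2` -/
theorem logdet_eq {P : E n → ℝ} {lam : ℝ} (hG : IsInv v G)
    (hma : Crest.Agent.R253.Br.MAb P lam 1 v) (t : E n) :
    Real.log (Crest.Agent.R238.gm v (G t)).det + Vl P v lam (G t) = ‖t‖ ^ 2 / 2 := by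
  have h := hma (G t)
  have e1 : fderiv ℝ v (G t) (G t) = ∑ i, G t i * pd i v (G t) := fderiv_apply_eq_sum _ _ _
  have e2 : ‖t‖ ^ 2 = ∑ i, (G t i + pd i v (G t)) ^ 2 := by
    rw [EuclideanSpace.norm_sq_eq]
    refine Finset.sum_congr rfl fun i _ => ?_
    rw [hG.eq t i, Real.norm_eq_abs, sq_abs]
  have e3 : ‖G t‖ ^ 2 = ∑ i, G t i ^ 2 := by
    rw [EuclideanSpace.norm_sq_eq]
    exact Finset.sum_congr rfl fun i _ => by rw [Real.norm_eq_abs, sq_abs]
  have e4 : ∑ i, (G t i + pd i v (G t)) ^ 2 = ∑ i, G t i ^ 2 + 2 * ∑ i, G t i * pd i v (G t)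
      + ∑ i, pd i v (G t) ^ 2 := by
    rw [Finset.mul_sum, ← Finset.sum_add_distrib, ← Finset.sum_add_distrib]
    exact Finset.sum_congr rfl fun i _ => by ring
  have e5 : ∑ i, Crest.Agent.R253.Br.gr v (G t) i ^ 2 = ∑ i, pd i v (G t) ^ 2 := rfl
  rw [e1, e5] at h
  unfold Vl
  rw [e2, e4, e3]
  linarith

theorem ma_eq {P : E n → ℝ} {lam : ℝ} (hP : ContDiff ℝ ∞ P) (hv : Bk 2 v) (hG : IsInv v G)
    (hlo : 0 < lo) (hell : ∀ x, Crest.Agent.R238.Ell lo hi (Crest.Agent.R238.gm v x))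
    (hma : Crest.Agent.R253.Br.MAb P lam 1 v) (t : E n) (k : Fin n) :
    ∑ c, Mi v G k c t * pd c (Vl P v lam) (Gv (Gi G) t) =
      t k + ∑ a, ∑ b, Ni v G a b t * pd k (Mi v G a b) t := by
  have hN := c1_Ni hv hG hlo hell
  have hM := c1_Mi hv hG hlo hell
  have hV : Differentiable ℝ (Vl P v lam) := (contDiff_Vl hP hv.sm lam).differentiable (by simp)
  -- derivative of the identity
  have h1 := Crest.Agent.R238.GapD.pd_logdet (A := fun t => Crest.Agent.R238.gm v (G t))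
    (fun a b => (hN a b).c) (fun t => det_ne hlo hell _) k t
  have hld : DifferentiableAt ℝ (fun y => Real.log (Crest.Agent.R238.gm v (G y)).det) t := by
    have hc : ContDiff ℝ 1 (fun y => (Crest.Agent.R238.gm v (G y)).det) :=
      Crest.Agent.R238.GapD.contDiff_det_of fun a b => (hN a b).c
    exact ((hc.differentiable one_ne_zero) t).log (det_ne hlo hell _)
  have hVG : DifferentiableAt ℝ (fun y => Vl P v lam (G y)) t :=
    (hV.comp (hG.sm.differentiable (by simp))) t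
  have h2 := Crest.Agent.R238.Gap.pd_add hld hVG k
  have h3 : (fun y => Real.log (Crest.Agent.R238.gm v (G y)).det + Vl P v lam (G y)) =
      fun y : E n => ‖y‖ ^ 2 / 2 := by
    funext y; exact logdet_eq hG hma y
  have h4 : pd k (fun y : E n => ‖y‖ ^ 2 / 2) t = t k := by
    have h5 : HasFDerivAt (fun y : E n => ‖y‖ ^ 2) (2 • (innerSL ℝ t)) t :=
      (hasStrictFDerivAt_norm_sq t).hasFDerivAt
    have h6 : pd k (fun y : E n => ‖y‖ ^ 2) t = 2 * t k := pd_norm_sq k t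
    have h7 : pd k (fun y : E n => ‖y‖ ^ 2 / 2) t = pd k (fun y : E n => ‖y‖ ^ 2) t / 2 := by
      unfold pd
      have : (fun y : E n => ‖y‖ ^ 2 / 2) = fun y : E n => (1 / 2 : ℝ) * ‖y‖ ^ 2 := by
        funext y; ring
      rw [this, (h5.const_mul (1 / 2 : ℝ)).fderiv, h5.fderiv]
      simp only [smul_apply, smul_eq_mul]
      ring
    rw [h7, h6]; ring
  rw [h3, h4, h1, pd_comp hG.sm hV] at h2
  -- derivative of `N M = 1`
  have h5 : ∀ i, ∑ j, (pd k (Ni v G i j) t * Mi v G j i t + Ni v G i j t * pd k (Mi v G j i) t)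
      = 0 := by
    intro i
    have e1 : pd k (fun t => ∑ j, Ni v G i j t * Mi v G j i t) t = 0 := by
      have : (fun t => ∑ j, Ni v G i j t * Mi v G j i t) = fun _ => if i = i then (1 : ℝ) else 0 := by
        funext y; exact inv_mul hlo hell y i i
      rw [this]; simp [pd]
    rw [← e1, pd_sum' (fun j _ => (hN i j).mul (hM j i))]
    exact Finset.sum_congr rfl fun j _ => ((hN i j).pd_mul (hM j i) k t).symm
  have h6 : ∑ i, ∑ j, Ni v G i j t * pd k (Mi v G i j) t =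
      -∑ i, ∑ j, Mi v G i j t * pd k (Ni v G j i) t := by
    have h7 : ∑ i, ∑ j, (pd k (Ni v G i j) t * Mi v G j i t
        + Ni v G i j t * pd k (Mi v G j i) t) = 0 := by
      simp only [h5, Finset.sum_const_zero]
    simp only [Finset.sum_add_distrib] at h7
    have h8 : ∑ i, ∑ j, pd k (Ni v G i j) t * Mi v G j i t =
        ∑ i, ∑ j, Mi v G i j t * pd k (Ni v G j i) t := by
      rw [Finset.sum_comm]
      exact Finset.sum_congr rfl fun i _ => Finset.sum_congr rfl fun j _ => by ring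
    have h9 : ∑ i, ∑ j, Ni v G i j t * pd k (Mi v G j i) t =
        ∑ i, ∑ j, Ni v G i j t * pd k (Mi v G i j) t :=
      Finset.sum_congr rfl fun i _ => Finset.sum_congr rfl fun j _ => by
        rw [Mi_symm hlo hell i j]
    rw [h8, h9] at h7
    linarith
  rw [h6]
  have h7 : ∑ c, Mi v G k c t * pd c (Vl P v lam) (Gv (Gi G) t) =
      ∑ c, pd c (Vl P v lam) (G t) * pd k (Gi G c) t := by
    rw [Gv_Gi]
    refine Finset.sum_congr rfl fun c _ => ?_
    rw [jac_inv hv.sm hG, Mi_symm hlo hell k c]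
    ring
  rw [h7]
  have h8 : ∑ i, ∑ j, (Crest.Agent.R238.gm v (G t))⁻¹ i j *
      pd k (fun y => Crest.Agent.R238.gm v (G y) j i) t =
      ∑ i, ∑ j, Mi v G i j t * pd k (Ni v G j i) t := rfl
  rw [h8] at h2
  linarith

/-- **74's structure** from `(MAb)` -/
theorem ma {P : E n → ℝ} {lam : ℝ} (hP : ContDiff ℝ ∞ P) (hv : Bk 2 v) (hG : IsInv v G)
    (hlo : 0 < lo) (hell : ∀ x, Crest.Agent.R238.Ell lo hi (Crest.Agent.R238.gm v x))
    (hma : Crest.Agent.R253.Br.MAb P lam 1 v) :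
    MA (Gi G) (Mi v G) (Ni v G) (Vl P v lam) where
  hd := hd hv hG hlo hell
  m2 := fun i j => contDiff_infty.1 (contDiff_Mi hv.sm hG i j) 2
  m3 := fun i j k => c1_pd_Mi hv hG hlo hell k i j
  n1 := c1_Ni hv hG hlo hell
  sN := Ni_symm hell
  inv := inv_mul hlo hell
  hV := contDiff_infty.1 (contDiff_Vl hP hv.sm lam) 2
  ma := fun x i => ma_eq hP hv hG hlo hell hma x i

end

end Crest.Agent.R253.Dual441
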