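/-
helper999, row 253.  Second-order spectral calculus for real symmetric matrices.

* `dd1 f f' x y`, `dd2 f f' f'' x y z` : first and second divided differences (with the confluent values
  supplied by `f'`, `f''`).
* `cfc_entry_exact` : the exact algebraic second-order identity.
* `tendsto_cfc_entry` : continuity of `A ↦ g(A)` (entrywise) for `g` continuous on a compact set.
* `cfc_taylor2` : second-order Peano expansion of `t ↦ f(S_t)` at a diagonal matrix.
-/
import Mathlib

set_option autoImplicit false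
open Matrix Filter Topology Asymptotics

namespace Crest.Agent.R253.SpecCalc999

variable {m : ℕ}

/-- square real matrices -/
abbrev Mat (m : ℕ) := Matrix (Fin m) (Fin m) ℝ

lemma contOn_spec (f : ℝ → ℝ) (A : Mat m) : ContinuousOn f (spectrum ℝ A) := by
  have : Finite (spectrum ℝ A) := inferInstance
  exact (Set.toFinite (spectrum ℝ A)).continuousOn f

lemma sa {A : Mat m} (hA : A.IsHermitian) : IsSelfAdjoint A := hA

lemma cfc_entry {A : Mat m} (hA : A.IsHermitian) (f : ℝ → ℝ) (i j : Fin m) :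
    (cfc f A) i j = ∑ k, (hA.eigenvectorUnitary : Mat m) i k * f (hA.eigenvalues k) *
      (hA.eigenvectorUnitary : Mat m) j k := by
  rw [hA.cfc_eq, Matrix.IsHermitian.cfc, Unitary.conjStarAlgAut_apply]
  simp only [Matrix.mul_apply, Matrix.star_apply, star_trivial]
  refine Finset.sum_congr rfl fun k _ => ?_
  congr 1
  rw [Finset.sum_eq_single k]
  · simp
  · intro b _ hb; simp [Matrix.diagonal, hb]
  · intro h; exact absurd (Finset.mem_univ _) h

lemma unitary_row {A : Mat m} (hA : A.IsHermitian) (i : Fin m) :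
    ∑ k, ((hA.eigenvectorUnitary : Mat m) i k) ^ 2 = 1 := by
  have h := Unitary.coe_mul_star_self hA.eigenvectorUnitary
  have h2 := congrFun (congrFun h i) i
  simp only [Matrix.mul_apply, Unitary.coe_star, Matrix.star_apply, star_trivial,
    Matrix.one_apply_eq] at h2
  rw [← h2]
  exact Finset.sum_congr rfl fun k _ => by ring

lemma abs_cfc_entry_le {A : Mat m} (hA : A.IsHermitian) {f : ℝ → ℝ} {I : Set ℝ}
    (hI : spectrum ℝ A ⊆ I) {ε : ℝ} (hf : ∀ x ∈ I, |f x| ≤ ε) (i j : Fin m) :
    |(cfc f A) i j| ≤ ε := by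
  rw [cfc_entry hA]
  have hk : ∀ k, |f (hA.eigenvalues k)| ≤ ε := fun k => hf _ (hI (hA.eigenvalues_mem_spectrum_real k))
  have hε : (0 : ℝ) ≤ ε := by
    exact le_trans (abs_nonneg _) (hk i)
  calc |∑ k, (hA.eigenvectorUnitary : Mat m) i k * f (hA.eigenvalues k) *
        (hA.eigenvectorUnitary : Mat m) j k|
      ≤ ∑ k, |(hA.eigenvectorUnitary : Mat m) i k * f (hA.eigenvalues k) *
        (hA.eigenvectorUnitary : Mat m) j k| := Finset.abs_sum_le_sum_abs _ _
    _ ≤ ∑ k, ε * ((((hA.eigenvectorUnitary : Mat m) i k) ^ 2 +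
          ((hA.eigenvectorUnitary : Mat m) j k) ^ 2) / 2) := by
        refine Finset.sum_le_sum fun k _ => ?_
        rw [abs_mul, abs_mul]
        set a := (hA.eigenvectorUnitary : Mat m) i k
        set b := (hA.eigenvectorUnitary : Mat m) j k
        have h1 : |a| * |b| ≤ (a ^ 2 + b ^ 2) / 2 := by
          nlinarith [sq_nonneg (|a| - |b|), sq_abs a, sq_abs b]
        calc |a| * |f (hA.eigenvalues k)| * |b| = |f (hA.eigenvalues k)| * (|a| * |b|) := by ring
          _ ≤ ε * ((a ^ 2 + b ^ 2) / 2) := by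
            exact mul_le_mul (hk k) h1 (by positivity) hε
    _ = ε := by
        rw [← Finset.mul_sum, ← Finset.sum_div, Finset.sum_add_distrib, unitary_row, unitary_row]
        ring

lemma cfc_diagonal (f : ℝ → ℝ) (s : Fin m → ℝ) :
    cfc f (Matrix.diagonal s) = Matrix.diagonal (fun i => f (s i)) := by
  have hA : (Matrix.diagonal s : Mat m).IsHermitian := Matrix.isHermitian_diagonal _
  obtain ⟨p, hp⟩ : ∃ p : Polynomial ℝ, ∀ x ∈ (spectrum ℝ (Matrix.diagonal s : Mat m)), p.eval x = f x := by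
    classical
    have hfin := Set.toFinite (spectrum ℝ (Matrix.diagonal s : Mat m))
    refine ⟨Lagrange.interpolate hfin.toFinset id f, fun x hx => ?_⟩
    exact Lagrange.eval_interpolate_at_node (v := id) f (fun a _ b _ h => h) (hfin.mem_toFinset.2 hx)
  have h1 : cfc f (Matrix.diagonal s : Mat m) = cfc p.eval (Matrix.diagonal s : Mat m) :=
    cfc_congr fun x hx => (hp x hx).symm
  rw [h1, cfc_polynomial p _ (sa hA)]
  have h2 : Polynomial.aeval (Matrix.diagonal s : Mat m) p = Matrix.diagonal (fun i => p.eval (s i)) := by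
    have := Polynomial.aeval_algHom_apply (Matrix.diagonalAlgHom ℝ (n := Fin m) (α := ℝ)) s p
    simp only [Matrix.diagonalAlgHom_apply] at this
    rw [this]
    congr 1
    funext i
    simp [Polynomial.aeval_fn_apply]
  rw [h2]
  congr 1
  funext i
  apply hp
  rw [spectrum_diagonal]
  exact ⟨i, rfl⟩

/-- continuity of the functional calculus along a filter -/
lemma tendsto_cfc_entry {τ : Type*} {l : Filter τ} {S : τ → Mat m} {B : Mat m} {I : Set ℝ}
    (hI : IsCompact I) {f : ℝ → ℝ} (hf : ContinuousOn f I)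
    (hS : ∀ᶠ t in l, (S t).IsHermitian ∧ spectrum ℝ (S t) ⊆ I) (hB : B.IsHermitian)
    (hBI : spectrum ℝ B ⊆ I) (h : ∀ i j, Tendsto (fun t => S t i j) l (𝓝 (B i j))) (i j : Fin m) :
    Tendsto (fun t => (cfc f (S t)) i j) l (𝓝 ((cfc f B) i j)) := by
  rw [Metric.tendsto_nhds]
  intro ε hε
  obtain ⟨p, hp⟩ : ∃ p : Polynomial ℝ, ∀ x ∈ I, |p.eval x - f x| < ε / 4 := by
    rcases Set.eq_empty_or_nonempty I with rfl | hne
    · exact ⟨0, by simp⟩
    · have hsub : I ⊆ Set.Icc (sInf I) (sSup I) := fun x hx =>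
        ⟨csInf_le hI.bddBelow hx, le_csSup hI.bddAbove hx⟩
      -- Tietze extension then Weierstrass
      obtain ⟨g, hg⟩ := ContinuousMap.exists_restrict_eq (hI.isClosed)
        (⟨I.domRestrict f, continuousOn_iff_continuous_domRestrict.1 hf⟩ : C(I, ℝ))
      obtain ⟨p, hp⟩ := exists_polynomial_near_of_continuousOn (sInf I) (sSup I) g
        g.continuous.continuousOn (ε / 4) (by positivity)
      refine ⟨p, fun x hx => ?_⟩
      have h1 := hp x (hsub hx)
      have h2 : g x = f x := by
        have := congrArg (fun F : C(I, ℝ) => F ⟨x, hx⟩) hg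
        simpa using this
      rwa [h2] at h1
  have hpoly : Tendsto (fun t => (Polynomial.aeval (S t) p) i j) l (𝓝 ((Polynomial.aeval B p) i j)) := by
    have hST : Tendsto S l (𝓝 B) :=
      tendsto_pi_nhds.2 fun i => tendsto_pi_nhds.2 fun j => h i j
    have hc : Continuous (fun M : Mat m => Polynomial.aeval M p) := by
      exact Polynomial.continuous_aeval p
    have h3 := (hc.tendsto B).comp hST
    exact ((continuous_apply_apply i j).tendsto _).comp h3
  have hev := (Metric.tendsto_nhds.1 hpoly) (ε / 4) (by positivity)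
  filter_upwards [hev, hS] with t ht hSt
  have e1 : |(cfc f (S t)) i j - (Polynomial.aeval (S t) p) i j| ≤ ε / 4 := by
    rw [← cfc_polynomial p (S t) (sa hSt.1)]
    have : cfc f (S t) - cfc p.eval (S t) = cfc (fun x => f x - p.eval x) (S t) :=
      (cfc_sub f p.eval (S t) (contOn_spec _ _) (contOn_spec _ _)).symm
    rw [← Matrix.sub_apply, this]
    exact abs_cfc_entry_le hSt.1 hSt.2 (fun x hx => by
      rw [abs_sub_comm]; exact (hp x hx).le) i j
  have e2 : |(cfc f B) i j - (Polynomial.aeval B p) i j| ≤ ε / 4 := by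
    rw [← cfc_polynomial p B (sa hB)]
    have : cfc f B - cfc p.eval B = cfc (fun x => f x - p.eval x) B :=
      (cfc_sub f p.eval B (contOn_spec _ _) (contOn_spec _ _)).symm
    rw [← Matrix.sub_apply, this]
    exact abs_cfc_entry_le hB hBI (fun x hx => by
      rw [abs_sub_comm]; exact (hp x hx).le) i j
  rw [Real.dist_eq] at ht ⊢
  have := abs_lt.1 ht
  have := abs_le.1 e1
  have := abs_le.1 e2
  rw [abs_lt]
  constructor <;> linarith

/-- first divided difference -/
noncomputable def dd1 (f f' : ℝ → ℝ) (x y : ℝ) : ℝ :=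
  if x = y then f' x else (f x - f y) / (x - y)

/-- second divided difference `f[x,y,z]` (confluent values from `f'`, `f''`) -/
noncomputable def dd2 (f f' f'' : ℝ → ℝ) (x y z : ℝ) : ℝ :=
  if x = y then (if y = z then f'' x / 2 else (f' x - dd1 f f' x z) / (x - z))
  else (dd1 f f' x z - dd1 f f' y z) / (x - y)

lemma dd1_mul (f f' : ℝ → ℝ) (x y : ℝ) : dd1 f f' x y * (x - y) = f x - f y := by
  unfold dd1
  split_ifs with h
  · subst h; ring
  · have : x - y ≠ 0 := sub_ne_zero.2 h
    field_simp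

lemma dd2_mul (f f' f'' : ℝ → ℝ) (x y z : ℝ) :
    dd2 f f' f'' x y z * (x - y) = dd1 f f' x z - dd1 f f' y z := by
  unfold dd2
  split_ifs with h h2
  · subst h; ring
  · subst h; ring
  · have : x - y ≠ 0 := sub_ne_zero.2 h
    field_simp

lemma dd1_comm (f f' : ℝ → ℝ) (x y : ℝ) : dd1 f f' x y = dd1 f f' y x := by
  unfold dd1
  by_cases h : x = y
  · subst h; simp
  · have h1 : x - y ≠ 0 := sub_ne_zero.2 h
    have h2 : y - x ≠ 0 := sub_ne_zero.2 (Ne.symm h)
    rw [if_neg h, if_neg (Ne.symm h)]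
    field_simp
    ring

/-- one-step factorisation of the functional calculus -/
lemma cfc_factor {A : Mat m} (hA : A.IsHermitian) {s : Fin m → ℝ} {X : Mat m}
    (hX : A = Matrix.diagonal s + X) (k : Fin m) (f g : ℝ → ℝ)
    (hg : ∀ x, f x - f (s k) = g x * (x - s k)) (i : Fin m) :
    (cfc f A) i k = f (s k) * (if i = k then 1 else 0) + ∑ j, (cfc g A) i j * X j k := by
  have e1 : cfc f A = cfc (fun x => f (s k) + g x * (x - s k)) A := by
    congr 1; funext x; linarith [hg x]
  have e2 : cfc (fun x => f (s k) + g x * (x - s k)) A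
      = algebraMap ℝ (Mat m) (f (s k)) + cfc g A * (A - algebraMap ℝ (Mat m) (s k)) := by
    rw [cfc_const_add _ _ _ (contOn_spec _ _) (sa hA), cfc_mul _ _ _ (contOn_spec _ _) (contOn_spec _ _),
      cfc_sub _ _ _ (contOn_spec _ _) (contOn_spec _ _), cfc_id' ℝ A (sa hA),
      cfc_const _ _ (sa hA)]
  rw [e1, e2]
  have e3 : ∀ j, (A - algebraMap ℝ (Mat m) (s k)) j k = X j k := by
    intro j
    rw [hX]
    simp only [Matrix.sub_apply, Matrix.add_apply, Matrix.algebraMap_matrix_apply,
      Matrix.diagonal_apply, Algebra.algebraMap_self, RingHom.id_apply]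
    split_ifs with h
    · subst h; ring
    · ring
  rw [Matrix.add_apply, Matrix.mul_apply, Matrix.algebraMap_matrix_apply]
  simp only [e3, Algebra.algebraMap_self, RingHom.id_apply]
  congr 1
  split_ifs <;> ring

/-- exact algebraic second-order identity at a diagonal matrix -/
theorem cfc_entry_exact {A : Mat m} (hA : A.IsHermitian) {s : Fin m → ℝ} {X : Mat m}
    (hX : A = Matrix.diagonal s + X) (f f' f'' : ℝ → ℝ) (i k : Fin m) :
    (cfc f A) i k = f (s k) * (if i = k then 1 else 0) + dd1 f f' (s i) (s k) * X i k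
      + ∑ j, ∑ l, (cfc (fun x => dd2 f f' f'' x (s j) (s k)) A) i l * X l j * X j k := by
  rw [cfc_factor hA hX k f (fun x => dd1 f f' x (s k)) (fun x => (dd1_mul f f' x (s k)).symm) i]
  have : ∀ j, (cfc (fun x => dd1 f f' x (s k)) A) i j =
      dd1 f f' (s j) (s k) * (if i = j then 1 else 0) +
        ∑ l, (cfc (fun x => dd2 f f' f'' x (s j) (s k)) A) i l * X l j := fun j =>
    cfc_factor hA hX j (fun x => dd1 f f' x (s k)) (fun x => dd2 f f' f'' x (s j) (s k))
      (fun x => (dd2_mul f f' f'' x (s j) (s k)).symm) i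
  simp only [this, add_mul, Finset.sum_add_distrib, Finset.sum_mul]
  rw [add_assoc]
  congr 2
  rw [Finset.sum_eq_single i]
  · simp
  · intro j _ hj; simp [Ne.symm hj]
  · intro h; exact absurd (Finset.mem_univ _) h

/-- second-order Peano differentiability of `f` at `a` within `I` -/
def Peano2 (f : ℝ → ℝ) (f' f'' : ℝ → ℝ) (I : Set ℝ) (a : ℝ) : Prop :=
  (fun x => f x - f a - f' a * (x - a) - f'' a / 2 * (x - a) ^ 2) =o[𝓝[I] a] fun x => (x - a) ^ 2

lemma Peano2.tendsto2 {f f' f'' : ℝ → ℝ} {I : Set ℝ} {a : ℝ} (h : Peano2 f f' f'' I a) :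
    Tendsto (fun x => (f x - f a - f' a * (x - a)) / (x - a) ^ 2) (𝓝[I \ {a}] a) (𝓝 (f'' a / 2)) := by
  have h1 : Tendsto (fun x => (f x - f a - f' a * (x - a) - f'' a / 2 * (x - a) ^ 2) / (x - a) ^ 2)
      (𝓝[I \ {a}] a) (𝓝 0) := by
    have := (Asymptotics.isLittleO_iff_tendsto (by
      intro x hx
      have : x - a = 0 := by nlinarith [hx]
      have : x = a := by linarith
      subst this; ring)).1 h
    exact this.mono_left (nhdsWithin_mono _ Set.sdiff_subset)
  have h2 := h1.add_const (f'' a / 2)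
  rw [zero_add] at h2
  refine h2.congr' ?_
  filter_upwards [self_mem_nhdsWithin] with x hx
  have hxa : x - a ≠ 0 := sub_ne_zero.2 hx.2
  field_simp
  ring

lemma Peano2.tendsto1 {f f' f'' : ℝ → ℝ} {I : Set ℝ} {a : ℝ} (h : Peano2 f f' f'' I a) :
    Tendsto (fun x => (f x - f a) / (x - a)) (𝓝[I \ {a}] a) (𝓝 (f' a)) := by
  have h0 : Tendsto (fun x : ℝ => x - a) (𝓝[I \ {a}] a) (𝓝 0) := by
    have : Tendsto (fun x : ℝ => x - a) (𝓝 a) (𝓝 (a - a)) := (continuous_id.sub continuous_const).tendsto a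
    rw [sub_self] at this
    exact this.mono_left nhdsWithin_le_nhds
  have h1 := (h.tendsto2.mul h0).add_const (f' a)
  rw [mul_zero, zero_add] at h1
  refine h1.congr' ?_
  filter_upwards [self_mem_nhdsWithin] with x hx
  have hxa : x - a ≠ 0 := sub_ne_zero.2 hx.2
  field_simp
  ring

lemma continuousWithinAt_dd1 {f f' f'' : ℝ → ℝ} {I : Set ℝ} (hf : ContinuousOn f I) {b : ℝ}
    (hb : Peano2 f f' f'' I b) {x : ℝ} (hx : x ∈ I) :
    ContinuousWithinAt (fun x => dd1 f f' x b) I x := by
  by_cases hxb : x = b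
  · subst hxb
    rw [← continuousWithinAt_sdiff_self]
    unfold ContinuousWithinAt
    have e : dd1 f f' x x = f' x := by simp [dd1]
    show Tendsto _ _ (𝓝 (dd1 f f' x x))
    rw [e]
    refine (hb.tendsto1).congr' ?_
    filter_upwards [self_mem_nhdsWithin] with y hy
    have : y ≠ x := hy.2
    simp [dd1, this]
  · have h1 : ContinuousWithinAt (fun x => (f x - f b) / (x - b)) I x := by
      refine ((hf x hx).sub continuousWithinAt_const).div
        (continuousWithinAt_id.sub continuousWithinAt_const) (sub_ne_zero.2 hxb)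
    refine h1.congr_of_eventuallyEq ?_ ?_
    · have : ∀ᶠ y in 𝓝[I] x, y ≠ b := nhdsWithin_le_nhds (isOpen_ne.mem_nhds hxb)
      filter_upwards [this] with y hy
      simp [dd1, hy]
    · simp [dd1, hxb]

lemma continuousOn_dd2 {f f' f'' : ℝ → ℝ} {I : Set ℝ} (hf : ContinuousOn f I) {a b : ℝ}
    (ha : Peano2 f f' f'' I a) (hb : Peano2 f f' f'' I b) (haI : a ∈ I) :
    ContinuousOn (fun x => dd2 f f' f'' x a b) I := by
  intro x hx
  by_cases hxa : x = a
  · subst hxa
    rw [← continuousWithinAt_sdiff_self]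
    unfold ContinuousWithinAt
    by_cases hab : x = b
    · subst hab
      have e : dd2 f f' f'' x x x = f'' x / 2 := by simp [dd2]
      show Tendsto _ _ (𝓝 (dd2 f f' f'' x x x))
      rw [e]
      refine (ha.tendsto2).congr' ?_
      filter_upwards [self_mem_nhdsWithin] with y hy
      have hy' : y ≠ x := hy.2
      have hyx : y - x ≠ 0 := sub_ne_zero.2 hy'
      simp only [dd2, dd1, if_neg hy', if_true]
      field_simp
    · have e : dd2 f f' f'' x x b = (f' x - dd1 f f' x b) / (x - b) := by simp [dd2, hab]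
      show Tendsto _ _ (𝓝 (dd2 f f' f'' x x b))
      rw [e]
      have hne : x - b ≠ 0 := sub_ne_zero.2 hab
      have h1 : Tendsto (fun y => ((f y - f x) / (y - x) - dd1 f f' x b) / (y - b)) (𝓝[I \ {x}] x)
          (𝓝 ((f' x - dd1 f f' x b) / (x - b))) := by
        refine (ha.tendsto1.sub_const _).div ?_ hne
        exact ((continuous_id.sub continuous_const).tendsto x).mono_left nhdsWithin_le_nhds
      refine h1.congr' ?_
      have hyb : ∀ᶠ y in 𝓝[I \ {x}] x, y ≠ b := nhdsWithin_le_nhds (isOpen_ne.mem_nhds hab)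
      filter_upwards [self_mem_nhdsWithin, hyb] with y hy hyb
      have hy' : y ≠ x := hy.2
      have hyx : y - x ≠ 0 := sub_ne_zero.2 hy'
      have hyb' : y - b ≠ 0 := sub_ne_zero.2 hyb
      simp only [dd2, dd1, if_neg hy', if_neg hab, if_neg hyb]
      field_simp
      ring
  · have h1 : ContinuousWithinAt (fun x => (dd1 f f' x b - dd1 f f' a b) / (x - a)) I x := by
      refine ((continuousWithinAt_dd1 hf hb hx).sub continuousWithinAt_const).div
        (continuousWithinAt_id.sub continuousWithinAt_const) (sub_ne_zero.2 hxa)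
    refine h1.congr_of_eventuallyEq ?_ ?_
    · have : ∀ᶠ y in 𝓝[I] x, y ≠ a := nhdsWithin_le_nhds (isOpen_ne.mem_nhds hxa)
      filter_upwards [this] with y hy
      simp [dd2, hy]
    · simp [dd2, hxa]

lemma isLittleO_sum' {τ ι : Type*} [Fintype ι] {l : Filter τ} {u : ι → τ → ℝ} {g : τ → ℝ}
    (h : ∀ i, u i =o[l] g) : (fun t => ∑ i, u i t) =o[l] g := by
  have := IsLittleO.sum (s := Finset.univ) (fun i _ => h i)
  refine this.congr_left fun t => ?_
  simp

/-- second-order Peano expansion of `t ↦ f(S_t)` at a diagonal matrix. -/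
theorem cfc_taylor2 {τ : Type*} {l : Filter τ} {r : τ → ℝ} (hr : Tendsto r l (𝓝 0))
    {s : Fin m → ℝ} {I : Set ℝ} (hI : IsCompact I) (hs : ∀ i, s i ∈ I)
    {f f' f'' : ℝ → ℝ} (hf : ContinuousOn f I) (hp : ∀ i, Peano2 f f' f'' I (s i))
    {S : τ → Mat m} (hS : ∀ᶠ t in l, (S t).IsHermitian ∧ spectrum ℝ (S t) ⊆ I)
    {X Y : Mat m}
    (hexp : ∀ i j, (fun t => S t i j - (Matrix.diagonal s i j + r t * X i j + r t ^ 2 * Y i j))
      =o[l] fun t => r t ^ 2) (i k : Fin m) :
    (fun t => (cfc f (S t)) i k -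
      (f (s k) * (if i = k then 1 else 0) + r t * (dd1 f f' (s i) (s k) * X i k) +
        r t ^ 2 * (dd1 f f' (s i) (s k) * Y i k +
          ∑ j, dd2 f f' f'' (s i) (s j) (s k) * X i j * X j k)))
      =o[l] fun t => r t ^ 2 := by
  classical
  set E : τ → Mat m := fun t => S t - Matrix.diagonal s with hE
  have hEexp : ∀ i j, (fun t => E t i j - (r t * X i j + r t ^ 2 * Y i j)) =o[l] fun t => r t ^ 2 := by
    intro i j
    refine (hexp i j).congr_left fun t => ?_
    simp only [hE, Matrix.sub_apply]; ring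
  have hr1 : (fun t => r t ^ 2) =O[l] fun t => r t := by
    have : (fun t => r t ^ 2) = fun t => r t * r t := by funext t; ring
    rw [this]
    simpa using (hr.isBigO_one ℝ).mul (isBigO_refl r l)
  have hrr : (fun t => r t ^ 2) =o[l] fun t => r t := by
    have : (fun t => r t ^ 2) = fun t => r t * r t := by funext t; ring
    rw [this]
    have h0 : r =o[l] fun _ => (1 : ℝ) := (isLittleO_one_iff ℝ).2 hr
    simpa using h0.mul_isBigO (isBigO_refl r l)
  -- first order: E = r X + o(r)
  have hE1 : ∀ i j, (fun t => E t i j - r t * X i j) =o[l] r := by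
    intro i j
    have h1 : (fun t => E t i j - r t * X i j) =
        fun t => (E t i j - (r t * X i j + r t ^ 2 * Y i j)) + Y i j * r t ^ 2 := by
      funext t; ring
    rw [h1]
    exact ((hEexp i j).trans_isBigO hr1).add (hrr.const_mul_left _)
  have hEO : ∀ i j, (fun t => E t i j) =O[l] r := by
    intro i j
    have h1 : (fun t => E t i j) = fun t => (E t i j - r t * X i j) + X i j * r t := by
      funext t; ring
    rw [h1]
    exact (hE1 i j).isBigO.add ((isBigO_refl r l).const_mul_left _)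
  -- limit of the functional calculus of the second divided difference
  have hlim : ∀ i j, Tendsto (fun t => S t i j) l (𝓝 ((Matrix.diagonal s : Mat m) i j)) := by
    intro i j
    have h1 : Tendsto (fun t => E t i j) l (𝓝 0) := ((hEO i j).trans_tendsto hr)
    have h2 := h1.add_const ((Matrix.diagonal s : Mat m) i j)
    rw [zero_add] at h2
    refine h2.congr fun t => ?_
    simp [hE]
  have hBspec : spectrum ℝ (Matrix.diagonal s : Mat m) ⊆ I := by
    rw [spectrum_diagonal]
    rintro _ ⟨i, rfl⟩; exact hs i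
  have hdd : ∀ j l', Tendsto (fun t => (cfc (fun x => dd2 f f' f'' x (s j) (s k)) (S t)) i l') l
      (𝓝 (dd2 f f' f'' (s i) (s j) (s k) * (if i = l' then 1 else 0))) := by
    intro j l'
    have h1 := tendsto_cfc_entry hI (continuousOn_dd2 hf (hp j) (hp k) (hs j)) hS
      (Matrix.isHermitian_diagonal s) hBspec hlim i l'
    rw [cfc_diagonal] at h1
    have e : (Matrix.diagonal (fun i => dd2 f f' f'' (s i) (s j) (s k)) : Mat m) i l' =
        dd2 f f' f'' (s i) (s j) (s k) * (if i = l' then 1 else 0) := by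
      rw [Matrix.diagonal_apply]; split_ifs <;> simp
    rwa [e] at h1
  -- quadratic terms
  have hquad : ∀ j l', (fun t => (cfc (fun x => dd2 f f' f'' x (s j) (s k)) (S t)) i l' * E t l' j * E t j k
      - r t ^ 2 * (dd2 f f' f'' (s i) (s j) (s k) * (if i = l' then 1 else 0) * X l' j * X j k))
      =o[l] fun t => r t ^ 2 := by
    intro j l'
    set c := dd2 f f' f'' (s i) (s j) (s k) * (if i = l' then (1 : ℝ) else 0)
    set F := fun t => (cfc (fun x => dd2 f f' f'' x (s j) (s k)) (S t)) i l'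
    have hF : (fun t => F t - c) =o[l] fun _ => (1 : ℝ) := by
      rw [isLittleO_one_iff]
      have := (hdd j l').sub_const c
      rwa [sub_self] at this
    have hc1 : (fun _ : τ => c) =O[l] fun _ => (1 : ℝ) := isBigO_const_const _ one_ne_zero _
    have e : (fun t => F t * E t l' j * E t j k - r t ^ 2 * (c * X l' j * X j k)) =
        fun t => ((F t - c) * (E t l' j * E t j k)) + (c * ((E t l' j - r t * X l' j) * E t j k)) +
          (c * X l' j) * (r t * (E t j k - r t * X j k)) := by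
      funext t; ring
    rw [e]
    have hsq : (fun t => r t ^ 2) = fun t => r t * r t := by funext t; ring
    have hsq1 : (fun t => r t ^ 2) = fun t => (1 : ℝ) * (r t * r t) := by funext t; ring
    refine (IsLittleO.add ?_ ?_).add ?_
    · rw [hsq1]; exact hF.mul_isBigO ((hEO l' j).mul (hEO j k))
    · refine IsLittleO.const_mul_left ?_ _
      rw [hsq]; exact (hE1 l' j).mul_isBigO (hEO j k)
    · refine IsLittleO.const_mul_left ?_ _
      rw [hsq]; exact (isBigO_refl r l).mul_isLittleO (hE1 j k)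
  have hsum : (fun t => ∑ j, ∑ l', ((cfc (fun x => dd2 f f' f'' x (s j) (s k)) (S t)) i l' * E t l' j * E t j k
      - r t ^ 2 * (dd2 f f' f'' (s i) (s j) (s k) * (if i = l' then 1 else 0) * X l' j * X j k)))
      =o[l] fun t => r t ^ 2 :=
    isLittleO_sum' fun j => isLittleO_sum' fun l' => hquad j l'
  have hlin := ((hEexp i k).const_mul_left (dd1 f f' (s i) (s k)))
  refine (hlin.add hsum).congr' ?_ EventuallyEq.rfl
  filter_upwards [hS] with t ht
  have hX : S t = Matrix.diagonal s + E t := by simp [hE]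
  rw [cfc_entry_exact ht.1 hX f f' f'' i k]
  have e2 : ∀ j, ∑ l', r t ^ 2 * (dd2 f f' f'' (s i) (s j) (s k) * (if i = l' then (1:ℝ) else 0) * X l' j * X j k)
      = r t ^ 2 * (dd2 f f' f'' (s i) (s j) (s k) * X i j * X j k) := by
    intro j
    rw [Finset.sum_eq_single i]
    · simp
    · intro b _ hb; simp [Ne.symm hb]
    · intro h; exact absurd (Finset.mem_univ _) h
  simp only [Finset.sum_sub_distrib, e2, ← Finset.mul_sum]
  ring

lemma dd2_swap12 (f f' f'' : ℝ → ℝ) (x y z : ℝ) : dd2 f f' f'' x y z = dd2 f f' f'' y x z := by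
  by_cases hxy : x = y
  · subst hxy; rfl
  · have h1 : x - y ≠ 0 := sub_ne_zero.2 hxy
    have h2 : y - x ≠ 0 := sub_ne_zero.2 (Ne.symm hxy)
    unfold dd2
    rw [if_neg hxy, if_neg (Ne.symm hxy)]
    field_simp
    ring

lemma dd2_swap23 (f f' f'' : ℝ → ℝ) (x y z : ℝ) : dd2 f f' f'' x y z = dd2 f f' f'' x z y := by
  by_cases hxy : x = y
  · subst hxy
    by_cases hxz : x = z
    · subst hxz; rfl
    · have h1 : x - z ≠ 0 := sub_ne_zero.2 hxz
      simp only [dd2, dd1, if_neg hxz, if_neg (Ne.symm hxz), if_true]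
      have h2 : z - x ≠ 0 := sub_ne_zero.2 (Ne.symm hxz)
      field_simp
      ring
  · by_cases hxz : x = z
    · subst hxz
      have h1 : x - y ≠ 0 := sub_ne_zero.2 hxy
      have h2 : y - x ≠ 0 := sub_ne_zero.2 (Ne.symm hxy)
      simp only [dd2, dd1, if_neg hxy, if_neg (Ne.symm hxy), if_true]
      field_simp
      ring
    · by_cases hyz : y = z
      · subst hyz; rfl
      · have h1 : x - y ≠ 0 := sub_ne_zero.2 hxy
        have h2 : x - z ≠ 0 := sub_ne_zero.2 hxz
        have h3 : y - z ≠ 0 := sub_ne_zero.2 hyz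
        have h4 : z - y ≠ 0 := sub_ne_zero.2 (Ne.symm hyz)
        simp only [dd2, dd1, if_neg hxy, if_neg hxz, if_neg hyz, if_neg (Ne.symm hyz)]
        field_simp
        ring

/-- `f[x,y,x] + f[y,x,y] = f'[x,y]` -/
lemma dd2_add_dd2 (f f' f'' : ℝ → ℝ) (x y : ℝ) :
    dd2 f f' f'' x y x + dd2 f f' f'' y x y = dd1 f' f'' x y := by
  by_cases hxy : x = y
  · subst hxy; simp [dd2, dd1]
  · have h1 : x - y ≠ 0 := sub_ne_zero.2 hxy
    have h2 : y - x ≠ 0 := sub_ne_zero.2 (Ne.symm hxy)
    simp only [dd2, dd1, if_neg hxy, if_neg (Ne.symm hxy), if_true]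
    field_simp
    ring

/-- second order expansion of `t ↦ tr f(S_t)` -/
theorem trace_cfc_taylor2 {τ : Type*} {l : Filter τ} {r : τ → ℝ} (hr : Tendsto r l (𝓝 0))
    {s : Fin m → ℝ} {I : Set ℝ} (hI : IsCompact I) (hs : ∀ i, s i ∈ I)
    {f f' f'' : ℝ → ℝ} (hf : ContinuousOn f I) (hp : ∀ i, Peano2 f f' f'' I (s i))
    {S : τ → Mat m} (hS : ∀ᶠ t in l, (S t).IsHermitian ∧ spectrum ℝ (S t) ⊆ I)
    {X Y : Mat m} (hXs : ∀ i j, X i j = X j i)
    (hexp : ∀ i j, (fun t => S t i j - (Matrix.diagonal s i j + r t * X i j + r t ^ 2 * Y i j))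
      =o[l] fun t => r t ^ 2) :
    (fun t => (cfc f (S t)).trace -
      (∑ i, f (s i) + r t * (∑ i, f' (s i) * X i i) +
        r t ^ 2 * (∑ i, f' (s i) * Y i i + (∑ i, ∑ j, dd1 f' f'' (s i) (s j) * X i j ^ 2) / 2)))
      =o[l] fun t => r t ^ 2 := by
  have h := isLittleO_sum' (fun i => cfc_taylor2 hr hI hs hf hp hS hexp i i)
  refine h.congr_left fun t => ?_
  have hsym : ∑ i, ∑ j, dd2 f f' f'' (s i) (s j) (s i) * X i j * X j i
      = (∑ i, ∑ j, dd1 f' f'' (s i) (s j) * X i j ^ 2) / 2 := by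
    have e1 : ∑ i, ∑ j, dd2 f f' f'' (s i) (s j) (s i) * X i j * X j i =
        ∑ i, ∑ j, dd2 f f' f'' (s i) (s j) (s i) * X i j ^ 2 := by
      refine Finset.sum_congr rfl fun i _ => Finset.sum_congr rfl fun j _ => ?_
      rw [hXs j i]; ring
    have e2 : ∑ i, ∑ j, dd2 f f' f'' (s i) (s j) (s i) * X i j ^ 2 =
        ∑ i, ∑ j, dd2 f f' f'' (s j) (s i) (s j) * X i j ^ 2 := by
      rw [Finset.sum_comm]
      refine Finset.sum_congr rfl fun i _ => Finset.sum_congr rfl fun j _ => ?_
      rw [hXs j i]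
    rw [e1]
    have e3 : ∑ i, ∑ j, dd1 f' f'' (s i) (s j) * X i j ^ 2 =
        ∑ i, ∑ j, dd2 f f' f'' (s i) (s j) (s i) * X i j ^ 2 +
        ∑ i, ∑ j, dd2 f f' f'' (s j) (s i) (s j) * X i j ^ 2 := by
      rw [← Finset.sum_add_distrib]
      refine Finset.sum_congr rfl fun i _ => ?_
      rw [← Finset.sum_add_distrib]
      refine Finset.sum_congr rfl fun j _ => ?_
      rw [← dd2_add_dd2 f f' f'' (s i) (s j)]; ring
    rw [e3, ← e2]; ring
  have hd : ∀ i, dd1 f f' (s i) (s i) = f' (s i) := fun i => by simp [dd1]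
  simp only [Matrix.trace, Matrix.diag_apply, if_true, mul_one, hd, Finset.sum_sub_distrib,
    Finset.sum_add_distrib, ← Finset.mul_sum]
  rw [hsym]

end Crest.Agent.R253.SpecCalc999
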