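import Crest.Agent.R253.BrPC_505
import Crest.Agent.R253.BrUni_666
import Crest.Agent.R253.Dual_441
import Crest.Agent.R253.SpecCalc_999
import Crest.Agent.R238.HBAlg

/-!
Row 253 (S0391), task T6 (helper666): continuity of the Brenier data (`v`, `G`, `M`) and of
`∫ z(M) dγ` in the datum `P`, for families with common constants (input of the normalisation).
-/

set_option autoImplicit false

open MeasureTheory Set Filter
open scoped ContDiff Topology RealInnerProductSpace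

namespace Crest.Agent.R253.NormCont666

open Crest.Agent.R238 Crest.Agent.R253.Br Crest.Agent.R253.Dual441 Crest.Agent.R253.SpecCalc999

variable {n : ℕ}

/-- a solution of `(MAb)` with the bounds exported by `ExiU` -/
structure Sl (P : E n → ℝ) (lam lo hi K : ℝ) (v : E n → ℝ) : Prop where
  nice : NiceB v
  ell : ∀ x, Ell lo hi (gm v x)
  b0 : ∀ x, lam * |v x| ≤ K
  b1 : ∀ x i, |gr v x i| ≤ K
  b3 : ∀ x i j k, |fderiv ℝ (fun y => Hs v y i j) x (ee k)| ≤ K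
  eq : MAb P lam 1 v

/-- `ExiU` in the form of `Sl` -/
theorem exists_Sl (h : ExiU n) (c C2 C3 M0 M1 R0 : ℝ) : ∃ lo hi K : ℝ, 0 < lo ∧ lo ≤ hi ∧
    ∀ P : E n → ℝ, PCB P c C2 C3 M0 M1 R0 → ∀ lam : ℝ, 0 < lam → lam ≤ 1 →
      ∃ v : E n → ℝ, Sl P lam lo hi K v := by
  obtain ⟨lo, hi, K, hlo, hlohi, H⟩ := h c C2 C3 M0 M1 R0
  refine ⟨lo, hi, K, hlo, hlohi, fun P hP lam hlam hlam1 => ?_⟩
  obtain ⟨v, h1, h2, h3, h4, h5, h6⟩ := H P hP lam hlam hlam1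
  exact ⟨v, h1, h2, h3, h4, h5, h6⟩

variable {P P₁ P₂ v v₁ v₂ : E n → ℝ} {lam lo hi K : ℝ}

theorem Sl.c2 (h : Sl P lam lo hi K v) : ContDiff ℝ 2 v := contDiff_infty.1 h.nice.smooth 2

theorem Sl.contDiff_Hs (h : Sl P lam lo hi K v) (i j : Fin n) :
    ContDiff ℝ 1 (fun x => Hs v x i j) := by
  have h1 : ContDiff ℝ 2 (fderiv ℝ v) :=
    (contDiff_infty.1 h.nice.smooth 3).fderiv_right (by norm_num)
  have h2 : ContDiff ℝ 1 (fderiv ℝ (fderiv ℝ v)) := h1.fderiv_right (by norm_num)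
  exact (h2.clm_apply contDiff_const).clm_apply contDiff_const

theorem Sl.hs_lip (h : Sl P lam lo hi K v) (i j : Fin n) (x y : E n) :
    |Hs v x i j - Hs v y i j| ≤ n * |K| * ‖x - y‖ := by
  have hd : Differentiable ℝ (fun x => Hs v x i j) := (h.contDiff_Hs i j).differentiable (by norm_num)
  have hB : ∀ z, ‖fderiv ℝ (fun x => Hs v x i j) z‖ ≤ n * |K| := fun z =>
    LimC2.opnorm1_le _ (abs_nonneg K) fun k => by
      rw [Real.norm_eq_abs]
      exact (h.b3 z i j k).trans (le_abs_self K)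
  have := convex_univ.norm_image_sub_le_of_norm_fderiv_le (f := fun x => Hs v x i j)
    (fun z _ => hd z) (fun z _ => hB z) (mem_univ y) (mem_univ x)
  rwa [Real.norm_eq_abs] at this

theorem Sl.hs_bd (h : Sl P lam lo hi K v) (hlo : 0 < lo) (x : E n) (i j : Fin n) :
    |Hs v x i j| ≤ |hi| + 1 := by
  have h1 := (h.ell x).abs_entry_le hlo.le i j
  have h2 : gm v x i j = (1 : Matrix (Fin n) (Fin n) ℝ) i j + Hs v x i j := rfl
  have h3 : |(1 : Matrix (Fin n) (Fin n) ℝ) i j| ≤ 1 := by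
    rw [Matrix.one_apply]; split_ifs <;> simp
  have h4 : Hs v x i j = gm v x i j - (1 : Matrix (Fin n) (Fin n) ℝ) i j := by rw [h2]; ring
  rw [h4]
  refine (abs_sub _ _).trans ?_
  have := le_abs_self hi
  linarith

theorem Sl.hb (h : Sl P lam lo hi K v) (hlo : 0 < lo) (i j : Fin n) :
    HB (1 / 2) (2 * (|hi| + 1) + n * |K|) (fun x => Hs v x i j) :=
  HB.of_lip (by norm_num) (by norm_num) (fun x => h.hs_bd hlo x i j) (by positivity)
    (fun x y => h.hs_lip i j x y)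

/-- **continuity of `v`, `Dv`, `D²v`** in the datum, uniformly in `x` -/
theorem close (n : ℕ) (lam lo hi K ε : ℝ) (hlam : 0 < lam) (hlo : 0 < lo) (hε : 0 < ε) :
    ∃ δ : ℝ, 0 < δ ∧ ∀ P₁ P₂ v₁ v₂ : E n → ℝ, Sl P₁ lam lo hi K v₁ → Sl P₂ lam lo hi K v₂ →
      (∀ x, |P₁ x - P₂ x| ≤ δ) →
      (∀ x, |v₁ x - v₂ x| ≤ ε) ∧ (∀ x, ‖fderiv ℝ v₁ x - fderiv ℝ v₂ x‖ ≤ ε) ∧
        ∀ x i j, |Hs v₁ x i j - Hs v₂ x i j| ≤ ε := by
  obtain ⟨δ, hδ, H⟩ := BrUni666.contB n (1 / 2) (2 * (|hi| + 1) + n * |K|) lam ε (by norm_num)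
    (by norm_num) hlam (by positivity) hε
  refine ⟨δ, hδ, fun P₁ P₂ v₁ v₂ h₁ h₂ hP => ?_⟩
  have hb : ∀ {P v : E n → ℝ}, Sl P lam lo hi K v → ∃ B, ∀ x, |v x| ≤ B := fun {P v} h =>
    ⟨K / lam, fun x => by
      rw [le_div_iff₀ hlam, mul_comm]; exact h.b0 x⟩
  exact H P₁ P₂ 1 1 v₁ v₂ h₁.c2 h₂.c2 (hb h₁) (hb h₂) ⟨K, h₁.b1⟩ ⟨K, h₂.b1⟩
    ⟨lo, hi, hlo, h₁.ell⟩ ⟨lo, hi, hlo, h₂.ell⟩ (fun i j => h₁.hb hlo i j)
    (fun i j => h₂.hb hlo i j) h₁.eq h₂.eq (fun x => by simpa using hP x)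

/-- strong monotonicity of `x + Dv` -/
theorem grad_mono {v : E n → ℝ} (hv : ContDiff ℝ 2 v) {lo hi : ℝ}
    (he : ∀ x, Ell lo hi (gm v x)) (y z : E n) :
    lo * ‖y - z‖ ^ 2 ≤ (⟪y, y - z⟫ + fderiv ℝ v y (y - z)) - (⟪z, y - z⟫ + fderiv ℝ v z (y - z)) := by
  set w := y - z with hw
  have hd : ∀ s : ℝ, HasDerivAt (fun s : ℝ => ⟪z + s • w, w⟫ + fderiv ℝ v (z + s • w) w
      - s * (lo * ‖w‖ ^ 2))
      (⟪w, w⟫ + fderiv ℝ (fderiv ℝ v) (z + s • w) w w - lo * ‖w‖ ^ 2) s := by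
    intro s
    have h1 := Sch138.hasDerivAt_line z w s
    have h2 : HasDerivAt (fun s : ℝ => ⟪z + s • w, w⟫) ⟪w, w⟫ s := by
      have := h1.inner ℝ (hasDerivAt_const s w)
      simpa using this
    have h3 := Sch138.hasDerivAt_dir hv z w w s
    have h4 : HasDerivAt (fun s : ℝ => s * (lo * ‖w‖ ^ 2)) (lo * ‖w‖ ^ 2) s := by
      simpa using (hasDerivAt_id s).mul_const (lo * ‖w‖ ^ 2)
    exact (h2.add h3).sub h4
  have hpos : ∀ s : ℝ, 0 ≤ ⟪w, w⟫ + fderiv ℝ (fderiv ℝ v) (z + s • w) w w - lo * ‖w‖ ^ 2 := by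
    intro s
    have h1 := ((he (z + s • w)).2 (fun i => w i)).1
    have hexp : w = ∑ i, w i • (ee i : E n) := by
      have := (EuclideanSpace.basisFun (Fin n) ℝ).sum_repr w
      simpa using this.symm
    have e1 : fderiv ℝ (fderiv ℝ v) (z + s • w) w w
        = ∑ i, ∑ j, Hs v (z + s • w) i j * w i * w j := by
      set D := fderiv ℝ (fderiv ℝ v) (z + s • w) with hD
      conv_lhs => rw [hexp]
      simp only [map_sum, map_smul, _root_.sum_apply, _root_.smul_apply, smul_eq_mul, Hs, ← hD,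
        Finset.mul_sum]
      rw [Finset.sum_comm]
      refine Finset.sum_congr rfl fun i _ => Finset.sum_congr rfl fun j _ => ?_
      ring
    have e2 : ‖w‖ ^ 2 = ∑ i, w i ^ 2 := by
      rw [EuclideanSpace.norm_sq_eq]
      simp [sq_abs]
    have e3 : ⟪w, w⟫ = ∑ i, w i ^ 2 := by rw [real_inner_self_eq_norm_sq, e2]
    have e4 : ∑ i, ∑ j, gm v (z + s • w) i j * w i * w j
        = ∑ i, w i ^ 2 + ∑ i, ∑ j, Hs v (z + s • w) i j * w i * w j := by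
      have : ∀ i j, gm v (z + s • w) i j * w i * w j
          = (1 : Matrix (Fin n) (Fin n) ℝ) i j * w i * w j
            + Hs v (z + s • w) i j * w i * w j := fun i j => by
        have h5 : gm v (z + s • w) i j
          = (1 : Matrix (Fin n) (Fin n) ℝ) i j + Hs v (z + s • w) i j := rfl
        rw [h5]; ring
      simp only [this, Finset.sum_add_distrib]
      congr 1
      refine Finset.sum_congr rfl fun i _ => ?_
      rw [Finset.sum_eq_single i]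
      · rw [Matrix.one_apply_eq]; ring
      · intro j _ hj; rw [Matrix.one_apply_ne (Ne.symm hj)]; ring
      · intro h; exact absurd (Finset.mem_univ i) h
    rw [e4] at h1
    rw [e3, e1, e2]
    linarith
  have hm : Monotone (fun s : ℝ => ⟪z + s • w, w⟫ + fderiv ℝ v (z + s • w) w
      - s * (lo * ‖w‖ ^ 2)) := by
    refine monotone_of_deriv_nonneg (fun s => (hd s).differentiableAt) fun s => ?_
    rw [(hd s).deriv]
    exact hpos s
  have h01 := hm (zero_le_one (α := ℝ))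
  simp only [zero_smul, add_zero, zero_mul, sub_zero, one_smul, one_mul] at h01
  have hy : z + w = y := by rw [hw]; abel
  rw [hy] at h01
  linarith

theorem inner_eq_of_inv {v : E n → ℝ} {G : E n → E n} (hG : IsInv v G) (t w : E n) :
    ⟪t, w⟫ = ⟪G t, w⟫ + fderiv ℝ v (G t) w := by
  have hexp : w = ∑ i, w i • (ee i : E n) := by
    have := (EuclideanSpace.basisFun (Fin n) ℝ).sum_repr w
    simpa using this.symm
  have h1 : fderiv ℝ v (G t) w = ∑ i, w i * fderiv ℝ v (G t) (ee i) := by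
    conv_lhs => rw [hexp]
    simp only [map_sum, map_smul, smul_eq_mul]
  have h2 : ∀ x : E n, ⟪x, w⟫ = ∑ i, x i * w i := by
    intro x
    rw [PiLp.inner_apply]
    refine Finset.sum_congr rfl fun i _ => ?_
    simp [mul_comm]
  rw [h1, h2, h2, ← Finset.sum_add_distrib]
  refine Finset.sum_congr rfl fun i _ => ?_
  have h3 := hG.eq t i
  have h4 : Crest.Agent.R238.Gap.pd i v (G t) = fderiv ℝ v (G t) (ee i) := rfl
  rw [h4] at h3
  rw [← h3]; ring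

/-- **continuity of `G`** uniformly in `t` -/
theorem closeG {v₁ v₂ : E n → ℝ} (h₁ : ContDiff ℝ 2 v₁) {lo hi : ℝ} (hlo : 0 < lo)
    (he : ∀ x, Ell lo hi (gm v₁ x)) {ε : ℝ} (hd : ∀ x, ‖fderiv ℝ v₁ x - fderiv ℝ v₂ x‖ ≤ ε)
    {G₁ G₂ : E n → E n} (hG₁ : IsInv v₁ G₁) (hG₂ : IsInv v₂ G₂) (t : E n) :
    ‖G₁ t - G₂ t‖ ≤ ε / lo := by
  set w := G₁ t - G₂ t with hw
  have h2 := grad_mono h₁ he (G₁ t) (G₂ t)
  rw [← hw, ← inner_eq_of_inv hG₁ t w, inner_eq_of_inv hG₂ t w] at h2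
  have h3 : fderiv ℝ v₂ (G₂ t) w - fderiv ℝ v₁ (G₂ t) w ≤ ε * ‖w‖ := by
    have h4 := (fderiv ℝ v₁ (G₂ t) - fderiv ℝ v₂ (G₂ t)).le_opNorm w
    rw [Real.norm_eq_abs] at h4
    have h5 := mul_le_mul_of_nonneg_right (hd (G₂ t)) (norm_nonneg w)
    have h6 := (neg_abs_le ((fderiv ℝ v₁ (G₂ t) - fderiv ℝ v₂ (G₂ t)) w))
    have h7 : (fderiv ℝ v₁ (G₂ t) - fderiv ℝ v₂ (G₂ t)) w
      = fderiv ℝ v₁ (G₂ t) w - fderiv ℝ v₂ (G₂ t) w := rfl
    rw [h7] at h4 h6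
    linarith
  rcases (norm_nonneg w).eq_or_lt with h0 | h0
  · rw [← h0]
    have : 0 ≤ ε := (norm_nonneg _).trans (hd 0)
    positivity
  · rw [le_div_iff₀ hlo]
    have h8 : lo * ‖w‖ ^ 2 ≤ ε * ‖w‖ := by linarith
    have h9 : (‖w‖ * lo) * ‖w‖ ≤ ε * ‖w‖ := by nlinarith
    exact le_of_mul_le_mul_right h9 h0

/-- **continuity of `M`** uniformly in `t` -/
theorem closeM (n : ℕ) (lam lo hi K ε : ℝ) (hlam : 0 < lam) (hlo : 0 < lo) (hε : 0 < ε) :
    ∃ δ : ℝ, 0 < δ ∧ ∀ (P₁ P₂ v₁ v₂ : E n → ℝ) (G₁ G₂ : E n → E n), Sl P₁ lam lo hi K v₁ →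
      Sl P₂ lam lo hi K v₂ → IsInv v₁ G₁ → IsInv v₂ G₂ → (∀ x, |P₁ x - P₂ x| ≤ δ) →
      (∀ t, ‖G₁ t - G₂ t‖ ≤ ε) ∧ ∀ t i j, |Mi v₁ G₁ i j t - Mi v₂ G₂ i j t| ≤ ε := by
  -- choose the accuracy of the potentials
  set q : ℝ := 1 + 1 / lo + (n : ℝ) ^ 2 * (1 + n * |K| / lo) / lo ^ 2 with hq
  have hq1 : 0 < q := by positivity
  obtain ⟨δ, hδ, H⟩ := close n lam lo hi K (ε / q) hlam hlo (by positivity)
  refine ⟨δ, hδ, fun P₁ P₂ v₁ v₂ G₁ G₂ h₁ h₂ hG₁ hG₂ hP => ?_⟩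
  obtain ⟨-, hd, hH⟩ := H P₁ P₂ v₁ v₂ h₁ h₂ hP
  have hG : ∀ t, ‖G₁ t - G₂ t‖ ≤ (ε / q) / lo := fun t => closeG h₁.c2 hlo h₁.ell hd hG₁ hG₂ t
  have e0 : 0 ≤ ε / q := by positivity
  have t1 : 0 ≤ (n : ℝ) ^ 2 * (1 + n * |K| / lo) / lo ^ 2 := by positivity
  have t2 : 0 ≤ 1 / lo := by positivity
  have hε1 : (ε / q) / lo ≤ ε := by
    have : (ε / q) / lo = (ε / q) * (1 / lo) := by ring
    rw [this]
    calc (ε / q) * (1 / lo) ≤ (ε / q) * q := mul_le_mul_of_nonneg_left (by rw [hq]; linarith) e0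
      _ = ε := by field_simp
  refine ⟨fun t => (hG t).trans hε1, fun t i j => ?_⟩
  have h3 : ∀ k l, |gm v₁ (G₁ t) k l - gm v₂ (G₂ t) k l| ≤ (ε / q) * (1 + n * |K| / lo) := by
    intro k l
    have e1 : gm v₁ (G₁ t) k l - gm v₂ (G₂ t) k l
        = (Hs v₁ (G₁ t) k l - Hs v₁ (G₂ t) k l) + (Hs v₁ (G₂ t) k l - Hs v₂ (G₂ t) k l) := by
      have a1 : gm v₁ (G₁ t) k l = (1 : Matrix (Fin n) (Fin n) ℝ) k l + Hs v₁ (G₁ t) k l := rfl
      have a2 : gm v₂ (G₂ t) k l = (1 : Matrix (Fin n) (Fin n) ℝ) k l + Hs v₂ (G₂ t) k l := rfl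
      rw [a1, a2]; ring
    rw [e1]
    refine (abs_add_le _ _).trans ?_
    have h4 := h₁.hs_lip k l (G₁ t) (G₂ t)
    have h5 := hH (G₂ t) k l
    have h6 : n * |K| * ‖G₁ t - G₂ t‖ ≤ n * |K| * ((ε / q) / lo) :=
      mul_le_mul_of_nonneg_left (hG t) (by positivity)
    have h7 : (ε / q) * (1 + n * |K| / lo) = n * |K| * ((ε / q) / lo) + ε / q := by ring
    rw [h7]
    linarith
  have h8 := (h₁.ell (G₁ t)).abs_inv_sub_le hlo (h₂.ell (G₂ t)) h3 i j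
  refine h8.trans ?_
  calc (n : ℝ) ^ 2 * ((ε / q) * (1 + n * |K| / lo)) / lo ^ 2
      = (ε / q) * ((n : ℝ) ^ 2 * (1 + n * |K| / lo) / lo ^ 2) := by ring
    _ ≤ (ε / q) * q := mul_le_mul_of_nonneg_left (by rw [hq]; linarith) e0
    _ = ε := by field_simp

/-- the matrix `M(t)` -/
noncomputable def MM (v : E n → ℝ) (G : E n → E n) (t : E n) : Matrix (Fin n) (Fin n) ℝ :=
  Matrix.of fun i j => Mi v G i j t

theorem MM_eq (v : E n → ℝ) (G : E n → E n) (t : E n) : MM v G t = (gm v (G t))⁻¹ := rfl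

theorem ell_herm {A : Matrix (Fin n) (Fin n) ℝ} {lo hi : ℝ} (h : Ell lo hi A) :
    A.IsHermitian := by
  ext i j
  rw [Matrix.conjTranspose_apply, star_trivial]
  exact h.1 j i

theorem ell_spec {A : Matrix (Fin n) (Fin n) ℝ} {lo hi : ℝ} (h : Ell lo hi A) :
    spectrum ℝ A ⊆ Icc lo hi := by
  have hA := ell_herm h
  rw [hA.spectrum_real_eq_range_eigenvalues]
  rintro _ ⟨i, rfl⟩
  set z : Fin n → ℝ := (hA.eigenvectorBasis i : Fin n → ℝ) with hz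
  have h1 : A.mulVec z = hA.eigenvalues i • z := hA.mulVec_eigenvectorBasis i
  have h2 : ∑ k, ∑ l, A k l * z k * z l = hA.eigenvalues i * ∑ k, z k ^ 2 := by
    have h3 : ∀ k, ∑ l, A k l * z k * z l = z k * (A.mulVec z) k := by
      intro k
      rw [Matrix.mulVec, dotProduct, Finset.mul_sum]
      exact Finset.sum_congr rfl fun l _ => by ring
    simp only [h3, h1, Pi.smul_apply, smul_eq_mul, Finset.mul_sum]
    exact Finset.sum_congr rfl fun k _ => by ring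
  have h3 : ∑ j, z j ^ 2 = 1 := by
    have h4 : ‖hA.eigenvectorBasis i‖ = 1 := hA.eigenvectorBasis.orthonormal.1 i
    have h5 := EuclideanSpace.norm_sq_eq (hA.eigenvectorBasis i)
    rw [h4] at h5
    simp only [Real.norm_eq_abs, sq_abs] at h5
    rw [hz]
    linarith
  have h6 := h.2 z
  rw [h2, h3] at h6
  constructor <;> linarith [h6.1, h6.2]

theorem Sl.ellM (h : Sl P lam lo hi K v) (hlo : 0 < lo) (hlohi : lo ≤ hi) (G : E n → E n)
    (t : E n) : Ell (1 / hi) (1 / lo) (MM v G t) := (h.ell (G t)).inv hlo hlohi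

theorem Sl.cont_Mi (h : Sl P lam lo hi K v) (hlo : 0 < lo) {G : E n → E n}
    (hG : IsInv v G) (i j : Fin n) : Continuous (fun t => Mi v G i j t) := by
  have h2 : ∀ i j, HB (1 / 2) (1 + (2 * (|hi| + 1) + n * |K|)) (fun x => gm v x i j) := by
    intro i j
    have h3 : (fun x => gm v x i j)
        = fun x => (1 : Matrix (Fin n) (Fin n) ℝ) i j + Hs v x i j := rfl
    rw [h3]
    refine HB.add (HB.const ?_) (h.hb hlo i j)
    rw [Matrix.one_apply]; split_ifs <;> simp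
  have h4 := HB.matInv (a := 1 / 2) hlo h.ell h2 i j
  have h5 := (HB.continuous (by norm_num) h4).comp hG.sm.continuous
  exact h5

/-- continuity of `t ↦ f(M(t))ᵢⱼ` -/
theorem Sl.cont_cfc (h : Sl P lam lo hi K v) (hlo : 0 < lo) (hlohi : lo ≤ hi) {G : E n → E n}
    (hG : IsInv v G) {f : ℝ → ℝ} (hf : ContinuousOn f (Icc (1 / hi) (1 / lo))) (i j : Fin n) :
    Continuous (fun t => (cfc f (MM v G t)) i j) := by
  rw [continuous_iff_continuousAt]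
  intro t
  refine tendsto_cfc_entry isCompact_Icc hf (Eventually.of_forall fun s =>
    ⟨ell_herm (h.ellM hlo hlohi G s), ell_spec (h.ellM hlo hlohi G s)⟩)
    (ell_herm (h.ellM hlo hlohi G t)) (ell_spec (h.ellM hlo hlohi G t)) (fun k l => ?_) i j
  exact (h.cont_Mi hlo hG k l).tendsto t

/-- bound of `f(M(t))ᵢⱼ` -/
theorem Sl.cfc_bd (h : Sl P lam lo hi K v) (hlo : 0 < lo) (hlohi : lo ≤ hi) (G : E n → E n)
    {f : ℝ → ℝ} {C : ℝ} (hf : ∀ x ∈ Icc (1 / hi) (1 / lo), |f x| ≤ C) (t : E n) (i j : Fin n) :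
    |(cfc f (MM v G t)) i j| ≤ C :=
  abs_cfc_entry_le (ell_herm (h.ellM hlo hlohi G t)) (ell_spec (h.ellM hlo hlohi G t)) hf i j

/-- **continuity of `∫ f(M)ᵢⱼ dμ`** in the datum (any finite measure `μ`) -/
theorem tendsto_int_cfc {ι : Type*} {l : Filter ι} [l.IsCountablyGenerated] {μ : Measure (E n)}
    [IsFiniteMeasure μ] (hlam : 0 < lam) (hlo : 0 < lo) (hlohi : lo ≤ hi) {Pf : ι → E n → ℝ}
    {P₀ : E n → ℝ} {vf : ι → E n → ℝ} {v₀ : E n → ℝ} {Gf : ι → E n → E n} {G₀ : E n → E n}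
    (hS : ∀ᶠ A in l, Sl (Pf A) lam lo hi K (vf A)) (hS₀ : Sl P₀ lam lo hi K v₀)
    (hI : ∀ᶠ A in l, IsInv (vf A) (Gf A)) (hI₀ : IsInv v₀ G₀)
    (hP : ∀ ε : ℝ, 0 < ε → ∀ᶠ A in l, ∀ x, |Pf A x - P₀ x| ≤ ε) {f : ℝ → ℝ}
    (hf : ContinuousOn f (Icc (1 / hi) (1 / lo))) (i j : Fin n) :
    Tendsto (fun A => ∫ t, (cfc f (MM (vf A) (Gf A) t)) i j ∂μ) l
      (𝓝 (∫ t, (cfc f (MM v₀ G₀ t)) i j ∂μ)) := by
  obtain ⟨C, hC⟩ := isCompact_Icc.exists_bound_of_continuousOn hf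
  refine tendsto_integral_filter_of_dominated_convergence (fun _ => C) ?_ ?_
    (integrable_const C) (Eventually.of_forall fun t => ?_)
  · filter_upwards [hS, hI] with A h1 h2
    exact (h1.cont_cfc hlo hlohi h2 hf i j).aestronglyMeasurable
  · filter_upwards [hS] with A h1
    exact Eventually.of_forall fun t => by
      rw [Real.norm_eq_abs]
      exact h1.cfc_bd hlo hlohi (Gf A) (fun x hx => by
        have := hC x hx
        rwa [Real.norm_eq_abs] at this) t i j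
  · refine tendsto_cfc_entry isCompact_Icc hf ?_ (ell_herm (hS₀.ellM hlo hlohi G₀ t))
      (ell_spec (hS₀.ellM hlo hlohi G₀ t)) (fun k l' => ?_) i j
    · filter_upwards [hS] with A h1
      exact ⟨ell_herm (h1.ellM hlo hlohi (Gf A) t), ell_spec (h1.ellM hlo hlohi (Gf A) t)⟩
    · rw [Metric.tendsto_nhds]
      intro ε hε
      obtain ⟨δ, hδ, H⟩ := closeM n lam lo hi K (ε / 2) hlam hlo (by positivity)
      filter_upwards [hS, hI, hP δ hδ] with A h1 h2 h3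
      have h4 := (H (Pf A) P₀ (vf A) v₀ (Gf A) G₀ h1 hS₀ h2 hI₀ h3).2 t k l'
      rw [Real.dist_eq]
      refine lt_of_le_of_lt h4 (by linarith)

/-- the same for a family over a topological space: `A ↦ ∫ f(M_A)ᵢⱼ dμ` is continuous on `S` -/
theorem continuousOn_int_cfc {ι : Type*} [TopologicalSpace ι] [FirstCountableTopology ι]
    {μ : Measure (E n)} [IsFiniteMeasure μ] (hlam : 0 < lam) (hlo : 0 < lo) (hlohi : lo ≤ hi)
    {S : Set ι} {Pf : ι → E n → ℝ} {vf : ι → E n → ℝ} {Gf : ι → E n → E n}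
    (hS : ∀ A ∈ S, Sl (Pf A) lam lo hi K (vf A)) (hI : ∀ A ∈ S, IsInv (vf A) (Gf A))
    (hP : ∀ A₀ ∈ S, ∀ ε : ℝ, 0 < ε → ∀ᶠ A in 𝓝[S] A₀, ∀ x, |Pf A x - Pf A₀ x| ≤ ε) {f : ℝ → ℝ}
    (hf : ContinuousOn f (Icc (1 / hi) (1 / lo))) (i j : Fin n) :
    ContinuousOn (fun A => ∫ t, (cfc f (MM (vf A) (Gf A) t)) i j ∂μ) S := by
  intro A₀ hA₀
  have : (𝓝[S] A₀).IsCountablyGenerated := inferInstance
  exact tendsto_int_cfc hlam hlo hlohi
    (eventually_nhdsWithin_of_forall fun A hA => hS A hA) (hS A₀ hA₀)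
    (eventually_nhdsWithin_of_forall fun A hA => hI A hA) (hI A₀ hA₀) (hP A₀ hA₀) hf i j

end Crest.Agent.R253.NormCont666
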