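import Crest.Agent.R253.FrameS_321
import Crest.Agent.R253.ChVar_56
import Crest.Agent.R253.LimSeq_140
import Crest.Agent.R253.NormCont_666
import Crest.Agent.R253.ExiAll_505

/-!
Row 253 (S0391), helper505: FROZEN INTERFACE between the three parts of the proof.

* `Dat G M N V lo hi` : the t-side data (74's `MA`, spectral bounds, `V'' ≥ 0`);
* `Nz M`              : the normalisation `E z(M) = 0`;
* `Mar M`             : the margin `∫ |ζ - Σ x_k T_k|² + |1 - Σ T_k²|²`, `ζ = z(M)`, `T_k = E ∂_k ζ`;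
* `MainN n`           : MAIN (E-route): `∃ c > 0, c * Mar M ≤ DFun G M` for normalised data;
* `Good g`            : `g` is the density of `G` under the Gaussian for normalised data, and
                        log-concave;
* `ApproxN n`         : APPROXIMATION: every log-concave density satisfies `SB Good f`.
-/

set_option autoImplicit false

open MeasureTheory ProbabilityTheory Real Set Filter Topology
open scoped ContDiff

noncomputable section

namespace Crest.Agent.R253.Fin505

open Crest.Agent.R238.Gap Crest.Agent.R238.GapPoinc Crest.Agent.R238.GapPc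
open Crest.Agent.R253.Meh74
open Crest.Agent.R253.Frame321 (Zf)
open Crest.Agent.R253.SpecField321 (hs MF)
open Crest.Agent.R253.SpecCalc999 (Mat)
open Crest.Agent.R253.ChVar56 (Push Gp)
open Crest.Agent.R253.Lim140 Crest.Agent.R253.Cpt435
open Crest.Agent.R253.Dual441 Crest.Agent.R253.Br Crest.Agent.R253.NormCont666

variable {n : ℕ}

/-- the t-side data -/
structure Dat (G : Fin n → E n → ℝ) (M N : Fld n) (V : E n → ℝ) (lo hi : ℝ) : Prop where
  lo_pos : 0 < lo
  lohi : lo ≤ hi
  ma : MA G M N V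
  mf : MF M lo hi
  hV : ∀ y, (Matrix.of fun k l => pd l (pd k V) y).PosSemidef

/-- the normalisation `E z(M) = 0` -/
def Nz (M : Fld n) : Prop := ∀ i j, ∫ x, Zf M i j x ∂(gam n) = 0

/-- `T_k = E ∂_k ζ` -/
def Tk (M : Fld n) (k : Fin n) : Mat n := Matrix.of fun i j => ∫ x, pd k (Zf M i j) x ∂(gam n)

/-- the margin -/
def Mar (M : Fld n) : ℝ :=
  (∫ x, hs (SpecField321.Mx (Zf M) x - ∑ k, x k • Tk M k) ∂(gam n)) +
    hs (1 - ∑ k, Tk M k * Tk M k)

/-- **MAIN** (E-route) -/
def MainN (n : ℕ) : Prop := ∃ c : ℝ, 0 < c ∧ ∀ (G : Fin n → E n → ℝ) (M N : Fld n)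
  (V : E n → ℝ) (lo hi : ℝ), Dat G M N V lo hi → Nz M → c * Mar M ≤ DFun G M

/-- a density with normalised t-side data -/
def Good (g : (Fin n → ℝ) → ℝ) : Prop :=
  LCD g ∧ ∃ (G : Fin n → E n → ℝ) (M N : Fld n) (V : E n → ℝ) (lo hi : ℝ),
    Dat G M N V lo hi ∧ Nz M ∧ Push G M g

/-- **APPROXIMATION** (T6 + normalisation + limits) -/
def ApproxN (n : ℕ) : Prop := ∀ f : (Fin n → ℝ) → ℝ, LCD f → SB Good f

/-! ### first consequences -/

theorem DD_eq {G : Fin n → E n → ℝ} {M : Fld n} {g : (Fin n → ℝ) → ℝ} (h : Push G M g) :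
    DD g = DFun G M := h.D_eq

end Crest.Agent.R253.Fin505
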