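import Crest.Agent.R253.Chaos_74

/-!
# R253: weak dual fields and the centred resolvent device (helper74)

`Wk M U Y G`: `M = U + D*Y + G` in the weak sense.  The variational bound for `⟨M, (1+N)⁻¹ M⟩`
holds for weak fields, so the field `D (Rη)` may be used although `Rη` is only `C¹`.
-/

set_option autoImplicit false

open MeasureTheory ProbabilityTheory Real Set Filter Topology
open scoped ContDiff

noncomputable section

namespace Crest.Agent.R253.Meh74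

open Crest.Agent.R238.Gap Crest.Agent.R238.GapPoinc Crest.Agent.R238.GapPc

variable {n : ℕ}

/-- continuous of polynomial growth -/
structure C0 (f : E n → ℝ) : Prop where
  c : Continuous f
  g : PG f

lemma C1.c0 {f : E n → ℝ} (hf : C1 f) : C0 f := ⟨hf.cont, hf.g⟩
lemma C1.p0 {f : E n → ℝ} (hf : C1 f) (i : Fin n) : C0 (pd i f) := ⟨hf.contp i, hf.p i⟩
lemma C0.add {f g : E n → ℝ} (hf : C0 f) (hg : C0 g) : C0 (fun x => f x + g x) :=
  ⟨hf.c.add hg.c, hf.g.add hg.g⟩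
lemma C0.mul {f g : E n → ℝ} (hf : C0 f) (hg : C0 g) : C0 (fun x => f x * g x) :=
  ⟨hf.c.mul hg.c, hf.g.mul hg.g⟩
lemma C0.const (c : ℝ) : C0 (fun _ : E n => c) := ⟨continuous_const, pg_const c⟩
lemma C0.smul {f : E n → ℝ} (c : ℝ) (hf : C0 f) : C0 (fun x => c * f x) := (C0.const c).mul hf
lemma C0.neg {f : E n → ℝ} (hf : C0 f) : C0 (fun x => -f x) := by
  have := hf.smul (-1); simpa using this
lemma C0.sub {f g : E n → ℝ} (hf : C0 f) (hg : C0 g) : C0 (fun x => f x - g x) := by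
  have := hf.add hg.neg; simpa [sub_eq_add_neg] using this
lemma C0.pow2 {f : E n → ℝ} (hf : C0 f) : C0 (fun x => f x ^ 2) :=
  ⟨hf.c.pow 2, PG_sq hf.g⟩
lemma C0.int {f : E n → ℝ} (hf : C0 f) : Integrable f (gam n) := integrable_of_PG hf.c hf.g
lemma C0.sum {ι : Type*} {s : Finset ι} {f : ι → E n → ℝ} (hf : ∀ i ∈ s, C0 (f i)) :
    C0 (fun x => ∑ i ∈ s, f i x) := by
  classical
  induction s using Finset.induction_on with
  | empty => simpa using C0.const (n := n) 0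
  | insert a s ha ih =>
    have h1 := (hf a (Finset.mem_insert_self a s)).add
      (ih fun i hi => hf i (Finset.mem_insert_of_mem hi))
    refine (iff_of_eq (congrArg _ ?_)).mp h1
    funext x
    rw [Finset.sum_insert ha]

/-- `M = U + D*Y + G` weakly -/
def Wk (M U : E n → ℝ) (Y : Fin n → E n → ℝ) (G : E n → ℝ) : Prop :=
  ∀ φ : E n → ℝ, C1 φ → ∫ x, M x * φ x ∂(gam n) = (∫ x, U x * φ x ∂(gam n)) +
    (∑ k, ∫ x, Y k x * pd k φ x ∂(gam n)) + ∫ x, G x * φ x ∂(gam n)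

/-- strong fields are weak fields -/
theorem Wk.of_c1 {M U : E n → ℝ} {Y : Fin n → E n → ℝ} (hM : C0 M) (hU : C0 U)
    (hY : ∀ k, C1 (Y k)) :
    Wk M U Y (fun x => M x - U x + ∑ k, (pd k (Y k) x - x k * Y k x)) := by
  intro φ hφ
  have hd : ∀ k, C0 fun x : E n => pd k (Y k) x - x k * Y k x := fun k =>
    ((hY k).p0 k).sub ((c1_coord k).c0.mul (hY k).c0)
  have e1 : ∀ k, ∫ x, Y k x * pd k φ x ∂(gam n) =
      -∫ x, φ x * (pd k (Y k) x - x k * Y k x) ∂(gam n) := fun k => by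
    have := ibp_prod hφ (hY k) k
    rw [this, neg_neg]
    refine integral_congr_ae (ae_of_all _ fun x => ?_)
    simp only; ring
  have i1 : Integrable (fun x => M x * φ x) (gam n) := (hM.mul hφ.c0).int
  have i2 : Integrable (fun x => U x * φ x) (gam n) := (hU.mul hφ.c0).int
  have i3 : ∀ k, Integrable (fun x => φ x * (pd k (Y k) x - x k * Y k x)) (gam n) := fun k =>
    (hφ.c0.mul (hd k)).int
  have i12 : Integrable (fun x => M x * φ x - U x * φ x) (gam n) := i1.sub i2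
  have e2 : ∀ x, (M x - U x + ∑ k, (pd k (Y k) x - x k * Y k x)) * φ x =
      (M x * φ x - U x * φ x) + ∑ k, φ x * (pd k (Y k) x - x k * Y k x) := fun x => by
    rw [add_mul, Finset.sum_mul, sub_mul]
    congr 1
    exact Finset.sum_congr rfl fun k _ => by ring
  simp_rw [e2]
  rw [integral_add i12 (integrable_finsetSum _ fun k _ => i3 k), integral_sub i1 i2,
    integral_finsetSum _ fun k _ => i3 k]
  simp_rw [e1]
  rw [Finset.sum_neg_distrib]
  ring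

/-- adding a multiple of `D (R f)` to the field -/
theorem Wk.add_res {M U : E n → ℝ} {Y : Fin n → E n → ℝ} {G : E n → ℝ} (hY : ∀ k, C0 (Y k))
    (hG : C0 G) (h : Wk M U Y G) {f : E n → ℝ} (hf : C1 f) (a : ℝ) :
    Wk M U (fun k x => Y k x + a * pd k (Rs f) x) (fun x => G x - a * (f x - Rs f x)) := by
  intro φ hφ
  have cr : C1 (Rs f) := c1_Rs hf
  have hr := resolvent_eq hφ hf
  have i1 : ∀ k, Integrable (fun x => Y k x * pd k φ x) (gam n) := fun k =>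
    ((hY k).mul (hφ.p0 k)).int
  have i2 : ∀ k, Integrable (fun x => pd k φ x * pd k (Rs f) x) (gam n) := fun k =>
    ((hφ.p0 k).mul (cr.p0 k)).int
  have i3 : Integrable (fun x => G x * φ x) (gam n) := (hG.mul hφ.c0).int
  have i4 : Integrable (fun x => φ x * f x) (gam n) := (hφ.c0.mul hf.c0).int
  have i5 : Integrable (fun x => φ x * Rs f x) (gam n) := (hφ.c0.mul cr.c0).int
  have e1 : ∀ k, ∫ x, (Y k x + a * pd k (Rs f) x) * pd k φ x ∂(gam n) =
      (∫ x, Y k x * pd k φ x ∂(gam n)) + a * ∫ x, pd k φ x * pd k (Rs f) x ∂(gam n) := fun k => by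
    have : ∀ x, (Y k x + a * pd k (Rs f) x) * pd k φ x =
        Y k x * pd k φ x + a * (pd k φ x * pd k (Rs f) x) := fun x => by ring
    simp_rw [this]
    rw [integral_add (i1 k) ((i2 k).const_mul a), integral_const_mul]
  have e2 : ∫ x, (G x - a * (f x - Rs f x)) * φ x ∂(gam n) =
      (∫ x, G x * φ x ∂(gam n)) - a * ((∫ x, φ x * f x ∂(gam n)) -
        ∫ x, φ x * Rs f x ∂(gam n)) := by
    have : ∀ x, (G x - a * (f x - Rs f x)) * φ x =
        G x * φ x - a * (φ x * f x - φ x * Rs f x) := fun x => by ring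
    simp_rw [this]
    have i6 : Integrable (fun x => φ x * f x - φ x * Rs f x) (gam n) := i4.sub i5
    rw [integral_sub i3 (i6.const_mul a), integral_const_mul, integral_sub i4 i5]
  rw [h φ hφ]
  simp_rw [e1]
  rw [e2, Finset.sum_add_distrib, ← Finset.mul_sum]
  have h2 : ∑ k, ∫ x, pd k φ x * pd k (Rs f) x ∂(gam n) =
      (∫ x, φ x * f x ∂(gam n)) - ∫ x, φ x * Rs f x ∂(gam n) := by linarith
  rw [h2]
  ring

/-- **the variational bound with a weak field** -/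
theorem res_le_weak {M U : E n → ℝ} {Y : Fin n → E n → ℝ} {G : E n → ℝ} (hM : C1 M) (hU : C1 U)
    (hY : ∀ k, C0 (Y k)) (hG : C0 G) (h : Wk M U Y G) :
    ∫ x, M x * Rs M x ∂(gam n) ≤ 2 * (∫ x, U x * M x ∂(gam n)) - (∫ x, U x ^ 2 ∂(gam n)) -
      (∑ k, ∫ x, pd k U x ^ 2 ∂(gam n)) + (∑ k, ∫ x, (pd k U x - Y k x) ^ 2 ∂(gam n)) +
      ∫ x, G x ^ 2 ∂(gam n) := by
  set r := Rs M with hr
  have cr : C1 r := c1_Rs hM
  set d : E n → ℝ := fun x => r x - U x with hd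
  have cd : C1 d := cr.sub hU
  -- `H1` products
  have r1 := resolvent_eq cd hM
  rw [← hr] at r1
  have w1 := h d cd
  -- abbreviations
  have pdd : ∀ k x, pd k d x = pd k r x - pd k U x := fun k x => by
    have e : d = fun x => r x + (-1) * U x := by funext y; simp only [hd]; ring
    have hneg : ∀ y, pd k (fun x => (-1) * U x) y = - pd k U y := fun y => by
      rw [(c1_const (n := n) (-1)).pd_mul hU]
      simp [pd]
    rw [e, cr.pd_add (hU.smul (-1)), hneg]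
    ring
  have i0 : Integrable (fun x => d x ^ 2) (gam n) := cd.c0.pow2.int
  have ik : ∀ k, Integrable (fun x => pd k d x ^ 2) (gam n) := fun k => (cd.p0 k).pow2.int
  have iUd : Integrable (fun x => U x * d x) (gam n) := (hU.c0.mul cd.c0).int
  have iGd : Integrable (fun x => G x * d x) (gam n) := (hG.mul cd.c0).int
  have iGG : Integrable (fun x => G x ^ 2) (gam n) := hG.pow2.int
  have iYd : ∀ k, Integrable (fun x => Y k x * pd k d x) (gam n) := fun k =>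
    ((hY k).mul (cd.p0 k)).int
  have iPd : ∀ k, Integrable (fun x => pd k U x * pd k d x) (gam n) := fun k =>
    ((hU.p0 k).mul (cd.p0 k)).int
  -- `|d|² = ⟨G, d⟩ - ⟨DU - Y, Dd⟩`
  have e1 : ∫ x, d x * r x ∂(gam n) = (∫ x, d x ^ 2 ∂(gam n)) + ∫ x, U x * d x ∂(gam n) := by
    rw [← integral_add i0 iUd]
    refine integral_congr_ae (ae_of_all _ fun x => ?_)
    simp only [hd]; ring
  have e2 : ∀ k, ∫ x, pd k d x * pd k r x ∂(gam n) = (∫ x, pd k d x ^ 2 ∂(gam n)) +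
      ∫ x, pd k U x * pd k d x ∂(gam n) := fun k => by
    rw [← integral_add (ik k) (iPd k)]
    refine integral_congr_ae (ae_of_all _ fun x => ?_)
    simp only [pdd]; ring
  have e3 : ∫ x, d x * M x ∂(gam n) = ∫ x, M x * d x ∂(gam n) := by simp only [mul_comm]
  rw [e1, e3, w1] at r1
  simp_rw [e2] at r1
  rw [Finset.sum_add_distrib] at r1
  -- the squares
  have q0 : 0 ≤ ∫ x, (G x - d x) ^ 2 ∂(gam n) := integral_nonneg fun x => sq_nonneg _
  have q0' : ∫ x, (G x - d x) ^ 2 ∂(gam n) = (∫ x, G x ^ 2 ∂(gam n)) -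
      2 * (∫ x, G x * d x ∂(gam n)) + ∫ x, d x ^ 2 ∂(gam n) := by
    have : ∀ x, (G x - d x) ^ 2 = G x ^ 2 - 2 * (G x * d x) + d x ^ 2 := fun x => by ring
    simp_rw [this]
    exact int_expand iGG iGd i0
  have iP2 : ∀ k, Integrable (fun x => (pd k U x - Y k x) ^ 2) (gam n) := fun k =>
    ((hU.p0 k).sub (hY k)).pow2.int
  have iPdd : ∀ k, Integrable (fun x => -((pd k U x - Y k x) * pd k d x)) (gam n) := fun k =>
    (((hU.p0 k).sub (hY k)).mul (cd.p0 k)).neg.int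
  have qk : ∀ k, 0 ≤ ∫ x, (pd k U x - Y k x + pd k d x) ^ 2 ∂(gam n) := fun k =>
    integral_nonneg fun x => sq_nonneg _
  have qk' : ∀ k, ∫ x, (pd k U x - Y k x + pd k d x) ^ 2 ∂(gam n) =
      (∫ x, (pd k U x - Y k x) ^ 2 ∂(gam n)) + 2 * ((∫ x, pd k U x * pd k d x ∂(gam n)) -
        ∫ x, Y k x * pd k d x ∂(gam n)) + ∫ x, pd k d x ^ 2 ∂(gam n) := fun k => by
    have : ∀ x, (pd k U x - Y k x + pd k d x) ^ 2 = (pd k U x - Y k x) ^ 2 -
        2 * (-((pd k U x - Y k x) * pd k d x)) + pd k d x ^ 2 := fun x => by ring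
    simp_rw [this]
    rw [int_expand (iP2 k) (iPdd k) (ik k), integral_neg]
    have : ∫ x, (pd k U x - Y k x) * pd k d x ∂(gam n) = (∫ x, pd k U x * pd k d x ∂(gam n)) -
        ∫ x, Y k x * pd k d x ∂(gam n) := by
      rw [← integral_sub (iPd k) (iYd k)]
      refine integral_congr_ae (ae_of_all _ fun x => ?_)
      simp only; ring
    rw [this]
    ring
  have qs : 0 ≤ ∑ k, ∫ x, (pd k U x - Y k x + pd k d x) ^ 2 ∂(gam n) :=
    Finset.sum_nonneg fun k _ => qk k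
  simp_rw [qk'] at qs
  rw [Finset.sum_add_distrib, Finset.sum_add_distrib, ← Finset.mul_sum, Finset.sum_sub_distrib]
    at qs
  rw [q0'] at q0
  -- hence `|d|²_{H1} ≤ |G|² + |DU - Y|²`
  set D0 := ∫ x, d x ^ 2 ∂(gam n) with hD0
  set D1 := ∑ k, ∫ x, pd k d x ^ 2 ∂(gam n) with hD1
  have hH : D0 + D1 ≤ (∑ k, ∫ x, (pd k U x - Y k x) ^ 2 ∂(gam n)) + ∫ x, G x ^ 2 ∂(gam n) := by
    nlinarith
  -- `⟨M, r⟩`
  have iMU : Integrable (fun x => M x * U x) (gam n) := (hM.c0.mul hU.c0).int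
  have iMd : Integrable (fun x => M x * d x) (gam n) := (hM.c0.mul cd.c0).int
  have m1 : ∫ x, M x * r x ∂(gam n) = (∫ x, M x * U x ∂(gam n)) + ∫ x, M x * d x ∂(gam n) := by
    rw [← integral_add iMU iMd]
    refine integral_congr_ae (ae_of_all _ fun x => ?_)
    simp only [hd]; ring
  have r2 := resolvent_eq hU hM
  rw [← hr] at r2
  have iUU : Integrable (fun x => U x ^ 2) (gam n) := hU.c0.pow2.int
  have ikU : ∀ k, Integrable (fun x => pd k U x ^ 2) (gam n) := fun k => (hU.p0 k).pow2.int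
  have m2 : ∫ x, U x * r x ∂(gam n) = (∫ x, U x ^ 2 ∂(gam n)) + ∫ x, U x * d x ∂(gam n) := by
    rw [← integral_add iUU iUd]
    refine integral_congr_ae (ae_of_all _ fun x => ?_)
    simp only [hd]; ring
  have m3 : ∀ k, ∫ x, pd k U x * pd k r x ∂(gam n) = (∫ x, pd k U x ^ 2 ∂(gam n)) +
      ∫ x, pd k U x * pd k d x ∂(gam n) := fun k => by
    rw [← integral_add (ikU k) (iPd k)]
    refine integral_congr_ae (ae_of_all _ fun x => ?_)
    simp only [pdd]; ring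
  rw [m2] at r2
  simp_rw [m3] at r2
  rw [Finset.sum_add_distrib] at r2
  have m4 : ∫ x, M x * U x ∂(gam n) = ∫ x, U x * M x ∂(gam n) := by simp only [mul_comm]
  rw [m1, m4, w1]
  linarith

/-! ### the resolvent on the second chaos and above -/

/-- `⟨f, Rf⟩ = E (Rf)² + E |D Rf|²` -/
lemma res_self {f : E n → ℝ} (hf : C1 f) : ∫ x, f x * Rs f x ∂(gam n) =
    (∫ x, Rs f x ^ 2 ∂(gam n)) + ∑ k, ∫ x, pd k (Rs f) x ^ 2 ∂(gam n) := by
  have cr : C1 (Rs f) := c1_Rs hf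
  have h := resolvent_eq cr hf
  have e1 : ∫ x, Rs f x * Rs f x ∂(gam n) = ∫ x, Rs f x ^ 2 ∂(gam n) := by simp only [sq]
  have e2 : ∀ k, ∫ x, pd k (Rs f) x * pd k (Rs f) x ∂(gam n) = ∫ x, pd k (Rs f) x ^ 2 ∂(gam n) :=
    fun k => by simp only [sq]
  have e3 : ∫ x, Rs f x * f x ∂(gam n) = ∫ x, f x * Rs f x ∂(gam n) := by simp only [mul_comm]
  rw [e1, e3] at h
  simp_rw [e2] at h
  linarith

/-- `⟨Df, D Rf⟩ = E f² - ⟨f, Rf⟩` -/
lemma res_grad {f : E n → ℝ} (hf : C1 f) : ∑ k, ∫ x, pd k f x * pd k (Rs f) x ∂(gam n) =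
    (∫ x, f x ^ 2 ∂(gam n)) - ∫ x, f x * Rs f x ∂(gam n) := by
  have h := resolvent_eq hf hf
  have e1 : ∫ x, f x * f x ∂(gam n) = ∫ x, f x ^ 2 ∂(gam n) := by simp only [sq]
  rw [e1] at h
  linarith

lemma res_mean {f : E n → ℝ} (hf : C1 f) : ∫ x, Rs f x ∂(gam n) = ∫ x, f x ∂(gam n) := by
  have h := resolvent_eq (c1_const (n := n) 1) hf
  have e : ∀ k, ∫ x, pd k (fun _ : E n => (1 : ℝ)) x * pd k (Rs f) x ∂(gam n) = 0 := fun k => by
    simp [pd_const_c]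
  simp_rw [e] at h
  simpa using h

lemma res_grad_mean {f : E n → ℝ} (hf : C1 f) (i : Fin n) :
    2 * ∫ x, pd i (Rs f) x ∂(gam n) = ∫ x, pd i f x ∂(gam n) := by
  have cr : C1 (Rs f) := c1_Rs hf
  have h := resolvent_eq (c1_coord (n := n) i) hf
  have e : ∀ k, ∫ x, pd k (fun x : E n => x i) x * pd k (Rs f) x ∂(gam n) =
      if i = k then ∫ x, pd k (Rs f) x ∂(gam n) else 0 := fun k => by
    simp_rw [pd_coord]
    split_ifs <;> simp
  simp_rw [e] at h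
  simp only [Finset.sum_ite_eq, Finset.mem_univ, if_true] at h
  have e1 : ∫ x : E n, x i * Rs f x ∂(gam n) = ∫ x, pd i (Rs f) x ∂(gam n) := by
    have := ibp_gam cr.c cr.g i (cr.p i)
    rw [← this]
    simp only [mul_comm]
  have e2 : ∫ x : E n, x i * f x ∂(gam n) = ∫ x, pd i f x ∂(gam n) := by
    have := ibp_gam hf.c hf.g i (hf.p i)
    rw [← this]
    simp only [mul_comm]
  rw [e1, e2] at h
  linarith

/-- `⟨f, Rf⟩ ≤ (1/3) E f²` on the chaoses `≥ 2` -/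
theorem res_third {f : E n → ℝ} (hf : C1 f) (h0 : ∫ x, f x ∂(gam n) = 0)
    (h1 : ∀ i, ∫ x, pd i f x ∂(gam n) = 0) :
    3 * ∫ x, f x * Rs f x ∂(gam n) ≤ ∫ x, f x ^ 2 ∂(gam n) := by
  have cr : C1 (Rs f) := c1_Rs hf
  have h2 := poincare2 cr (by rw [res_mean hf, h0]) (fun i => by
    have := res_grad_mean hf i; rw [h1 i] at this; linarith)
  have h3 := res_self hf
  -- `3 E (Rf)² ≤ ⟨f, Rf⟩`, and `0 ≤ E (f - 3 Rf)²`
  have h4 : 0 ≤ ∫ x, (f x - 3 * Rs f x) ^ 2 ∂(gam n) := integral_nonneg fun x => sq_nonneg _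
  have i1 : Integrable (fun x => f x ^ 2) (gam n) := hf.c0.pow2.int
  have i2 : Integrable (fun x => 3 * (f x * Rs f x)) (gam n) :=
    ((hf.c0.mul cr.c0).smul 3).int
  have i3 : Integrable (fun x => 9 * Rs f x ^ 2) (gam n) := (cr.c0.pow2.smul 9).int
  have h5 : ∫ x, (f x - 3 * Rs f x) ^ 2 ∂(gam n) = (∫ x, f x ^ 2 ∂(gam n)) -
      2 * (3 * ∫ x, f x * Rs f x ∂(gam n)) + 9 * ∫ x, Rs f x ^ 2 ∂(gam n) := by
    have : ∀ x, (f x - 3 * Rs f x) ^ 2 = f x ^ 2 - 2 * (3 * (f x * Rs f x)) + 9 * Rs f x ^ 2 :=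
      fun x => by ring
    simp_rw [this]
    rw [int_expand i1 i2 i3, integral_const_mul, integral_const_mul]
  rw [h5] at h4
  linarith

/-- **`|Df - 2 D Rf|² + |f - 2 Rf|² ≤ |Df|² - (5/3) |f|²`** -/
theorem res_eta {f : E n → ℝ} (hf : C1 f) (h0 : ∫ x, f x ∂(gam n) = 0)
    (h1 : ∀ i, ∫ x, pd i f x ∂(gam n) = 0) :
    (∑ k, ∫ x, (pd k f x - 2 * pd k (Rs f) x) ^ 2 ∂(gam n)) +
      ∫ x, (f x - 2 * Rs f x) ^ 2 ∂(gam n) ≤
    (∑ k, ∫ x, pd k f x ^ 2 ∂(gam n)) - 5 / 3 * ∫ x, f x ^ 2 ∂(gam n) := by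
  have cr : C1 (Rs f) := c1_Rs hf
  have i1 : Integrable (fun x => f x ^ 2) (gam n) := hf.c0.pow2.int
  have i2 : Integrable (fun x => 2 * (f x * Rs f x)) (gam n) := ((hf.c0.mul cr.c0).smul 2).int
  have i3 : Integrable (fun x => 4 * Rs f x ^ 2) (gam n) := (cr.c0.pow2.smul 4).int
  have h5 : ∫ x, (f x - 2 * Rs f x) ^ 2 ∂(gam n) = (∫ x, f x ^ 2 ∂(gam n)) -
      2 * (2 * ∫ x, f x * Rs f x ∂(gam n)) + 4 * ∫ x, Rs f x ^ 2 ∂(gam n) := by
    have : ∀ x, (f x - 2 * Rs f x) ^ 2 = f x ^ 2 - 2 * (2 * (f x * Rs f x)) + 4 * Rs f x ^ 2 :=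
      fun x => by ring
    simp_rw [this]
    rw [int_expand i1 i2 i3, integral_const_mul, integral_const_mul]
  have h6 : ∀ k, ∫ x, (pd k f x - 2 * pd k (Rs f) x) ^ 2 ∂(gam n) =
      (∫ x, pd k f x ^ 2 ∂(gam n)) - 2 * (2 * ∫ x, pd k f x * pd k (Rs f) x ∂(gam n)) +
        4 * ∫ x, pd k (Rs f) x ^ 2 ∂(gam n) := fun k => by
    have j1 : Integrable (fun x => pd k f x ^ 2) (gam n) := (hf.p0 k).pow2.int
    have j2 : Integrable (fun x => 2 * (pd k f x * pd k (Rs f) x)) (gam n) :=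
      (((hf.p0 k).mul (cr.p0 k)).smul 2).int
    have j3 : Integrable (fun x => 4 * pd k (Rs f) x ^ 2) (gam n) := ((cr.p0 k).pow2.smul 4).int
    have : ∀ x, (pd k f x - 2 * pd k (Rs f) x) ^ 2 = pd k f x ^ 2 -
        2 * (2 * (pd k f x * pd k (Rs f) x)) + 4 * pd k (Rs f) x ^ 2 := fun x => by ring
    simp_rw [this]
    rw [int_expand j1 j2 j3, integral_const_mul, integral_const_mul]
  simp_rw [h6]
  rw [h5, Finset.sum_add_distrib, Finset.sum_sub_distrib, ← Finset.mul_sum, ← Finset.mul_sum,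
    ← Finset.mul_sum]
  have h7 := res_self hf
  have h8 := res_grad hf
  have h9 := res_third hf h0 h1
  rw [h8]
  linarith

lemma sq_add_le (a b : ℝ) : (a + b) ^ 2 ≤ 4 / 3 * a ^ 2 + 4 * b ^ 2 := by
  nlinarith [sq_nonneg (a - 3 * b)]

/-- **the centred device** (949): exact constant `1/3` -/
theorem cen_le {ι : Type*} [Fintype ι] {f : ι → E n → ℝ} (hf : ∀ i, C1 (f i))
    (h0 : ∀ i, ∫ x, f i x ∂(gam n) = 0) (h1 : ∀ i k, ∫ x, pd k (f i) x ∂(gam n) = 0)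
    {A : ι → Fin n → E n → ℝ} {B : ι → E n → ℝ} (cA : ∀ i k, C0 (A i k)) (cB : ∀ i, C0 (B i))
    (hA : ∀ k x, ∑ i, A i k x ^ 2 ≤ 1 / 16 * ∑ i, pd k (f i) x ^ 2)
    (hB : ∀ x, ∑ i, B i x ^ 2 ≤ 1 / 16 * ∑ i, f i x ^ 2) :
    (∑ i, ∑ k, ∫ x, (A i k x + 1 / 4 * (pd k (f i) x - 2 * pd k (Rs (f i)) x)) ^ 2 ∂(gam n)) +
      ∑ i, ∫ x, (B i x - 1 / 4 * (f i x - 2 * Rs (f i) x)) ^ 2 ∂(gam n) ≤
    1 / 3 * ((∑ i, ∑ k, ∫ x, pd k (f i) x ^ 2 ∂(gam n)) - ∑ i, ∫ x, f i x ^ 2 ∂(gam n)) := by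
  have cr : ∀ i, C1 (Rs (f i)) := fun i => c1_Rs (hf i)
  have cp : ∀ i k, C0 (fun x => pd k (f i) x - 2 * pd k (Rs (f i)) x) := fun i k =>
    ((hf i).p0 k).sub (((cr i).p0 k).smul 2)
  have cq : ∀ i, C0 (fun x => f i x - 2 * Rs (f i) x) := fun i =>
    (hf i).c0.sub ((cr i).c0.smul 2)
  have a1 : ∀ i k, ∫ x, (A i k x + 1 / 4 * (pd k (f i) x - 2 * pd k (Rs (f i)) x)) ^ 2 ∂(gam n) ≤
      4 / 3 * (∫ x, A i k x ^ 2 ∂(gam n)) +
        1 / 4 * ∫ x, (pd k (f i) x - 2 * pd k (Rs (f i)) x) ^ 2 ∂(gam n) := fun i k => by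
    have j1 : Integrable (fun x => 4 / 3 * A i k x ^ 2) (gam n) := ((cA i k).pow2.smul _).int
    have j2 : Integrable (fun x => 1 / 4 * (pd k (f i) x - 2 * pd k (Rs (f i)) x) ^ 2) (gam n) :=
      ((cp i k).pow2.smul _).int
    rw [← integral_const_mul, ← integral_const_mul, ← integral_add j1 j2]
    refine integral_mono ((cA i k).add ((cp i k).smul _)).pow2.int (j1.add j2) fun x => ?_
    have := sq_add_le (A i k x) (1 / 4 * (pd k (f i) x - 2 * pd k (Rs (f i)) x))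
    simp only
    linarith [this, mul_pow (1 / 4 : ℝ) (pd k (f i) x - 2 * pd k (Rs (f i)) x) 2]
  have a2 : ∀ i, ∫ x, (B i x - 1 / 4 * (f i x - 2 * Rs (f i) x)) ^ 2 ∂(gam n) ≤
      4 / 3 * (∫ x, B i x ^ 2 ∂(gam n)) +
        1 / 4 * ∫ x, (f i x - 2 * Rs (f i) x) ^ 2 ∂(gam n) := fun i => by
    have j1 : Integrable (fun x => 4 / 3 * B i x ^ 2) (gam n) := ((cB i).pow2.smul _).int
    have j2 : Integrable (fun x => 1 / 4 * (f i x - 2 * Rs (f i) x) ^ 2) (gam n) :=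
      ((cq i).pow2.smul _).int
    rw [← integral_const_mul, ← integral_const_mul, ← integral_add j1 j2]
    refine integral_mono ((cB i).sub ((cq i).smul _)).pow2.int (j1.add j2) fun x => ?_
    have := sq_add_le (B i x) (-(1 / 4 * (f i x - 2 * Rs (f i) x)))
    simp only
    nlinarith [this]
  -- the pointwise bounds integrated
  have b1 : ∀ k, ∑ i, ∫ x, A i k x ^ 2 ∂(gam n) ≤ 1 / 16 * ∑ i, ∫ x, pd k (f i) x ^ 2 ∂(gam n) :=
    fun k => by
    rw [← integral_finsetSum _ fun i _ => (cA i k).pow2.int,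
      ← integral_finsetSum _ fun i _ => ((hf i).p0 k).pow2.int, ← integral_const_mul]
    refine integral_mono (C0.sum fun i _ => (cA i k).pow2).int
      ((C0.sum fun i _ => ((hf i).p0 k).pow2).smul _).int fun x => hA k x
  have b2 : ∑ i, ∫ x, B i x ^ 2 ∂(gam n) ≤ 1 / 16 * ∑ i, ∫ x, f i x ^ 2 ∂(gam n) := by
    rw [← integral_finsetSum _ fun i _ => (cB i).pow2.int,
      ← integral_finsetSum _ fun i _ => (hf i).c0.pow2.int, ← integral_const_mul]
    refine integral_mono (C0.sum fun i _ => (cB i).pow2).int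
      ((C0.sum fun i _ => (hf i).c0.pow2).smul _).int fun x => hB x
  have b1' : ∑ i, ∑ k, ∫ x, A i k x ^ 2 ∂(gam n) ≤
      1 / 16 * ∑ i, ∑ k, ∫ x, pd k (f i) x ^ 2 ∂(gam n) := by
    rw [Finset.sum_comm, Finset.sum_comm (f := fun i k => ∫ x, pd k (f i) x ^ 2 ∂(gam n)),
      Finset.mul_sum]
    exact Finset.sum_le_sum fun k _ => b1 k
  -- the resolvent part
  have c1 : (∑ i, ∑ k, ∫ x, (pd k (f i) x - 2 * pd k (Rs (f i)) x) ^ 2 ∂(gam n)) +
      ∑ i, ∫ x, (f i x - 2 * Rs (f i) x) ^ 2 ∂(gam n) ≤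
      (∑ i, ∑ k, ∫ x, pd k (f i) x ^ 2 ∂(gam n)) - 5 / 3 * ∑ i, ∫ x, f i x ^ 2 ∂(gam n) := by
    rw [← Finset.sum_add_distrib, Finset.mul_sum, ← Finset.sum_sub_distrib]
    exact Finset.sum_le_sum fun i _ => res_eta (hf i) (h0 i) (h1 i)
  have d1 : (∑ i, ∑ k, ∫ x, (A i k x + 1 / 4 * (pd k (f i) x - 2 * pd k (Rs (f i)) x)) ^ 2
      ∂(gam n)) ≤ 4 / 3 * (∑ i, ∑ k, ∫ x, A i k x ^ 2 ∂(gam n)) +
        1 / 4 * ∑ i, ∑ k, ∫ x, (pd k (f i) x - 2 * pd k (Rs (f i)) x) ^ 2 ∂(gam n) := by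
    rw [Finset.mul_sum, Finset.mul_sum, ← Finset.sum_add_distrib]
    refine Finset.sum_le_sum fun i _ => ?_
    rw [Finset.mul_sum, Finset.mul_sum, ← Finset.sum_add_distrib]
    exact Finset.sum_le_sum fun k _ => a1 i k
  have d2 : ∑ i, ∫ x, (B i x - 1 / 4 * (f i x - 2 * Rs (f i) x)) ^ 2 ∂(gam n) ≤
      4 / 3 * (∑ i, ∫ x, B i x ^ 2 ∂(gam n)) +
        1 / 4 * ∑ i, ∫ x, (f i x - 2 * Rs (f i) x) ^ 2 ∂(gam n) := by
    rw [Finset.mul_sum, Finset.mul_sum, ← Finset.sum_add_distrib]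
    exact Finset.sum_le_sum fun i _ => a2 i
  linarith

end Crest.Agent.R253.Meh74
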