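import Crest.Agent.R253.SpineP_973
import Crest.Agent.R253.ResEta_74

/-!
# R253: the weighted skeleton with weak fields, B-form (helper973)
-/

set_option autoImplicit false

open MeasureTheory ProbabilityTheory Real Set Filter Topology
open scoped ContDiff

noncomputable section

namespace Crest.Agent.R253.Meh74

open Crest.Agent.R238.Gap Crest.Agent.R238.GapPoinc Crest.Agent.R238.GapPc

variable {n : ℕ}

lemma CG.c0 {f : E n → ℝ} (h : CG f) : C0 f := ⟨h.c, h.g⟩
lemma C0.cg {f : E n → ℝ} (h : C0 f) : CG f := ⟨h.c, h.g⟩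

/-- the weak identity `M = U + D*Y + G` for matrix fields -/
def WkF (M U : Fld n) (Y : Fin n → Fld n) (Gf : Fld n) : Prop :=
  ∀ i j, Wk (M i j) (U i j) (fun k => Y k i j) (Gf i j)

theorem trX_le_weak {M U : Fld n} (hM : ∀ i j, C1 (M i j)) (hU : ∀ i j, C1 (U i j))
    {Y : Fin n → Fld n} {Gf : Fld n} (hY : ∀ k i j, CG (Y k i j)) (hG : ∀ i j, CG (Gf i j))
    (hW : WkF M U Y Gf) :
    trX M ≤ 2 * EE (ip U M) - EE (hs2 U) - EE (dh2 U) + EE (pf2 U Y) + EE (hs2 Gf) := by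
  have h : ∀ i j, EE (fun x => M i j x * Rs (M i j) x) ≤ 2 * EE (fun x => U i j x * M i j x) -
      EE (fun x => U i j x ^ 2) - (∑ k, EE (fun x => pd k (U i j) x ^ 2)) +
      (∑ k, EE (fun x => (pd k (U i j) x - Y k i j x) ^ 2)) +
      EE (fun x => Gf i j x ^ 2) := fun i j =>
    res_le_weak (hM i j) (hU i j) (fun k => (hY k i j).c0) (hG i j).c0 (hW i j)
  have h2 := Finset.sum_le_sum fun i (_ : i ∈ Finset.univ) =>
    Finset.sum_le_sum fun j (_ : j ∈ Finset.univ) => h i j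
  unfold trX
  refine h2.trans (le_of_eq ?_)
  simp only [Finset.sum_add_distrib, Finset.sum_sub_distrib, ← Finset.mul_sum]
  have a1 : EE (ip U M) = ∑ i, ∑ j, EE (fun x => U i j x * M i j x) :=
    EE_sum2 fun i j => (hU i j).cg.mul (hM i j).cg
  have a2 : EE (hs2 U) = ∑ i, ∑ j, EE (fun x => U i j x ^ 2) :=
    EE_sum2 fun i j => (hU i j).cg.sq
  have a3 : EE (dh2 U) = ∑ i, ∑ j, ∑ k, EE (fun x => pd k (U i j) x ^ 2) := by
    have := EE_sum2 (f := fun i j x => ∑ k, pd k (U i j) x ^ 2) fun i j =>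
      CG.sum fun k _ => ((hU i j).cgp k).sq
    refine this.trans ?_
    exact Finset.sum_congr rfl fun i _ => Finset.sum_congr rfl fun j _ =>
      EE_sum fun k _ => ((hU i j).cgp k).sq
  have a4 : EE (pf2 U Y) = ∑ i, ∑ j, ∑ k, EE (fun x => (pd k (U i j) x - Y k i j x) ^ 2) := by
    have := EE_sum2 (f := fun i j x => ∑ k, (pd k (U i j) x - Y k i j x) ^ 2) fun i j =>
      CG.sum fun k _ => (((hU i j).cgp k).sub (hY k i j)).sq
    refine this.trans ?_
    exact Finset.sum_congr rfl fun i _ => Finset.sum_congr rfl fun j _ =>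
      EE_sum fun k _ => (((hU i j).cgp k).sub (hY k i j)).sq
  have a5 : EE (hs2 Gf) = ∑ i, ∑ j, EE (fun x => Gf i j x ^ 2) :=
    EE_sum2 fun i j => (hG i j).sq
  rw [a1, a2, a3, a4, a5]

/-- finite sums of weak identities -/
lemma Wk.lin {ι : Type*} (s : Finset ι) (c : ι → ℝ) {M U G : ι → E n → ℝ}
    {Y : ι → Fin n → E n → ℝ} (hM : ∀ p, C0 (M p)) (hU : ∀ p, C0 (U p)) (hG : ∀ p, C0 (G p))
    (hY : ∀ p k, C0 (Y p k)) (h : ∀ p, Wk (M p) (U p) (Y p) (G p)) :
    Wk (fun x => ∑ p ∈ s, c p * M p x) (fun x => ∑ p ∈ s, c p * U p x)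
      (fun k x => ∑ p ∈ s, c p * Y p k x) (fun x => ∑ p ∈ s, c p * G p x) := by
  intro φ hφ
  have e : ∀ F : ι → E n → ℝ, (∀ p, C0 (F p)) → ∀ ψ : E n → ℝ, C0 ψ →
      ∫ x, (∑ p ∈ s, c p * F p x) * ψ x ∂(gam n) = ∑ p ∈ s, c p * ∫ x, F p x * ψ x ∂(gam n) := by
    intro F hF ψ hψ
    have e1 : ∀ x, (∑ p ∈ s, c p * F p x) * ψ x = ∑ p ∈ s, c p * (F p x * ψ x) := fun x => by
      rw [Finset.sum_mul]
      exact Finset.sum_congr rfl fun p _ => by ring
    simp_rw [e1]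
    rw [integral_finsetSum _ fun p _ => (((hF p).mul hψ).int).const_mul (c p)]
    exact Finset.sum_congr rfl fun p _ => integral_const_mul _ _
  rw [e M hM φ hφ.c0, e U hU φ hφ.c0, e G hG φ hφ.c0]
  have e2 : ∀ k, ∫ x, (∑ p ∈ s, c p * Y p k x) * pd k φ x ∂(gam n) =
      ∑ p ∈ s, c p * ∫ x, Y p k x * pd k φ x ∂(gam n) := fun k =>
    e (fun p => Y p k) (fun p => hY p k) (pd k φ) (hφ.p0 k)
  simp_rw [e2]
  rw [Finset.sum_comm, ← Finset.sum_add_distrib, ← Finset.sum_add_distrib]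
  refine Finset.sum_congr rfl fun p _ => ?_
  rw [h p φ hφ, ← Finset.mul_sum]
  ring

lemma WkF.LM {M U : Fld n} {Y : Fin n → Fld n} {Gf : Fld n} (hM : ∀ i j, CG (M i j))
    (hU : ∀ i j, CG (U i j)) (hY : ∀ k i j, CG (Y k i j)) (hG : ∀ i j, CG (Gf i j))
    (hW : WkF M U Y Gf) (C : Fin n → Fin n → ℝ) :
    WkF (LM C M) (LM C U) (fun k => LM C (Y k)) (LM C Gf) := fun i j =>
  Wk.lin Finset.univ (C i) (M := fun p => M p j) (U := fun p => U p j) (G := fun p => Gf p j)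
    (Y := fun p k => Y k p j) (fun p => (hM p j).c0) (fun p => (hU p j).c0)
    (fun p => (hG p j).c0) (fun p k => (hY k p j).c0) fun p => hW p j

section
variable {G : Fin n → E n → ℝ} {M N : Fld n} {V : E n → ℝ}

/-- **the weighted skeleton with weak fields** -/
theorem spinePW (h : MA G M N V) {U Z : Fld n} (hU : ∀ i j, C1 (U i j))
    (hs : ∀ i j, U i j = U j i) (hZ : ∀ i j, C1 (Z i j))
    {Y : Fin n → Fld n} {Gf : Fld n} (hY : ∀ k i j, CG (Y k i j)) (hG : ∀ i j, CG (Gf i j))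
    (hW : WkF M U Y Gf)
    {S : Fin n → Fin n → ℝ} (hS : (Matrix.of fun p q => dl p q - S p q).PosSemidef)
    {C : Fin n → Fin n → ℝ} (hC : (Matrix.of C).det ≠ 0) (hX : (covM G).PosDef)
    (hV : ∀ y, (Matrix.of fun k l => pd l (pd k V) y).PosSemidef)
    (hlog : ∀ x, 2 * Real.log (mt M x).det = 2 * ip U M x - hs2 Z x - n * Real.log (2 * π)) :
    Real.log (((Matrix.of C).transpose * Matrix.of C).det) +
      2 * EE (ip U M) - EE (hs2 Z) - 2 * EE (wip (ctc C) U M) + EE (wip (ctc C) U U) +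
      EE (fun x => ∑ k, wip (ctc C) (dk k U) (dk k U) x) -
      EE (fun x => ∑ k, wip (ctc C) (sbf (dk k U) (Y k)) (sbf (dk k U) (Y k)) x) -
      EE (wip (ctc C) Gf Gf) +
      (EE (trK U S) + (EE (RR M N U dl) - EE (RR M N U S)) - EE (hs2 U)) ≤ DFun G M := by
  have h1 := hs2_ge h hU hs hS hV
  have h2 := trX_le_weak (M := LM C M) (U := LM C U) (Y := fun k => LM C (Y k))
    (Gf := LM C Gf) (fun i j => c1_LM h.hd.m i j) (fun i j => c1_LM hU i j)
    (fun k i j => cg_LM (hY k) i j) (fun i j => cg_LM hG i j)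
    (hW.LM (fun i j => (h.hd.m i j).cg) (fun i j => (hU i j).cg) hY hG C)
  rw [trX_LM h.hd] at h2
  have g1 : EE (ip (LM C U) (LM C M)) = EE (wip (ctc C) U M) := EE_congr fun x => ip_LM C U M x
  have g2 : EE (hs2 (LM C U)) = EE (wip (ctc C) U U) := EE_congr fun x => hs2_LM C U x
  have g3 : EE (dh2 (LM C U)) = EE (fun x => ∑ k, wip (ctc C) (dk k U) (dk k U) x) :=
    EE_congr fun x => dh2_LM hU x
  have g4 : EE (pf2 (LM C U) fun k => LM C (Y k)) =
      EE (fun x => ∑ k, wip (ctc C) (sbf (dk k U) (Y k)) (sbf (dk k U) (Y k)) x) :=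
    EE_congr fun x => pf2_LM hU x
  have g5 : EE (hs2 (LM C Gf)) = EE (wip (ctc C) Gf Gf) := EE_congr fun x => hs2_LM C Gf x
  rw [g1, g2, g3, g4, g5] at h2
  have h3 := neg_logdet_ge hX hC
  have cU : CG (ip U M) := cg_ip (fun i j => (hU i j).cg) fun i j => (h.hd.m i j).cg
  have cZ : CG (hs2 Z) := cg_hs2 fun i j => (hZ i j).cg
  have h4 : 2 * EE (fun x => Real.log (mt M x).det) =
      2 * EE (ip U M) - EE (hs2 Z) - n * Real.log (2 * π) := by
    rw [← EE_smul, ← EE_smul, ← EE_sub (cU.smul 2) cZ]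
    have : n * Real.log (2 * π) = EE (fun _ : E n => n * Real.log (2 * π)) := (EE_const _).symm
    rw [this, ← EE_sub ((cU.smul 2).sub cZ) (cg_const _)]
    exact EE_congr hlog
  unfold DFun
  rw [h4]
  linarith

/-- **the B-form (723)**: multiplier `U²`, dual matrix `1 + B = CᵀC` -/
theorem spineB (h : MA G M N V) {U Z : Fld n} (hU : ∀ i j, C1 (U i j))
    (hs : ∀ i j, U i j = U j i) (hZ : ∀ i j, C1 (Z i j))
    {Y : Fin n → Fld n} {Gf : Fld n} (hY : ∀ k i j, CG (Y k i j)) (hG : ∀ i j, CG (Gf i j))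
    (hW : WkF M U Y Gf)
    {B C : Fin n → Fin n → ℝ} (hC : (Matrix.of C).det ≠ 0)
    (hCB : ∀ p q, ctc C p q = dl p q + B p q) (hX : (covM G).PosDef)
    (hV : ∀ y, (Matrix.of fun k l => pd l (pd k V) y).PosSemidef)
    (hlog : ∀ x, 2 * Real.log (mt M x).det = 2 * ip U M x - hs2 Z x - n * Real.log (2 * π)) :
    (Real.log (((Matrix.of C).transpose * Matrix.of C).det) -
        EE (fun x => 2 * wip B U M x - wip B U U x - ∑ k, wip B (dk k U) (dk k U) x)) +
      EE (fun x => RR M N U dl x - dh2 Z x + dh2 U x) +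
      (EE (dh2 Z) - EE (hs2 Z)) -
      EE (fun x => ∑ k, wip (ctc C) (sbf (dk k U) (Y k)) (sbf (dk k U) (Y k)) x) -
      EE (wip (ctc C) Gf Gf) ≤ DFun G M := by
  have hS0 : (Matrix.of fun p q : Fin n => dl p q - (fun _ _ => (0 : ℝ)) p q).PosSemidef := by
    have : (Matrix.of fun p q : Fin n => dl p q - (fun _ _ => (0 : ℝ)) p q) =
        (1 : Matrix (Fin n) (Fin n) ℝ) := by
      ext p q; simp [dl, Matrix.one_apply]
    rw [this]; exact Matrix.PosSemidef.one
  have h1 := spinePW h hU hs hZ hY hG hW hS0 hC hX hV hlog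
  refine le_trans (le_of_eq ?_) h1
  have hc : ctc C = fun p q => dl p q + B p q := by funext p q; exact hCB p q
  have cU : ∀ i j, CG (U i j) := fun i j => (hU i j).cg
  have cM : ∀ i j, CG (M i j) := fun i j => (h.hd.m i j).cg
  have cdU : ∀ k i j, CG (dk k U i j) := fun k => cg_dk hU k
  have cR : CG (RR M N U dl) := cg_RR h hU dl
  have a0 : EE (trK U fun _ _ => 0) = 0 := by
    have : ∀ x, trK U (fun _ _ => (0 : ℝ)) x = 0 := fun x => by simp [trK, UKU]
    rw [EE_congr this, EE_const]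
  have a00 : EE (RR M N U fun _ _ => 0) = 0 := by
    have : ∀ x, RR M N U (fun _ _ => (0 : ℝ)) x = 0 := fun x => by
      have h0 := RR_sub (M := M) (N := N) hU dl dl x
      simp only [sub_self] at h0
      exact h0
    rw [EE_congr this, EE_const]
  have a1 : EE (wip (ctc C) U M) = EE (ip U M) + EE (wip B U M) := by
    rw [← EE_add (cg_ip cU cM) (cg_wip cU cM), hc]
    exact EE_congr fun x => by rw [wip_add_weight, wip_dl]
  have a2 : EE (wip (ctc C) U U) = EE (hs2 U) + EE (wip B U U) := by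
    rw [← EE_add (cg_hs2 cU) (cg_wip cU cU), hc]
    exact EE_congr fun x => by rw [wip_add_weight, wip_dl, ip_self]
  have cWk : CG (fun x => ∑ k, wip B (dk k U) (dk k U) x) :=
    CG.sum fun k _ => cg_wip (cdU k) (cdU k)
  have a3 : EE (fun x => ∑ k, wip (ctc C) (dk k U) (dk k U) x) =
      EE (dh2 U) + EE (fun x => ∑ k, wip B (dk k U) (dk k U) x) := by
    rw [← EE_add (cg_dh2 hU) cWk, hc]
    refine EE_congr fun x => ?_
    rw [dh2_eq_sum, ← Finset.sum_add_distrib]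
    exact Finset.sum_congr rfl fun k _ => by rw [wip_add_weight, wip_dl, ip_self]
  have a4 : EE (fun x => 2 * wip B U M x - wip B U U x - ∑ k, wip B (dk k U) (dk k U) x) =
      2 * EE (wip B U M) - EE (wip B U U) - EE (fun x => ∑ k, wip B (dk k U) (dk k U) x) := by
    rw [EE_sub (((cg_wip cU cM).smul 2).sub (cg_wip cU cU)) cWk,
      EE_sub ((cg_wip cU cM).smul 2) (cg_wip cU cU), EE_smul]
  have a5 : EE (fun x => RR M N U dl x - dh2 Z x + dh2 U x) =
      EE (RR M N U dl) - EE (dh2 Z) + EE (dh2 U) := by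
    rw [EE_add (cR.sub (cg_dh2 hZ)) (cg_dh2 hU), EE_sub cR (cg_dh2 hZ)]
  rw [a0, a00, a1, a2, a3, a4, a5]
  ring

end

end Crest.Agent.R253.Meh74
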