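import Crest.Agent.R253.SpecField_321

/-!
# R253, E-route: facts on the constant matrices `M_T = Σ T_k²`, `b(M_T)`, `K = k(M_T)` (helper518)

Everything is for a symmetric real matrix `A` (mostly `A = MT T`) and its functional calculus `cfc f A`.
-/

set_option autoImplicit false
open Matrix Finset

noncomputable section

namespace Crest.Agent.R253.Trunc518

open Crest.Agent.R253.SpecCalc999 Crest.Agent.R253.SpecField321

variable {m n : ℕ}

/-! ### traces of spectral functions -/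

lemma Fr.tr {A U : Mat m} {s : Fin m → ℝ} (h : Fr A U s) (f : ℝ → ℝ) :
    (cfc f A).trace = ∑ i, f (s i) := by
  have h1 : (Uᵀ * (cfc f A) * U).trace = (cfc f A).trace := by
    rw [Matrix.trace_mul_comm, ← Matrix.mul_assoc, h.o', Matrix.one_mul]
  rw [← h1, h.cfc f, Matrix.trace_diagonal]

lemma tr_cfc {A : Mat m} (hA : A.IsHermitian) (f : ℝ → ℝ) :
    (cfc f A).trace = ∑ i, f (hA.eigenvalues i) := by
  obtain ⟨U, hU⟩ := exists_fr hA
  exact Fr.tr hU f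

lemma cfc_tr {A : Mat m} (f : ℝ → ℝ) (hA : A.IsHermitian) : (cfc f A)ᵀ = cfc f A := by
  obtain ⟨U, hU⟩ := exists_fr hA
  have e : ∀ X : Mat m, (Uᵀ * X * U)ᵀ = Uᵀ * Xᵀ * U := fun X => by
    rw [Matrix.transpose_mul, Matrix.transpose_mul, Matrix.transpose_transpose, Matrix.mul_assoc]
  apply conj_inj hU.o'
  rw [← e, hU.cfc f, Matrix.diagonal_transpose]

lemma cfc_isHermitian {A : Mat m} (f : ℝ → ℝ) (hA : A.IsHermitian) : (cfc f A).IsHermitian := by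
  unfold Matrix.IsHermitian
  rw [conjTranspose_eq_transpose_of_trivial, cfc_tr f hA]

lemma cfc_mul_cfc {A : Mat m} (f g : ℝ → ℝ) :
    cfc f A * cfc g A = cfc (fun x => f x * g x) A :=
  (cfc_mul f g A (contOn_spec _ _) (contOn_spec _ _)).symm

lemma cfc_mul_self {A : Mat m} (hA : A.IsHermitian) (f : ℝ → ℝ) :
    cfc f A * A = cfc (fun x => f x * x) A := by
  have h := cfc_mul_cfc (A := A) f (fun x => x)
  rwa [cfc_id'' hA] at h

lemma self_mul_cfc {A : Mat m} (hA : A.IsHermitian) (f : ℝ → ℝ) :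
    A * cfc f A = cfc (fun x => x * f x) A := by
  have h := cfc_mul_cfc (A := A) (fun x => x) f
  rwa [cfc_id'' hA] at h

lemma cfc_mul_mul_cfc {A : Mat m} (hA : A.IsHermitian) (f g : ℝ → ℝ) :
    cfc f A * A * cfc g A = cfc (fun x => f x * x * g x) A := by
  rw [cfc_mul_self hA, cfc_mul_cfc]

/-- monotonicity of `tr f(A)` -/
theorem tr_mono {A : Mat m} (hA : A.IsHermitian) {f g : ℝ → ℝ}
    (h : ∀ x ∈ spectrum ℝ A, f x ≤ g x) : (cfc f A).trace ≤ (cfc g A).trace := by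
  obtain ⟨U, hU⟩ := exists_fr hA
  rw [Fr.tr hU, Fr.tr hU]
  exact Finset.sum_le_sum fun i _ => h _ (hU.mem_spec i)

lemma tr_nonneg {A : Mat m} (hA : A.IsHermitian) {f : ℝ → ℝ}
    (h : ∀ x ∈ spectrum ℝ A, 0 ≤ f x) : 0 ≤ (cfc f A).trace := by
  obtain ⟨U, hU⟩ := exists_fr hA
  rw [Fr.tr hU]
  exact Finset.sum_nonneg fun i _ => h _ (hU.mem_spec i)

lemma tr_add {A : Mat m} (hA : A.IsHermitian) (f g : ℝ → ℝ) :
    (cfc (fun x => f x + g x) A).trace = (cfc f A).trace + (cfc g A).trace := by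
  obtain ⟨U, hU⟩ := exists_fr hA
  rw [Fr.tr hU, Fr.tr hU, Fr.tr hU, Finset.sum_add_distrib]

lemma tr_sub {A : Mat m} (hA : A.IsHermitian) (f g : ℝ → ℝ) :
    (cfc (fun x => f x - g x) A).trace = (cfc f A).trace - (cfc g A).trace := by
  obtain ⟨U, hU⟩ := exists_fr hA
  rw [Fr.tr hU, Fr.tr hU, Fr.tr hU, Finset.sum_sub_distrib]

lemma tr_cmul {A : Mat m} (hA : A.IsHermitian) (c : ℝ) (f : ℝ → ℝ) :
    (cfc (fun x => c * f x) A).trace = c * (cfc f A).trace := by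
  obtain ⟨U, hU⟩ := exists_fr hA
  rw [Fr.tr hU, Fr.tr hU, Finset.mul_sum]

/-- `|f(A)|²_HS = tr f²(A)` -/
theorem hs_cfc {A : Mat m} (hA : A.IsHermitian) (f : ℝ → ℝ) :
    hs (cfc f A) = (cfc (fun x => f x ^ 2) A).trace := by
  rw [hs_eq, cfc_tr f hA, cfc_mul_cfc]
  congr 2
  funext x; ring

/-! ### quadratic forms -/

lemma quad_frame {A U : Mat m} {s : Fin m → ℝ} (h : Fr A U s) (f : ℝ → ℝ) (w : Fin m → ℝ) :
    w ⬝ᵥ (cfc f A *ᵥ w) = ∑ i, f (s i) * ((Uᵀ *ᵥ w) i) ^ 2 := by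
  have e : cfc f A = U * Matrix.diagonal (fun i => f (s i)) * Uᵀ := by
    rw [← h.cfc f]
    calc cfc f A = (U * Uᵀ) * cfc f A * (U * Uᵀ) := by rw [h.o', Matrix.one_mul, Matrix.mul_one]
      _ = U * (Uᵀ * cfc f A * U) * Uᵀ := by simp only [Matrix.mul_assoc]
  rw [e, ← Matrix.mulVec_mulVec, ← Matrix.mulVec_mulVec, Matrix.dotProduct_mulVec,
    ← Matrix.mulVec_transpose]
  simp only [dotProduct, Matrix.mulVec_diagonal]
  exact Finset.sum_congr rfl fun i _ => by ring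

lemma norm_frame {A U : Mat m} {s : Fin m → ℝ} (h : Fr A U s) (w : Fin m → ℝ) :
    ∑ i, ((Uᵀ *ᵥ w) i) ^ 2 = ∑ i, w i ^ 2 := by
  have e : (Uᵀ *ᵥ w) ⬝ᵥ (Uᵀ *ᵥ w) = w ⬝ᵥ w := by
    rw [Matrix.dotProduct_mulVec, Matrix.vecMul_transpose, Matrix.mulVec_mulVec, h.o',
      Matrix.one_mulVec]
  simp only [dotProduct] at e
  calc ∑ i, ((Uᵀ *ᵥ w) i) ^ 2 = ∑ i, (Uᵀ *ᵥ w) i * (Uᵀ *ᵥ w) i :=
        Finset.sum_congr rfl fun i _ => by ring
    _ = ∑ i, w i * w i := e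
    _ = _ := Finset.sum_congr rfl fun i _ => by ring

theorem quad_le {A : Mat m} (hA : A.IsHermitian) {f : ℝ → ℝ} {c : ℝ}
    (h : ∀ x ∈ spectrum ℝ A, f x ≤ c) (w : Fin m → ℝ) :
    w ⬝ᵥ (cfc f A *ᵥ w) ≤ c * ∑ i, w i ^ 2 := by
  obtain ⟨U, hU⟩ := exists_fr hA
  rw [quad_frame hU, ← norm_frame hU w, Finset.mul_sum]
  exact Finset.sum_le_sum fun i _ => mul_le_mul_of_nonneg_right (h _ (hU.mem_spec i)) (sq_nonneg _)

theorem le_quad {A : Mat m} (hA : A.IsHermitian) {f : ℝ → ℝ} {c : ℝ}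
    (h : ∀ x ∈ spectrum ℝ A, c ≤ f x) (w : Fin m → ℝ) :
    c * ∑ i, w i ^ 2 ≤ w ⬝ᵥ (cfc f A *ᵥ w) := by
  obtain ⟨U, hU⟩ := exists_fr hA
  rw [quad_frame hU, ← norm_frame hU w, Finset.mul_sum]
  exact Finset.sum_le_sum fun i _ => mul_le_mul_of_nonneg_right (h _ (hU.mem_spec i)) (sq_nonneg _)

theorem cfc_psd {A : Mat m} (hA : A.IsHermitian) {f : ℝ → ℝ}
    (h : ∀ x ∈ spectrum ℝ A, 0 ≤ f x) : (cfc f A).PosSemidef := by
  refine Matrix.PosSemidef.of_dotProduct_mulVec_nonneg (cfc_isHermitian f hA) fun w => ?_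
  have := le_quad hA h w
  rw [zero_mul] at this
  simpa using this

theorem one_sub_cfc_psd {A : Mat m} (hA : A.IsHermitian) {f : ℝ → ℝ}
    (h : ∀ x ∈ spectrum ℝ A, f x ≤ 1) : (1 - cfc f A).PosSemidef := by
  have e : (1 : Mat m) - cfc f A = cfc (fun x => 1 - f x) A := by
    rw [cfc_sub (fun _ => (1 : ℝ)) f A (contOn_spec _ _) (contOn_spec _ _)]
    congr 1
    exact (cfc_const_one ℝ A (sa hA)).symm
  rw [e]
  exact cfc_psd hA fun x hx => by linarith [h x hx]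

/-! ### products -/

lemma hs_transpose (X : Mat m) : hs Xᵀ = hs X := by
  unfold hs
  rw [Finset.sum_comm]
  rfl

theorem hs_cfc_mul_le {A : Mat m} (hA : A.IsHermitian) {f : ℝ → ℝ} {c : ℝ}
    (h : ∀ x ∈ spectrum ℝ A, |f x| ≤ c) (X : Mat m) : hs (cfc f A * X) ≤ c ^ 2 * hs X := by
  obtain ⟨U, hU⟩ := exists_fr hA
  rw [← hs_conj hU.o' (cfc f A * X), ← hs_conj hU.o' X]
  have e : Uᵀ * (cfc f A * X) * U = Matrix.diagonal (fun i => f (hA.eigenvalues i)) * (Uᵀ * X * U) := by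
    rw [← hU.cfc f]
    calc Uᵀ * (cfc f A * X) * U = Uᵀ * cfc f A * (1 : Mat m) * X * U := by
          rw [Matrix.mul_one]; simp only [Matrix.mul_assoc]
      _ = Uᵀ * cfc f A * (U * Uᵀ) * X * U := by rw [hU.o']
      _ = _ := by simp only [Matrix.mul_assoc]
  rw [e]
  unfold hs
  rw [Finset.mul_sum]
  refine Finset.sum_le_sum fun i _ => ?_
  rw [Finset.mul_sum]
  refine Finset.sum_le_sum fun j _ => ?_
  rw [Matrix.diagonal_mul, mul_pow, ← sq_abs (f _)]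
  exact mul_le_mul_of_nonneg_right (pow_le_pow_left₀ (abs_nonneg _) (h _ (hU.mem_spec i)) 2)
    (sq_nonneg _)

theorem hs_mul_cfc_le {A : Mat m} (hA : A.IsHermitian) {f : ℝ → ℝ} {c : ℝ}
    (h : ∀ x ∈ spectrum ℝ A, |f x| ≤ c) (X : Mat m) : hs (X * cfc f A) ≤ c ^ 2 * hs X := by
  rw [← hs_transpose, Matrix.transpose_mul, cfc_tr f hA, ← hs_transpose X]
  exact hs_cfc_mul_le hA h _

/-- commutators with Lipschitz functions -/
theorem hs_comm_le {A : Mat m} (hA : A.IsHermitian) {f : ℝ → ℝ} {L : ℝ}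
    (h : ∀ x ∈ spectrum ℝ A, ∀ y ∈ spectrum ℝ A, |f x - f y| ≤ L * |x - y|) (X : Mat m) :
    hs (cfc f A * X - X * cfc f A) ≤ L ^ 2 * hs (A * X - X * A) := by
  obtain ⟨U, hU⟩ := exists_fr hA
  rw [← hs_conj hU.o' (cfc f A * X - X * cfc f A), ← hs_conj hU.o' (A * X - X * A)]
  have e : ∀ B : Mat m, Uᵀ * (B * X - X * B) * U =
      (Uᵀ * B * U) * (Uᵀ * X * U) - (Uᵀ * X * U) * (Uᵀ * B * U) := fun B => by
    have e1 : ∀ Y Z : Mat m, Uᵀ * (Y * Z) * U = (Uᵀ * Y * U) * (Uᵀ * Z * U) := fun Y Z => by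
      calc Uᵀ * (Y * Z) * U = Uᵀ * Y * (1 : Mat m) * Z * U := by
            rw [Matrix.mul_one]; simp only [Matrix.mul_assoc]
        _ = Uᵀ * Y * (U * Uᵀ) * Z * U := by rw [hU.o']
        _ = _ := by simp only [Matrix.mul_assoc]
    rw [Matrix.mul_sub, Matrix.sub_mul, e1, e1]
  rw [e, e, hU.cfc f, hU.d]
  unfold hs
  rw [Finset.mul_sum]
  refine Finset.sum_le_sum fun i _ => ?_
  rw [Finset.mul_sum]
  refine Finset.sum_le_sum fun j _ => ?_
  simp only [Matrix.sub_apply, Matrix.diagonal_mul, Matrix.mul_diagonal]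
  set y := (Uᵀ * X * U) i j
  have h1 := h _ (hU.mem_spec i) _ (hU.mem_spec j)
  have e2 : f (hA.eigenvalues i) * y - y * f (hA.eigenvalues j) =
      (f (hA.eigenvalues i) - f (hA.eigenvalues j)) * y := by ring
  have e3 : hA.eigenvalues i * y - y * hA.eigenvalues j =
      (hA.eigenvalues i - hA.eigenvalues j) * y := by ring
  rw [e2, e3, mul_pow, mul_pow, ← mul_assoc]
  refine mul_le_mul_of_nonneg_right ?_ (sq_nonneg _)
  rw [← sq_abs (f _ - _), ← sq_abs (hA.eigenvalues i - _), ← mul_pow]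
  exact pow_le_pow_left₀ (abs_nonneg _) h1 2

/-- Cauchy–Schwarz for the trace -/
theorem tr_mul_sq_le (K X : Mat m) : (K * X).trace ^ 2 ≤ hs K * hs X := by
  have e : (K * X).trace = ∑ p : Fin m × Fin m, K p.1 p.2 * X p.2 p.1 := by
    rw [Fintype.sum_prod_type]
    simp only [Matrix.trace, Matrix.diag_apply, Matrix.mul_apply]
  have e1 : hs K = ∑ p : Fin m × Fin m, K p.1 p.2 ^ 2 := by
    rw [Fintype.sum_prod_type]; rfl
  have e2 : hs X = ∑ p : Fin m × Fin m, X p.2 p.1 ^ 2 := by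
    rw [Fintype.sum_prod_type, ← hs_transpose]; rfl
  rw [e, e1, e2]
  exact Finset.sum_mul_sq_le_sq_mul_sq _ _ _

theorem abs_tr_mul_le (K X : Mat m) : |(K * X).trace| ≤ Real.sqrt (hs K) * Real.sqrt (hs X) := by
  rw [← Real.sqrt_mul (hs_nonneg K)]
  exact Real.abs_le_sqrt (tr_mul_sq_le K X)

/-- `tr (f(A) X)` for `X ≥ 0` -/
theorem tr_cfc_mul_le {A : Mat m} (hA : A.IsHermitian) {f : ℝ → ℝ} {c : ℝ}
    (h : ∀ x ∈ spectrum ℝ A, f x ≤ c) {X : Mat m} (hX : X.PosSemidef) :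
    (cfc f A * X).trace ≤ c * X.trace := by
  obtain ⟨U, hU⟩ := exists_fr hA
  have t : ∀ Y : Mat m, (Uᵀ * Y * U).trace = Y.trace := fun Y => by
    rw [Matrix.trace_mul_comm, ← Matrix.mul_assoc, hU.o', Matrix.one_mul]
  rw [← t (cfc f A * X), ← t X]
  have e : Uᵀ * (cfc f A * X) * U = Matrix.diagonal (fun i => f (hA.eigenvalues i)) * (Uᵀ * X * U) := by
    rw [← hU.cfc f]
    calc Uᵀ * (cfc f A * X) * U = Uᵀ * cfc f A * (1 : Mat m) * X * U := by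
          rw [Matrix.mul_one]; simp only [Matrix.mul_assoc]
      _ = Uᵀ * cfc f A * (U * Uᵀ) * X * U := by rw [hU.o']
      _ = _ := by simp only [Matrix.mul_assoc]
  rw [e]
  have hp : (Uᵀ * X * U).PosSemidef := by
    have := hX.conjTranspose_mul_mul_same U
    rwa [conjTranspose_eq_transpose_of_trivial] at this
  simp only [Matrix.trace, Matrix.diag_apply, Matrix.diagonal_mul]
  rw [Finset.mul_sum]
  exact Finset.sum_le_sum fun i _ =>
    mul_le_mul_of_nonneg_right (h _ (hU.mem_spec i)) (hp.diag_nonneg)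

theorem le_tr_cfc_mul {A : Mat m} (hA : A.IsHermitian) {f : ℝ → ℝ} {c : ℝ}
    (h : ∀ x ∈ spectrum ℝ A, c ≤ f x) {X : Mat m} (hX : X.PosSemidef) :
    c * X.trace ≤ (cfc f A * X).trace := by
  have h1 := tr_cfc_mul_le (f := fun x => - f x) (c := -c) hA (fun x hx => by linarith [h x hx]) hX
  have e : cfc (fun x => - f x) A = - cfc f A := cfc_neg f A
  rw [e, Matrix.neg_mul, Matrix.trace_neg] at h1
  linarith

theorem abs_tr_cfc_mul_le {A : Mat m} (hA : A.IsHermitian) {f : ℝ → ℝ} {c : ℝ}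
    (h : ∀ x ∈ spectrum ℝ A, |f x| ≤ c) {X : Mat m} (hX : X.PosSemidef) :
    |(cfc f A * X).trace| ≤ c * X.trace := by
  rw [abs_le]
  constructor
  · have := le_tr_cfc_mul (c := -c) hA (fun x hx => (abs_le.1 (h x hx)).1) hX
    linarith
  · exact tr_cfc_mul_le hA (fun x hx => (abs_le.1 (h x hx)).2) hX

/-! ### the matrix `M_T = Σ T_k²` -/

/-- `M_T = Σ T_k²` -/
def MT (T : Fin n → Mat m) : Mat m := ∑ k, T k * T k

lemma herm_tr {X : Mat m} (h : X.IsHermitian) : Xᵀ = X := by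
  have := h.eq
  rwa [conjTranspose_eq_transpose_of_trivial] at this

lemma MT_psd {T : Fin n → Mat m} (hT : ∀ k, (T k).IsHermitian) : (MT T).PosSemidef := by
  unfold MT
  refine Matrix.posSemidef_sum _ fun k _ => ?_
  have := Matrix.posSemidef_conjTranspose_mul_self (T k)
  rwa [(hT k).eq] at this

lemma MT_herm {T : Fin n → Mat m} (hT : ∀ k, (T k).IsHermitian) : (MT T).IsHermitian :=
  (MT_psd hT).isHermitian

lemma psd_spec {A : Mat m} (hA : A.PosSemidef) {x : ℝ} (hx : x ∈ spectrum ℝ A) : 0 ≤ x := by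
  obtain ⟨i, hi⟩ : ∃ i, hA.isHermitian.eigenvalues i = x := by
    rw [hA.isHermitian.spectrum_real_eq_range_eigenvalues] at hx
    exact hx
  rw [← hi]
  exact hA.eigenvalues_nonneg i

lemma MT_spec {T : Fin n → Mat m} (hT : ∀ k, (T k).IsHermitian) {x : ℝ}
    (hx : x ∈ spectrum ℝ (MT T)) : 0 ≤ x := psd_spec (MT_psd hT) hx

lemma MT_tr {T : Fin n → Mat m} (hT : ∀ k, (T k).IsHermitian) :
    (MT T).trace = ∑ k, hs (T k) := by
  unfold MT
  rw [Matrix.trace_sum]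
  exact Finset.sum_congr rfl fun k _ => by rw [hs_eq, herm_tr (hT k)]

lemma sum_hs_mul {T : Fin n → Mat m} (hT : ∀ k, (T k).IsHermitian) (B : Mat m) :
    ∑ k, hs (T k * B) = (Bᵀ * MT T * B).trace := by
  unfold MT
  rw [Matrix.mul_sum, Matrix.sum_mul, Matrix.trace_sum]
  refine Finset.sum_congr rfl fun k _ => ?_
  rw [hs_eq, Matrix.transpose_mul, herm_tr (hT k)]
  congr 1
  simp only [Matrix.mul_assoc]

lemma sum_hs_mul' {T : Fin n → Mat m} (hT : ∀ k, (T k).IsHermitian) (B : Mat m) :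
    ∑ k, hs (B * T k) = (B * MT T * Bᵀ).trace := by
  have : ∀ k, hs (B * T k) = hs (T k * Bᵀ) := fun k => by
    rw [← hs_transpose, Matrix.transpose_mul, herm_tr (hT k)]
  simp only [this]
  rw [sum_hs_mul hT, Matrix.transpose_transpose]

/-- `Σ |T_k f(M)|² = tr M f(M)²` -/
theorem sum_hs_mul_cfc {T : Fin n → Mat m} (hT : ∀ k, (T k).IsHermitian) (f : ℝ → ℝ) :
    ∑ k, hs (T k * cfc f (MT T)) = (cfc (fun x => x * f x ^ 2) (MT T)).trace := by
  rw [sum_hs_mul hT, cfc_tr f (MT_herm hT), cfc_mul_mul_cfc (MT_herm hT)]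
  congr 2
  funext x; ring

theorem sum_hs_cfc_mul {T : Fin n → Mat m} (hT : ∀ k, (T k).IsHermitian) (f : ℝ → ℝ) :
    ∑ k, hs (cfc f (MT T) * T k) = (cfc (fun x => x * f x ^ 2) (MT T)).trace := by
  rw [sum_hs_mul' hT, cfc_tr f (MT_herm hT), cfc_mul_mul_cfc (MT_herm hT)]
  congr 2
  funext x; ring

lemma sum_hs_T {T : Fin n → Mat m} (hT : ∀ k, (T k).IsHermitian) :
    ∑ k, hs (T k) = (cfc (fun x : ℝ => x) (MT T)).trace := by
  rw [cfc_id'' (MT_herm hT), MT_tr hT]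

lemma sum_quad {T : Fin n → Mat m} (hT : ∀ k, (T k).IsHermitian) (B : Mat m) (w : Fin m → ℝ) :
    ∑ k, ∑ i, ((T k * B) *ᵥ w) i ^ 2 = w ⬝ᵥ ((Bᵀ * MT T * B) *ᵥ w) := by
  have key : ∀ N : Mat m, w ⬝ᵥ ((Nᵀ * N) *ᵥ w) = ∑ i, (N *ᵥ w) i ^ 2 := fun N => by
    rw [← Matrix.mulVec_mulVec, Matrix.dotProduct_mulVec, Matrix.vecMul_transpose]
    simp only [dotProduct]
    exact Finset.sum_congr rfl fun i _ => by ring
  have e : ∀ k, ∑ i, ((T k * B) *ᵥ w) i ^ 2 = w ⬝ᵥ ((Bᵀ * (T k * T k) * B) *ᵥ w) := fun k => by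
    have e1 : Bᵀ * (T k * T k) * B = (T k * B)ᵀ * (T k * B) := by
      rw [Matrix.transpose_mul, herm_tr (hT k)]
      simp only [Matrix.mul_assoc]
    rw [e1, key]
  simp only [e]
  unfold MT
  rw [Matrix.mul_sum, Matrix.sum_mul, Matrix.sum_mulVec]
  simp only [dotProduct, Finset.sum_apply, Finset.mul_sum]
  rw [Finset.sum_comm]

/-- the row bound `b M_T b ≤ K₀` -/
theorem row_bound {T : Fin n → Mat m} (hT : ∀ k, (T k).IsHermitian) {b : ℝ → ℝ} {K0 : ℝ}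
    (hb : ∀ x, 0 ≤ x → x * b x ^ 2 ≤ K0) (w : Fin m → ℝ) :
    ∑ k, ∑ i, ((T k * cfc b (MT T)) *ᵥ w) i ^ 2 ≤ K0 * ∑ i, w i ^ 2 := by
  rw [sum_quad hT, cfc_tr b (MT_herm hT), cfc_mul_mul_cfc (MT_herm hT)]
  refine quad_le (MT_herm hT) (fun x hx => ?_) w
  have := hb x (MT_spec hT hx)
  nlinarith

lemma hs_add_le (X Y : Mat m) : hs (X + Y) ≤ 2 * hs X + 2 * hs Y := by
  unfold hs
  rw [Finset.mul_sum, Finset.mul_sum, ← Finset.sum_add_distrib]
  refine Finset.sum_le_sum fun i _ => ?_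
  rw [Finset.mul_sum, Finset.mul_sum, ← Finset.sum_add_distrib]
  refine Finset.sum_le_sum fun j _ => ?_
  rw [Matrix.add_apply]
  nlinarith [sq_nonneg (X i j - Y i j)]

lemma hs_neg (X : Mat m) : hs (-X) = hs X := by
  unfold hs; simp

lemma hs_sub_le (X Y : Mat m) : hs (X - Y) ≤ 2 * hs X + 2 * hs Y := by
  have := hs_add_le X (-Y)
  rwa [← sub_eq_add_neg, hs_neg] at this

/-- `Σ |[K, T_k]|² ≤ 4 tr M K²` for `K = f(M_T)` -/
theorem sum_hs_comm_le {T : Fin n → Mat m} (hT : ∀ k, (T k).IsHermitian) (f : ℝ → ℝ) :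
    ∑ k, hs (cfc f (MT T) * T k - T k * cfc f (MT T)) ≤
      4 * (cfc (fun x => x * f x ^ 2) (MT T)).trace := by
  have h1 := sum_hs_mul_cfc hT f
  have h2 := sum_hs_cfc_mul hT f
  calc ∑ k, hs (cfc f (MT T) * T k - T k * cfc f (MT T))
      ≤ ∑ k, (2 * hs (cfc f (MT T) * T k) + 2 * hs (T k * cfc f (MT T))) :=
        Finset.sum_le_sum fun k _ => hs_sub_le _ _
    _ = _ := by
        rw [Finset.sum_add_distrib, ← Finset.mul_sum, ← Finset.mul_sum, h1, h2]; ring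

/-- `Σ |[f(M), T_k]|² ≤ L² Σ |[M, T_k]|²` for an `L`-Lipschitz `f` -/
theorem sum_hs_comm_lip {T : Fin n → Mat m} (hT : ∀ k, (T k).IsHermitian) {f : ℝ → ℝ} {L : ℝ}
    (h : ∀ x, 0 ≤ x → ∀ y, 0 ≤ y → |f x - f y| ≤ L * |x - y|) :
    ∑ k, hs (cfc f (MT T) * T k - T k * cfc f (MT T)) ≤
      L ^ 2 * ∑ k, hs (MT T * T k - T k * MT T) := by
  rw [Finset.mul_sum]
  exact Finset.sum_le_sum fun k _ => hs_comm_le (MT_herm hT)
    (fun x hx y hy => h x (MT_spec hT hx) y (MT_spec hT hy)) _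

/-! ### the cut-off functions -/

/-- `b(x) = min(1, (K₀/x)^{1/2})` -/
def bf (K0 : ℝ) (x : ℝ) : ℝ := if x ≤ K0 then 1 else Real.sqrt (K0 / x)

/-- `k(x) = λ(x - 1)` clipped at `κ₀` -/
def kf (lam kap0 : ℝ) (x : ℝ) : ℝ := min (lam * (x - 1)) kap0

lemma bf_nonneg (K0 x : ℝ) : 0 ≤ bf K0 x := by
  unfold bf; split_ifs
  · exact zero_le_one
  · exact Real.sqrt_nonneg _

lemma bf_le_one {K0 : ℝ} (hK : 0 ≤ K0) (x : ℝ) : bf K0 x ≤ 1 := by
  unfold bf; split_ifs with h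
  · exact le_rfl
  · rw [Real.sqrt_le_one]
    rw [div_le_one (lt_of_le_of_lt hK (not_le.1 h))]
    exact (not_le.1 h).le

lemma mul_bf_sq_le {K0 : ℝ} (hK : 0 ≤ K0) (x : ℝ) : x * bf K0 x ^ 2 ≤ K0 := by
  unfold bf; split_ifs with h
  · simpa using h
  · have hx : 0 < x := lt_of_le_of_lt hK (not_le.1 h)
    rw [Real.sq_sqrt (div_nonneg hK hx.le)]
    rw [mul_div_cancel₀ _ hx.ne']

/-- `x (1 - b)² = ((√x - √K₀)₊)²` -/
lemma mul_one_sub_bf_sq {K0 x : ℝ} (hK : 0 ≤ K0) (hx : 0 ≤ x) :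
    x * (1 - bf K0 x) ^ 2 = (max (Real.sqrt x - Real.sqrt K0) 0) ^ 2 := by
  unfold bf; split_ifs with h
  · have : Real.sqrt x - Real.sqrt K0 ≤ 0 := by linarith [Real.sqrt_le_sqrt h]
    rw [max_eq_right this]; ring
  · have h' := not_le.1 h
    have hx0 : 0 < x := lt_of_le_of_lt hK h'
    have : 0 ≤ Real.sqrt x - Real.sqrt K0 := by linarith [Real.sqrt_le_sqrt h'.le]
    rw [max_eq_left this, Real.sqrt_div hK]
    have hs : Real.sqrt x ≠ 0 := (Real.sqrt_pos.2 hx0).ne'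
    have hx2 : x = Real.sqrt x ^ 2 := (Real.sq_sqrt hx).symm
    calc x * (1 - Real.sqrt K0 / Real.sqrt x) ^ 2
        = Real.sqrt x ^ 2 * (1 - Real.sqrt K0 / Real.sqrt x) ^ 2 := by rw [← hx2]
      _ = (Real.sqrt x * (1 - Real.sqrt K0 / Real.sqrt x)) ^ 2 := by ring
      _ = _ := by rw [mul_sub, mul_one, mul_div_cancel₀ _ hs]

lemma kf_le {lam kap0 : ℝ} (x : ℝ) : kf lam kap0 x ≤ kap0 := min_le_right _ _

lemma kf_le' {lam kap0 : ℝ} (x : ℝ) : kf lam kap0 x ≤ lam * (x - 1) := min_le_left _ _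

lemma neg_le_kf {lam kap0 x : ℝ} (hl : 0 ≤ lam) (hk : 0 ≤ kap0) (hx : 0 ≤ x) :
    -lam ≤ kf lam kap0 x := by
  unfold kf
  refine le_min ?_ ?_
  · nlinarith
  · linarith

lemma kf_mul_nonneg {lam kap0 x : ℝ} (hl : 0 ≤ lam) (hk : 0 ≤ kap0) :
    0 ≤ kf lam kap0 x * (x - 1) := by
  unfold kf
  rcases le_total 0 (x - 1) with h | h
  · exact mul_nonneg (le_min (mul_nonneg hl h) hk) h
  · have h1 : min (lam * (x - 1)) kap0 ≤ 0 := (min_le_left _ _).trans (mul_nonpos_of_nonneg_of_nonpos hl h)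
    exact mul_nonneg_of_nonpos_of_nonpos h1 h

lemma kf_lip {lam kap0 : ℝ} (hl : 0 ≤ lam) (x y : ℝ) :
    |kf lam kap0 x - kf lam kap0 y| ≤ lam * |x - y| := by
  unfold kf
  have h := abs_min_sub_min_le_max (lam * (x - 1)) kap0 (lam * (y - 1)) kap0
  rw [sub_self, abs_zero] at h
  have e : lam * (x - 1) - lam * (y - 1) = lam * (x - y) := by ring
  rw [e, abs_mul, abs_of_nonneg hl] at h
  exact h.trans (max_le le_rfl (mul_nonneg hl (abs_nonneg _)))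

end Crest.Agent.R253.Trunc518
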