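import Crest.Agent.R253.FrameT_321
import Crest.Agent.R253.SpineW_973
import Crest.Agent.R253.DualPB_973
import Crest.Agent.R253.Trunc_518
import Crest.Agent.R253.FinDefs_505

/-!
# R253 (L0): the B-form of the spine on the fields `Zf M`, `Uf M` (helper321)
-/

set_option autoImplicit false

open MeasureTheory ProbabilityTheory Real Set Filter Topology Matrix
open scoped ContDiff

noncomputable section

namespace Crest.Agent.R253.BF321

open Crest.Agent.R238.Gap Crest.Agent.R238.GapPoinc Crest.Agent.R238.GapPc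
open Crest.Agent.R253.SpecCalc999 Crest.Agent.R253.Meh74 Crest.Agent.R253.SpecField321
open Crest.Agent.R253.Frame321 (Zf Uf Slk)

variable {n : ℕ} {G : Fin n → E n → ℝ} {M N : Fld n} {V : E n → ℝ} {lo hi : ℝ}

/-- `⟨w, M w⟩ ≥ lo |w|²` -/
lemma quad_M (hM : MF M lo hi) (x : E n) (w : Fin n → ℝ) :
    lo * ∑ i, w i ^ 2 ≤ w ⬝ᵥ (Mx M x *ᵥ w) := by
  have h1 := Trunc518.le_quad (hM.h x) (f := fun t => t) (c := lo)
    (fun t ht => (hM.s x ht).1) w
  rwa [cfc_id'' (hM.h x)] at h1

/-- **the covariance is positive definite** -/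
theorem covM_posDef (h : MA G M N V) (hM : MF M lo hi) (hlo : 0 < lo) : (covM G).PosDef := by
  refine Matrix.PosDef.of_dotProduct_mulVec_pos ?_ ?_
  · unfold Matrix.IsHermitian
    rw [conjTranspose_eq_transpose_of_trivial]
    ext i j
    simp only [Matrix.transpose_apply, covM, Matrix.of_apply]
    rw [mul_comm (EE (G j))]
    congr 1
    exact EE_congr fun x => mul_comm _ _
  · intro w hw
    set f : E n → ℝ := fun x => ∑ i, w i * G i x with hf
    have cf : C1 f := C1.sum fun i _ => (h.hd.g i).smul (w i)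
    have cG : ∀ i, CG (G i) := fun i => (h.hd.g i).cg
    have e1 : star w ⬝ᵥ (covM G *ᵥ w) = EE (fun x => f x ^ 2) - EE f ^ 2 := by
      have a1 : EE f = ∑ i, w i * EE (G i) := by
        rw [hf, EE_sum fun i _ => (cG i).smul (w i)]
        exact Finset.sum_congr rfl fun i _ => EE_smul _ _
      have a2 : EE (fun x => f x ^ 2) = ∑ i, ∑ j, w i * w j * EE (fun x => G i x * G j x) := by
        have b1 : ∀ x, f x ^ 2 = ∑ i, ∑ j, w i * w j * (G i x * G j x) := fun x => by
          rw [hf, sq, Finset.sum_mul_sum]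
          exact Finset.sum_congr rfl fun i _ => Finset.sum_congr rfl fun j _ => by ring
        rw [EE_congr b1, EE_sum fun i _ => CG.sum fun j _ => ((cG i).mul (cG j)).smul _]
        refine Finset.sum_congr rfl fun i _ => ?_
        rw [EE_sum fun j _ => ((cG i).mul (cG j)).smul _]
        exact Finset.sum_congr rfl fun j _ => EE_smul _ _
      rw [a1, a2, sq, Finset.sum_mul_sum, ← Finset.sum_sub_distrib]
      unfold dotProduct Matrix.mulVec dotProduct
      refine Finset.sum_congr rfl fun i _ => ?_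
      rw [Finset.mul_sum, ← Finset.sum_sub_distrib]
      refine Finset.sum_congr rfl fun j _ => ?_
      simp only [covM, Matrix.of_apply, Pi.star_apply, star_trivial]
      ring
    have hs := sq_split cf
    have e2 : EE (fun x => f x ^ 2) - EE f ^ 2 =
        (∑ k, (∫ y, pd k f y ∂(gam n)) ^ 2) + ∫ x, eta f x ^ 2 ∂(gam n) := by
      unfold EE
      rw [hs]; ring
    have h3 : 0 ≤ ∫ x, eta f x ^ 2 ∂(gam n) := integral_nonneg fun x => sq_nonneg _
    have h4 : 0 < ∑ k, (∫ y, pd k f y ∂(gam n)) ^ 2 := by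
      by_contra hc
      have hz : ∑ k, (∫ y, pd k f y ∂(gam n)) ^ 2 = 0 :=
        le_antisymm (not_lt.1 hc) (Finset.sum_nonneg fun _ _ => sq_nonneg _)
      have hk : ∀ k, ∫ y, pd k f y ∂(gam n) = 0 := fun k => by
        have := (Finset.sum_eq_zero_iff_of_nonneg (fun k _ => sq_nonneg _)).1 hz k
          (Finset.mem_univ k)
        exact pow_eq_zero_iff (two_ne_zero) |>.1 this
      have hpd : ∀ k x, pd k f x = ∑ i, w i * M i k x := fun k x => by
        rw [hf, pd_sum' (f := fun i x => w i * G i x) fun i _ => (h.hd.g i).smul (w i)]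
        refine Finset.sum_congr rfl fun i _ => ?_
        rw [(c1_const (w i)).pd_mul (h.hd.g i), h.hd.d i k]
        have : pd k (fun _ : E n => w i) x = 0 := by simp [pd]
        rw [this]; ring
      have h5 : EE (fun x => w ⬝ᵥ (Mx M x *ᵥ w)) = 0 := by
        have b1 : ∀ x, w ⬝ᵥ (Mx M x *ᵥ w) = ∑ k, w k * pd k f x := fun x => by
          unfold dotProduct Matrix.mulVec dotProduct
          refine Finset.sum_congr rfl fun k _ => ?_
          rw [hpd k x]
          congr 1
          refine Finset.sum_congr rfl fun i _ => ?_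
          simp only [Mx, Matrix.of_apply]
          rw [h.hd.s k i, mul_comm]
        rw [EE_congr b1, EE_sum fun k _ => (cf.cgp k).smul (w k)]
        refine Finset.sum_eq_zero fun k _ => ?_
        rw [EE_smul]
        have : EE (pd k f) = 0 := hk k
        rw [this, mul_zero]
      have h6 : lo * ∑ i, w i ^ 2 ≤ EE (fun x => w ⬝ᵥ (Mx M x *ᵥ w)) := by
        rw [← EE_const (n := n) (lo * ∑ i, w i ^ 2)]
        refine EE_mono (cg_const _) ?_ fun x => quad_M hM x w
        have : (fun x => w ⬝ᵥ (Mx M x *ᵥ w)) = fun x => ∑ i, w i * ∑ j, M i j x * w j := by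
          funext x
          rfl
        rw [this]
        exact CG.sum fun i _ => (CG.sum fun j _ => ((h.hd.m i j).cg).mulc (w j)).smul (w i)
      have h7 : 0 < ∑ i, w i ^ 2 := by
        obtain ⟨i, hi⟩ : ∃ i, w i ≠ 0 := by
          by_contra hc'
          push Not at hc'
          exact hw (funext hc')
        exact Finset.sum_pos' (fun _ _ => sq_nonneg _)
          ⟨i, Finset.mem_univ _, by positivity⟩
      have h8 : 0 < lo * ∑ i, w i ^ 2 := mul_pos hlo h7
      rw [h5] at h6
      linarith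
    rw [e1, e2]
    linarith

/-- **(L0)**: the B-form on the fields `Zf M`, `Uf M`, weak test field, in `wip` letters -/
theorem bf (h : MA G M N V) (hM : MF M lo hi) (hlo : 0 < lo)
    (hV : ∀ y, (Matrix.of fun k l => pd l (pd k V) y).PosSemidef)
    {Y : Fin n → Fld n} {Gf : Fld n} (hY : ∀ k i j, CG (Y k i j)) (hG : ∀ i j, CG (Gf i j))
    (hW : WkF M (Uf M) Y Gf) {B C : Mat n} (hC : C.det ≠ 0) (hCB : Cᵀ * C = 1 + B) :
    (Real.log ((1 + B).det) -
        EE (fun x => 2 * wip B (Uf M) M x - wip B (Uf M) (Uf M) x -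
          ∑ k, wip B (dk k (Uf M)) (dk k (Uf M)) x)) +
      EE (Slk M N) + (EE (dh2 (Zf M)) - EE (hs2 (Zf M))) -
      EE (fun x => ∑ k, hs (C * (Mx (dk k (Uf M)) x - Mx (Y k) x))) -
      EE (fun x => hs (C * Mx Gf x)) ≤ DFun G M := by
  have hc : ∀ p q, ctc C p q = dl p q + B p q := by
    intro p q
    have h1 := congrFun (congrFun hCB p) q
    rw [Matrix.add_apply, Matrix.mul_apply] at h1
    unfold ctc dl
    rw [Matrix.one_apply] at h1
    rw [← h1]
    exact Finset.sum_congr rfl fun i _ => by rw [Matrix.transpose_apply]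
  have hC' : (Matrix.of C).det ≠ 0 := hC
  have h2 := spineB h (U := Uf M) (Z := Zf M) (fun i j => Frame321.c1_Uf hM hlo i j)
    (fun i j => Frame321.Uf_symm hM i j) (fun i j => Frame321.c1_Zf hM hlo i j) hY hG hW
    (B := B) (C := C) hC' hc (covM_posDef h hM hlo) hV (fun x => Frame321.hlog hM hlo x)
  refine le_trans (le_of_eq ?_) h2
  have e1 : ((Matrix.of C).transpose * Matrix.of C).det = (1 + B).det := by
    rw [← hCB]; rfl
  have e2 : EE (fun x => RR M N (Uf M) dl x - dh2 (Zf M) x + dh2 (Uf M) x) = EE (Slk M N) := rfl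
  have e3 : EE (fun x => ∑ k, wip (ctc C) (sbf (dk k (Uf M)) (Y k)) (sbf (dk k (Uf M)) (Y k)) x) =
      EE (fun x => ∑ k, hs (C * (Mx (dk k (Uf M)) x - Mx (Y k) x))) := by
    refine EE_congr fun x => Finset.sum_congr rfl fun k _ => ?_
    have := DualP973.wip_eq C (sbf (dk k (Uf M)) (Y k)) x
    exact this
  have e4 : EE (wip (ctc C) Gf Gf) = EE (fun x => hs (C * Mx Gf x)) :=
    EE_congr fun x => DualP973.wip_eq C Gf x
  rw [e1, e2, e3, e4]

end Crest.Agent.R253.BF321
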