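import Crest.Agent.R253.DualQ_973
import Crest.Agent.R253.FinDefs_505
import Crest.Agent.R253.FrameT_321
import Crest.Agent.R253.HFn_741

/-!
# R253: the B-form on the normalised data (helper973)

`DFun ≥ log det P + E Slk + N_1 - E tr B(2 U M - U² - Σ U_k²) - Loss_P`, `P = CᵀC = 1 + B`,
with 230's loss.
-/

set_option autoImplicit false

open MeasureTheory ProbabilityTheory Real Set Filter Topology Matrix
open scoped ContDiff

noncomputable section

namespace Crest.Agent.R253.BForm973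

open Crest.Agent.R238.Gap Crest.Agent.R238.GapPoinc Crest.Agent.R238.GapPc
open Crest.Agent.R253.SpecCalc999 Crest.Agent.R253.Meh74 Crest.Agent.R253.SpecField321
open Crest.Agent.R253.Jord192 Crest.Agent.R253.DualP973
open Crest.Agent.R253.Frame321 (Zf Uf dM Ff Slk Sy sy_dM slk_le cg_Slk Slk_nonneg fr_Zf mf_Zf
  Uf_eq M_eq Mx_Uf Mx_Zf hlog c1_Zf c1_Uf Uf_symm dM_Uf' Mx_Ff)
open Crest.Agent.R253.ScalE688 (zf rho rho_nonneg H0_cont aa_cont)
open Crest.Agent.R253.Slack688 (aa H0_has)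
open Crest.Agent.R253.HFn741 (bb2 bb2_eq aa_has')
open Crest.Agent.R253.Mills37 (mu H0 kk ee)
open Crest.Agent.R253.Fin505 (Dat Nz Tk Mar)

variable {n : ℕ}

/-! ### the covariance is positive definite -/

lemma quad_ge {A : Mat n} {lo hi : ℝ} (hA : A.IsHermitian) (hs : spectrum ℝ A ⊆ Icc lo hi)
    (a : Fin n → ℝ) : lo * ∑ i, a i ^ 2 ≤ ∑ i, ∑ j, a i * A i j * a j := by
  obtain ⟨U, hU⟩ := exists_fr hA
  set s := hA.eigenvalues with hs'
  set b : Fin n → ℝ := fun k => ∑ i, U i k * a i with hb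
  have e1 : ∑ i, ∑ j, a i * A i j * a j = ∑ k, s k * b k ^ 2 := by
    have hA' : ∀ i j, A i j = ∑ k, U i k * s k * U j k := fun i j => by
      have h := congrFun (congrFun hU.eq i) j
      rw [h, Matrix.mul_apply]
      refine Finset.sum_congr rfl fun k _ => ?_
      rw [Matrix.mul_diagonal, Matrix.transpose_apply]
    calc ∑ i, ∑ j, a i * A i j * a j = ∑ i, ∑ j, ∑ k, s k * ((U i k * a i) * (U j k * a j)) := by
          refine Finset.sum_congr rfl fun i _ => Finset.sum_congr rfl fun j _ => ?_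
          rw [hA', Finset.mul_sum, Finset.sum_mul]
          exact Finset.sum_congr rfl fun k _ => by ring
      _ = ∑ k, ∑ i, ∑ j, s k * ((U i k * a i) * (U j k * a j)) := by
          rw [Finset.sum_congr rfl fun i _ => Finset.sum_comm, Finset.sum_comm]
      _ = ∑ k, s k * b k ^ 2 := by
          refine Finset.sum_congr rfl fun k _ => ?_
          rw [hb, sq, Finset.sum_mul_sum, Finset.mul_sum]
          exact Finset.sum_congr rfl fun i _ => by rw [Finset.mul_sum]
  have e2 : ∑ i, a i ^ 2 = ∑ k, b k ^ 2 := by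
    have h2 : ∀ i j, ∑ k, U i k * U j k = if i = j then (1 : ℝ) else 0 := fun i j => by
      have h := congrFun (congrFun hU.o' i) j
      rw [Matrix.mul_apply, Matrix.one_apply] at h
      exact h
    calc ∑ i, a i ^ 2 = ∑ i, ∑ j, (∑ k, U i k * U j k) * (a i * a j) := by
          refine Finset.sum_congr rfl fun i _ => ?_
          simp_rw [h2]
          simp [sq]
      _ = ∑ i, ∑ j, ∑ k, (U i k * a i) * (U j k * a j) := by
          refine Finset.sum_congr rfl fun i _ => Finset.sum_congr rfl fun j _ => ?_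
          rw [Finset.sum_mul]
          exact Finset.sum_congr rfl fun k _ => by ring
      _ = ∑ k, ∑ i, ∑ j, (U i k * a i) * (U j k * a j) := by
          rw [Finset.sum_congr rfl fun i _ => Finset.sum_comm, Finset.sum_comm]
      _ = ∑ k, b k ^ 2 := by
          refine Finset.sum_congr rfl fun k _ => ?_
          rw [hb, sq, Finset.sum_mul_sum]
  rw [e1, e2, Finset.mul_sum]
  exact Finset.sum_le_sum fun k _ => mul_le_mul_of_nonneg_right (hs (hU.mem_spec k)).1 (sq_nonneg _)

lemma EE_xg {g : E n → ℝ} (hg : C1 g) (k : Fin n) : EE (fun x => x k * g x) = EE (pd k g) := by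
  unfold EE
  rw [← ibp_gam hg.c hg.g k (hg.p k)]
  simp only [mul_comm]

theorem covM_posDef {G : Fin n → E n → ℝ} {M N : Fld n} {V : E n → ℝ} {lo hi : ℝ}
    (h : MA G M N V) (hM : MF M lo hi) (hlo : 0 < lo) : (covM G).PosDef := by
  refine Matrix.PosDef.of_dotProduct_mulVec_pos ?_ ?_
  · ext i j
    simp only [Matrix.conjTranspose_apply, star_trivial, covM, Matrix.of_apply]
    rw [EE_congr fun x => mul_comm (G j x) (G i x), mul_comm (EE (G j))]
  · intro a ha
    have cG : ∀ i, C1 (G i) := h.hd.g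
    set g : E n → ℝ := fun x => ∑ i, a i * G i x with hg
    have c1g : C1 g := C1.sum fun i _ => (cG i).smul _
    have pdg : ∀ k x, pd k g x = ∑ i, a i * M i k x := fun k x => by
      rw [hg, pd_sum' (f := fun i x => a i * G i x) fun i _ => (cG i).smul _]
      refine Finset.sum_congr rfl fun i _ => ?_
      rw [(c1_const _).pd_mul (cG i), pd_const_c, h.hd.d]
      simp
    set l : E n → ℝ := fun x => ∑ k, a k * x k with hl
    have cgl : CG l := CG.sum fun k _ => (cg_coord k).smul _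
    set S := ∑ i, a i ^ 2 with hS
    have hS0 : 0 < S := by
      obtain ⟨i, hi⟩ := Function.ne_iff.1 ha
      exact Finset.sum_pos' (fun i _ => sq_nonneg _) ⟨i, Finset.mem_univ _, by
        have : a i ≠ 0 := hi
        positivity⟩
    set m := EE g with hm
    -- the three expectations
    have h1 : lo * S ≤ EE (fun x => l x * g x) := by
      have e1 : EE (fun x => l x * g x) = EE (fun x => ∑ i, ∑ j, a i * Mx M x i j * a j) := by
        have e2 : EE (fun x => l x * g x) = ∑ k, a k * EE (pd k g) := by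
          have e3 : ∀ x, l x * g x = ∑ k, a k * (x k * g x) := fun x => by
            rw [hl, Finset.sum_mul]
            exact Finset.sum_congr rfl fun k _ => by ring
          rw [EE_congr e3, EE_sum' _ fun k => ((cg_coord k).mul c1g.cg).smul _]
          exact Finset.sum_congr rfl fun k _ => by rw [EE_smul, EE_xg c1g]
        rw [e2]
        have e4 : ∀ x, ∑ i, ∑ j, a i * Mx M x i j * a j = ∑ k, a k * pd k g x := fun x => by
          rw [Finset.sum_comm]
          refine Finset.sum_congr rfl fun k _ => ?_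
          rw [pdg, Finset.mul_sum]
          refine Finset.sum_congr rfl fun i _ => ?_
          simp only [Mx, Matrix.of_apply]; ring
        rw [EE_congr e4, EE_sum' _ fun k => (c1g.cgp k).smul _]
        exact Finset.sum_congr rfl fun k _ => (EE_smul _ _).symm
      rw [e1]
      have e5 : lo * S = EE (fun _ : E n => lo * S) := (EE_const _).symm
      rw [e5]
      refine EE_mono (cg_const _) (CG.sum fun i _ => CG.sum fun j _ =>
        (((h.hd.m i j).cg.smul (a i)).mulc (a j))) fun x => ?_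
      exact quad_ge (hM.h x) (hM.s x) a
    have h2 : EE (fun x => l x ^ 2) = S := by
      have e1 : ∀ x, l x ^ 2 = ∑ i, ∑ j, a i * a j * (x i * x j) := fun x => by
        rw [hl, sq, Finset.sum_mul_sum]
        exact Finset.sum_congr rfl fun i _ => Finset.sum_congr rfl fun j _ => by ring
      rw [EE_congr e1, EE_sum' _ fun i => CG.sum fun j _ => ((cg_coord i).mul (cg_coord j)).smul _]
      rw [hS]
      refine Finset.sum_congr rfl fun i _ => ?_
      rw [EE_sum' _ fun j => ((cg_coord i).mul (cg_coord j)).smul _]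
      simp_rw [EE_smul, EE_xx]
      simp [sq]
    have h3 : EE l = 0 := by
      rw [hl, EE_sum' _ fun k => (cg_coord k).smul _]
      refine Finset.sum_eq_zero fun k _ => ?_
      rw [EE_smul]
      have : EE (fun x : E n => x k) = 0 := by
        have := EE_xg (n := n) (c1_const (n := n) 1) k
        rw [EE_congr (fun x => mul_one (x k) : ∀ x : E n, x k * (1 : ℝ) = x k)] at this
        rw [this]
        have e : ∀ x : E n, pd k (fun _ : E n => (1 : ℝ)) x = 0 := fun x => by simp [pd]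
        rw [EE_congr e, EE_const]
      rw [this, mul_zero]
    have h4 : 0 ≤ EE (fun x => (g x - m - lo * l x) ^ 2) := EE_nonneg fun x => sq_nonneg _
    have cg' := c1g.cg
    have h5 : EE (fun x => (g x - m - lo * l x) ^ 2) =
        EE (fun x => g x ^ 2) - m ^ 2 - 2 * lo * EE (fun x => l x * g x) + lo ^ 2 * S := by
      have e1 : ∀ x, (g x - m - lo * l x) ^ 2 =
          (((g x ^ 2 - (2 * m) * g x) + m ^ 2) - (2 * lo) * (l x * g x) + (2 * lo * m) * l x) +
            lo ^ 2 * l x ^ 2 := fun x => by ring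
      rw [EE_congr e1,
        EE_add (((((cg'.sq).sub (cg'.smul (2 * m))).add (cg_const (m ^ 2))).sub
          ((cgl.mul cg').smul (2 * lo))).add (cgl.smul (2 * lo * m))) (cgl.sq.smul (lo ^ 2)),
        EE_add ((((cg'.sq).sub (cg'.smul (2 * m))).add (cg_const (m ^ 2))).sub
          ((cgl.mul cg').smul (2 * lo))) (cgl.smul (2 * lo * m)),
        EE_sub (((cg'.sq).sub (cg'.smul (2 * m))).add (cg_const (m ^ 2)))
          ((cgl.mul cg').smul (2 * lo)),
        EE_add ((cg'.sq).sub (cg'.smul (2 * m))) (cg_const (m ^ 2)),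
        EE_sub cg'.sq (cg'.smul (2 * m)), EE_smul, EE_smul, EE_smul, EE_smul, EE_const, h2, h3,
        ← hm]
      ring
    have h6 : star a ⬝ᵥ ((covM G) *ᵥ a) = EE (fun x => g x ^ 2) - m ^ 2 := by
      have e1 : EE (fun x => g x ^ 2) = ∑ i, ∑ j, a i * a j * EE (fun x => G i x * G j x) := by
        have e2 : ∀ x, g x ^ 2 = ∑ i, ∑ j, a i * a j * (G i x * G j x) := fun x => by
          rw [hg, sq, Finset.sum_mul_sum]
          exact Finset.sum_congr rfl fun i _ => Finset.sum_congr rfl fun j _ => by ring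
        rw [EE_congr e2, EE_sum' _ fun i => CG.sum fun j _ => ((cG i).cg.mul (cG j).cg).smul _]
        refine Finset.sum_congr rfl fun i _ => ?_
        rw [EE_sum' _ fun j => ((cG i).cg.mul (cG j).cg).smul _]
        exact Finset.sum_congr rfl fun j _ => EE_smul _ _
      have e2 : m = ∑ i, a i * EE (G i) := by
        rw [hm, hg, EE_sum' _ fun i => (cG i).cg.smul _]
        exact Finset.sum_congr rfl fun i _ => EE_smul _ _
      rw [e1, e2, sq, Finset.sum_mul_sum, ← Finset.sum_sub_distrib]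
      simp only [dotProduct, Matrix.mulVec, star_trivial, covM, Matrix.of_apply, Finset.mul_sum]
      refine Finset.sum_congr rfl fun i _ => ?_
      rw [← Finset.sum_sub_distrib]
      exact Finset.sum_congr rfl fun j _ => by ring
    rw [h6]
    rw [h5] at h4
    nlinarith [mul_pos (pow_pos hlo 2) hS0, mul_le_mul_of_nonneg_left h1 hlo.le]

/-! ### the symmetrised one-sided kernels are paid by the slack -/

lemma dd1_comm (f f' : ℝ → ℝ) (x y : ℝ) : dd1 f f' x y = dd1 f f' y x := by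
  unfold dd1
  by_cases h : x = y
  · subst h; rfl
  · rw [if_neg h, if_neg (Ne.symm h), ← neg_sub (f y), ← neg_sub y, neg_div_neg_eq]

lemma hs_KR_symm {A U X : Mat n} {s : Fin n → ℝ} (h : Fr A U s) (f f' : ℝ → ℝ) (hX : Xᵀ = X) :
    hs (KR f f' A X) = ∑ i, ∑ j, ((dd1 f f' (s i) (s j) - f' (s i)) ^ 2 +
      (dd1 f f' (s i) (s j) - f' (s j)) ^ 2) / 2 * (Uᵀ * X * U) i j ^ 2 := by
  have hY : ∀ i j, (Uᵀ * X * U) i j = (Uᵀ * X * U) j i := fun i j => by
    have e : (Uᵀ * X * U)ᵀ = Uᵀ * X * U := by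
      rw [Matrix.transpose_mul, Matrix.transpose_mul, Matrix.transpose_transpose, hX,
        Matrix.mul_assoc]
    have := congrFun (congrFun e j) i
    rw [Matrix.transpose_apply] at this
    exact this
  have e1 : hs (KR f f' A X) = ∑ i, ∑ j, (dd1 f f' (s i) (s j) - f' (s j)) ^ 2 *
      (Uᵀ * X * U) i j ^ 2 := by
    rw [← hs_conj h.o']
    unfold hs
    exact Finset.sum_congr rfl fun i _ => Finset.sum_congr rfl fun j _ => by
      rw [KR_frame h, mul_pow]
  have e2 : hs (KR f f' A X) = ∑ i, ∑ j, (dd1 f f' (s i) (s j) - f' (s i)) ^ 2 *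
      (Uᵀ * X * U) i j ^ 2 := by
    rw [e1, Finset.sum_comm]
    refine Finset.sum_congr rfl fun i _ => Finset.sum_congr rfl fun j _ => ?_
    rw [dd1_comm f f' (s j), hY j i]
  have e3 : hs (KR f f' A X) = (hs (KR f f' A X) + hs (KR f f' A X)) / 2 := by ring
  rw [e3]
  nth_rewrite 1 [e2]
  rw [e1, ← Finset.sum_add_distrib, Finset.sum_div]
  refine Finset.sum_congr rfl fun i _ => ?_
  rw [← Finset.sum_add_distrib, Finset.sum_div]
  exact Finset.sum_congr rfl fun j _ => by ring

section data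

variable {G : Fin n → E n → ℝ} {M N : Fld n} {V : E n → ℝ} {lo hi : ℝ}

lemma dkZ_symm (hM : MF M lo hi) (x : E n) (k : Fin n) :
    (Mx (dk k (Zf M)) x)ᵀ = Mx (dk k (Zf M)) x := by
  ext i j
  simp only [Matrix.transpose_apply, Mx, Matrix.of_apply, dk]
  rw [Frame321.Zf_symm hM j i]

/-- **one-sided kernels are paid by the slack** (symmetrised constant) -/
theorem sum_KR_le (h : MA G M N V) (hM : MF M lo hi) (hlo : 0 < lo) {f f' : ℝ → ℝ} {C : ℝ}
    (hC : 0 ≤ C) (hk : ∀ a b, ((dd1 f f' a b - f' a) ^ 2 + (dd1 f f' a b - f' b) ^ 2) / 2 ≤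
      C * rho a b) (x : E n) :
    (∑ k, hs (KR f f' (Mx (Zf M) x) (Mx (dk k (Zf M)) x))) ≤ C * Slk M N x := by
  obtain ⟨U, hU⟩ := exists_fr (hM.h x)
  refine le_trans ?_ (mul_le_mul_of_nonneg_left (slk_le h hM hlo x hU) hC)
  rw [Finset.mul_sum]
  refine Finset.sum_le_sum fun c _ => ?_
  rw [hs_KR_symm (fr_Zf hU) f f' (dkZ_symm hM x c)]
  unfold slk
  rw [Finset.mul_sum]
  refine Finset.sum_le_sum fun i _ => ?_
  rw [Finset.mul_sum]
  refine Finset.sum_le_sum fun j _ => ?_
  rw [← mul_assoc]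
  exact mul_le_mul_of_nonneg_right (hk _ _) (sq_nonneg _)

/-- `μ(ζ) - v(ζ) = ζ v'(ζ) - v''(ζ)` -/
lemma mu_sub (A : Mat n) (hA : A.IsHermitian) :
    _root_.cfc mu A - _root_.cfc H0 A = A * _root_.cfc aa A - _root_.cfc bb2 A := by
  obtain ⟨U, hU⟩ := exists_fr hA
  refine conj_inj hU.o' ?_
  rw [Matrix.mul_sub, Matrix.sub_mul, Matrix.mul_sub, Matrix.sub_mul, conj_mul hU.o', hU.cfc,
    hU.cfc, hU.cfc, hU.cfc, hU.d]
  ext i j
  rw [Matrix.diagonal_mul_diagonal]
  by_cases hij : i = j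
  · subst hij
    simp only [Matrix.sub_apply, Matrix.diagonal_apply_eq, bb2_eq]
    ring
  · simp [hij]

/-- **the B-form** on normalised data with 230's loss -/
theorem bform (h : Dat G M N V lo hi) (hz : Nz M) (C : Mat n) (hC : C.det ≠ 0)
    {B : Fin n → Fin n → ℝ} (hCB : ∀ p q, ctc (fun i j => C i j) p q = dl p q + B p q)
    {lam : ℝ} (hlam : 0 < lam) (hv2 : ∀ z, bb2 z ^ 2 ≤ lam * (1 / 16 - (aa z - 1 / 4) ^ 2))
    {Pn K1 al be : ℝ} (hPn : ∀ X : Mat n, hs (C * X) ≤ Pn * hs X) (hPn0 : 0 ≤ Pn) (hK0 : 0 ≤ K1)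
    (hK1 : ∀ Y : Fin n → Mat n, hs (∑ k, C * Tm (Zf M) k * Y k) ≤ K1 * ∑ k, hs (Y k))
    (hal0 : 0 ≤ al) (hal : ∀ a b, ((dd1 H0 aa a b - aa a) ^ 2 + (dd1 H0 aa a b - aa b) ^ 2) / 2 ≤
      al * rho a b)
    (hbe0 : 0 ≤ be) (hbe : ∀ a b, ((dd1 aa bb2 a b - bb2 a) ^ 2 +
      (dd1 aa bb2 a b - bb2 b) ^ 2) / 2 ≤ be * rho a b)
    {q0 q1 : ℝ} (hq0 : 0 < q0) (hq1 : 0 < q1) (hq : q0 + q1 = 1) :
    (Real.log ((Cᵀ * C).det) -
        EE (fun x => 2 * wip B (Uf M) M x - wip B (Uf M) (Uf M) x -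
          ∑ k, wip B (dk k (Uf M)) (dk k (Uf M)) x)) +
      EE (Slk M N) + (EE (dh2 (Zf M)) - EE (hs2 (Zf M))) -
      (1 / q0 * (1 / 3 * (EE (fun x => ∑ k, hs (C * Mx (dk k (ef (Zf M))) x)) -
          EE (fun x => hs (C * Mx (ef (Zf M)) x))) +
          lam / 12 * hs (C * (1 - MTm (Zf M))) +
          lam / 12 * (K1 * EE (fun x => ∑ k, hs (Mx (dk k (ef (Zf M))) x)))) +
        1 / q1 * ((Pn * al + K1 * be) * EE (Slk M N))) ≤ DFun G M := by
  have hM := h.mf
  have hlo := h.lo_pos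
  have hζ : MF (Zf M) (zf lo) (zf hi) := mf_Zf hM hlo
  set w : ℝ → ℝ := fun z => aa z - 1 / 4 with hw
  have hw1 : ∀ z, w z + 1 / 4 = aa z := fun z => by rw [hw]; ring
  have hw1' : (fun z => w z + 1 / 4) = aa := funext hw1
  have dv : ∀ z ∈ Icc (zf lo) (zf hi), HasDerivAt H0 (w z + 1 / 4) z := fun z _ => by
    rw [hw1]; exact H0_has z
  have dw : ∀ z, HasDerivAt w (bb2 z) z := fun z => (aa_has' z).sub_const (1 / 4)
  have cbb : Continuous bb2 := by
    have : bb2 = fun z => z * aa z + H0 z - mu z := funext bb2_eq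
    rw [this]
    exact ((continuous_id.mul aa_cont).add H0_cont).sub ScalE688.mu_cont
  have cw : ContinuousOn w (Icc (zf lo) (zf hi)) := (aa_cont.sub continuous_const).continuousOn
  have hU : ∀ i j x, Uf M i j x = _root_.cfc H0 (Mx (Zf M) x) i j := fun i j x => by
    rw [Uf_eq hM]; rfl
  have z0 : ∀ i j, EE (Zf M i j) = 0 := hz
  have hMU : ∀ x, Mx M x - Mx (Uf M) x = Mx (Zf M) x * (_root_.cfc w (Mx (Zf M) x) +
      (1 / 4 : ℝ) • 1) - _root_.cfc bb2 (Mx (Zf M) x) := fun x => by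
    have e1 : Mx M x = _root_.cfc mu (Mx (Zf M) x) := by
      conv_lhs => rw [M_eq hM hlo]
      rfl
    have e2 : Mx (Uf M) x = _root_.cfc H0 (Mx (Zf M) x) := by
      ext i j; exact hU i j x
    rw [e1, e2, mu_sub _ (hζ.h x), ← cfc_add_const (hζ.h x), hw1']
  have cM : ∀ i j, CG (M i j) := fun i j => (h.ma.hd.m i j).cg
  have c1U : ∀ i j, C1 (Uf M i j) := fun i j => c1_Uf hM hlo i j
  have cU : ∀ i j, CG (Uf M i j) := fun i j => (c1U i j).cg
  have hW := wkf (M := M) (U := Uf M) hζ z0 (fun x _ => dw x) cbb.continuousOn cM cU hMU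
    (1 : Mat n)
  have cY : ∀ k i j, CG (Yf (Zf M) w 1 k i j) := fun k i j =>
    (c1_Y0 hζ (fun x _ => dw x) cbb.continuousOn 1 k i j).cg.add
      (((c1_Rs (c1_ef hζ i j)).cgp k).smul _)
  have cGf : ∀ i j, CG (Gf (Zf M) w bb2 1 i j) := by
    intro i j
    have e : Gf (Zf M) w bb2 1 i j = fun x => G0 (Zf M) w bb2 1 x i j -
        1 / 2 * (ef (Zf M) i j x - Rs (ef (Zf M) i j) x) := rfl
    have c0 : CM (fun x => G0 (Zf M) w bb2 1 x) := by
      have cζ : CM (fun x => Mx (Zf M) x) := CM.mx fun i j => (hζ.c i j).cg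
      have ce : CM (fun x => Mx (ef (Zf M)) x) := CM.mx fun i j => (c1_ef hζ i j).cg
      have cW : CM (fun x => _root_.cfc w (Mx (Zf M) x)) := cg_cfc hζ cw
      have cV : CM (fun x => _root_.cfc bb2 (Mx (Zf M) x)) := cg_cfc hζ cbb.continuousOn
      have cp : ∀ k, CM (fun x => Mx (dk k (ef (Zf M))) x) := fun k =>
        CM.mx fun i j => (c1_ef hζ i j).cgp k
      have cz : ∀ k, CM (fun x => Mx (dk k (Zf M)) x) := fun k => CM.mx fun i j => (hζ.c i j).cgp k
      have cD : ∀ k, CM (fun x => DK w bb2 (Mx (Zf M) x) (Mx (dk k (Zf M)) x)) := fun k => by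
        have e : (fun x => DK w bb2 (Mx (Zf M) x) (Mx (dk k (Zf M)) x)) =
            fun x => Mx (dk k fun i j x => _root_.cfc w (Mx (Zf M) x) i j) x := by
          funext x
          ext i j
          simp only [Mx, Matrix.of_apply, dk]
          exact (_root_.Crest.Agent.R253.SpecField321.pd_cfc hζ (fun x _ => dw x) x i j k).symm
        rw [e]
        exact CM.mx fun i j => (_root_.Crest.Agent.R253.SpecField321.c1_cfc hζ (fun x _ => dw x)
          cbb.continuousOn i j).cgp k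
      have cL : CM (fun x => Lx (Zf M) x) := CM.sum fun k _ => CM.fsmul (cg_coord k) (CM.const _)
      unfold G0
      exact (((((ce.mul cW).add (ce.smul _)).add ((CM.sum fun k _ =>
        ((cD k).sub ((cz k).mul cV)).cmul _).cmul 1)).add ((cL.cmul _).mul cW)).sub
        (cV.cmul _)).add ((((CM.sum fun k _ => (cp k).cmul _).cmul 1)).mul cV)
    rw [e]
    exact (c0 i j).sub ((((c1_ef hζ i j).cg).sub (c1_Rs (c1_ef hζ i j)).cg).smul _)
  have hCd : (Matrix.of fun i j => C i j).det ≠ 0 := hC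
  have key := spineB (G := G) (M := M) (N := N) (V := V) h.ma (U := Uf M) (Z := Zf M) c1U
    (fun i j => Uf_symm hM i j) (fun i j => c1_Zf hM hlo i j) cY cGf hW (B := B)
    (C := fun i j => C i j) hCd hCB (covM_posDef h.ma hM hlo) h.hV (fun x => hlog hM hlo x)
  have e1 : EE (fun x => ∑ k, wip (ctc fun i j => C i j) (sbf (dk k (Uf M)) (Yf (Zf M) w 1 k))
      (sbf (dk k (Uf M)) (Yf (Zf M) w 1 k)) x) =
      EE (fun x => ∑ k, hs (C * (Mx (dk k (Uf M)) x - Mx (Yf (Zf M) w 1 k) x))) :=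
    EE_congr fun x => Finset.sum_congr rfl fun k _ => by
      rw [wip_eq]; rfl
  have e2 : EE (wip (ctc fun i j => C i j) (Gf (Zf M) w bb2 1) (Gf (Zf M) w bb2 1)) =
      EE (fun x => hs (C * Mx (Gf (Zf M) w bb2 1) x)) := EE_congr fun x => wip_eq _ _ _
  rw [e1, e2] at key
  have hdd : ∀ a b, dd1 w bb2 a b = dd1 aa bb2 a b := fun a b => by
    unfold dd1
    split_ifs with hab
    · rfl
    · rw [hw]; ring_nf
  have loss := dualQ (ζ := Zf M) (v := H0) (w := w) (v2 := bb2) hζ z0 dv (fun x _ => dw x) cw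
    cbb.continuousOn hlam (fun x _ => hv2 x) hU C hPn hPn0 hK0 hK1 (Sl := Slk M N)
    (cg_Slk h.ma hM hlo) (al := al) (be := be)
    (fun x => by rw [hw1']; exact sum_KR_le h.ma hM hlo hal0 hal x)
    (fun x => sum_KR_le h.ma hM hlo hbe0 (fun a b => by rw [hdd]; exact hbe a b) x) hq0 hq1 hq
  have e3 : EE (fun x => RR M N (Uf M) dl x - dh2 (Zf M) x + dh2 (Uf M) x) = EE (Slk M N) := rfl
  have e4 : ((Matrix.of fun i j => C i j).transpose * Matrix.of fun i j => C i j) = Cᵀ * C := rfl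
  rw [e3, e4] at key
  linarith

end data

end Crest.Agent.R253.BForm973
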