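import Crest.Agent.R253.CptD_435
import Crest.Agent.Lib.PrekopaLeindler
import Crest.Prelude.Def_Isotropic

/-!
# R253: Brascamp-Lieb for linear functions and the class of states (helper589)

`St f G` : `f` is a log-concave probability density, `G` positive semidefinite and
`x ↦ f x * exp (⟪Gx,x⟫/2)` log-concave.

Main results: `variance_le`, `St.GAG_le` (`G A G ≤ G`), `St.cov_le_inv` (`A ≤ G⁻¹`),
`St.one_sub_psd` (`Kᵀ G K ≤ 1` if `K Kᵀ = A`), closure of the class under the tilt curve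
and affine maps.
-/

set_option autoImplicit false
open MeasureTheory Set Filter Topology Matrix
open scoped ENNReal NNReal

namespace Crest.Agent.R253.BL589

open Crest.Agent.R253.Cpt435
open Crest.Agent.Lib.PrekopaLeindler (PL PL_pi)
open Crest.GeometryTopology.Isotropic

variable {m : ℕ}

/-- second order test at an interior maximum -/
theorem second_deriv_nonpos {φ φ' : ℝ → ℝ} {c δ : ℝ} (hδ : 0 < δ)
    (h1 : ∀ t, |t| < δ → HasDerivAt φ (φ' t) t) (h2 : HasDerivAt φ' c 0)
    (hmax : ∀ t, |t| < δ → φ t ≤ φ 0) : c ≤ 0 := by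
  by_contra hc
  push Not at hc
  have hnb : ∀ᶠ t in 𝓝 (0 : ℝ), |t| < δ := by
    have : Ioo (-δ) δ ∈ 𝓝 (0 : ℝ) := Ioo_mem_nhds (by linarith) hδ
    filter_upwards [this] with t ht
    exact abs_lt.mpr ht
  have hlmax : IsLocalMax φ 0 := by
    filter_upwards [hnb] with t ht using hmax t ht
  have h0 : deriv φ 0 = 0 := hlmax.deriv_eq_zero
  have hd : deriv φ =ᶠ[𝓝 0] φ' := by
    filter_upwards [hnb] with t ht using (h1 t ht).deriv
  have h3 : deriv (deriv φ) 0 = c := by
    rw [hd.deriv_eq]; exact h2.deriv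
  have hcont : ContinuousAt φ 0 := (h1 0 (by simpa using hδ)).continuousAt
  have hlmin : IsLocalMin φ 0 := isLocalMin_of_deriv_deriv_pos (by rw [h3]; exact hc) h0 hcont
  have hcst : φ =ᶠ[𝓝 0] fun _ => φ 0 := by
    filter_upwards [hlmax, hlmin] with t ht1 ht2
    exact le_antisymm ht1 ht2
  have h4 : deriv φ =ᶠ[𝓝 0] fun _ => (0 : ℝ) := by
    have := hcst.deriv
    refine this.trans ?_
    filter_upwards with t
    simp
  have h5 : deriv (deriv φ) 0 = 0 := by
    rw [h4.deriv_eq]; simp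
  rw [h3] at h5
  exact hc.ne' h5

/-- Prekopa-Leindler at the midpoint for real functions -/
theorem pl_mid {f g h : (Fin m → ℝ) → ℝ} (hf : Measurable f) (hg : Measurable g)
    (hh : Measurable h) (hf0 : ∀ x, 0 ≤ f x) (hg0 : ∀ x, 0 ≤ g x) (hh0 : ∀ x, 0 ≤ h x)
    (hfi : Integrable f) (hgi : Integrable g) (hhi : Integrable h)
    (H : ∀ x y, Real.sqrt (f x) * Real.sqrt (g y) ≤ h ((1 / 2 : ℝ) • x + (1 / 2 : ℝ) • y)) :
    (∫ x, f x) * (∫ x, g x) ≤ (∫ x, h x) ^ 2 := by
  have h1 := PL_pi m (1 / 2) (by norm_num) (by norm_num) (fun x => ENNReal.ofReal (f x))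
    (fun x => ENNReal.ofReal (g x)) (fun x => ENNReal.ofReal (h x)) hf.ennreal_ofReal
    hg.ennreal_ofReal hh.ennreal_ofReal ?_
  · rw [← ofReal_integral_eq_lintegral_ofReal hfi (ae_of_all _ hf0),
      ← ofReal_integral_eq_lintegral_ofReal hgi (ae_of_all _ hg0),
      ← ofReal_integral_eq_lintegral_ofReal hhi (ae_of_all _ hh0)] at h1
    have p1 : 0 ≤ ∫ x, f x := integral_nonneg hf0
    have p2 : 0 ≤ ∫ x, g x := integral_nonneg hg0
    have p3 : 0 ≤ ∫ x, h x := integral_nonneg hh0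
    rw [ENNReal.ofReal_rpow_of_nonneg p1 (by norm_num), ENNReal.ofReal_rpow_of_nonneg p2
      (by norm_num), ← ENNReal.ofReal_mul (Real.rpow_nonneg p1 _),
      ENNReal.ofReal_le_ofReal_iff p3] at h1
    have e1 : (1 : ℝ) - 1 / 2 = 1 / 2 := by norm_num
    rw [e1, ← Real.sqrt_eq_rpow, ← Real.sqrt_eq_rpow] at h1
    calc (∫ x, f x) * (∫ x, g x)
        = (Real.sqrt (∫ x, f x) * Real.sqrt (∫ x, g x)) ^ 2 := by
          rw [mul_pow, Real.sq_sqrt p1, Real.sq_sqrt p2]
      _ ≤ _ := by gcongr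
  · intro x y
    have e1 : (1 : ℝ) - 1 / 2 = 1 / 2 := by norm_num
    rw [e1, ENNReal.ofReal_rpow_of_nonneg (hf0 x) (by norm_num),
      ENNReal.ofReal_rpow_of_nonneg (hg0 y) (by norm_num),
      ← ENNReal.ofReal_mul (Real.rpow_nonneg (hf0 x) _), ← Real.sqrt_eq_rpow,
      ← Real.sqrt_eq_rpow]
    exact ENNReal.ofReal_le_ofReal (H x y)

/-- **Brascamp-Lieb for linear functions**: if `f * exp (q/2)` is log-concave, `q` a quadratic
form, and `l² ≤ Q q`, then the variance of `l` is at most `Q`. -/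
theorem variance_le {f : (Fin m → ℝ) → ℝ} (hf : LCD f) {q : (Fin m → ℝ) → ℝ}
    (hqmid : ∀ x y, q ((1 / 2 : ℝ) • x + (1 / 2 : ℝ) • y) = (q x + q y) / 2 - q (x - y) / 4)
    (hq0 : ∀ x, 0 ≤ q x)
    (hlc : LogC (fun x => f x * Real.exp (q x / 2))) (l : (Fin m → ℝ) →ₗ[ℝ] ℝ) {Q : ℝ}
    (hQ : ∀ x, l x ^ 2 ≤ Q * q x) (hQ0 : 0 ≤ Q) :
    (∫ x, l x ^ 2 * f x) - (∫ x, l x * f x) ^ 2 ≤ Q := by
  -- reduce to `0 < Q`
  suffices H : ∀ Q : ℝ, 0 < Q → (∀ x, l x ^ 2 ≤ Q * q x) →
      (∫ x, l x ^ 2 * f x) - (∫ x, l x * f x) ^ 2 ≤ Q by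
    refine le_of_forall_pos_le_add fun ε hε => H (Q + ε) (by linarith) fun x => ?_
    calc l x ^ 2 ≤ Q * q x := hQ x
      _ ≤ (Q + ε) * q x := by
        have := hq0 x
        nlinarith
  clear hQ hQ0 Q
  intro Q hQ0 hQ
  have hl : Continuous l := LinearMap.continuous_of_finiteDimensional l
  -- linear growth
  obtain ⟨L, hL0, hL⟩ : ∃ L : ℝ, 0 ≤ L ∧ ∀ x, |l x| ≤ L * (1 + ‖x‖) := by
    set l' : (Fin m → ℝ) →L[ℝ] ℝ := LinearMap.toContinuousLinearMap l
    refine ⟨‖l'‖, norm_nonneg _, fun x => ?_⟩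
    have h1 : ‖l' x‖ ≤ ‖l'‖ * ‖x‖ := l'.le_opNorm x
    have h2 : |l x| = ‖l' x‖ := rfl
    rw [h2]
    refine h1.trans ?_
    gcongr
    linarith
  have hEB : EB f := hf.eb
  obtain ⟨δ, hδ, hcurve⟩ := exists_curve_deriv (q := fun _ => (0 : ℝ)) hEB hl.measurable hL0 hL
    (PB.const 0) (fun _ => le_refl _)
  have hlPB : PB (fun x => l x) := PB.linear l
  -- the three curves
  set I0 : ℝ → ℝ := curveI f l (fun _ => 0) (fun _ => 1) with hI0
  set I1 : ℝ → ℝ := curveI f l (fun _ => 0) (fun x => l x) with hI1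
  have d0 : ∀ t, |t| < δ → HasDerivAt I0 (I1 t) t := by
    intro t ht
    have := (hcurve (fun _ => 1) (PB.const 1) t ht).2
    refine this.congr_deriv ?_
    have e1 : curveI f l (fun _ => 0) (fun x => (1 : ℝ) * l x) t = I1 t := by
      simp only [hI1, one_mul]
    have e2 : curveI f l (fun _ => 0) (fun x => (1 : ℝ) * 0) t = 0 := by
      simp [curveI]
    rw [e1, e2]; ring
  have d1 : HasDerivAt I1 (∫ x, l x ^ 2 * f x) 0 := by
    have := (hcurve (fun x => l x) hlPB 0 (by simpa using hδ)).2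
    refine this.congr_deriv ?_
    rw [curveI_zero, zero_mul, sub_zero]
    congr 1; funext x; ring
  have v0 : I0 0 = 1 := by
    rw [hI0, curveI_zero]; simpa using hf.int1
  have v1 : I1 0 = ∫ x, l x * f x := by
    rw [hI1, curveI_zero]
  -- Prekopa
  have key : ∀ t, |t| < δ → I0 t * I0 (-t) ≤ Real.exp (Q * t ^ 2) := by
    intro t ht
    have ht' : |(-t)| < δ := by rwa [abs_neg]
    have E1 := (hcurve (fun _ => 1) (PB.const 1) t ht).1
    have E2 := (hcurve (fun _ => 1) (PB.const 1) (-t) ht').1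
    have h1 := pl_mid (f := fun x => f x * Real.exp (t * l x - t ^ 2 / 2 * 0))
      (g := fun x => f x * Real.exp ((-t) * l x - (-t) ^ 2 / 2 * 0))
      (h := fun x => Real.exp (Q * t ^ 2 / 2) * f x) E1.meas E2.meas (hf.meas.const_mul _)
      (fun x => mul_nonneg (hf.nonneg x) (Real.exp_pos _).le)
      (fun x => mul_nonneg (hf.nonneg x) (Real.exp_pos _).le)
      (fun x => mul_nonneg (Real.exp_pos _).le (hf.nonneg x)) E1.integrable E2.integrable
      (hEB.integrable.const_mul _) ?_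
    · have e1 : I0 t = ∫ x, f x * Real.exp (t * l x - t ^ 2 / 2 * 0) := by
        simp only [hI0, curveI, one_mul]
      have e2 : I0 (-t) = ∫ x, f x * Real.exp ((-t) * l x - (-t) ^ 2 / 2 * 0) := by
        simp only [hI0, curveI, one_mul]
      rw [e1, e2]
      refine h1.trans (le_of_eq ?_)
      rw [integral_const_mul, hf.int1, mul_one, ← Real.exp_nat_mul]
      congr 1
      push_cast
      ring
    · intro x y
      have h2 := hlc x y (1 / 2) (1 / 2) (by norm_num) (by norm_num) (by norm_num)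
      simp only at h2
      rw [← Real.sqrt_eq_rpow, ← Real.sqrt_eq_rpow, Real.sqrt_mul (hf.nonneg x),
        Real.sqrt_mul (hf.nonneg y), hqmid] at h2
      rw [Real.sqrt_mul (hf.nonneg x), Real.sqrt_mul (hf.nonneg y)]
      set z := (1 / 2 : ℝ) • x + (1 / 2 : ℝ) • y
      have s1 : ∀ a : ℝ, Real.sqrt (Real.exp a) = Real.exp (a / 2) := by
        intro a
        rw [Real.exp_half]
      rw [s1, s1] at h2 ⊢
      have h3 : Real.sqrt (f x) * Real.sqrt (f y) ≤ f z * Real.exp (-(q (x - y)) / 8) := by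
        have e3 : Real.sqrt (f x) * Real.exp (q x / 2 / 2) *
            (Real.sqrt (f y) * Real.exp (q y / 2 / 2)) =
            (Real.sqrt (f x) * Real.sqrt (f y)) * Real.exp (q x / 4 + q y / 4) := by
          rw [Real.exp_add]; ring_nf
        have e4 : f z * Real.exp (((q x + q y) / 2 - q (x - y) / 4) / 2) =
            (f z * Real.exp (-(q (x - y)) / 8)) * Real.exp (q x / 4 + q y / 4) := by
          rw [mul_assoc, ← Real.exp_add]; congr 2; ring
        rw [e3, e4] at h2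
        exact le_of_mul_le_mul_right h2 (Real.exp_pos _)
      calc Real.sqrt (f x) * Real.exp ((t * l x - t ^ 2 / 2 * 0) / 2) *
            (Real.sqrt (f y) * Real.exp (((-t) * l y - (-t) ^ 2 / 2 * 0) / 2))
          = (Real.sqrt (f x) * Real.sqrt (f y)) * Real.exp (t * l (x - y) / 2) := by
            rw [map_sub, mul_mul_mul_comm, ← Real.exp_add]; congr 2; ring
        _ ≤ (f z * Real.exp (-(q (x - y)) / 8)) * Real.exp (t * l (x - y) / 2) := by gcongr
        _ = f z * Real.exp (-(q (x - y)) / 8 + t * l (x - y) / 2) := by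
            rw [mul_assoc, ← Real.exp_add]
        _ ≤ f z * Real.exp (Q * t ^ 2 / 2) := by
            apply mul_le_mul_of_nonneg_left _ (hf.nonneg z)
            apply Real.exp_le_exp.mpr
            have h4 := hQ (x - y)
            have h5 : 0 ≤ (l (x - y) - 2 * Q * t) ^ 2 := sq_nonneg _
            have h6 : 0 ≤ Q * (-(-(q (x - y)) / 8 + t * l (x - y) / 2) + Q * t ^ 2 / 2) := by
              nlinarith
            have h7 := nonneg_of_mul_nonneg_right h6 hQ0
            linarith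
        _ = Real.exp (Q * t ^ 2 / 2) * f z := by ring
  -- second derivative at the maximum
  have fin := second_deriv_nonpos (φ := fun t => I0 t * I0 (-t) - Real.exp (Q * t ^ 2))
    (φ' := fun t => I1 t * I0 (-t) - I0 t * I1 (-t) - 2 * Q * t * Real.exp (Q * t ^ 2))
    (c := 2 * (∫ x, l x ^ 2 * f x) - 2 * (∫ x, l x * f x) ^ 2 - 2 * Q) hδ ?_ ?_ ?_
  · linarith
  · intro t ht
    have ht' : |(-t)| < δ := by rwa [abs_neg]
    have a1 := (d0 t ht)
    have a2 := (d0 (-t) ht').comp t (hasDerivAt_neg t)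
    have a3 : HasDerivAt (fun t : ℝ => Real.exp (Q * t ^ 2))
        (Real.exp (Q * t ^ 2) * (Q * (2 * t))) t := by
      have := ((hasDerivAt_pow 2 t).const_mul Q).exp
      simpa using this
    refine ((a1.mul a2).sub a3).congr_deriv ?_
    simp only [Function.comp]
    ring
  · have h0 : |(0 : ℝ)| < δ := by simpa using hδ
    have a0 := d0 0 h0
    have n0 : HasDerivAt (fun t : ℝ => I0 (-t)) (-(I1 0)) 0 := by
      have h9 : HasDerivAt I0 (I1 0) (-(0 : ℝ)) := by simpa using a0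
      have := h9.comp (0 : ℝ) (hasDerivAt_neg (0 : ℝ))
      simpa [Function.comp_def] using this
    have n1 : HasDerivAt (fun t : ℝ => I1 (-t)) (-(∫ x, l x ^ 2 * f x)) 0 := by
      have h9 : HasDerivAt I1 (∫ x, l x ^ 2 * f x) (-(0 : ℝ)) := by simpa using d1
      have := h9.comp (0 : ℝ) (hasDerivAt_neg (0 : ℝ))
      simpa [Function.comp_def] using this
    have b1 := d1.mul n0
    have b2 := a0.mul n1
    have b3 : HasDerivAt (fun t : ℝ => 2 * Q * t * Real.exp (Q * t ^ 2)) (2 * Q) 0 := by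
      have c1 : HasDerivAt (fun t : ℝ => Real.exp (Q * t ^ 2)) 0 0 := by
        have := ((hasDerivAt_pow 2 (0 : ℝ)).const_mul Q).exp
        simpa using this
      have c2 := ((hasDerivAt_id (0 : ℝ)).const_mul (2 * Q)).mul c1
      refine c2.congr_deriv ?_
      simp
    refine ((b1.sub b2).sub b3).congr_deriv ?_
    simp only [neg_zero]
    rw [v0, v1]
    ring
  · intro t ht
    simp only [neg_zero, v0]
    have := key t ht
    simp
    linarith

/-! ### matrix forms -/

/-- the linear form `θ · x` -/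
def lin (θ : Fin m → ℝ) : (Fin m → ℝ) →ₗ[ℝ] ℝ where
  toFun x := θ ⬝ᵥ x
  map_add' x y := dotProduct_add θ x y
  map_smul' a x := by simp [dotProduct_smul]

@[simp] theorem lin_apply (θ x : Fin m → ℝ) : lin θ x = θ ⬝ᵥ x := rfl

/-- quadratic form of a matrix -/
def qf (G : Matrix (Fin m) (Fin m) ℝ) (x : Fin m → ℝ) : ℝ := x ⬝ᵥ G.mulVec x

theorem qf_mid (G : Matrix (Fin m) (Fin m) ℝ) (x y : Fin m → ℝ) :
    qf G ((1 / 2 : ℝ) • x + (1 / 2 : ℝ) • y) = (qf G x + qf G y) / 2 - qf G (x - y) / 4 := by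
  unfold qf
  simp only [mulVec_add, mulVec_smul, dotProduct_add, add_dotProduct, smul_dotProduct,
    dotProduct_smul, smul_eq_mul, mulVec_sub, dotProduct_sub, sub_dotProduct]
  ring

theorem qf_add (G H : Matrix (Fin m) (Fin m) ℝ) (x : Fin m → ℝ) :
    qf (G + H) x = qf G x + qf H x := by
  unfold qf; rw [add_mulVec, dotProduct_add]

theorem qf_smul (c : ℝ) (G : Matrix (Fin m) (Fin m) ℝ) (x : Fin m → ℝ) :
    qf (c • G) x = c * qf G x := by
  unfold qf; rw [smul_mulVec, dotProduct_smul, smul_eq_mul]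

theorem qf_vecMulVec (u x : Fin m → ℝ) : qf (vecMulVec u u) x = (u ⬝ᵥ x) ^ 2 := by
  unfold qf
  rw [vecMulVec_mulVec]
  simp only [dotProduct_smul, op_smul_eq_smul, smul_eq_mul]
  rw [dotProduct_comm x u]; ring

theorem qf_nonneg {G : Matrix (Fin m) (Fin m) ℝ} (hG : G.PosSemidef) (x : Fin m → ℝ) :
    0 ≤ qf G x := by
  have := hG.dotProduct_mulVec_nonneg x
  simpa [qf] using this

theorem posSemidef_of_qf {G : Matrix (Fin m) (Fin m) ℝ} (hG : Gᵀ = G)
    (h : ∀ x, 0 ≤ qf G x) : G.PosSemidef := by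
  refine PosSemidef.of_dotProduct_mulVec_nonneg ?_ fun x => ?_
  · rw [IsHermitian, conjTranspose_eq_transpose_of_trivial, hG]
  · simpa [qf] using h x

theorem PosSemidef.transpose_eq {G : Matrix (Fin m) (Fin m) ℝ} (hG : G.PosSemidef) : Gᵀ = G := by
  have := hG.1
  rwa [IsHermitian, conjTranspose_eq_transpose_of_trivial] at this

/-- Cauchy-Schwarz for a positive semidefinite matrix -/
theorem cs {G : Matrix (Fin m) (Fin m) ℝ} (hG : G.PosSemidef) (u x : Fin m → ℝ) :
    (u ⬝ᵥ G.mulVec x) ^ 2 ≤ qf G u * qf G x := by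
  have hsym : x ⬝ᵥ G.mulVec u = u ⬝ᵥ G.mulVec x := by
    rw [dotProduct_comm, dotProduct_mulVec, ← mulVec_transpose, PosSemidef.transpose_eq hG,
      dotProduct_comm, dotProduct_comm]
  have h : ∀ t : ℝ, 0 ≤ qf G x * (t * t) + 2 * (u ⬝ᵥ G.mulVec x) * t + qf G u := by
    intro t
    have h1 := qf_nonneg hG (u + t • x)
    have h2 : qf G (u + t • x) =
        qf G x * (t * t) + 2 * (u ⬝ᵥ G.mulVec x) * t + qf G u := by
      unfold qf
      simp only [mulVec_add, mulVec_smul, dotProduct_add, add_dotProduct, smul_dotProduct,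
        dotProduct_smul, smul_eq_mul]
      rw [hsym]; ring
    linarith
  have h1 := discrim_le_zero h
  unfold discrim at h1
  nlinarith

/-- quadratic form of the covariance -/
theorem qf_densCov {f : (Fin m → ℝ) → ℝ} (hf : LCD f) (θ : Fin m → ℝ) :
    qf (densCov f) θ = (∫ x, (θ ⬝ᵥ x) ^ 2 * f x) - (∫ x, (θ ⬝ᵥ x) * f x) ^ 2 := by
  have hE := hf.eb
  set μ := densMean f with hμ
  have hc : ∀ i, PB (fun x : Fin m → ℝ => x i - μ i) := fun i =>
    (PB.coord i).sub (PB.const (μ i))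
  have h1 : qf (densCov f) θ = ∫ x, (θ ⬝ᵥ x - θ ⬝ᵥ μ) ^ 2 * f x := by
    have e1 : ∀ x, (θ ⬝ᵥ x - θ ⬝ᵥ μ) ^ 2 * f x =
        ∑ i, ∑ j, θ i * θ j * ((x i - μ i) * (x j - μ j) * f x) := by
      intro x
      have e2 : θ ⬝ᵥ x - θ ⬝ᵥ μ = ∑ i, θ i * (x i - μ i) := by
        simp only [dotProduct, ← Finset.sum_sub_distrib, mul_sub]
      rw [e2, sq, Finset.sum_mul_sum, Finset.sum_mul]
      refine Finset.sum_congr rfl fun i _ => ?_
      rw [Finset.sum_mul]
      refine Finset.sum_congr rfl fun j _ => ?_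
      ring
    simp only [e1]
    rw [integral_finsetSum]
    · unfold qf
      simp only [dotProduct, mulVec]
      refine Finset.sum_congr rfl fun i _ => ?_
      rw [integral_finsetSum]
      · rw [Finset.mul_sum]
        refine Finset.sum_congr rfl fun j _ => ?_
        rw [integral_const_mul]
        simp only [densCov, of_apply]
        ring
      · intro j _
        exact (hE.integrable_mul ((hc i).mul (hc j))).const_mul _
    · intro i _
      refine integrable_finsetSum _ fun j _ => ?_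
      exact (hE.integrable_mul ((hc i).mul (hc j))).const_mul _
  have h2 : θ ⬝ᵥ μ = ∫ x, (θ ⬝ᵥ x) * f x := by
    have e1 : ∀ x, (θ ⬝ᵥ x) * f x = ∑ i, θ i * (x i * f x) := by
      intro x
      simp only [dotProduct, Finset.sum_mul]
      refine Finset.sum_congr rfl fun i _ => ?_
      ring
    simp only [e1]
    rw [integral_finsetSum]
    · simp only [dotProduct]
      refine Finset.sum_congr rfl fun i _ => ?_
      rw [integral_const_mul]
      rfl
    · intro i _
      exact (hE.integrable_mul (PB.coord i)).const_mul _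
  rw [h1]
  have e3 : ∀ x, (θ ⬝ᵥ x - θ ⬝ᵥ μ) ^ 2 * f x =
      (θ ⬝ᵥ x) ^ 2 * f x - 2 * (θ ⬝ᵥ μ) * ((θ ⬝ᵥ x) * f x) + (θ ⬝ᵥ μ) ^ 2 * f x := by
    intro x; ring
  have hl : PB (fun x : Fin m → ℝ => θ ⬝ᵥ x) := PB.linear (lin θ)
  have i1 : Integrable (fun x => (θ ⬝ᵥ x) ^ 2 * f x) := hE.integrable_mul (hl.pow 2)
  have i2 : Integrable (fun x => 2 * (θ ⬝ᵥ μ) * ((θ ⬝ᵥ x) * f x)) :=
    (hE.integrable_mul hl).const_mul _
  have i3 : Integrable (fun x => (θ ⬝ᵥ μ) ^ 2 * f x) := hE.integrable.const_mul _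
  simp only [e3]
  have i12 : Integrable (fun x => (θ ⬝ᵥ x) ^ 2 * f x - 2 * (θ ⬝ᵥ μ) * ((θ ⬝ᵥ x) * f x)) :=
    i1.sub i2
  rw [integral_add i12 i3, integral_sub i1 i2, integral_const_mul, integral_const_mul, hf.int1,
    ← h2]
  ring

theorem densCov_transpose (f : (Fin m → ℝ) → ℝ) : (densCov f)ᵀ = densCov f := by
  ext i j
  simp only [transpose_apply, densCov, of_apply]
  congr 1; funext x; ring

theorem densCov_posSemidef {f : (Fin m → ℝ) → ℝ} (hf : LCD f) : (densCov f).PosSemidef := by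
  refine posSemidef_of_qf (densCov_transpose f) fun θ => ?_
  have hE := hf.eb
  have hl : PB (fun x : Fin m → ℝ => θ ⬝ᵥ x) := PB.linear (lin θ)
  rw [qf_densCov hf]
  set a := ∫ x, (θ ⬝ᵥ x) * f x with ha
  have i1 : Integrable (fun x => (θ ⬝ᵥ x) ^ 2 * f x) := hE.integrable_mul (hl.pow 2)
  have i2 : Integrable (fun x => 2 * a * ((θ ⬝ᵥ x) * f x)) := (hE.integrable_mul hl).const_mul _
  have i3 : Integrable (fun x => a ^ 2 * f x) := hE.integrable.const_mul _
  have h : 0 ≤ ∫ x, (θ ⬝ᵥ x - a) ^ 2 * f x :=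
    integral_nonneg fun x => mul_nonneg (sq_nonneg _) (hf.nonneg x)
  have e3 : ∀ x, (θ ⬝ᵥ x - a) ^ 2 * f x =
      (θ ⬝ᵥ x) ^ 2 * f x - 2 * a * ((θ ⬝ᵥ x) * f x) + a ^ 2 * f x := by
    intro x; ring
  have i12 : Integrable (fun x => (θ ⬝ᵥ x) ^ 2 * f x - 2 * a * ((θ ⬝ᵥ x) * f x)) := i1.sub i2
  simp only [e3] at h
  rw [integral_add i12 i3, integral_sub i1 i2, integral_const_mul, integral_const_mul, hf.int1,
    ← ha] at h
  linarith

/-- states: log-concave densities whose potential has curvature at least `G` -/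
structure St (f : (Fin m → ℝ) → ℝ) (G : Matrix (Fin m) (Fin m) ℝ) : Prop where
  lcd : LCD f
  psd : G.PosSemidef
  logcG : LogC (fun x => f x * Real.exp (qf G x / 2))

namespace St

variable {f : (Fin m → ℝ) → ℝ} {G : Matrix (Fin m) (Fin m) ℝ}

/-- Brascamp-Lieb along one direction -/
theorem qf_cov_le (h : St f G) {θ : Fin m → ℝ} {Q : ℝ} (hQ0 : 0 ≤ Q)
    (hQ : ∀ x, (θ ⬝ᵥ x) ^ 2 ≤ Q * qf G x) : qf (densCov f) θ ≤ Q := by
  rw [qf_densCov h.lcd]
  exact variance_le h.lcd (qf_mid G) (qf_nonneg h.psd) h.logcG (lin θ) hQ hQ0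

/-- `⟪A G u, G u⟫ ≤ ⟪G u, u⟫` -/
theorem qf_cov_mulVec_le (h : St f G) (u : Fin m → ℝ) :
    qf (densCov f) (G.mulVec u) ≤ qf G u := by
  refine h.qf_cov_le (qf_nonneg h.psd u) fun x => ?_
  have h1 : G.mulVec u ⬝ᵥ x = u ⬝ᵥ G.mulVec x := by
    rw [dotProduct_mulVec, ← mulVec_transpose, PosSemidef.transpose_eq h.psd]
  rw [h1]
  exact cs h.psd u x

/-- `G A G ≤ G` -/
theorem GAG_le (h : St f G) : (G - G * densCov f * G).PosSemidef := by
  have ht := PosSemidef.transpose_eq h.psd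
  refine posSemidef_of_qf ?_ fun u => ?_
  · rw [transpose_sub, transpose_mul, transpose_mul, ht, densCov_transpose, Matrix.mul_assoc]
  · have h1 := h.qf_cov_mulVec_le u
    have h2 : qf (G * densCov f * G) u = qf (densCov f) (G.mulVec u) := by
      unfold qf
      rw [← mulVec_mulVec, ← mulVec_mulVec]
      conv_lhs => rw [dotProduct_mulVec, ← mulVec_transpose, ht]
    have h3 : qf (G - G * densCov f * G) u = qf G u - qf (G * densCov f * G) u := by
      unfold qf; rw [sub_mulVec, dotProduct_sub]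
    rw [h3, h2]; linarith

/-- `Kᵀ G K ≤ 1` whenever `K Kᵀ = A` -/
theorem one_sub_psd (h : St f G) {K : Matrix (Fin m) (Fin m) ℝ} (hK : K * Kᵀ = densCov f) :
    (1 - Kᵀ * G * K).PosSemidef := by
  have ht := PosSemidef.transpose_eq h.psd
  refine posSemidef_of_qf ?_ fun x => ?_
  · rw [transpose_sub, transpose_mul, transpose_mul, ht, transpose_transpose, transpose_one,
      Matrix.mul_assoc]
  · set y := K.mulVec x with hy
    have h1 := h.qf_cov_mulVec_le y
    -- `qf A (G y) = |Kᵀ G y|²`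
    have h2 : qf (densCov f) (G.mulVec y) = (Kᵀ.mulVec (G.mulVec y)) ⬝ᵥ (Kᵀ.mulVec (G.mulVec y)) := by
      unfold qf
      rw [← hK, ← mulVec_mulVec, dotProduct_mulVec, ← mulVec_transpose]
    have h3 : x ⬝ᵥ (Kᵀ.mulVec (G.mulVec y)) = qf G y := by
      unfold qf
      rw [hy, dotProduct_mulVec, ← mulVec_transpose, transpose_transpose]
    have h4 : qf (Kᵀ * G * K) x = qf G y := by
      rw [← h3]
      unfold qf
      rw [← mulVec_mulVec, ← mulVec_mulVec]
    have h5 : (x ⬝ᵥ (Kᵀ.mulVec (G.mulVec y))) ^ 2 ≤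
        (x ⬝ᵥ x) * ((Kᵀ.mulVec (G.mulVec y)) ⬝ᵥ (Kᵀ.mulVec (G.mulVec y))) := by
      have := cs (G := (1 : Matrix (Fin m) (Fin m) ℝ)) PosSemidef.one x (Kᵀ.mulVec (G.mulVec y))
      simpa [qf] using this
    have h6 : 0 ≤ qf G y := qf_nonneg h.psd y
    have h7 : 0 ≤ x ⬝ᵥ x := by
      have := qf_nonneg (G := (1 : Matrix (Fin m) (Fin m) ℝ)) PosSemidef.one x
      simpa [qf] using this
    have h8 : qf (1 - Kᵀ * G * K) x = x ⬝ᵥ x - qf (Kᵀ * G * K) x := by
      unfold qf; rw [sub_mulVec, one_mulVec, dotProduct_sub]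
    rw [h8, h4]
    rw [h3] at h5
    rw [← h2] at h5
    rcases h6.lt_or_eq with h9 | h9
    · have h10 : (qf G y) ^ 2 ≤ (x ⬝ᵥ x) * qf G y := h5.trans (by gcongr)
      nlinarith
    · rw [← h9]; linarith

/-- `A ≤ G⁻¹` for positive definite `G` -/
theorem cov_le_inv (h : St f G) (hG : G.PosDef) : (G⁻¹ - densCov f).PosSemidef := by
  have ht := PosSemidef.transpose_eq h.psd
  have hdet : IsUnit G.det := (Matrix.isUnit_iff_isUnit_det _).mp hG.isUnit
  refine posSemidef_of_qf ?_ fun θ => ?_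
  · rw [transpose_sub, transpose_nonsing_inv, ht, densCov_transpose]
  · have h1 := h.qf_cov_mulVec_le (G⁻¹.mulVec θ)
    have h2 : G.mulVec (G⁻¹.mulVec θ) = θ := by
      rw [mulVec_mulVec, mul_nonsing_inv _ hdet, one_mulVec]
    rw [h2] at h1
    have h3 : qf G (G⁻¹.mulVec θ) = qf G⁻¹ θ := by
      unfold qf
      rw [h2, dotProduct_comm]
    have h4 : qf (G⁻¹ - densCov f) θ = qf G⁻¹ θ - qf (densCov f) θ := by
      unfold qf; rw [sub_mulVec, dotProduct_sub]
    rw [h4]; linarith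

/-- every log-concave density is a state with `G = 0` -/
theorem of_lcd (hf : LCD f) : St f 0 where
  lcd := hf
  psd := PosSemidef.zero
  logcG := by
    have : (fun x => f x * Real.exp (qf 0 x / 2)) = f := by
      funext x; simp [qf]
    rw [this]; exact hf.logc

/-- a state stays a state if `G` decreases -/
theorem mono (h : St f G) {H : Matrix (Fin m) (Fin m) ℝ} (hH : H.PosSemidef)
    (hle : (G - H).PosSemidef) : St f H where
  lcd := h.lcd
  psd := hH
  logcG := by
    have h0 : LogC (fun x : Fin m → ℝ => Real.exp (-(qf (G - H) x / 2))) := by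
      intro x y s t hs ht hst
      simp only
      rw [← Real.exp_mul, ← Real.exp_mul, ← Real.exp_add]
      apply Real.exp_le_exp.mpr
      have h1 := qf_nonneg hle (x - y)
      have h2 : qf (G - H) (s • x + t • y) =
          s * qf (G - H) x + t * qf (G - H) y - s * t * qf (G - H) (x - y) := by
        have ht' : t = 1 - s := by linarith
        subst ht'
        unfold qf
        simp only [mulVec_add, mulVec_smul, dotProduct_add, add_dotProduct, smul_dotProduct,
          dotProduct_smul, smul_eq_mul, mulVec_sub, dotProduct_sub, sub_dotProduct]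
        ring
      rw [h2]
      have h3 : 0 ≤ s * t * qf (G - H) (x - y) := by positivity
      linarith
    have h1 := h.logcG.mul (fun x => mul_nonneg (h.lcd.nonneg x) (Real.exp_pos _).le)
      (fun x => (Real.exp_pos _).le) h0
    have e : (fun x => f x * Real.exp (qf G x / 2) * Real.exp (-(qf (G - H) x / 2))) =
        fun x => f x * Real.exp (qf H x / 2) := by
      funext x
      rw [mul_assoc, ← Real.exp_add]
      congr 2
      have : qf (G - H) x = qf G x - qf H x := by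
        unfold qf; rw [sub_mulVec, dotProduct_sub]
      rw [this]; ring
    rwa [e] at h1

/-- affine images of states -/
theorem comp_affine (h : St f G) (T : Matrix (Fin m) (Fin m) ℝ) (hT : T.det ≠ 0)
    (b : Fin m → ℝ) : St (fun u => |T.det| * f (b + T.mulVec u)) (Tᵀ * G * T) where
  lcd := h.lcd.comp_affine T hT b
  psd := by
    have := h.psd.conjTranspose_mul_mul_same T
    rwa [conjTranspose_eq_transpose_of_trivial] at this
  logcG := by
    have ht := PosSemidef.transpose_eq h.psd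
    have h1 := (h.logcG.comp_affine (toLin' T) b)
    -- the affine correction
    set c : ℝ := |T.det| * Real.exp (-(qf G b) / 2) with hc
    have h2 := (LogC.exp_linear (lin (-(Tᵀ.mulVec (G.mulVec b))))).const_mul
      (c := c) (by positivity) (fun x => (Real.exp_pos _).le)
    have h3 := h1.mul (fun u => mul_nonneg (h.lcd.nonneg _) (Real.exp_pos _).le)
      (fun u => mul_nonneg (by positivity) (Real.exp_pos _).le) h2
    have e : (fun u => |T.det| * f (b + T.mulVec u) * Real.exp (qf (Tᵀ * G * T) u / 2)) =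
        fun u => f (b + (toLin' T) u) * Real.exp (qf G (b + (toLin' T) u) / 2) *
          (c * Real.exp (lin (-(Tᵀ.mulVec (G.mulVec b))) u)) := by
      funext u
      simp only [toLin'_apply, lin_apply, neg_dotProduct]
      have e1 : qf (Tᵀ * G * T) u = qf G (T.mulVec u) := by
        unfold qf
        rw [← mulVec_mulVec, ← mulVec_mulVec, dotProduct_mulVec, ← mulVec_transpose,
          transpose_transpose]
      have e2 : Tᵀ.mulVec (G.mulVec b) ⬝ᵥ u = b ⬝ᵥ G.mulVec (T.mulVec u) := by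
        rw [mulVec_transpose, ← dotProduct_mulVec, dotProduct_mulVec b, ← mulVec_transpose, ht]
      have e3 : qf G (b + T.mulVec u) =
          qf G b + qf G (T.mulVec u) + 2 * (b ⬝ᵥ G.mulVec (T.mulVec u)) := by
        have hs : (T.mulVec u) ⬝ᵥ G.mulVec b = b ⬝ᵥ G.mulVec (T.mulVec u) := by
          rw [dotProduct_mulVec b, ← mulVec_transpose, ht, dotProduct_comm]
        unfold qf
        simp only [mulVec_add, dotProduct_add, add_dotProduct]
        rw [hs]; ring
      rw [e1, e2, hc]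
      have e4 : f (b + T.mulVec u) * Real.exp (qf G (b + T.mulVec u) / 2) *
          (|T.det| * Real.exp (-(qf G b) / 2) *
            Real.exp (-(b ⬝ᵥ G.mulVec (T.mulVec u)))) =
          |T.det| * f (b + T.mulVec u) * (Real.exp (qf G (b + T.mulVec u) / 2) *
            Real.exp (-(qf G b) / 2) * Real.exp (-(b ⬝ᵥ G.mulVec (T.mulVec u)))) := by ring
      rw [e4, ← Real.exp_add, ← Real.exp_add, e3]
      congr 2; ring
    rw [e]; exact h3

/-- the (unnormalised) tilt move -/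
theorem logC_move (h : St f G) (u : Fin m → ℝ) (t : ℝ) :
    LogC (fun x => f x * Real.exp (t * (u ⬝ᵥ x) - t ^ 2 / 2 * (u ⬝ᵥ x) ^ 2)) := by
  have h0 : LogC (fun x : Fin m → ℝ =>
      Real.exp (t * (u ⬝ᵥ x) - t ^ 2 / 2 * (u ⬝ᵥ x) ^ 2)) := by
    intro x y a b ha hb hab
    simp only
    rw [← Real.exp_mul, ← Real.exp_mul, ← Real.exp_add]
    apply Real.exp_le_exp.mpr
    have h1 : u ⬝ᵥ (a • x + b • y) = a * (u ⬝ᵥ x) + b * (u ⬝ᵥ y) := by
      simp [dotProduct_add, dotProduct_smul]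
    rw [h1]
    have hb' : b = 1 - a := by linarith
    subst hb'
    have h2 : 0 ≤ a * (1 - a) * (t * ((u ⬝ᵥ x) - (u ⬝ᵥ y))) ^ 2 := by positivity
    nlinarith
  exact h.lcd.logc.mul h.lcd.nonneg (fun x => (Real.exp_pos _).le) h0

theorem logCG_move (h : St f G) (u : Fin m → ℝ) (t : ℝ) :
    LogC (fun x => f x * Real.exp (t * (u ⬝ᵥ x) - t ^ 2 / 2 * (u ⬝ᵥ x) ^ 2) *
      Real.exp (qf (G + t ^ 2 • vecMulVec u u) x / 2)) := by
  have h1 := h.logcG.mul (fun x => mul_nonneg (h.lcd.nonneg x) (Real.exp_pos _).le)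
    (fun x => (Real.exp_pos _).le) (LogC.exp_linear (lin (t • u)))
  have e : (fun x => f x * Real.exp (t * (u ⬝ᵥ x) - t ^ 2 / 2 * (u ⬝ᵥ x) ^ 2) *
      Real.exp (qf (G + t ^ 2 • vecMulVec u u) x / 2)) =
      fun x => f x * Real.exp (qf G x / 2) * Real.exp (lin (t • u) x) := by
    funext x
    rw [mul_assoc, mul_assoc, ← Real.exp_add, ← Real.exp_add, qf_add, qf_smul, qf_vecMulVec]
    congr 2
    simp only [lin_apply, smul_dotProduct, smul_eq_mul]
    ring
  rw [e]; exact h1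

/-- **the forward move**: normalised tilt curve, defined for small `t` -/
theorem move (h : St f G) (u : Fin m → ℝ) :
    ∃ δ > 0, ∀ t : ℝ, |t| < δ →
      0 < (∫ x, f x * Real.exp (t * (u ⬝ᵥ x) - t ^ 2 / 2 * (u ⬝ᵥ x) ^ 2)) ∧
      St (fun x => (∫ x, f x * Real.exp (t * (u ⬝ᵥ x) - t ^ 2 / 2 * (u ⬝ᵥ x) ^ 2))⁻¹ *
        (f x * Real.exp (t * (u ⬝ᵥ x) - t ^ 2 / 2 * (u ⬝ᵥ x) ^ 2)))
        (G + t ^ 2 • vecMulVec u u) := by
  have hE := h.lcd.eb
  have hl : Continuous (lin u) := LinearMap.continuous_of_finiteDimensional _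
  obtain ⟨L, hL0, hL⟩ : ∃ L : ℝ, 0 ≤ L ∧ ∀ x, |lin u x| ≤ L * (1 + ‖x‖) := by
    set l' : (Fin m → ℝ) →L[ℝ] ℝ := LinearMap.toContinuousLinearMap (lin u)
    refine ⟨‖l'‖, norm_nonneg _, fun x => ?_⟩
    have h1 : ‖l' x‖ ≤ ‖l'‖ * ‖x‖ := l'.le_opNorm x
    have h2 : |lin u x| = ‖l' x‖ := rfl
    rw [h2]
    refine h1.trans ?_
    gcongr
    linarith
  obtain ⟨δ, hδ, hc⟩ := exists_curve_deriv (l := fun x => lin u x)
    (q := fun x => (lin u x) ^ 2) hE hl.measurable hL0 hL
    ((PB.linear (lin u)).pow 2) (fun x => sq_nonneg _)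
  refine ⟨δ, hδ, fun t ht => ?_⟩
  have h1 := (hc (fun _ => 1) (PB.const 1) t ht).1
  simp only [lin_apply] at h1
  have hpos : 0 < ∫ x, f x * Real.exp (t * (u ⬝ᵥ x) - t ^ 2 / 2 * (u ⬝ᵥ x) ^ 2) := by
    rw [integral_pos_iff_support_of_nonneg
      (fun x => mul_nonneg (h.lcd.nonneg x) (Real.exp_pos _).le) h1.integrable]
    have h2 : Function.support (fun x => f x *
        Real.exp (t * (u ⬝ᵥ x) - t ^ 2 / 2 * (u ⬝ᵥ x) ^ 2)) = Function.support f := by
      ext x
      simp [Real.exp_ne_zero]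
    rw [h2, ← integral_pos_iff_support_of_nonneg h.lcd.nonneg h.lcd.integrable, h.lcd.int1]
    exact zero_lt_one
  refine ⟨hpos, ?_⟩
  have hpsd : (G + t ^ 2 • vecMulVec u u).PosSemidef := by
    refine posSemidef_of_qf ?_ fun x => ?_
    · rw [transpose_add, transpose_smul, PosSemidef.transpose_eq h.psd, transpose_vecMulVec]
    · rw [qf_add, qf_smul, qf_vecMulVec]
      have := qf_nonneg h.psd x
      positivity
  refine ⟨⟨?_, ?_, ?_, ?_⟩, hpsd, ?_⟩
  · exact h1.meas.const_mul _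
  · intro x
    exact mul_nonneg (inv_nonneg.mpr hpos.le) (mul_nonneg (h.lcd.nonneg x) (Real.exp_pos _).le)
  · exact (h.logC_move u t).const_mul (inv_nonneg.mpr hpos.le)
      (fun x => mul_nonneg (h.lcd.nonneg x) (Real.exp_pos _).le)
  · rw [integral_const_mul, inv_mul_cancel₀ hpos.ne']
  · have h3 := (h.logCG_move u t).const_mul (inv_nonneg.mpr hpos.le)
      (fun x => mul_nonneg (mul_nonneg (h.lcd.nonneg x) (Real.exp_pos _).le)
        (Real.exp_pos _).le)
    simpa only [mul_assoc] using h3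

end St

end Crest.Agent.R253.BL589
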