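/-
helper999, row 253.  2-jet calculus (Peano second order expansions along a filter), the maximum principle
lemma, and the basic curve `f * exp (t l - t^2 l^2 / 2)`.
-/
import Crest.Agent.R253.SpecCalc_999

set_option autoImplicit false
open Matrix Filter Topology Asymptotics MeasureTheory

namespace Crest.Agent.R253.Jet999

open Crest.Agent.R253.SpecCalc999

/-- `F = a + r b + r² c + o(r²)` along `l` -/
def Jet2 {τ : Type*} (l : Filter τ) (r : τ → ℝ) (F : τ → ℝ) (a b c : ℝ) : Prop :=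
  (fun t => F t - (a + r t * b + r t ^ 2 * c)) =o[l] fun t => r t ^ 2

section basic
variable {τ : Type*} {l : Filter τ} {r : τ → ℝ}

lemma sq_isLittleO (hr : Tendsto r l (𝓝 0)) : (fun t => r t ^ 2) =o[l] r := by
  have : (fun t => r t ^ 2) = fun t => r t * r t := by funext t; ring
  rw [this]
  have h0 : r =o[l] fun _ => (1 : ℝ) := (isLittleO_one_iff ℝ).2 hr
  simpa using h0.mul_isBigO (isBigO_refl r l)

lemma r_isBigO_one (hr : Tendsto r l (𝓝 0)) : r =O[l] fun _ => (1 : ℝ) := hr.isBigO_one ℝ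

lemma Jet2.const (a : ℝ) : Jet2 l r (fun _ => a) a 0 0 := by
  unfold Jet2; simp

lemma Jet2.self : Jet2 l r r 0 1 0 := by
  unfold Jet2; simp

lemma Jet2.self_sq : Jet2 l r (fun t => r t ^ 2) 0 0 1 := by
  unfold Jet2; simp

lemma Jet2.add {F G : τ → ℝ} {a b c a' b' c' : ℝ} (hF : Jet2 l r F a b c) (hG : Jet2 l r G a' b' c') :
    Jet2 l r (fun t => F t + G t) (a + a') (b + b') (c + c') := by
  unfold Jet2 at *
  refine (hF.add hG).congr_left fun t => by ring

lemma Jet2.neg {F : τ → ℝ} {a b c : ℝ} (hF : Jet2 l r F a b c) :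
    Jet2 l r (fun t => - F t) (-a) (-b) (-c) := by
  unfold Jet2 at *
  refine hF.neg_left.congr_left fun t => by ring

lemma Jet2.sub {F G : τ → ℝ} {a b c a' b' c' : ℝ} (hF : Jet2 l r F a b c) (hG : Jet2 l r G a' b' c') :
    Jet2 l r (fun t => F t - G t) (a - a') (b - b') (c - c') := by
  unfold Jet2 at *
  refine (hF.sub hG).congr_left fun t => by ring

lemma Jet2.const_mul {F : τ → ℝ} {a b c : ℝ} (k : ℝ) (hF : Jet2 l r F a b c) :
    Jet2 l r (fun t => k * F t) (k * a) (k * b) (k * c) := by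
  unfold Jet2 at *
  refine (hF.const_mul_left k).congr_left fun t => by ring

lemma Jet2.congr' {F G : τ → ℝ} {a b c : ℝ} (hF : Jet2 l r F a b c) (h : F =ᶠ[l] G) :
    Jet2 l r G a b c := by
  unfold Jet2 at *
  refine hF.congr' ?_ EventuallyEq.rfl
  filter_upwards [h] with t ht
  rw [ht]

lemma Jet2.congr {F G : τ → ℝ} {a b c a' b' c' : ℝ} (hF : Jet2 l r F a b c) (h : ∀ t, F t = G t)
    (ha : a = a') (hb : b = b') (hc : c = c') : Jet2 l r G a' b' c' := by
  subst ha hb hc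
  exact hF.congr' (Eventually.of_forall h)

lemma Jet2.sum {ι : Type*} (s : Finset ι) {F : ι → τ → ℝ} {a b c : ι → ℝ}
    (h : ∀ i ∈ s, Jet2 l r (F i) (a i) (b i) (c i)) :
    Jet2 l r (fun t => ∑ i ∈ s, F i t) (∑ i ∈ s, a i) (∑ i ∈ s, b i) (∑ i ∈ s, c i) := by
  classical
  induction s using Finset.induction_on with
  | empty => simpa using Jet2.const (l := l) (r := r) 0
  | insert i s hi ih =>
    simp only [Finset.sum_insert hi]
    exact (h i (Finset.mem_insert_self _ _)).add (ih fun j hj => h j (Finset.mem_insert_of_mem hj))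

lemma Jet2.sub_isBigO (hr : Tendsto r l (𝓝 0)) {F : τ → ℝ} {a b c : ℝ} (hF : Jet2 l r F a b c) :
    (fun t => F t - a) =O[l] r := by
  have h1 : (fun t => F t - a) = fun t => (F t - (a + r t * b + r t ^ 2 * c)) + (b * r t + c * r t ^ 2) := by
    funext t; ring
  rw [h1]
  refine IsBigO.add ((IsLittleO.isBigO hF).trans (sq_isLittleO hr).isBigO) ?_
  exact ((isBigO_refl r l).const_mul_left b).add ((sq_isLittleO hr).isBigO.const_mul_left c)

lemma Jet2.tendsto (hr : Tendsto r l (𝓝 0)) {F : τ → ℝ} {a b c : ℝ} (hF : Jet2 l r F a b c) :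
    Tendsto F l (𝓝 a) := by
  have h := (hF.sub_isBigO hr).trans_tendsto hr
  have h2 := h.add_const a
  rw [zero_add] at h2
  exact h2.congr fun t => by ring

lemma Jet2.isBigO_one (hr : Tendsto r l (𝓝 0)) {F : τ → ℝ} {a b c : ℝ} (hF : Jet2 l r F a b c) :
    F =O[l] fun _ => (1 : ℝ) := (hF.tendsto hr).isBigO_one ℝ

lemma Jet2.mul (hr : Tendsto r l (𝓝 0)) {F G : τ → ℝ} {a b c a' b' c' : ℝ}
    (hF : Jet2 l r F a b c) (hG : Jet2 l r G a' b' c') :
    Jet2 l r (fun t => F t * G t) (a * a') (a * b' + b * a') (a * c' + b * b' + c * a') := by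
  have hG1 := hG.isBigO_one hr
  have hP : Tendsto (fun t => a + r t * b + r t ^ 2 * c) l (𝓝 (a + 0 * b + 0 ^ 2 * c)) :=
    ((tendsto_const_nhds.add (hr.mul_const b)).add ((hr.pow 2).mul_const c))
  have hP1 : (fun t => a + r t * b + r t ^ 2 * c) =O[l] fun _ => (1 : ℝ) := hP.isBigO_one ℝ
  have h3 : (fun t => r t ^ 2 * (r t * (b * c' + c * b') + r t ^ 2 * (c * c'))) =o[l] fun t => r t ^ 2 := by
    have h0 : Tendsto (fun t => r t * (b * c' + c * b') + r t ^ 2 * (c * c')) l (𝓝 0) := by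
      have := (hr.mul_const (b * c' + c * b')).add ((hr.pow 2).mul_const (c * c'))
      simpa using this
    have h1 : (fun t => r t * (b * c' + c * b') + r t ^ 2 * (c * c')) =o[l] fun _ => (1 : ℝ) :=
      (isLittleO_one_iff ℝ).2 h0
    simpa using (isBigO_refl (fun t => r t ^ 2) l).mul_isLittleO h1
  unfold Jet2 at *
  have e : (fun t => F t * G t - (a * a' + r t * (a * b' + b * a') + r t ^ 2 * (a * c' + b * b' + c * a')))
      = fun t => (F t - (a + r t * b + r t ^ 2 * c)) * G t +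
        (a + r t * b + r t ^ 2 * c) * (G t - (a' + r t * b' + r t ^ 2 * c')) +
        r t ^ 2 * (r t * (b * c' + c * b') + r t ^ 2 * (c * c')) := by
    funext t; ring
  rw [e]
  refine IsLittleO.add (IsLittleO.add ?_ ?_) h3
  · simpa using hF.mul_isBigO hG1
  · simpa using hP1.mul_isLittleO hG

/-- composition with a Peano-twice differentiable function -/
lemma Jet2.comp (hr : Tendsto r l (𝓝 0)) {F : τ → ℝ} {a b c : ℝ} (hF : Jet2 l r F a b c)
    {f f' f'' : ℝ → ℝ} {I : Set ℝ} (hp : Peano2 f f' f'' I a) (hI : ∀ᶠ t in l, F t ∈ I) :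
    Jet2 l r (fun t => f (F t)) (f a) (f' a * b) (f' a * c + f'' a / 2 * b ^ 2) := by
  have hFI : Tendsto F l (𝓝[I] a) := tendsto_nhdsWithin_iff.2 ⟨hF.tendsto hr, hI⟩
  have h1 : (fun t => f (F t) - f a - f' a * (F t - a) - f'' a / 2 * (F t - a) ^ 2) =o[l]
      fun t => r t ^ 2 := by
    have h2 := hp.comp_tendsto hFI
    refine IsLittleO.trans_isBigO h2 ?_
    have := (hF.sub_isBigO hr).mul (hF.sub_isBigO hr)
    have e : (fun t => r t ^ 2) = fun t => r t * r t := by funext t; ring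
    rw [e]
    refine this.congr_left fun t => ?_
    simp [Function.comp, pow_two]
  have h3 : Jet2 l r (fun t => F t - a) 0 b c :=
    (hF.sub (Jet2.const a)).congr (fun t => rfl) (by ring) (by ring) (by ring)
  have h4 : Jet2 l r (fun t => (F t - a) ^ 2) 0 0 (b ^ 2) :=
    (h3.mul hr h3).congr (fun t => by ring) (by ring) (by ring) (by ring)
  have h5 := ((Jet2.const (l := l) (r := r) (f a)).add (h3.const_mul (f' a))).add (h4.const_mul (f'' a / 2))
  unfold Jet2 at *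
  refine (h1.add h5).congr_left fun t => ?_
  ring

end basic

/-- Taylor-Young -/
lemma peano2_of_deriv {f f' f'' : ℝ → ℝ} {I : Set ℝ} (hI : Convex ℝ I) {a : ℝ} (ha : a ∈ I)
    (h1 : ∀ x ∈ I, HasDerivWithinAt f (f' x) I x) (h2 : HasDerivWithinAt f' (f'' a) I a) :
    Peano2 f f' f'' I a := by
  have hlo : (fun x => f' x - f' a - f'' a * (x - a)) =o[𝓝[I] a] fun x => (x - a) ^ 1 := by
    have := h2.isLittleO
    simp only [pow_one]
    refine this.congr_left fun x => ?_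
    simp; ring
  have h := hI.isLittleO_pow_succ_real (f := fun x => f x - f' a * (x - a) - f'' a / 2 * (x - a) ^ 2)
    (f' := fun x => f' x - f' a - f'' a * (x - a)) ha (n := 1) ?_ hlo
  · unfold Peano2
    refine h.congr (fun x => ?_) (fun x => ?_)
    · simp; ring
    · norm_num
  · intro x hx
    have e1 : HasDerivWithinAt (fun x => f' a * (x - a)) (f' a) I x := by
      have := ((hasDerivWithinAt_id x I).sub_const a).const_mul (f' a)
      simpa using this
    have e2 : HasDerivWithinAt (fun x => f'' a / 2 * (x - a) ^ 2) (f'' a * (x - a)) I x := by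
      have := (((hasDerivWithinAt_id x I).sub_const a).pow 2).const_mul (f'' a / 2)
      refine this.congr_deriv ?_
      simp; ring
    exact (((h1 x hx).sub e1).sub e2)

lemma peano2_univ {f f' f'' : ℝ → ℝ} {I : Set ℝ} {a : ℝ} {U : Set ℝ} (hU : U ∈ 𝓝 a) (hUc : Convex ℝ U)
    (h1 : ∀ x ∈ U, HasDerivAt f (f' x) x) (h2 : HasDerivAt f' (f'' a) a) :
    Peano2 f f' f'' I a := by
  have h := peano2_of_deriv (f := f) (f' := f') (f'' := f'') hUc (mem_of_mem_nhds hU)
    (fun x hx => (h1 x hx).hasDerivWithinAt) h2.hasDerivWithinAt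
  unfold Peano2 at *
  rw [nhdsWithin_eq_nhds.2 hU] at h
  exact h.mono nhdsWithin_le_nhds

section inst
variable {τ : Type*} {l : Filter τ} {r : τ → ℝ}

lemma Jet2.inv (hr : Tendsto r l (𝓝 0)) {F : τ → ℝ} {a b c : ℝ} (hF : Jet2 l r F a b c) (ha : a ≠ 0) :
    Jet2 l r (fun t => (F t)⁻¹) a⁻¹ (-(b / a ^ 2)) (-(c / a ^ 2) + b ^ 2 / a ^ 3) := by
  have hp : Peano2 (fun x : ℝ => x⁻¹) (fun x => -(x ^ 2)⁻¹) (fun x => 2 * (x ^ 3)⁻¹) Set.univ a := by
    have hU : Metric.ball a |a| ∈ 𝓝 a := Metric.ball_mem_nhds _ (abs_pos.2 ha)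
    refine peano2_univ hU (convex_ball _ _) ?_ ?_
    · intro x hx
      have hx0 : x ≠ 0 := by
        rintro rfl
        simp [Real.dist_eq] at hx
      exact hasDerivAt_inv hx0
    · have h1 : HasDerivAt (fun x : ℝ => (x ^ 2)⁻¹) (-(2 * a) / (a ^ 2) ^ 2) a := by
        have h := HasDerivAt.fun_inv (hasDerivAt_pow 2 a) (pow_ne_zero 2 ha)
        simpa using h
      refine h1.neg.congr_deriv ?_
      field_simp
  refine (hF.comp hr hp (Eventually.of_forall fun _ => Set.mem_univ _)).congr (fun t => rfl) rfl ?_ ?_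
  · field_simp
  · field_simp

lemma Jet2.div (hr : Tendsto r l (𝓝 0)) {F G : τ → ℝ} {a b c a' b' c' : ℝ}
    (hF : Jet2 l r F a b c) (hG : Jet2 l r G a' b' c') (ha : a' ≠ 0) :
    Jet2 l r (fun t => F t / G t) (a / a') (b / a' - a * b' / a' ^ 2)
      (c / a' - b * b' / a' ^ 2 - a * c' / a' ^ 2 + a * b' ^ 2 / a' ^ 3) := by
  refine (hF.mul hr (hG.inv hr ha)).congr (fun t => by rw [div_eq_mul_inv]) (by rw [div_eq_mul_inv]) ?_ ?_
  · field_simp; ring
  · field_simp; ring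

lemma Jet2.log (hr : Tendsto r l (𝓝 0)) {F : τ → ℝ} {a b c : ℝ} (hF : Jet2 l r F a b c) (ha : 0 < a) :
    Jet2 l r (fun t => Real.log (F t)) (Real.log a) (b / a) (c / a - b ^ 2 / (2 * a ^ 2)) := by
  have hp : Peano2 Real.log (fun x => x⁻¹) (fun x => -(x ^ 2)⁻¹) Set.univ a := by
    refine peano2_univ (Ioi_mem_nhds ha) (convex_Ioi 0) ?_ (hasDerivAt_inv ha.ne')
    intro x hx
    exact Real.hasDerivAt_log (ne_of_gt hx)
  refine (hF.comp hr hp (Eventually.of_forall fun _ => Set.mem_univ _)).congr (fun t => rfl) rfl ?_ ?_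
  · field_simp
  · field_simp; ring

lemma Jet2.exp (hr : Tendsto r l (𝓝 0)) {F : τ → ℝ} {a b c : ℝ} (hF : Jet2 l r F a b c) :
    Jet2 l r (fun t => Real.exp (F t)) (Real.exp a) (Real.exp a * b) (Real.exp a * (c + b ^ 2 / 2)) := by
  have hp : Peano2 Real.exp Real.exp Real.exp Set.univ a :=
    peano2_univ (U := Set.univ) univ_mem convex_univ (fun x _ => Real.hasDerivAt_exp x)
      (Real.hasDerivAt_exp a)
  refine (hF.comp hr hp (Eventually.of_forall fun _ => Set.mem_univ _)).congr (fun t => rfl) rfl rfl ?_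
  ring

end inst

/-- The maximum principle: a function with a 2-jet at `0` (two-sided) that is `≤` its value has `b = 0`
and `c ≤ 0`. -/
lemma Jet2.max_principle {F : ℝ → ℝ} {a b c : ℝ} (hF : Jet2 (𝓝[≠] (0 : ℝ)) (fun t => t) F a b c)
    (hmax : ∀ᶠ t in 𝓝[≠] (0 : ℝ), F t ≤ a) : b = 0 ∧ c ≤ 0 := by
  have hr : Tendsto (fun t : ℝ => t) (𝓝[≠] (0 : ℝ)) (𝓝 0) := nhdsWithin_le_nhds
  -- error quotient
  have hq : Tendsto (fun t : ℝ => (F t - (a + t * b + t ^ 2 * c)) / t ^ 2) (𝓝[≠] (0 : ℝ)) (𝓝 0) := by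
    refine (isLittleO_iff_tendsto' ?_).1 hF
    filter_upwards [self_mem_nhdsWithin] with t ht h0
    exact absurd (pow_eq_zero_iff (two_ne_zero) |>.1 h0) ht
  -- b + t c + t q(t)  has sign
  have hb' : Tendsto (fun t : ℝ => b + t * c + t * ((F t - (a + t * b + t ^ 2 * c)) / t ^ 2))
      (𝓝[≠] (0 : ℝ)) (𝓝 b) := by
    have := (tendsto_const_nhds (x := b)).add (hr.mul_const c) |>.add (hr.mul hq)
    simpa using this
  have key : ∀ᶠ t in 𝓝[≠] (0 : ℝ), t * (b + t * c + t * ((F t - (a + t * b + t ^ 2 * c)) / t ^ 2)) ≤ 0 := by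
    filter_upwards [hmax, self_mem_nhdsWithin] with t ht ht0
    have ht0' : t ≠ 0 := ht0
    have e : t * (b + t * c + t * ((F t - (a + t * b + t ^ 2 * c)) / t ^ 2)) = F t - a := by
      field_simp; ring
    rw [e]; linarith
  have hpos : b ≤ 0 := by
    have h1 : Tendsto (fun t : ℝ => b + t * c + t * ((F t - (a + t * b + t ^ 2 * c)) / t ^ 2))
      (𝓝[>] (0 : ℝ)) (𝓝 b) := hb'.mono_left (nhdsWithin_mono _ (fun t ht => ne_of_gt ht))
    have h2 : ∀ᶠ t in 𝓝[>] (0 : ℝ), t * (b + t * c + t * ((F t - (a + t * b + t ^ 2 * c)) / t ^ 2)) ≤ 0 :=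
      key.filter_mono (nhdsWithin_mono _ (fun t ht => ne_of_gt ht))
    refine le_of_tendsto h1 ?_
    filter_upwards [h2, self_mem_nhdsWithin] with t ht ht0
    have ht0' : 0 < t := ht0
    by_contra hcon
    push Not at hcon
    have := mul_pos ht0' hcon
    linarith
  have hneg : 0 ≤ b := by
    have h1 : Tendsto (fun t : ℝ => b + t * c + t * ((F t - (a + t * b + t ^ 2 * c)) / t ^ 2))
      (𝓝[<] (0 : ℝ)) (𝓝 b) := hb'.mono_left (nhdsWithin_mono _ (fun t ht => ne_of_lt ht))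
    have h2 : ∀ᶠ t in 𝓝[<] (0 : ℝ), t * (b + t * c + t * ((F t - (a + t * b + t ^ 2 * c)) / t ^ 2)) ≤ 0 :=
      key.filter_mono (nhdsWithin_mono _ (fun t ht => ne_of_lt ht))
    refine ge_of_tendsto h1 ?_
    filter_upwards [h2, self_mem_nhdsWithin] with t ht ht0
    have ht0' : t < 0 := ht0
    by_contra hcon
    push Not at hcon
    have := mul_pos_of_neg_of_neg ht0' hcon
    linarith
  have hb0 : b = 0 := le_antisymm hpos hneg
  refine ⟨hb0, ?_⟩
  have h3 : Tendsto (fun t : ℝ => c + (F t - (a + t * b + t ^ 2 * c)) / t ^ 2) (𝓝[≠] (0 : ℝ)) (𝓝 c) := by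
    have := (tendsto_const_nhds (x := c)).add hq
    simpa using this
  refine le_of_tendsto h3 ?_
  filter_upwards [hmax, self_mem_nhdsWithin] with t ht ht0
  have ht0' : t ≠ 0 := ht0
  have e : c + (F t - (a + t * b + t ^ 2 * c)) / t ^ 2 = (F t - a) / t ^ 2 := by
    rw [hb0]; field_simp; ring
  rw [e]
  exact div_nonpos_of_nonpos_of_nonneg (by linarith) (by positivity)

/-- `|exp (a - a²/2) - 1 - a| ≤ 28 |a|³` for every real `a` -/
lemma phi_bound (a : ℝ) : |Real.exp (a - a ^ 2 / 2) - 1 - a| ≤ 28 * |a| ^ 3 := by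
  by_cases ha : |a| ≤ 1 / 2
  · have ha' := abs_le.1 ha
    set w := a - a ^ 2 / 2 with hw
    have hw1 : |w| ≤ |a| * (5 / 4) := by
      have : w = a * (1 - a / 2) := by rw [hw]; ring
      rw [this, abs_mul]
      refine mul_le_mul_of_nonneg_left ?_ (abs_nonneg _)
      rw [abs_le]; constructor <;> linarith [ha'.1, ha'.2]
    have hw2 : |w| ≤ 1 := by nlinarith
    have h := Real.exp_bound hw2 (n := 3) (by norm_num)
    have hs : ∑ m ∈ Finset.range 3, w ^ m / (m.factorial : ℝ) = 1 + w + w ^ 2 / 2 := by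
      simp [Finset.sum_range_succ, Nat.factorial]
    rw [hs] at h
    have h3 : |w| ^ 3 * (((3 : ℕ).succ : ℝ) / (((3 : ℕ).factorial : ℝ) * ((3 : ℕ) : ℝ))) ≤ |a| ^ 3 := by
      have hw3 : |w| ^ 3 ≤ (|a| * (5 / 4)) ^ 3 := pow_le_pow_left₀ (abs_nonneg _) hw1 3
      have e : (((3 : ℕ).succ : ℝ) / (((3 : ℕ).factorial : ℝ) * ((3 : ℕ) : ℝ))) = 2 / 9 := by
        norm_num [Nat.factorial]
      rw [e]
      have h0 : 0 ≤ |a| ^ 3 := by positivity
      nlinarith [hw3, h0]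
    have h4 : 1 + w + w ^ 2 / 2 = 1 + a - a ^ 3 / 2 + a ^ 4 / 8 := by rw [hw]; ring
    have h5 : Real.exp w - 1 - a = (Real.exp w - (1 + w + w ^ 2 / 2)) + (- a ^ 3 / 2 + a ^ 4 / 8) := by
      rw [h4]; ring
    rw [h5]
    have h6 : |(- a ^ 3 / 2 + a ^ 4 / 8)| ≤ |a| ^ 3 := by
      have : (- a ^ 3 / 2 + a ^ 4 / 8) = a ^ 3 * (-1 / 2 + a / 8) := by ring
      rw [this, abs_mul, abs_pow]
      have h7 : |(-1 / 2 + a / 8)| ≤ 1 := by
        rw [abs_le]; constructor <;> linarith [ha'.1, ha'.2]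
      calc |a| ^ 3 * |(-1 / 2 + a / 8)| ≤ |a| ^ 3 * 1 := mul_le_mul_of_nonneg_left h7 (by positivity)
        _ = |a| ^ 3 := mul_one _
    calc |(Real.exp w - (1 + w + w ^ 2 / 2)) + (- a ^ 3 / 2 + a ^ 4 / 8)|
        ≤ |Real.exp w - (1 + w + w ^ 2 / 2)| + |(- a ^ 3 / 2 + a ^ 4 / 8)| := abs_add_le _ _
      _ ≤ |a| ^ 3 + |a| ^ 3 := add_le_add (h.trans h3) h6
      _ ≤ 28 * |a| ^ 3 := by nlinarith [pow_nonneg (abs_nonneg a) 3]
  · push Not at ha
    have h1 : Real.exp (a - a ^ 2 / 2) ≤ 2 := by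
      have h2 : a - a ^ 2 / 2 ≤ 1 / 2 := by nlinarith [sq_nonneg (a - 1)]
      have h3 : Real.exp (a - a ^ 2 / 2) ≤ Real.exp (1 / 2) := Real.exp_le_exp.2 h2
      have h4 : Real.exp (1 / 2) ≤ 2 := by
        have h5 : Real.exp (1 / 2) ^ 2 = Real.exp 1 := by
          rw [← Real.exp_nat_mul]; norm_num
        have h6 := Real.exp_one_lt_d9
        have h7 := Real.exp_pos (1 / 2)
        nlinarith
      linarith
    have h0 := Real.exp_pos (a - a ^ 2 / 2)
    have h2 : |Real.exp (a - a ^ 2 / 2) - 1 - a| ≤ 3 + |a| := by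
      rw [abs_le]
      constructor <;> [nlinarith [neg_abs_le a, le_abs_self a]; nlinarith [neg_abs_le a, le_abs_self a]]
    have h3 : (1 : ℝ) ≤ 8 * |a| ^ 3 := by
      have : (1 / 2 : ℝ) ^ 3 ≤ |a| ^ 3 := pow_le_pow_left₀ (by norm_num) ha.le 3
      norm_num at this; linarith
    have h4 : |a| ≤ 4 * |a| ^ 3 := by
      have : (1 / 2 : ℝ) ^ 2 ≤ |a| ^ 2 := pow_le_pow_left₀ (by norm_num) ha.le 2
      have h5 : 0 < |a| := by linarith
      have : |a| * (1 / 4) ≤ |a| * |a| ^ 2 := mul_le_mul_of_nonneg_left (by norm_num at this ⊢; linarith) h5.le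
      nlinarith
    linarith

/-- the basic curve: `∫ g exp(r l - r² l²/2) = ∫ g + r ∫ g l + o(r²)` as soon as `g`, `g l`, `g |l|³` are
integrable. -/
theorem Jet2.curve {α : Type*} [MeasurableSpace α] {μ : Measure α} {τ : Type*} {lf : Filter τ} {r : τ → ℝ}
    (hr : Tendsto r lf (𝓝 0)) {g ℓ : α → ℝ} (hℓ : AEStronglyMeasurable ℓ μ) (hg : Integrable g μ)
    (hgl : Integrable (fun x => g x * ℓ x) μ) (hg3 : Integrable (fun x => |g x| * |ℓ x| ^ 3) μ) :
    Jet2 lf r (fun t => ∫ x, g x * Real.exp (r t * ℓ x - r t ^ 2 * ℓ x ^ 2 / 2) ∂μ)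
      (∫ x, g x ∂μ) (∫ x, g x * ℓ x ∂μ) 0 := by
  have hint : ∀ c : ℝ, Integrable (fun x => g x * Real.exp (c * ℓ x - c ^ 2 * ℓ x ^ 2 / 2)) μ := by
    intro c
    have hm : AEStronglyMeasurable (fun x => Real.exp (c * ℓ x - c ^ 2 * ℓ x ^ 2 / 2)) μ := by
      have hc : Continuous (fun y : ℝ => Real.exp (c * y - c ^ 2 * y ^ 2 / 2)) := by fun_prop
      exact hc.comp_aestronglyMeasurable hℓ
    refine hg.mul_bdd (c := Real.exp (1 / 2)) hm (Eventually.of_forall fun x => ?_)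
    rw [Real.norm_eq_abs, abs_of_pos (Real.exp_pos _)]
    apply Real.exp_le_exp.2
    nlinarith [sq_nonneg (c * ℓ x - 1)]
  have hbound : ∀ t, |(∫ x, g x * Real.exp (r t * ℓ x - r t ^ 2 * ℓ x ^ 2 / 2) ∂μ) -
      (∫ x, g x ∂μ + r t * ∫ x, g x * ℓ x ∂μ + r t ^ 2 * 0)| ≤
      28 * (∫ x, |g x| * |ℓ x| ^ 3 ∂μ) * |r t| ^ 3 := by
    intro t
    have e1 : (∫ x, g x * Real.exp (r t * ℓ x - r t ^ 2 * ℓ x ^ 2 / 2) ∂μ) -
      (∫ x, g x ∂μ + r t * ∫ x, g x * ℓ x ∂μ + r t ^ 2 * 0) =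
        ∫ x, g x * (Real.exp (r t * ℓ x - (r t * ℓ x) ^ 2 / 2) - 1 - r t * ℓ x) ∂μ := by
      have e2 : ∀ x, g x * (Real.exp (r t * ℓ x - (r t * ℓ x) ^ 2 / 2) - 1 - r t * ℓ x) =
          g x * Real.exp (r t * ℓ x - r t ^ 2 * ℓ x ^ 2 / 2) - g x - r t * (g x * ℓ x) := by
        intro x; rw [mul_pow]; ring
      simp only [e2]
      have i1 : Integrable (fun x => g x * Real.exp (r t * ℓ x - r t ^ 2 * ℓ x ^ 2 / 2) - g x) μ :=
        (hint _).sub hg
      rw [integral_sub i1 (hgl.const_mul _), integral_sub (hint _) hg,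
        integral_const_mul]
      ring
    rw [e1]
    calc |∫ x, g x * (Real.exp (r t * ℓ x - (r t * ℓ x) ^ 2 / 2) - 1 - r t * ℓ x) ∂μ|
        ≤ ∫ x, |g x * (Real.exp (r t * ℓ x - (r t * ℓ x) ^ 2 / 2) - 1 - r t * ℓ x)| ∂μ :=
          abs_integral_le_integral_abs
      _ ≤ ∫ x, 28 * |r t| ^ 3 * (|g x| * |ℓ x| ^ 3) ∂μ := by
          refine integral_mono_of_nonneg (Eventually.of_forall fun x => abs_nonneg _)
            (hg3.const_mul _) (Eventually.of_forall fun x => ?_)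
          simp only
          rw [abs_mul]
          have := phi_bound (r t * ℓ x)
          rw [abs_mul (r t) (ℓ x), mul_pow |r t| |ℓ x| 3] at this
          calc |g x| * |Real.exp (r t * ℓ x - (r t * ℓ x) ^ 2 / 2) - 1 - r t * ℓ x|
              ≤ |g x| * (28 * (|r t| ^ 3 * |ℓ x| ^ 3)) := mul_le_mul_of_nonneg_left this (abs_nonneg _)
            _ = _ := by ring
      _ = _ := by rw [integral_const_mul]; ring
  unfold Jet2
  have hO : (fun t => (∫ x, g x * Real.exp (r t * ℓ x - r t ^ 2 * ℓ x ^ 2 / 2) ∂μ) -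
      (∫ x, g x ∂μ + r t * ∫ x, g x * ℓ x ∂μ + r t ^ 2 * 0)) =O[lf] fun t => |r t| ^ 3 := by
    refine IsBigO.of_bound (28 * (∫ x, |g x| * |ℓ x| ^ 3 ∂μ)) (Eventually.of_forall fun t => ?_)
    rw [Real.norm_eq_abs, Real.norm_eq_abs, abs_of_nonneg (by positivity : 0 ≤ |r t| ^ 3)]
    exact hbound t
  refine hO.trans_isLittleO ?_
  have e : (fun t => |r t| ^ 3) = fun t => |r t| ^ 2 * |r t| := by funext t; ring
  rw [e]
  have h1 : (fun t => |r t|) =o[lf] fun _ => (1 : ℝ) := by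
    rw [isLittleO_one_iff]
    simpa using hr.abs
  have h2 : (fun t => |r t| ^ 2) =O[lf] fun t => r t ^ 2 := by
    refine (isBigO_refl _ _).congr_left fun t => ?_
    rw [sq_abs]
  simpa using h2.mul_isLittleO h1

end Crest.Agent.R253.Jet999
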