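/-
helper999, row 253.  Matrix 2-jets.
-/
import Crest.Agent.R253.Jet_999

set_option autoImplicit false
open Matrix Filter Topology Asymptotics

namespace Crest.Agent.R253.MJet999

open Crest.Agent.R253.SpecCalc999 Crest.Agent.R253.Jet999

variable {m p q n : ℕ} {τ : Type*} {l : Filter τ} {r : τ → ℝ}

/-- entrywise 2-jet of a matrix valued function -/
def MJet2 (l : Filter τ) (r : τ → ℝ) (S : τ → Matrix (Fin p) (Fin q) ℝ)
    (A B C : Matrix (Fin p) (Fin q) ℝ) : Prop :=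
  ∀ i j, Jet2 l r (fun t => S t i j) (A i j) (B i j) (C i j)

lemma MJet2.const (A : Matrix (Fin p) (Fin q) ℝ) : MJet2 l r (fun _ => A) A 0 0 := fun _ _ => Jet2.const _

lemma MJet2.add {S T : τ → Matrix (Fin p) (Fin q) ℝ} {A B C A' B' C' : Matrix (Fin p) (Fin q) ℝ}
    (hS : MJet2 l r S A B C) (hT : MJet2 l r T A' B' C') :
    MJet2 l r (fun t => S t + T t) (A + A') (B + B') (C + C') := fun i j => (hS i j).add (hT i j)

lemma MJet2.sub {S T : τ → Matrix (Fin p) (Fin q) ℝ} {A B C A' B' C' : Matrix (Fin p) (Fin q) ℝ}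
    (hS : MJet2 l r S A B C) (hT : MJet2 l r T A' B' C') :
    MJet2 l r (fun t => S t - T t) (A - A') (B - B') (C - C') := fun i j => (hS i j).sub (hT i j)

lemma MJet2.neg {S : τ → Matrix (Fin p) (Fin q) ℝ} {A B C : Matrix (Fin p) (Fin q) ℝ}
    (hS : MJet2 l r S A B C) : MJet2 l r (fun t => - S t) (-A) (-B) (-C) := fun i j => (hS i j).neg

lemma MJet2.const_smul {S : τ → Matrix (Fin p) (Fin q) ℝ} {A B C : Matrix (Fin p) (Fin q) ℝ} (k : ℝ)
    (hS : MJet2 l r S A B C) : MJet2 l r (fun t => k • S t) (k • A) (k • B) (k • C) :=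
  fun i j => (hS i j).const_mul k

lemma MJet2.smul (hr : Tendsto r l (𝓝 0)) {F : τ → ℝ} {a b c : ℝ} (hF : Jet2 l r F a b c)
    {S : τ → Matrix (Fin p) (Fin q) ℝ} {A B C : Matrix (Fin p) (Fin q) ℝ}
    (hS : MJet2 l r S A B C) :
    MJet2 l r (fun t => F t • S t) (a • A) (a • B + b • A) (a • C + b • B + c • A) :=
  fun i j => (hF.mul hr (hS i j))

lemma MJet2.transpose {S : τ → Matrix (Fin p) (Fin q) ℝ} {A B C : Matrix (Fin p) (Fin q) ℝ}
    (hS : MJet2 l r S A B C) : MJet2 l r (fun t => (S t)ᵀ) Aᵀ Bᵀ Cᵀ := fun i j => hS j i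

lemma MJet2.congr {S T : τ → Matrix (Fin p) (Fin q) ℝ} {A B C A' B' C' : Matrix (Fin p) (Fin q) ℝ}
    (hS : MJet2 l r S A B C) (h : ∀ t, S t = T t) (ha : A = A') (hb : B = B') (hc : C = C') :
    MJet2 l r T A' B' C' := by
  subst ha hb hc
  intro i j
  exact (hS i j).congr (fun t => by rw [h t]) rfl rfl rfl

lemma MJet2.congr' {S T : τ → Matrix (Fin p) (Fin q) ℝ} {A B C : Matrix (Fin p) (Fin q) ℝ}
    (hS : MJet2 l r S A B C) (h : S =ᶠ[l] T) : MJet2 l r T A B C := by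
  intro i j
  refine (hS i j).congr' ?_
  filter_upwards [h] with t ht
  rw [ht]

lemma MJet2.mul (hr : Tendsto r l (𝓝 0)) {S : τ → Matrix (Fin p) (Fin q) ℝ}
    {T : τ → Matrix (Fin q) (Fin n) ℝ} {A B C : Matrix (Fin p) (Fin q) ℝ}
    {A' B' C' : Matrix (Fin q) (Fin n) ℝ} (hS : MJet2 l r S A B C) (hT : MJet2 l r T A' B' C') :
    MJet2 l r (fun t => S t * T t) (A * A') (A * B' + B * A') (A * C' + B * B' + C * A') := by
  intro i j
  have h := Jet2.sum (l := l) (r := r) Finset.univ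
    (fun k (_ : k ∈ (Finset.univ : Finset (Fin q))) => (hS i k).mul hr (hT k j))
  refine h.congr (fun t => ?_) ?_ ?_ ?_
  · exact (Matrix.mul_apply (M := S t) (N := T t)).symm
  · rw [Matrix.mul_apply]
  · simp only [Matrix.add_apply, Matrix.mul_apply, Finset.sum_add_distrib]
  · simp only [Matrix.add_apply, Matrix.mul_apply, Finset.sum_add_distrib]

lemma MJet2.trace {S : τ → Mat m} {A B C : Mat m} (hS : MJet2 l r S A B C) :
    Jet2 l r (fun t => (S t).trace) A.trace B.trace C.trace := by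
  have h := Jet2.sum (l := l) (r := r) Finset.univ
    (fun k (_ : k ∈ (Finset.univ : Finset (Fin m))) => hS k k)
  exact h.congr (fun t => rfl) rfl rfl rfl

lemma MJet2.tendsto (hr : Tendsto r l (𝓝 0)) {S : τ → Matrix (Fin p) (Fin q) ℝ}
    {A B C : Matrix (Fin p) (Fin q) ℝ} (hS : MJet2 l r S A B C) : Tendsto S l (𝓝 A) :=
  tendsto_pi_nhds.2 fun i => tendsto_pi_nhds.2 fun j => (hS i j).tendsto hr

/-- eigenvalues of a matrix close to a diagonal matrix are close to the diagonal entries (Gershgorin) -/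
lemma spectrum_near_diag {S : τ → Mat m} {s : Fin m → ℝ}
    (h : ∀ i j, Tendsto (fun t => S t i j) l (𝓝 ((Matrix.diagonal s : Mat m) i j))) {ε : ℝ} (hε : 0 < ε) :
    ∀ᶠ t in l, ∀ lam ∈ spectrum ℝ (S t), ∃ i, |lam - s i| < ε := by
  have h1 : ∀ᶠ t in l, ∀ i j, |S t i j - (Matrix.diagonal s : Mat m) i j| < ε / (m + 1) := by
    rw [eventually_all]; intro i
    rw [eventually_all]; intro j
    have := (Metric.tendsto_nhds.1 (h i j)) (ε / (m + 1)) (by positivity)
    simpa [Real.dist_eq] using this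
  filter_upwards [h1] with t ht lam hlam
  rw [← Matrix.spectrum_toLin', ← Module.End.hasEigenvalue_iff_mem_spectrum] at hlam
  obtain ⟨k, hk⟩ := eigenvalue_mem_ball hlam
  refine ⟨k, ?_⟩
  rw [Metric.mem_closedBall, Real.dist_eq] at hk
  have h2 : ∑ j ∈ Finset.univ.erase k, ‖S t k j‖ ≤ (m - 1 : ℝ) * (ε / (m + 1)) := by
    have h3 : ∀ j ∈ Finset.univ.erase k, ‖S t k j‖ ≤ ε / (m + 1) := by
      intro j hj
      have := ht k j
      rw [Matrix.diagonal_apply_ne' _ (Finset.ne_of_mem_erase hj), sub_zero] at this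
      exact this.le
    refine (Finset.sum_le_card_nsmul _ _ _ h3).trans ?_
    rw [Finset.card_erase_of_mem (Finset.mem_univ _), Finset.card_univ, Fintype.card_fin, nsmul_eq_mul]
    have hm : 1 ≤ m := Nat.one_le_iff_ne_zero.2 (fun h0 => by subst h0; exact k.elim0)
    rw [Nat.cast_sub hm]; simp
  have h4 := ht k k
  rw [Matrix.diagonal_apply_eq] at h4
  have h5 : |lam - s k| ≤ |lam - S t k k| + |S t k k - s k| := by
    have : lam - s k = (lam - S t k k) + (S t k k - s k) := by ring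
    rw [this]; exact abs_add_le _ _
  have hm0 : (0 : ℝ) < (m : ℝ) + 1 := by positivity
  have h6 : (m - 1 : ℝ) * (ε / (m + 1)) + ε / (m + 1) < ε := by
    have : (m - 1 : ℝ) * (ε / (m + 1)) + ε / (m + 1) = ε * (m / (m + 1)) := by field_simp; ring
    rw [this]
    have : (m : ℝ) / (m + 1) < 1 := by rw [div_lt_one hm0]; linarith
    nlinarith
  linarith

/-- matrix 2-jet of the functional calculus at a diagonal base point -/
theorem MJet2.cfc (hr : Tendsto r l (𝓝 0)) {S : τ → Mat m} {s : Fin m → ℝ} {X Y : Mat m}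
    (hS : MJet2 l r S (Matrix.diagonal s) X Y) {I : Set ℝ} (hI : IsCompact I) (hs : ∀ i, s i ∈ I)
    {f f' f'' : ℝ → ℝ} (hf : ContinuousOn f I) (hp : ∀ i, Peano2 f f' f'' I (s i))
    (hH : ∀ᶠ t in l, (S t).IsHermitian ∧ spectrum ℝ (S t) ⊆ I) :
    MJet2 l r (fun t => cfc f (S t)) (Matrix.diagonal fun i => f (s i))
      (Matrix.of fun i k => dd1 f f' (s i) (s k) * X i k)
      (Matrix.of fun i k => dd1 f f' (s i) (s k) * Y i k +
        ∑ j, dd2 f f' f'' (s i) (s j) (s k) * X i j * X j k) := by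
  intro i k
  have h := cfc_taylor2 hr hI hs hf hp hH hS i k
  unfold Jet2
  refine h.congr_left fun t => ?_
  have e : (Matrix.diagonal (fun i => f (s i)) : Mat m) i k = f (s k) * (if i = k then 1 else 0) := by
    rw [Matrix.diagonal_apply]
    split_ifs with h
    · subst h; ring
    · ring
  rw [e]
  simp only [Matrix.of_apply]

/-- 2-jet of `tr f(S_t)` -/
theorem MJet2.trace_cfc (hr : Tendsto r l (𝓝 0)) {S : τ → Mat m} {s : Fin m → ℝ} {X Y : Mat m}
    (hS : MJet2 l r S (Matrix.diagonal s) X Y) {I : Set ℝ} (hI : IsCompact I) (hs : ∀ i, s i ∈ I)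
    {f f' f'' : ℝ → ℝ} (hf : ContinuousOn f I) (hp : ∀ i, Peano2 f f' f'' I (s i))
    (hH : ∀ᶠ t in l, (S t).IsHermitian ∧ spectrum ℝ (S t) ⊆ I) (hX : ∀ i j, X i j = X j i) :
    Jet2 l r (fun t => (_root_.cfc f (S t)).trace) (∑ i, f (s i)) (∑ i, f' (s i) * X i i)
      (∑ i, f' (s i) * Y i i + (∑ i, ∑ j, dd1 f' f'' (s i) (s j) * X i j ^ 2) / 2) :=
  trace_cfc_taylor2 hr hI hs hf hp hH hX hS

lemma diagonal_one' : (Matrix.diagonal (fun _ => (1 : ℝ)) : Mat m) = 1 := Matrix.diagonal_one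

/-- near the identity: spectrum in `[1/2, 3/2]` -/
lemma spectrum_near_one (hr : Tendsto r l (𝓝 0)) {A : τ → Mat m} {X Y : Mat m}
    (hA : MJet2 l r A 1 X Y) : ∀ᶠ t in l, spectrum ℝ (A t) ⊆ Set.Icc (1 / 2) (3 / 2) := by
  have h0 : ∀ i j, Tendsto (fun t => A t i j) l (𝓝 ((Matrix.diagonal (fun _ => (1 : ℝ)) : Mat m) i j)) := by
    intro i j
    rw [diagonal_one']; exact (hA i j).tendsto hr
  filter_upwards [spectrum_near_diag h0 (ε := 1 / 2) (by norm_num)] with t ht lam hlam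
  obtain ⟨i, hi⟩ := ht lam hlam
  rw [abs_lt] at hi
  constructor <;> linarith [hi.1, hi.2]

/-- a function twice differentiable near 1: 2-jet of the functional calculus at the identity -/
theorem MJet2.cfc_one (hr : Tendsto r l (𝓝 0)) {A : τ → Mat m} {X Y : Mat m} (hA : MJet2 l r A 1 X Y)
    {f f' f'' : ℝ → ℝ} (hf : ContinuousOn f (Set.Icc (1 / 2) (3 / 2)))
    (hp : Peano2 f f' f'' (Set.Icc (1 / 2) (3 / 2)) 1)
    (hH : ∀ᶠ t in l, (A t).IsHermitian) :
    MJet2 l r (fun t => _root_.cfc f (A t)) (f 1 • (1 : Mat m)) (f' 1 • X)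
      (f' 1 • Y + (f'' 1 / 2) • (X * X)) := by
  have hA' : MJet2 l r A (Matrix.diagonal (fun _ => (1 : ℝ))) X Y := by rw [diagonal_one']; exact hA
  have hH' : ∀ᶠ t in l, (A t).IsHermitian ∧ spectrum ℝ (A t) ⊆ Set.Icc (1 / 2) (3 / 2) := by
    filter_upwards [hH, spectrum_near_one hr hA] with t h1 h2 using ⟨h1, h2⟩
  have h := MJet2.cfc hr hA' isCompact_Icc (fun _ => by constructor <;> norm_num) hf (fun _ => hp) hH'
  have hd1 : dd1 f f' 1 1 = f' 1 := by simp [dd1]
  have hd2 : dd2 f f' f'' 1 1 1 = f'' 1 / 2 := by simp [dd2]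
  refine h.congr (fun t => rfl) ?_ ?_ ?_
  · ext i j
    rw [Matrix.diagonal_apply, Matrix.smul_apply, Matrix.one_apply]
    split_ifs <;> simp
  · ext i j; simp [hd1]
  · ext i j
    simp only [Matrix.of_apply, hd1, hd2, Matrix.add_apply, Matrix.smul_apply, Matrix.mul_apply,
      smul_eq_mul, Finset.mul_sum]
    congr 1
    exact Finset.sum_congr rfl fun k _ => by ring

/-- 2-jet of the matrix square root at the identity -/
theorem MJet2.sqrt_one (hr : Tendsto r l (𝓝 0)) {A : τ → Mat m} {X Y : Mat m} (hA : MJet2 l r A 1 X Y)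
    (hH : ∀ᶠ t in l, (A t).IsHermitian) :
    MJet2 l r (fun t => _root_.cfc Real.sqrt (A t)) 1 ((1 / 2 : ℝ) • X)
      ((1 / 2 : ℝ) • Y - (1 / 8 : ℝ) • (X * X)) := by
  have hp : Peano2 Real.sqrt (fun x => 1 / (2 * Real.sqrt x)) (fun x => - (1 / (4 * x * Real.sqrt x)))
      (Set.Icc (1 / 2) (3 / 2)) 1 := by
    refine peano2_univ (U := Set.Ioi 0) (Ioi_mem_nhds one_pos) (convex_Ioi 0) ?_ ?_
    · intro x hx
      exact Real.hasDerivAt_sqrt (ne_of_gt hx)
    · have h1 : HasDerivAt (fun x : ℝ => 2 * Real.sqrt x) (2 * (1 / (2 * Real.sqrt 1))) 1 :=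
        (Real.hasDerivAt_sqrt one_ne_zero).const_mul 2
      have h2 := HasDerivAt.fun_inv h1 (by simp)
      simp only [one_div] at h2 ⊢
      refine h2.congr_deriv ?_
      simp; norm_num
  have h := hA.cfc_one hr (Real.continuous_sqrt.continuousOn) hp hH
  refine h.congr (fun t => rfl) ?_ ?_ ?_
  · simp
  · simp
  · ext i j
    simp
    ring

lemma sqrt_mul_sqrt {A : Mat m} (hH : A.IsHermitian) (hpos : spectrum ℝ A ⊆ Set.Ici 0) :
    _root_.cfc Real.sqrt A * _root_.cfc Real.sqrt A = A := by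
  rw [← cfc_mul _ _ _ (contOn_spec _ _) (contOn_spec _ _)]
  conv_rhs => rw [← cfc_id' ℝ A (sa hH)]
  refine cfc_congr fun x hx => ?_
  exact Real.mul_self_sqrt (hpos hx)

lemma cfc_isHermitian {A : Mat m} (f : ℝ → ℝ) : (_root_.cfc f A).IsHermitian := by
  have : IsSelfAdjoint (_root_.cfc f A) := cfc_predicate f A
  exact this

/-- trace of the functional calculus -/
lemma trace_cfc {A : Mat m} (hA : A.IsHermitian) (f : ℝ → ℝ) :
    (_root_.cfc f A).trace = ∑ i, f (hA.eigenvalues i) := by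
  simp only [Matrix.trace, Matrix.diag_apply, cfc_entry hA]
  rw [Finset.sum_comm]
  refine Finset.sum_congr rfl fun k _ => ?_
  have h : ∑ i, ((hA.eigenvectorUnitary : Mat m) i k) ^ 2 = 1 := by
    have h := Unitary.coe_star_mul_self hA.eigenvectorUnitary
    have h2 := congrFun (congrFun h k) k
    simp only [Matrix.mul_apply, Matrix.star_apply, star_trivial,
      Matrix.one_apply_eq] at h2
    rw [← h2]
    exact Finset.sum_congr rfl fun k _ => by ring
  calc ∑ i, (hA.eigenvectorUnitary : Mat m) i k * f (hA.eigenvalues k) *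
        (hA.eigenvectorUnitary : Mat m) i k
      = f (hA.eigenvalues k) * ∑ i, ((hA.eigenvectorUnitary : Mat m) i k) ^ 2 := by
        rw [Finset.mul_sum]; exact Finset.sum_congr rfl fun i _ => by ring
    _ = f (hA.eigenvalues k) := by rw [h, mul_one]

lemma log_det_eq_trace_cfc {A : Mat m} (hA : A.IsHermitian) (hpos : spectrum ℝ A ⊆ Set.Ioi 0) :
    Real.log A.det = (_root_.cfc Real.log A).trace := by
  rw [trace_cfc hA, hA.det_eq_prod_eigenvalues]
  simp only [RCLike.ofReal_real_eq_id, id]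
  rw [Real.log_prod]
  intro i _
  exact ne_of_gt (hpos (hA.eigenvalues_mem_spectrum_real i))

/-- 2-jet of `log det A_t` at the identity -/
theorem MJet2.log_det (hr : Tendsto r l (𝓝 0)) {A : τ → Mat m} {X Y : Mat m} (hA : MJet2 l r A 1 X Y)
    (hH : ∀ᶠ t in l, (A t).IsHermitian) :
    Jet2 l r (fun t => Real.log (A t).det) 0 X.trace (Y.trace - (X * X).trace / 2) := by
  have hp : Peano2 Real.log (fun x => x⁻¹) (fun x => -(x ^ 2)⁻¹) (Set.Icc (1 / 2) (3 / 2)) 1 := by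
    refine peano2_univ (Ioi_mem_nhds one_pos) (convex_Ioi 0) ?_ (hasDerivAt_inv one_ne_zero)
    intro x hx
    exact Real.hasDerivAt_log (ne_of_gt hx)
  have hc : ContinuousOn Real.log (Set.Icc (1 / 2) (3 / 2)) :=
    Real.continuousOn_log.mono (by
      intro x hx
      have : (0 : ℝ) < x := lt_of_lt_of_le (by norm_num) hx.1
      exact ne_of_gt this)
  have h := (hA.cfc_one hr hc hp hH).trace
  refine (h.congr' ?_).congr (fun t => rfl) ?_ ?_ ?_
  · filter_upwards [hH, spectrum_near_one hr hA] with t h1 h2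
    refine (log_det_eq_trace_cfc h1 fun x hx => ?_).symm
    exact lt_of_lt_of_le (by norm_num) (h2 hx).1
  · simp
  · simp
  · simp [Matrix.trace_add, Matrix.trace_smul]; ring

/-- general inverse -/
theorem MJet2.inv (hr : Tendsto r l (𝓝 0)) {A : τ → Mat m} {A0 X Y : Mat m} (hA : MJet2 l r A A0 X Y)
    (h0 : IsUnit A0.det) :
    MJet2 l r (fun t => (A t)⁻¹) A0⁻¹ (-(A0⁻¹ * X * A0⁻¹))
      (A0⁻¹ * X * A0⁻¹ * X * A0⁻¹ - A0⁻¹ * Y * A0⁻¹) := by
  have hdet : Tendsto (fun t => (A t).det) l (𝓝 A0.det) :=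
    ((continuous_id.matrix_det).tendsto A0).comp (hA.tendsto hr)
  have hne : ∀ᶠ t in l, (A t).det ≠ 0 := hdet.eventually_ne h0.ne_zero
  have hinv : Tendsto (fun t => (A t)⁻¹) l (𝓝 A0⁻¹) := by
    have h1 : Tendsto (fun t => ((A t).det)⁻¹ • (A t).adjugate) l (𝓝 ((A0.det)⁻¹ • A0.adjugate)) :=
      (hdet.inv₀ h0.ne_zero).smul (((continuous_id.matrix_adjugate).tendsto A0).comp (hA.tendsto hr))
    simpa [Matrix.inv_def, Ring.inverse_eq_inv'] using h1
  -- the candidate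
  set B : τ → Mat m := fun t => A0⁻¹ + r t • (-(A0⁻¹ * X * A0⁻¹)) +
    r t ^ 2 • (A0⁻¹ * X * A0⁻¹ * X * A0⁻¹ - A0⁻¹ * Y * A0⁻¹) with hB
  have hBj : MJet2 l r B A0⁻¹ (-(A0⁻¹ * X * A0⁻¹)) (A0⁻¹ * X * A0⁻¹ * X * A0⁻¹ - A0⁻¹ * Y * A0⁻¹) := by
    intro i j
    unfold Jet2
    refine (isLittleO_zero (fun t => r t ^ 2) l).congr_left fun t => ?_
    simp [hB]
  have hA0 : A0 * A0⁻¹ = 1 := Matrix.mul_nonsing_inv _ h0
  have hprod : MJet2 l r (fun t => A t * B t) 1 0 0 := by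
    refine (hA.mul hr hBj).congr (fun t => rfl) hA0 ?_ ?_
    · simp only [Matrix.mul_neg, ← Matrix.mul_assoc, hA0, Matrix.one_mul, neg_add_cancel]
    · simp only [Matrix.mul_neg, Matrix.mul_sub, ← Matrix.mul_assoc, hA0, Matrix.one_mul]
      abel
  intro i j
  have hd : (fun t => ((A t)⁻¹ - B t) i j) =o[l] fun t => r t ^ 2 := by
    have e : (fun t => ((A t)⁻¹ - B t) i j) =ᶠ[l] fun t => ∑ k, (A t)⁻¹ i k * (1 - A t * B t) k j := by
      filter_upwards [hne] with t ht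
      have h1 : (A t)⁻¹ * A t = 1 := Matrix.nonsing_inv_mul _ (isUnit_iff_ne_zero.2 ht)
      have h2 : (A t)⁻¹ - B t = (A t)⁻¹ * (1 - A t * B t) := by
        rw [Matrix.mul_sub, Matrix.mul_one, ← Matrix.mul_assoc, h1, Matrix.one_mul]
      rw [h2, Matrix.mul_apply]
    refine IsLittleO.congr' ?_ e.symm EventuallyEq.rfl
    refine isLittleO_sum' fun k => ?_
    have h3 : (fun t => (A t)⁻¹ i k) =O[l] fun _ => (1 : ℝ) := by
      have : Tendsto (fun t => (A t)⁻¹ i k) l (𝓝 (A0⁻¹ i k)) :=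
        ((continuous_apply_apply i k).tendsto _).comp hinv
      exact this.isBigO_one ℝ
    have h4 : (fun t => (1 - A t * B t) k j) =o[l] fun t => r t ^ 2 := by
      have := (hprod k j).neg_left
      refine this.congr_left fun t => ?_
      simp
    simpa using h3.mul_isLittleO h4
  have hj := hBj i j
  unfold Jet2 at *
  refine (hd.add hj).congr_left fun t => ?_
  simp [Matrix.sub_apply]

end Crest.Agent.R253.MJet999
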