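/-
helper999, row 253.  The Bellman step: jets of `h - (1/2) log det A - tr f(A^{1/2} G A^{1/2})` along the
basic curve, and the algebra that forces all eigenvalues of `S` to be `1` at a minimiser.
-/
import Crest.Agent.R253.MJet_999

set_option autoImplicit false
open Matrix Filter Topology Asymptotics

namespace Crest.Agent.R253.Bell999

open Crest.Agent.R253.SpecCalc999 Crest.Agent.R253.Jet999 Crest.Agent.R253.MJet999

variable {m : ℕ} {τ : Type*} {l : Filter τ} {r : τ → ℝ}

/-- the matrix unit `e_a e_aᵀ` -/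
def Eaa (a : Fin m) : Mat m := Matrix.diagonal (fun i => if i = a then 1 else 0)

/-- the symmetric square root -/
noncomputable def rt (A : Mat m) : Mat m := _root_.cfc Real.sqrt A

/-- `S = A^{1/2} G A^{1/2}` -/
noncomputable def Sm (A G : Mat m) : Mat m := rt A * G * rt A

lemma Sm_isHermitian {A G : Mat m} (hG : G.IsHermitian) : (Sm A G).IsHermitian := by
  unfold Sm
  have h1 : (rt A).IsHermitian := cfc_isHermitian _
  unfold Matrix.IsHermitian
  rw [Matrix.conjTranspose_mul, Matrix.conjTranspose_mul, h1.eq, hG.eq, Matrix.mul_assoc]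

/-- jet of `S_t` for `A_t = 1 + r M + r² A₂`, `G_t = diag s + r² G₂` -/
lemma Sm_jet (hr : Tendsto r l (𝓝 0)) {A G : τ → Mat m} {M A2 G2 : Mat m} {s : Fin m → ℝ}
    (hA : MJet2 l r A 1 M A2) (hG : MJet2 l r G (Matrix.diagonal s) 0 G2)
    (hAH : ∀ᶠ t in l, (A t).IsHermitian) :
    MJet2 l r (fun t => Sm (A t) (G t)) (Matrix.diagonal s)
      (Matrix.of fun i k => (s i + s k) / 2 * M i k)
      (Matrix.of fun i k => (s i + s k) / 2 * A2 i k
        + ∑ j, (s j / 4 - (s i + s k) / 8) * M i j * M j k + G2 i k) := by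
  have hR := hA.sqrt_one hr hAH
  have h := (hR.mul hr hG).mul hr hR
  refine h.congr (fun t => rfl) ?_ ?_ ?_
  · simp
  · ext i k
    simp only [Matrix.one_mul, Matrix.mul_one, Matrix.mul_zero, zero_add,
      Matrix.add_apply, Matrix.smul_apply, Matrix.mul_smul, Matrix.smul_mul, Matrix.diagonal_mul,
      Matrix.mul_diagonal, smul_eq_mul, Matrix.of_apply]
    ring
  · ext i k
    simp only [Matrix.one_mul, Matrix.mul_one, Matrix.mul_zero, zero_add, add_zero,
      Matrix.add_apply, Matrix.sub_apply, Matrix.smul_apply, Matrix.mul_smul, Matrix.smul_mul,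
      Matrix.diagonal_mul, Matrix.mul_diagonal, smul_eq_mul, Matrix.of_apply, Matrix.sub_mul,
      Matrix.mul_sub]
    have e1 : (M * Matrix.diagonal s * M) i k = ∑ j, M i j * s j * M j k := by
      rw [Matrix.mul_apply]
      exact Finset.sum_congr rfl fun j _ => by rw [Matrix.mul_diagonal]
    have e2 : (M * M) i k = ∑ j, M i j * M j k := by rw [Matrix.mul_apply]
    have e : ∑ j, (s j / 4 - (s i + s k) / 8) * M i j * M j k =
        (1 / 4) * ∑ j, M i j * s j * M j k - (s i + s k) / 8 * ∑ j, M i j * M j k := by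
      rw [Finset.mul_sum, Finset.mul_sum, ← Finset.sum_sub_distrib]
      exact Finset.sum_congr rfl fun j _ => by ring
    rw [e, e1, e2]
    ring

/-- **the Bellman jet**: second order coefficient of `h - (1/2) log det A - tr f(S)` along the curve. -/
theorem bell_jet (hr : Tendsto r l (𝓝 0)) {A G : τ → Mat m} {M : Mat m} {s : Fin m → ℝ} {a : Fin m}
    (hA : MJet2 l r A 1 M (-(Eaa a))) (hG : MJet2 l r G (Matrix.diagonal s) 0 (Eaa a))
    (hAH : ∀ᶠ t in l, (A t).IsHermitian) (hGH : ∀ᶠ t in l, (G t).IsHermitian)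
    (hM : ∀ i j, M i j = M j i) (hs : ∀ i, s i ∈ Set.Icc (0 : ℝ) 1)
    (hsp : ∀ᶠ t in l, spectrum ℝ (Sm (A t) (G t)) ⊆ Set.Icc 0 1)
    {f f' f'' : ℝ → ℝ} (hf : ContinuousOn f (Set.Icc 0 1))
    (hp : ∀ i, Peano2 f f' f'' (Set.Icc 0 1) (s i))
    {h : τ → ℝ} {h0 h1 : ℝ} (hh : Jet2 l r h h0 h1 (-(1 / 2))) :
    Jet2 l r (fun t => h t - (1 / 2) * Real.log (A t).det - (_root_.cfc f (Sm (A t) (G t))).trace)
      (h0 - ∑ i, f (s i))
      (h1 - (1 / 2) * M.trace - ∑ i, f' (s i) * (s i * M i i))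
      ((1 / 4) * (∑ i, ∑ j, M i j ^ 2) - (1 / 2) * (∑ i, ∑ j, s i * s j * dd1 f' f'' (s i) (s j) * M i j ^ 2)
        - (1 - s a) * f' (s a)) := by
  have hS := Sm_jet hr hA hG hAH
  have hSX : ∀ i j, (Matrix.of fun i k => (s i + s k) / 2 * M i k : Mat m) i j =
      (Matrix.of fun i k => (s i + s k) / 2 * M i k : Mat m) j i := by
    intro i j; simp only [Matrix.of_apply]; rw [hM i j, add_comm (s i) (s j)]
  have hH : ∀ᶠ t in l, (Sm (A t) (G t)).IsHermitian ∧ spectrum ℝ (Sm (A t) (G t)) ⊆ Set.Icc 0 1 := by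
    filter_upwards [hGH, hsp] with t h1 h2 using ⟨Sm_isHermitian h1, h2⟩
  have hT := MJet2.trace_cfc hr hS isCompact_Icc hs hf hp hH hSX
  have hD := hA.log_det hr hAH
  have key := (hh.sub (hD.const_mul (1 / 2))).sub hT
  refine key.congr (fun t => rfl) (by ring) ?_ ?_
  · congr 1
    refine Finset.sum_congr rfl fun i _ => ?_
    simp only [Matrix.of_apply]; ring
  · -- second order coefficient
    have e1 : (-(Eaa a) : Mat m).trace = -1 := by
      simp [Eaa, Matrix.trace]
    have e2 : (M * M).trace = ∑ i, ∑ j, M i j ^ 2 := by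
      simp only [Matrix.trace, Matrix.diag_apply, Matrix.mul_apply]
      refine Finset.sum_congr rfl fun i _ => Finset.sum_congr rfl fun j _ => ?_
      rw [hM j i]; ring
    have e3 : ∑ i, f' (s i) * (Matrix.of (fun i k => (s i + s k) / 2 * (-(Eaa a) : Mat m) i k
        + ∑ j, (s j / 4 - (s i + s k) / 8) * M i j * M j k + (Eaa a : Mat m) i k) : Mat m) i i
        = (1 - s a) * f' (s a) + (1 / 4) * ∑ i, ∑ j, f' (s i) * (s j - s i) * M i j ^ 2 := by
      have e4 : ∀ i, f' (s i) * (Matrix.of (fun i k => (s i + s k) / 2 * (-(Eaa a) : Mat m) i k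
        + ∑ j, (s j / 4 - (s i + s k) / 8) * M i j * M j k + (Eaa a : Mat m) i k) : Mat m) i i
        = (if i = a then (1 - s a) * f' (s a) else 0)
          + (1 / 4) * ∑ j, f' (s i) * (s j - s i) * M i j ^ 2 := by
        intro i
        simp only [Matrix.of_apply, Matrix.neg_apply, Eaa, Matrix.diagonal_apply_eq]
        have e5 : ∑ j, (s j / 4 - (s i + s i) / 8) * M i j * M j i =
            (1 / 4) * ∑ j, (s j - s i) * M i j ^ 2 := by
          rw [Finset.mul_sum]
          refine Finset.sum_congr rfl fun j _ => ?_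
          rw [hM j i]; ring
        rw [e5]
        have e6 : ∑ j, f' (s i) * (s j - s i) * M i j ^ 2 = f' (s i) * ∑ j, (s j - s i) * M i j ^ 2 := by
          rw [Finset.mul_sum]
          exact Finset.sum_congr rfl fun j _ => by ring
        rw [e6]
        split_ifs with h
        · subst h; ring
        · ring
      simp only [e4, Finset.sum_add_distrib, ← Finset.mul_sum]
      congr 1
      rw [Finset.sum_ite_eq' Finset.univ a]; simp
    have e7 : ∑ i, ∑ j, f' (s i) * (s j - s i) * M i j ^ 2 =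
        - (1 / 2) * ∑ i, ∑ j, dd1 f' f'' (s i) (s j) * (s i - s j) ^ 2 * M i j ^ 2 := by
      have e8 : ∑ i, ∑ j, f' (s i) * (s j - s i) * M i j ^ 2 =
          ∑ i, ∑ j, f' (s j) * (s i - s j) * M i j ^ 2 := by
        rw [Finset.sum_comm]
        refine Finset.sum_congr rfl fun i _ => Finset.sum_congr rfl fun j _ => ?_
        rw [hM j i]
      have e9 : ∑ i, ∑ j, f' (s i) * (s j - s i) * M i j ^ 2 + ∑ i, ∑ j, f' (s j) * (s i - s j) * M i j ^ 2
          = - ∑ i, ∑ j, dd1 f' f'' (s i) (s j) * (s i - s j) ^ 2 * M i j ^ 2 := by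
        rw [← Finset.sum_add_distrib, ← Finset.sum_neg_distrib]
        refine Finset.sum_congr rfl fun i _ => ?_
        rw [← Finset.sum_add_distrib, ← Finset.sum_neg_distrib]
        refine Finset.sum_congr rfl fun j _ => ?_
        have := dd1_mul f' f'' (s i) (s j)
        calc f' (s i) * (s j - s i) * M i j ^ 2 + f' (s j) * (s i - s j) * M i j ^ 2
            = - ((f' (s i) - f' (s j)) * (s i - s j) * M i j ^ 2) := by ring
          _ = _ := by rw [← this]; ring
      rw [← e8] at e9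
      linarith
    rw [e1, e2, e3, e7]
    have e10 : ∑ i, ∑ j, dd1 f' f'' (s i) (s j) * ((Matrix.of fun i k => (s i + s k) / 2 * M i k : Mat m) i j) ^ 2
        = (1 / 4) * ∑ i, ∑ j, dd1 f' f'' (s i) (s j) * (s i - s j) ^ 2 * M i j ^ 2
          + ∑ i, ∑ j, s i * s j * dd1 f' f'' (s i) (s j) * M i j ^ 2 := by
      simp only [Finset.mul_sum]
      rw [← Finset.sum_add_distrib]
      refine Finset.sum_congr rfl fun i _ => ?_
      rw [← Finset.sum_add_distrib]
      refine Finset.sum_congr rfl fun j _ => ?_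
      simp only [Matrix.of_apply]; ring
    rw [e10]
    ring

/-- the pure algebra of the Bellman step.  `Gm i j` stands for `Γ(λ s_i, λ s_j)`, `g i` for its
diagonal root, `N a` for `(1 - s_a) (λ l'(λ s_a))`-type right hand sides. -/
theorem bell_algebra {M : Fin m → Fin m → Fin m → ℝ} {s g lp k2 : Fin m → ℝ} {Gm : Fin m → Fin m → ℝ}
    {δ ε : ℝ} (hεδ : ε < δ)
    (hs : ∀ i, s i ≤ 1) (hg : ∀ i, 0 < g i)
    (hpair : ∀ i j, Gm i j ≤ g i * g j)
    (hmin : ∀ a, (1 - s a) * (lp a + δ) ≤ ∑ j, ∑ k, M a j k ^ 2 * Gm j k)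
    (hG : ∑ i, ∑ j, ∑ k, g i * g j * g k * M i j k ^ 2 ≤ ∑ i, k2 i * g i ^ 3)
    (hk : ∀ i, k2 i * g i ^ 2 ≤ (1 - s i) * (lp i + ε)) : ∀ a, s a = 1 := by
  have h1 : ∑ a, g a * ((1 - s a) * (lp a + δ)) ≤ ∑ a, g a * ∑ j, ∑ k, M a j k ^ 2 * Gm j k :=
    Finset.sum_le_sum fun a _ => mul_le_mul_of_nonneg_left (hmin a) (hg a).le
  have h2 : ∑ a, g a * ∑ j, ∑ k, M a j k ^ 2 * Gm j k ≤ ∑ i, ∑ j, ∑ k, g i * g j * g k * M i j k ^ 2 := by
    refine Finset.sum_le_sum fun a _ => ?_
    rw [Finset.mul_sum]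
    refine Finset.sum_le_sum fun j _ => ?_
    rw [Finset.mul_sum]
    refine Finset.sum_le_sum fun k _ => ?_
    have := mul_le_mul_of_nonneg_left (hpair j k) (mul_nonneg (hg a).le (sq_nonneg (M a j k)))
    calc g a * (M a j k ^ 2 * Gm j k) = g a * M a j k ^ 2 * Gm j k := by ring
      _ ≤ g a * M a j k ^ 2 * (g j * g k) := this
      _ = _ := by ring
  have h3 : ∑ i, k2 i * g i ^ 3 ≤ ∑ i, g i * ((1 - s i) * (lp i + ε)) := by
    refine Finset.sum_le_sum fun i _ => ?_
    calc k2 i * g i ^ 3 = g i * (k2 i * g i ^ 2) := by ring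
      _ ≤ _ := mul_le_mul_of_nonneg_left (hk i) (hg i).le
  have h4 : ∑ a, g a * (1 - s a) * (δ - ε) ≤ 0 := by
    have e : ∑ a, g a * (1 - s a) * (δ - ε) =
        ∑ a, g a * ((1 - s a) * (lp a + δ)) - ∑ i, g i * ((1 - s i) * (lp i + ε)) := by
      rw [← Finset.sum_sub_distrib]
      exact Finset.sum_congr rfl fun a _ => by ring
    rw [e]; linarith
  have h5 : ∀ a ∈ Finset.univ, 0 ≤ g a * (1 - s a) * (δ - ε) := fun a _ =>
    mul_nonneg (mul_nonneg (hg a).le (by linarith [hs a])) (by linarith)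
  have h6 := (Finset.sum_eq_zero_iff_of_nonneg h5).1 (le_antisymm h4 (Finset.sum_nonneg h5))
  intro a
  have h7 := h6 a (Finset.mem_univ a)
  have h8 : δ - ε ≠ 0 := by linarith
  have h9 : g a ≠ 0 := (hg a).ne'
  have h10 : (1 - s a) = 0 := by
    rcases mul_eq_zero.1 h7 with h | h
    · rcases mul_eq_zero.1 h with h | h
      · exact absurd h h9
      · exact h
    · exact absurd h h8
  linarith

end Crest.Agent.R253.Bell999
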