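import Crest.Agent.R253.BrStepG_666
import Crest.Agent.R253.BrUni_666
import Crest.Agent.R253.ExiAsmB_214

/-!
Row 253 (S0391), task T6, node B11 (helper666): existence with the a priori data exported
(`ExiG`), uniqueness in the class `ClsB`, and **continuous dependence** of the solution of `(MAb)`
on `P` in the `C²` topology at a fixed `P₀`.
-/

set_option autoImplicit false

open Set Filter
open scoped ContDiff Topology

namespace Crest.Agent.R253.Br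

open Crest.Agent.R238

variable {n : ℕ}

theorem mab_iff {P : E n → ℝ} {lam s : ℝ} {v : E n → ℝ} :
    MAb P lam s v ↔ BrUni666.MAb P lam s v := Iff.rfl

/-- **uniqueness** in the class `ClsB` -/
theorem uniqB {P : E n → ℝ} {lam s : ℝ} (hlam : 0 < lam) {a₁ a₂ B₁ B₂ : ℝ} {v₁ v₂ : E n → ℝ}
    (c₁ : ClsB a₁ B₁ v₁) (c₂ : ClsB a₂ B₂ v₂)
    (e₁ : ∃ lo hi : ℝ, 0 < lo ∧ ∀ x, Ell lo hi (gm v₁ x))
    (e₂ : ∃ lo hi : ℝ, 0 < lo ∧ ∀ x, Ell lo hi (gm v₂ x))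
    (m₁ : MAb P lam s v₁) (m₂ : MAb P lam s v₂) : v₁ = v₂ := by
  obtain ⟨lo₁, hi₁, hlo₁, e₁⟩ := e₁
  obtain ⟨lo₂, hi₂, hlo₂, e₂⟩ := e₂
  exact BrUni666.uniB hlam c₁.c2 c₂.c2 c₁.h0.1 c₂.h0.1 (fun x i => (c₁.h1 i).1 x)
    (fun x i => (c₂.h1 i).1 x) hlo₁ hlo₂ e₁ e₂ m₁ m₂

/-- **Lipschitz dependence** in the class `ClsB` -/
theorem lipClsB {P₁ P₂ : E n → ℝ} {lam s₁ s₂ : ℝ} (hlam : 0 < lam) {a₁ a₂ B₁ B₂ : ℝ}
    {v₁ v₂ : E n → ℝ} (c₁ : ClsB a₁ B₁ v₁) (c₂ : ClsB a₂ B₂ v₂)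
    (e₁ : ∃ lo hi : ℝ, 0 < lo ∧ ∀ x, Ell lo hi (gm v₁ x))
    (e₂ : ∃ lo hi : ℝ, 0 < lo ∧ ∀ x, Ell lo hi (gm v₂ x))
    (m₁ : MAb P₁ lam s₁ v₁) (m₂ : MAb P₂ lam s₂ v₂) {D : ℝ}
    (hD : ∀ x, |s₁ * P₁ x - s₂ * P₂ x| ≤ D) : ∀ x, |v₁ x - v₂ x| ≤ D / lam := by
  obtain ⟨lo₁, hi₁, hlo₁, e₁⟩ := e₁
  obtain ⟨lo₂, hi₂, hlo₂, e₂⟩ := e₂
  exact BrUni666.lipB hlam c₁.c2 c₂.c2 c₁.h0.1 c₂.h0.1 (fun x i => (c₁.h1 i).1 x)
    (fun x i => (c₂.h1 i).1 x) hlo₁ hlo₂ e₁ e₂ m₁ m₂ hD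

/-- existence, with the a priori estimate and the solvability of the linearised equation -/
def ExiG (n : ℕ) : Prop := ∀ P : E n → ℝ, PDatB P → ∃ lo hi K : ℝ, 0 < lo ∧ lo ≤ hi ∧
  ∀ lam : ℝ, 0 < lam → lam ≤ 1 → ∃ (M M2 : ℝ) (v : E n → ℝ), NiceB v ∧
    (∀ x, Ell lo hi (gm v x)) ∧
    (∀ x, lam * |v x| ≤ K) ∧ (∀ x i, |gr v x i| ≤ K) ∧
    (∀ x i j k, |fderiv ℝ (fun y => Hs v y i j) x (ee k)| ≤ K) ∧ MAb P lam 1 v ∧
    ClsB (1 / 2) M v ∧ AprB (1 / 2) lam M2 (gr v) (tauf v) ∧ SrjB (1 / 2) lam (gr v) (tauf v)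

theorem exiB_of_exiG (h : ExiG n) : ExiB n := by
  intro P hP
  obtain ⟨lo, hi, K, hlo, hlohi, H⟩ := h P hP
  refine ⟨lo, hi, K, hlo, hlohi, fun lam hlam hlam1 => ?_⟩
  obtain ⟨M, M2, v, h1, h2, h3, h4, h5, h6, -⟩ := H lam hlam hlam1
  exact ⟨v, h1, h2, h3, h4, h5, h6⟩

theorem exiG (hsol : SolB) (hstep : StepB) (hapr : AprStmtB) (hreg : RegB) :
    ∀ n, ExiG n := by
  intro n P hP
  have ha : (0 : ℝ) < 1 / 2 := by norm_num
  have ha1 : (1 / 2 : ℝ) < 1 := by norm_num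
  obtain ⟨lo, hi, K, hlo, hlohi, hA0⟩ := hapr n (1 / 2) ha ha1 P hP
  refine ⟨lo, hi, K, hlo, hlohi, fun lam hlam hlam1 => ?_⟩
  obtain ⟨M, M2, hA⟩ := hA0 lam hlam hlam1
  obtain ⟨ε₁, hε₁, hR⟩ := hreg n (1 / 2) (lo / 2) (hi + lo / 2) ha ha1 (by positivity)
    (by linarith)
  obtain ⟨R, hR0⟩ := hA (ε₁ / 2) (by positivity)
  obtain ⟨NP, hNP⟩ := hP.tst.hb ha ha1
  obtain ⟨t₀, ht₀, hS⟩ := hstep n (1 / 2) lam lo hi M M2 NP (ε₁ / 2) ha ha1 hlam hlam1 hlo hlohi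
    (by positivity)
  -- one step
  have hstep1 : ∀ s : ℝ, 0 ≤ s → s ≤ 1 → HkB (1 / 2) lam lo hi P s → ∀ s' : ℝ, s ≤ s' →
      s' ≤ s + t₀ → s' ≤ 1 → HkB (1 / 2) lam lo hi P s' := by
    rintro s hs0 hs1 ⟨v, hvN, hvE, hvM, hvS⟩ s' h1 h2 h3
    obtain ⟨-, -, -, -, hCls, hAP, hExt⟩ := hR0 s hs0 hs1 v hvN ⟨lo, hi, hlo, hvE⟩ hvM
    obtain ⟨v', hC', hD', hE', hM', hS'⟩ := hS P hNP s v hCls hvE hvM hAP hvS s' ⟨h1, h2⟩
    have hExt' : ExtS (1 / 2) ε₁ R v' := by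
      constructor
      · intro x hx i j
        have h4 := hExt.1 x hx i j
        have h5 := (hD' i j).1 x
        have : Hs v' x i j = Hs v x i j + (Hs v' x i j - Hs v x i j) := by ring
        rw [this]
        exact (abs_add_le _ _).trans (by linarith)
      · intro x y hx hy i j
        have h4 := hExt.2 x y hx hy i j
        have h5 := (hD' i j).2 x y
        have : Hs v' x i j - Hs v' y i j = (Hs v x i j - Hs v y i j) +
            ((Hs v' x i j - Hs v x i j) - (Hs v' y i j - Hs v y i j)) := by ring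
        rw [this]
        refine (abs_add_le _ _).trans ?_
        calc _ ≤ ε₁ / 2 * ‖x - y‖ ^ (1 / 2 : ℝ) + ε₁ / 2 * ‖x - y‖ ^ (1 / 2 : ℝ) :=
              add_le_add h4 h5
          _ = ε₁ * ‖x - y‖ ^ (1 / 2 : ℝ) := by ring
    have hN' : NiceB v' :=
      hR (M + ε₁ / 2) R P hP.tst lam s' v' hlam hlam1 hC' hE' hM' hExt'
    obtain ⟨hE'', -⟩ := hR0 s' (hs0.trans h1) h3 v' hN'
      ⟨lo / 2, hi + lo / 2, by positivity, hE'⟩ hM'
    exact ⟨v', hN', hE'', hM', hS'⟩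
  -- start
  have h0 : HkB (1 / 2) lam lo hi P 0 := by
    obtain ⟨v, hvN, hvE, hvM, hvS⟩ := exists_startB hsol ha ha1 hlam P
    obtain ⟨hE'', -⟩ := hR0 0 le_rfl zero_le_one v hvN ⟨1, 1, one_pos, hvE⟩ hvM
    exact ⟨v, hvN, hE'', hvM, hvS⟩
  -- induction
  have hind : ∀ k : ℕ, HkB (1 / 2) lam lo hi P (min (k * t₀) 1) := by
    intro k
    induction k with
    | zero => simpa using h0
    | succ k ih =>
      refine hstep1 _ (le_min (by positivity) zero_le_one) (min_le_right _ _) ih _ ?_ ?_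
        (min_le_right _ _)
      · refine min_le_min_right _ ?_
        have : (k : ℝ) * t₀ ≤ (k + 1 : ℕ) * t₀ := by
          apply mul_le_mul_of_nonneg_right _ ht₀.le; push_cast; linarith
        exact this
      · have h5 : ((k + 1 : ℕ) : ℝ) * t₀ = k * t₀ + t₀ := by push_cast; ring
        rw [h5]
        rcases le_total ((k : ℝ) * t₀) 1 with h6 | h6
        · rw [min_eq_left h6]; exact min_le_left _ _
        · rw [min_eq_right h6]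
          exact (min_le_right _ _).trans (by linarith)
  obtain ⟨k, hk⟩ := exists_nat_gt (1 / t₀)
  have h1 : HkB (1 / 2) lam lo hi P 1 := by
    have h2 := hind k
    have h3 : 1 ≤ (k : ℝ) * t₀ := by
      rw [div_lt_iff₀ ht₀] at hk; exact hk.le
    rwa [min_eq_right h3] at h2
  obtain ⟨v, hvN, hvE, hvM, hvS⟩ := h1
  obtain ⟨-, hK0, hK1, hK3, hCl, hAp, -⟩ := hR0 1 zero_le_one le_rfl v hvN
    ⟨lo, hi, hlo, hvE⟩ hvM
  exact ⟨M, M2, v, hvN, hvE, hK0, hK1, hK3, hvM, hCl, hAp, hvS⟩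

/-- **continuous dependence on the data** at a fixed solution, in the `C²` topology -/
theorem contP (hstep : StepG) {a lam lo hi M M2 : ℝ} (ha : 0 < a) (ha1 : a < 1) (hlam : 0 < lam)
    (hlam1 : lam ≤ 1) (hlo : 0 < lo) (hlohi : lo ≤ hi) {P₀ v₀ : E n → ℝ} (hC : ClsB a M v₀)
    (hE : ∀ x, Ell lo hi (gm v₀ x)) (hMA : MAb P₀ lam 1 v₀)
    (hA : AprB a lam M2 (gr v₀) (tauf v₀)) (hS : SrjB a lam (gr v₀) (tauf v₀)) {ε : ℝ}
    (hε : 0 < ε) :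
    ∃ η : ℝ, 0 < η ∧ ∀ P' : E n → ℝ, HB a η (fun x => P' x - P₀ x) →
      ∀ v' : E n → ℝ, (∃ a' B : ℝ, ClsB a' B v') →
        (∃ lo' hi' : ℝ, 0 < lo' ∧ ∀ x, Ell lo' hi' (gm v' x)) → MAb P' lam 1 v' →
        (∀ x, |v' x - v₀ x| ≤ ε) ∧ (∀ x i, |gr v' x i - gr v₀ x i| ≤ ε) ∧
          (∀ i j, HB a ε (fun x => Hs v' x i j - Hs v₀ x i j)) ∧ ClsB a (M + ε) v' ∧
          ∀ x, Ell (lo / 2) (hi + lo / 2) (gm v' x) := by
  set δ : ℝ := ε / (2 * ((n : ℝ) ^ 2 + 1)) with hδdef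
  have hn0 : (0 : ℝ) ≤ (n : ℝ) ^ 2 := by positivity
  have hδ : 0 < δ := by positivity
  have hδε : δ ≤ ε := by
    rw [hδdef]
    exact div_le_self hε.le (by nlinarith)
  have hδn : (n : ℝ) ^ 2 * δ ≤ ε / 2 := by
    have h2 : δ * (2 * ((n : ℝ) ^ 2 + 1)) = ε := by rw [hδdef]; field_simp
    nlinarith
  obtain ⟨t₀, ht₀, H⟩ := hstep n a lam lo hi M M2 1 δ ha ha1 hlam hlam1 hlo hlohi hδ
  refine ⟨min t₀ (ε / 4 * lam), by positivity, ?_⟩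
  rintro P' hP' v' ⟨a', B, hv'⟩ hE' hM'
  -- the nearby solution
  have hQ : HB a 1 (fun x => (1 / t₀) * (P' x - P₀ x)) := by
    refine ⟨fun x => ?_, fun x y => ?_⟩
    · have h1 := (hP'.1 x).trans (min_le_left _ _)
      rw [abs_mul, abs_of_pos (by positivity : 0 < 1 / t₀), one_div, inv_mul_le_iff₀ ht₀, mul_one]
      exact h1
    · have h1 := (hP'.2 x y)
      have hp : 0 ≤ ‖x - y‖ ^ a := Real.rpow_nonneg (norm_nonneg _) a
      have h2 : min t₀ (ε / 4 * lam) * ‖x - y‖ ^ a ≤ t₀ * ‖x - y‖ ^ a :=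
        mul_le_mul_of_nonneg_right (min_le_left _ _) hp
      rw [← mul_sub, abs_mul, abs_of_pos (by positivity : 0 < 1 / t₀), one_div,
        inv_mul_le_iff₀ ht₀, one_mul]
      exact h1.trans h2
  obtain ⟨v, h1, h2, h3, h4, -⟩ := H _ hQ P₀ v₀ hC hE hMA hA hS t₀ (right_mem_Icc.2 ht₀.le)
  have h4' : MAb P' lam 1 v := by
    intro x
    have h5 := h4 x
    have h6 : P₀ x + t₀ * ((1 / t₀) * (P' x - P₀ x)) = P' x := by field_simp; ring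
    simp only [h6] at h5
    exact h5
  have hlo2 : 0 < lo / 2 := by positivity
  have huniq : v' = v := uniqB hlam hv' h1 hE' ⟨lo / 2, hi + lo / 2, hlo2, h3⟩ hM' h4'
  subst huniq
  have hw : ∀ x, |v' x - v₀ x| ≤ ε / 4 := by
    have h7 := lipClsB hlam hv' hC hE' ⟨lo, hi, hlo, hE⟩ hM' hMA
      (D := ε / 4 * lam) (fun x => by
        have := (hP'.1 x).trans (min_le_right _ _)
        simpa using this)
    rw [mul_div_cancel_right₀ _ hlam.ne'] at h7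
    exact h7
  refine ⟨fun x => (hw x).trans (by linarith), fun x i => ?_, fun i j => ?_, ?_, h3⟩
  · have hdiff : ContDiff ℝ 2 (fun x => v' x - v₀ x) := hv'.c2.sub hC.c2
    have hfd : fderiv ℝ (fun x => v' x - v₀ x) x = fderiv ℝ v' x - fderiv ℝ v₀ x :=
      (((hv'.c2.differentiable (by norm_num)) x).hasFDerivAt.sub
        ((hC.c2.differentiable (by norm_num)) x).hasFDerivAt).fderiv
    have h8 := BrUni666.grad_le hdiff (B := δ) (m := ε / 4) (fun y k l => by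
      rw [MaxP.Hs_sub hv'.c2 hC.c2]; exact (h2 k l).1 y) hδ.le hw one_pos le_rfl x
    have h9 : |gr v' x i - gr v₀ x i| ≤ ‖fderiv ℝ (fun x => v' x - v₀ x) x‖ := by
      have h10 := (fderiv ℝ (fun x => v' x - v₀ x) x).le_opNorm (ee i)
      rw [hfd] at h10 ⊢
      have h11 : ‖(ee i : E n)‖ = 1 := by simp [ee]
      rw [h11, mul_one, Real.norm_eq_abs] at h10
      exact h10
    refine h9.trans (h8.trans ?_)
    linarith
  · have h10 := h2 i j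
    refine ⟨fun x => (h10.1 x).trans hδε, fun x y => (h10.2 x y).trans ?_⟩
    exact mul_le_mul_of_nonneg_right hδε (Real.rpow_nonneg (norm_nonneg _) a)
  · have hmono : ∀ {f : E n → ℝ}, HB a (M + δ) f → HB a (M + ε) f := fun {f} hf =>
      ⟨fun x => (hf.1 x).trans (by linarith), fun x y => (hf.2 x y).trans
        (mul_le_mul_of_nonneg_right (by linarith) (Real.rpow_nonneg (norm_nonneg _) a))⟩
    exact ⟨h1.c2, hmono h1.h0, fun i => hmono (h1.h1 i), fun i j => hmono (h1.h2 i j)⟩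

end Crest.Agent.R253.Br
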