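import Crest.Agent.R238.EStep

/-! Row 253, T6, node B4 (helper175): abstract continuity step with a bilinear drift term.
Port of `R238/EStep` (helper487). -/

set_option linter.unusedVariables false

open Set Metric

namespace Crest.Agent.R253.BrSt

open Crest.Agent.R238.EStep

section Main

variable {Y A : Type*} [NormedAddCommGroup Y] [NormedSpace ℝ Y] [CompleteSpace Y]
  [NormedRing A] [NormedAlgebra ℝ A] [CompleteSpace A]

/-- the linearised operator with the quadratic drift term -/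
noncomputable def DQ (K : Y →L[ℝ] A) (T : A →L[ℝ] Y) (Q : Y →L[ℝ] Y →L[ℝ] Y) (r : Y) :
    Y →L[ℝ] Y := DK K T (ginv K r) - Q r

/-- the vector field of the continuity path: `r' = - DΦ(r)⁻¹ P`. -/
noncomputable def vfQ (K : Y →L[ℝ] A) (T : A →L[ℝ] Y) (Q : Y →L[ℝ] Y →L[ℝ] Y) (P : Y) (r : Y) :
    Y := - (Ring.inverse (DQ K T Q r)) P

/-- the good set: `1 + K r` and the linearisation are invertible -/
def GoodQ (K : Y →L[ℝ] A) (T : A →L[ℝ] Y) (Q : Y →L[ℝ] Y →L[ℝ] Y) (r : Y) : Prop :=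
  IsUnit (1 + K r) ∧ IsUnit (DQ K T Q r)

/-- Uniform step: from a good `r₀` with bounds `M0, M2` one can follow the ODE for a time `t₀`
depending only on `M0, M2, K, T, P`. -/
theorem ode_stepQ (K : Y →L[ℝ] A) (T : A →L[ℝ] Y) (Q : Y →L[ℝ] Y →L[ℝ] Y) (NP : ℝ) (M0 M2 d0 : ℝ) (hM0 : 0 < M0)
    (hM2 : 0 < M2) (hd0 : 0 < d0) (hNP : 0 ≤ NP) :
    ∃ t₀ > 0, ∀ P : Y, ‖P‖ ≤ NP → ∀ r₀ : Y, GoodQ K T Q r₀ → ‖ginv K r₀‖ ≤ M0 →
      ‖Ring.inverse (DQ K T Q r₀)‖ ≤ M2 → ∀ a : ℝ, ∃ α : ℝ → Y, α a = r₀ ∧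
        ∀ t ∈ Icc a (a + t₀), GoodQ K T Q (α t) ∧
          HasDerivWithinAt α (vfQ K T Q P (α t)) (Icc a (a + t₀)) t ∧ ‖α t - r₀‖ ≤ d0 := by
  set k : ℝ := ‖K‖ + 1 with hk
  set τ : ℝ := ‖T‖ + 1 with hτ
  set q : ℝ := ‖Q‖ + 1 with hq
  have hk0 : 0 < k := by positivity
  have hτ0 : 0 < τ := by positivity
  have hq0 : 0 < q := by positivity
  set L4 : ℝ := τ * k * ((2 * M0) ^ 2 * k) + q with hL4
  have hL40 : 0 < L4 := by positivity
  -- radius
  set δ : ℝ := min (min (1 / (2 * M0 * k)) (1 / (2 * M2 * L4))) d0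
    with hδ
  have hδ0 : 0 < δ := by positivity
  have hδd : δ ≤ d0 := min_le_right _ _
  have hδ1 : k * δ ≤ 1 / (2 * M0) := by
    calc k * δ ≤ k * (1 / (2 * M0 * k)) := by
          gcongr; exact (min_le_left _ _).trans (min_le_left _ _)
      _ = 1 / (2 * M0) := by field_simp
  have hδ2 : L4 * δ ≤ 1 / (2 * M2) := by
    calc L4 * δ ≤ L4 * (1 / (2 * M2 * L4)) := by
          gcongr; exact (min_le_left _ _).trans (min_le_right _ _)
      _ = 1 / (2 * M2) := by field_simp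
  set Lb : ℝ := 2 * M2 * NP + 1 with hLb
  have hLb0 : 0 < Lb := by positivity
  refine ⟨δ / Lb, by positivity, ?_⟩
  intro P hP r₀ hg hi0 hi2 a
  -- facts in the ball
  have f1 : ∀ r ∈ closedBall r₀ δ, ‖(1 + K r) - (1 + K r₀)‖ ≤ k * ‖r - r₀‖ := by
    intro r _
    have : (1 + K r) - (1 + K r₀) = K (r - r₀) := by rw [map_sub]; abel
    rw [this]
    calc ‖K (r - r₀)‖ ≤ ‖K‖ * ‖r - r₀‖ := K.le_opNorm _
      _ ≤ k * ‖r - r₀‖ := by gcongr; linarith
  have f1' : ∀ r ∈ closedBall r₀ δ, ‖(1 + K r) - (1 + K r₀)‖ ≤ 1 / (2 * M0) := by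
    intro r hr
    have h2 : ‖r - r₀‖ ≤ δ := by simpa [dist_eq_norm] using hr
    calc ‖(1 + K r) - (1 + K r₀)‖ ≤ k * ‖r - r₀‖ := f1 r hr
      _ ≤ k * δ := by gcongr
      _ ≤ _ := hδ1
  have f2 : ∀ r ∈ closedBall r₀ δ, IsUnit (1 + K r) := fun r hr =>
    isUnit_near hM0 hg.1 hi0 (f1' r hr)
  have f3 : ∀ r ∈ closedBall r₀ δ, ∀ r' ∈ closedBall r₀ δ,
      ‖ginv K r - ginv K r'‖ ≤ (2 * M0) ^ 2 * (k * ‖r - r'‖) := by
    intro r hr r' hr'
    calc ‖ginv K r - ginv K r'‖ ≤ (2 * M0) ^ 2 * ‖(1 + K r) - (1 + K r')‖ :=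
          inverse_lip hM0 hg.1 hi0 (f1' r hr) (f1' r' hr')
      _ ≤ (2 * M0) ^ 2 * (k * ‖r - r'‖) := by
          gcongr
          have : (1 + K r) - (1 + K r') = K (r - r') := by rw [map_sub]; abel
          rw [this]
          calc ‖K (r - r')‖ ≤ ‖K‖ * ‖r - r'‖ := K.le_opNorm _
            _ ≤ k * ‖r - r'‖ := by gcongr; linarith
  have hr0 : r₀ ∈ closedBall r₀ δ := mem_closedBall_self hδ0.le
  have f4 : ∀ r ∈ closedBall r₀ δ, ∀ r' ∈ closedBall r₀ δ,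
      ‖DQ K T Q r - DQ K T Q r'‖ ≤ L4 * ‖r - r'‖ := by
    intro r hr r' hr'
    have h1 : ‖DK K T (ginv K r) - DK K T (ginv K r')‖
        ≤ τ * k * ((2 * M0) ^ 2 * (k * ‖r - r'‖)) := by
      calc ‖DK K T (ginv K r) - DK K T (ginv K r')‖ ≤ ‖T‖ * ‖K‖ * ‖ginv K r - ginv K r'‖ :=
            DK_sub_le _ _ _ _
        _ ≤ τ * k * ((2 * M0) ^ 2 * (k * ‖r - r'‖)) := by
            gcongr
            · linarith
            · linarith
            · exact f3 r hr r' hr'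
    have h2 : ‖Q r - Q r'‖ ≤ q * ‖r - r'‖ := by
      rw [← map_sub]
      calc ‖Q (r - r')‖ ≤ ‖Q‖ * ‖r - r'‖ := Q.le_opNorm _
        _ ≤ q * ‖r - r'‖ := by gcongr; linarith
    have h3 : DQ K T Q r - DQ K T Q r'
        = (DK K T (ginv K r) - DK K T (ginv K r')) - (Q r - Q r') := by
      unfold DQ; abel
    rw [h3]
    calc _ ≤ ‖DK K T (ginv K r) - DK K T (ginv K r')‖ + ‖Q r - Q r'‖ := norm_sub_le _ _
      _ ≤ τ * k * ((2 * M0) ^ 2 * (k * ‖r - r'‖)) + q * ‖r - r'‖ := add_le_add h1 h2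
      _ = L4 * ‖r - r'‖ := by rw [hL4]; ring
  have f4' : ∀ r ∈ closedBall r₀ δ, ‖DQ K T Q r - DQ K T Q r₀‖ ≤ 1 / (2 * M2) := by
    intro r hr
    have h2 : ‖r - r₀‖ ≤ δ := by simpa [dist_eq_norm] using hr
    calc ‖DQ K T Q r - DQ K T Q r₀‖ ≤ L4 * ‖r - r₀‖ := f4 r hr r₀ hr0
      _ ≤ L4 * δ := by gcongr
      _ ≤ _ := hδ2
  have f5 : ∀ r ∈ closedBall r₀ δ, IsUnit (DQ K T Q r) := fun r hr =>
    isUnit_near hM2 hg.2 hi2 (f4' r hr)
  have f6 : ∀ r ∈ closedBall r₀ δ, ‖Ring.inverse (DQ K T Q r)‖ ≤ 2 * M2 := fun r hr =>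
    inverse_le hM2 hg.2 hi2 (f4' r hr)
  have f7 : ∀ r ∈ closedBall r₀ δ, ∀ r' ∈ closedBall r₀ δ,
      ‖Ring.inverse (DQ K T Q r) - Ring.inverse (DQ K T Q r')‖ ≤
        (2 * M2) ^ 2 * (L4 * ‖r - r'‖) := by
    intro r hr r' hr'
    calc _ ≤ (2 * M2) ^ 2 * ‖DQ K T Q r - DQ K T Q r'‖ :=
          inverse_lip hM2 hg.2 hi2 (f4' r hr) (f4' r' hr')
      _ ≤ _ := by gcongr; exact f4 r hr r' hr'
  -- the truncated vector field
  classical
  set F : ℝ → Y → Y := fun _ r => if r ∈ closedBall r₀ δ then vfQ K T Q P r else 0 with hF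
  have hFle : ∀ t r, ‖F t r‖ ≤ Lb := by
    intro t r
    by_cases hr : r ∈ closedBall r₀ δ
    · simp only [hF, if_pos hr, vfQ, norm_neg]
      calc ‖Ring.inverse (DQ K T Q r) P‖
          ≤ ‖Ring.inverse (DQ K T Q r)‖ * ‖P‖ := ContinuousLinearMap.le_opNorm _ _
        _ ≤ 2 * M2 * NP := by gcongr; exact f6 r hr
        _ ≤ Lb := by linarith
    · simp only [hF, if_neg hr, norm_zero]; exact hLb0.le
  set Kl : ℝ := (2 * M2) ^ 2 * L4 * ‖P‖ with hKl
  have hKl0 : 0 ≤ Kl := by positivity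
  have hlip : ∀ t, LipschitzOnWith (Real.toNNReal Kl) (F t) (closedBall r₀ δ) := by
    intro t
    refine LipschitzOnWith.of_dist_le_mul fun r hr r' hr' => ?_
    rw [dist_eq_norm, dist_eq_norm, Real.coe_toNNReal _ hKl0]
    simp only [hF, if_pos hr, if_pos hr', vfQ]
    have : -(Ring.inverse (DQ K T Q r)) P - -(Ring.inverse (DQ K T Q r')) P =
      - ((Ring.inverse (DQ K T Q r) - Ring.inverse (DQ K T Q r')) P) := by
      simp only [ContinuousLinearMap.sub_apply]; abel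
    rw [this, norm_neg]
    calc _ ≤ ‖Ring.inverse (DQ K T Q r) - Ring.inverse (DQ K T Q r')‖ * ‖P‖ :=
          ContinuousLinearMap.le_opNorm _ _
      _ ≤ (2 * M2) ^ 2 * (L4 * ‖r - r'‖) * ‖P‖ := by
          gcongr; exact f7 r hr r' hr'
      _ = Kl * ‖r - r'‖ := by rw [hKl]; ring
  have ht0 : 0 < δ / Lb := by positivity
  have hle : a ≤ a + δ / Lb := by linarith
  let t0 : Icc a (a + δ / Lb) := ⟨a, left_mem_Icc.2 hle⟩
  have hPL : IsPicardLindelof F t0 r₀ (Real.toNNReal δ) 0 (Real.toNNReal Lb)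
      (Real.toNNReal Kl) := by
    refine ⟨?_, ?_, ?_, ?_⟩
    · intro t _
      have := hlip t
      rwa [← Real.coe_toNNReal δ hδ0.le] at this
    · intro x _
      exact continuousOn_const
    · intro t _ x _
      rw [Real.coe_toNNReal _ hLb0.le]; exact hFle t x
    · have e1 : a + δ / Lb - a = δ / Lb := by ring
      have e2 : a - a = 0 := by ring
      simp only [t0, e1, e2, Real.coe_toNNReal _ hLb0.le, Real.coe_toNNReal _ hδ0.le,
        NNReal.coe_zero, sub_zero]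
      rw [max_eq_left ht0.le]
      have : Lb * (δ / Lb) = δ := by field_simp
      rw [this]
  obtain ⟨α, hα0, hα⟩ := hPL.exists_eq_forall_mem_Icc_hasDerivWithinAt₀
  have hα0' : α a = r₀ := hα0
  -- stays in the ball
  have hball : ∀ t ∈ Icc a (a + δ / Lb), α t ∈ closedBall r₀ δ := by
    intro t ht
    have hd := (convex_Icc a (a + δ / Lb)).norm_image_sub_le_of_norm_hasDerivWithin_le
      (f := α) (f' := fun t => F t (α t)) (C := Lb) hα (fun x _ => hFle x (α x))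
      (left_mem_Icc.2 hle) ht
    rw [mem_closedBall, dist_eq_norm, ← hα0']
    refine hd.trans ?_
    rw [Real.norm_of_nonneg (by linarith [ht.1])]
    calc Lb * (t - a) ≤ Lb * (δ / Lb) := by gcongr; linarith [ht.2]
      _ = δ := by field_simp
  refine ⟨α, hα0', fun t ht => ⟨⟨f2 _ (hball t ht), f5 _ (hball t ht)⟩, ?_, ?_⟩⟩
  · have := hα t ht
    simpa only [hF, if_pos (hball t ht)] using this
  · have := hball t ht
    rw [mem_closedBall, dist_eq_norm] at this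
    exact this.trans hδd

end Main

end Crest.Agent.R253.BrSt
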