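import Crest.Agent.R253.BrYB_175
import Crest.Agent.R253.BrODE_175
import Crest.Agent.R238.StepMat
import Crest.Agent.R238.StepLog
import Crest.Agent.R238.ExtInv
import Crest.Agent.R238.MaxPL
import Crest.Agent.R253.BrDefs_505

/-!
Row 253, T6 (smooth Brenier map), node B4 (helper175): definitions and the solution operator of
`L₀ - lam` on bounded Hölder functions as a continuous linear map.  Port of `R238/StepK`.
-/

set_option autoImplicit false

open MeasureTheory Set Filter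
open scoped ContDiff Topology BoundedContinuousFunction

namespace Crest.Agent.R253.BrSt

open Crest.Agent.R238 Crest.Agent.R238.Step Crest.Agent.R253.Br

variable {n : ℕ} {a : ℝ}

/-! ### linear lemmas -/

theorem gr_add {f g : E n → ℝ} (hf : ContDiff ℝ 2 f) (hg : ContDiff ℝ 2 g) (x : E n)
    (i : Fin n) : gr (fun x => f x + g x) x i = gr f x i + gr g x i := by
  unfold gr
  rw [fderiv_fun_add (f_diff hf x) (f_diff hg x)]
  rfl

theorem gr_sub {f g : E n → ℝ} (hf : ContDiff ℝ 2 f) (hg : ContDiff ℝ 2 g) (x : E n)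
    (i : Fin n) : gr (fun x => f x - g x) x i = gr f x i - gr g x i := by
  unfold gr
  rw [fderiv_fun_sub (f_diff hf x) (f_diff hg x)]
  rfl

theorem gr_smul {f : E n → ℝ} (c : ℝ) (hf : ContDiff ℝ 2 f) (x : E n) (i : Fin n) :
    gr (fun x => c * f x) x i = c * gr f x i := by
  unfold gr
  rw [fderiv_const_mul (f_diff hf x) c]
  rfl

/-- uniqueness for `L₀ - lam` on bounded functions -/
theorem uniqB {lam : ℝ} (hl : 0 < lam) {v : E n → ℝ} (hv : ContDiff ℝ 2 v)
    (hb : ∃ B : ℝ, ∀ x, |v x| ≤ B)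
    (h0 : ∀ x, LA (fun _ => (1 : Matrix (Fin n) (Fin n) ℝ)) v x - lam * v x = 0) :
    ∀ x, v x = 0 := by
  obtain ⟨B, hB⟩ := hb
  have hτ : ∀ x : E n, ((fun _ => (1 : Matrix (Fin n) (Fin n) ℝ)) x).PosSemidef := fun _ =>
    Matrix.PosSemidef.one
  have hT : ∀ x : E n, ((fun _ => (1 : Matrix (Fin n) (Fin n) ℝ)) x).trace ≤ (n : ℝ) := fun _ => by
    simp
  have h1 : ∀ x, v x ≤ 0 := MaxP.max_principle hτ hT hv (M := B)
    (fun x => (le_abs_self _).trans (hB x)) hl fun x _ => by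
      have := h0 x
      linarith
  have h2 : ∀ x, - v x ≤ 0 := MaxP.max_principle hτ hT hv.neg (M := B)
    (fun x => (neg_le_abs _).trans (hB x)) hl fun x _ => by
      rw [MaxP.LA_neg _ hv]
      have := h0 x
      linarith
  intro x
  have := h1 x
  have := h2 x
  linarith

/-- data of the solution operator -/
structure KDat (n : ℕ) (a lam : ℝ) where
  C : ℝ
  K : YZ n a →L[ℝ] (Fin n → Fin n → YZ n a)
  K1 : YZ n a →L[ℝ] (Fin n → YZ n a)
  K0 : YZ n a →L[ℝ] YZ n a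
  vv : YZ n a → E n → ℝ
  hC : 0 < C
  c2 : ∀ r, ContDiff ℝ 2 (vv r)
  fnK : ∀ r i j x, fn (K r i j) x = Hs (vv r) x i j
  fnK1 : ∀ r i x, fn (K1 r i) x = gr (vv r) x i
  fnK0 : ∀ r x, fn (K0 r) x = vv r x
  eqn : ∀ r x, LA (fun _ => (1 : Matrix (Fin n) (Fin n) ℝ)) (vv r) x - lam * vv r x = fn r x
  nK : ∀ r i j, ‖K r i j‖ ≤ C * ‖r‖
  nK1 : ∀ r i, ‖K1 r i‖ ≤ C * ‖r‖
  nK0 : ∀ r, ‖K0 r‖ ≤ C * ‖r‖
  uq : ∀ r (v : E n → ℝ), ContDiff ℝ 2 v → (∃ B : ℝ, ∀ x, |v x| ≤ B) →
        (∀ x, LA (fun _ => (1 : Matrix (Fin n) (Fin n) ℝ)) v x - lam * v x = fn r x) → vv r = v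

theorem exists_KDat (hS : SolB) (n : ℕ) {a lam : ℝ} (h0 : 0 < a) (h1 : a < 1) (hl : 0 < lam) :
    Nonempty (KDat n a lam) := by
  obtain ⟨C, hC, H⟩ := hS n a lam h0 h1 hl
  choose vv hvC hvs using fun r : YZ n a => H (fn r) ‖r‖ (fn_hb h0 r)
  have hvc : ∀ r, ContDiff ℝ 2 (vv r) := fun r => (hvC r).c2
  have hv0 : ∀ r, HB a (C * ‖r‖) (vv r) := fun r => (hvC r).h0
  have hv1 : ∀ r i, HB a (C * ‖r‖) (fun x => gr (vv r) x i) := fun r => (hvC r).h1
  have hv2 : ∀ r i j, HB a (C * ‖r‖) (fun x => Hs (vv r) x i j) := fun r => (hvC r).h2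
  have hu : ∀ r (v : E n → ℝ), ContDiff ℝ 2 v → (∃ B : ℝ, ∀ x, |v x| ≤ B) →
        (∀ x, LA (fun _ => (1 : Matrix (Fin n) (Fin n) ℝ)) v x - lam * v x = fn r x) →
        vv r = v := by
    rintro r v hv ⟨B, hB⟩ hs
    funext x
    have h := uniqB hl (v := fun x => vv r x - v x) ((hvc r).sub hv)
      ⟨C * ‖r‖ + B, fun x =>
        (abs_sub _ _).trans (add_le_add ((hv0 r).1 x) (hB x))⟩
      (fun x => by
        rw [LA_sub _ (hvc r) hv]
        have h1 := hvs r x
        have h2 := hs x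
        linarith) x
    linarith
  choose kk hk hkn using fun (r : YZ n a) (i j : Fin n) => exists_YZ h0 (hv2 r i j)
  choose k1 hk1 hkn1 using fun (r : YZ n a) (i : Fin n) => exists_YZ h0 (hv1 r i)
  choose k0 hk0 hkn0 using fun (r : YZ n a) => exists_YZ h0 (hv0 r)
  have hkf : ∀ r i j x, fn (kk r i j) x = Hs (vv r) x i j := fun r i j x => by rw [hk r i j]
  have hkf1 : ∀ r i x, fn (k1 r i) x = gr (vv r) x i := fun r i x => by rw [hk1 r i]
  have hkf0 : ∀ r x, fn (k0 r) x = vv r x := fun r x => by rw [hk0 r]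
  have hbd : ∀ r : YZ n a, ∃ B : ℝ, ∀ x, |vv r x| ≤ B := fun r => ⟨C * ‖r‖, (hv0 r).1⟩
  have hadd : ∀ r s, vv (r + s) = fun x => vv r x + vv s x := by
    intro r s
    obtain ⟨B, hB⟩ := hbd r
    obtain ⟨B', hB'⟩ := hbd s
    refine hu (r + s) _ ((hvc r).add (hvc s)) ⟨B + B', fun x => ?_⟩ fun x => ?_
    · exact (abs_add_le _ _).trans (add_le_add (hB x) (hB' x))
    · rw [LA_add _ (hvc r) (hvc s), fn_add, ← hvs r x, ← hvs s x]; ring
  have hsmul : ∀ (c : ℝ) r, vv (c • r) = fun x => c * vv r x := by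
    intro c r
    obtain ⟨B, hB⟩ := hbd r
    refine hu (c • r) _ (contDiff_const.mul (hvc r)) ⟨|c| * B, fun x => ?_⟩ fun x => ?_
    · rw [abs_mul]
      exact mul_le_mul_of_nonneg_left (hB x) (abs_nonneg _)
    · rw [LA_smul _ c (hvc r), fn_smul, ← hvs r x]; ring
  let K2' : YZ n a →ₗ[ℝ] (Fin n → Fin n → YZ n a) :=
    { toFun := kk
      map_add' := fun r s => by
        funext i j
        refine YZext fun x => ?_
        rw [hkf, hadd, Hs_add (hvc r) (hvc s), Pi.add_apply, Pi.add_apply, fn_add, hkf, hkf]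
      map_smul' := fun c r => by
        funext i j
        refine YZext fun x => ?_
        rw [hkf, hsmul, Hs_smul c (hvc r), RingHom.id_apply, Pi.smul_apply, Pi.smul_apply,
          fn_smul, hkf] }
  let K1' : YZ n a →ₗ[ℝ] (Fin n → YZ n a) :=
    { toFun := k1
      map_add' := fun r s => by
        funext i
        refine YZext fun x => ?_
        rw [hkf1, hadd, gr_add (hvc r) (hvc s), Pi.add_apply, fn_add, hkf1, hkf1]
      map_smul' := fun c r => by
        funext i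
        refine YZext fun x => ?_
        rw [hkf1, hsmul, gr_smul c (hvc r), RingHom.id_apply, Pi.smul_apply, fn_smul, hkf1] }
  let K0' : YZ n a →ₗ[ℝ] YZ n a :=
    { toFun := k0
      map_add' := fun r s => by
        refine YZext fun x => ?_
        rw [hkf0, hadd, fn_add, hkf0, hkf0]
      map_smul' := fun c r => by
        refine YZext fun x => ?_
        rw [hkf0, hsmul, RingHom.id_apply, fn_smul, hkf0] }
  have hK2 : ∀ r, ‖K2' r‖ ≤ C * ‖r‖ := by
    intro r
    have hpos : 0 ≤ C * ‖r‖ := by positivity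
    refine (pi_norm_le_iff_of_nonneg hpos).2 fun i => (pi_norm_le_iff_of_nonneg hpos).2 fun j => ?_
    exact hkn r i j
  have hK1 : ∀ r, ‖K1' r‖ ≤ C * ‖r‖ := by
    intro r
    have hpos : 0 ≤ C * ‖r‖ := by positivity
    exact (pi_norm_le_iff_of_nonneg hpos).2 fun i => hkn1 r i
  exact ⟨⟨C, K2'.mkContinuous C hK2, K1'.mkContinuous C hK1, K0'.mkContinuous C hkn0, vv, hC, hvc,
    hkf, hkf1, hkf0, hvs, fun r i j => hkn r i j, fun r i => hkn1 r i, fun r => hkn0 r, hu⟩⟩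

end Crest.Agent.R253.BrSt
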