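import Crest.Agent.R253.BrDefs_505

/-!
Row 253 (S0391), task T6, node B4 (statement only, helper666): the uniform step of the continuity
method with a GENERAL right hand side `G + t Q`.  It implies `StepB` (`G = s P`, `Q = P`) and
gives the continuous dependence of the solution on the data (`BrCont_666.lean`).
-/

set_option autoImplicit false

open Set Filter
open scoped ContDiff Topology

namespace Crest.Agent.R253.Br

open Crest.Agent.R238

variable {n : ℕ}

/-- **B4**, general form -/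
def StepG : Prop := ∀ (n : ℕ) (a lam lo hi M M2 NQ δ : ℝ), 0 < a → a < 1 → 0 < lam → lam ≤ 1 →
  0 < lo → lo ≤ hi → 0 < δ → ∃ t₀ : ℝ, 0 < t₀ ∧ ∀ (Q : E n → ℝ), HB a NQ Q →
    ∀ (G v : E n → ℝ), ClsB a M v → (∀ x, Ell lo hi (gm v x)) → MAb G lam 1 v →
      AprB a lam M2 (gr v) (tauf v) → SrjB a lam (gr v) (tauf v) →
      ∀ t ∈ Icc (0 : ℝ) t₀, ∃ v' : E n → ℝ, ClsB a (M + δ) v' ∧
        (∀ i j, HB a δ (fun x => Hs v' x i j - Hs v x i j)) ∧
        (∀ x, Ell (lo / 2) (hi + lo / 2) (gm v' x)) ∧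
        MAb (fun x => G x + t * Q x) lam 1 v' ∧ SrjB a lam (gr v') (tauf v')

theorem stepB_of_stepG (h : StepG) : StepB := by
  intro n a lam lo hi M M2 NP δ ha ha1 hlam hlam1 hlo hlohi hδ
  obtain ⟨t₀, ht₀, H⟩ := h n a lam lo hi M M2 NP δ ha ha1 hlam hlam1 hlo hlohi hδ
  refine ⟨t₀, ht₀, fun P hP s v hv hE hM hA hS s' hs' => ?_⟩
  have hM1 : MAb (fun x => s * P x) lam 1 v := by
    intro x
    have := hM x
    rw [this]; ring
  obtain ⟨v', h1, h2, h3, h4, h5⟩ := H P hP (fun x => s * P x) v hv hE hM1 hA hS (s' - s)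
    ⟨by linarith [hs'.1], by linarith [hs'.2]⟩
  refine ⟨v', h1, h2, h3, fun x => ?_, h5⟩
  have := h4 x
  rw [this]; ring

end Crest.Agent.R253.Br
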