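import Crest.Agent.R253.BrKD_175

/-!
Row 253, T6 (smooth Brenier map), node B4 (helper175): the uniform step of the continuity method.
Port of `R238/StepMain`, `R238/StepFin` (helper487) with the quadratic drift term.
-/

set_option autoImplicit false

open MeasureTheory Set Filter Metric
open scoped ContDiff Topology BoundedContinuousFunction

namespace Crest.Agent.R253.BrSt

open Crest.Agent.R238 Crest.Agent.R238.Step Crest.Agent.R238.EStep Crest.Agent.R253.Br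

variable {n : ℕ} {a lam : ℝ}

/-- the operator `K` with values in the Banach algebra -/
noncomputable def Kt (h0 : 0 < a) (D : KDat n a lam) : YZ n a →L[ℝ] OpA n a := (MOL n h0).comp D.K

/-- the bilinear drift term `(r, ρ) ↦ ∇v_r · ∇v_ρ` -/
noncomputable def Qt (h0 : 0 < a) (D : KDat n a lam) : YZ n a →L[ℝ] YZ n a →L[ℝ] YZ n a :=
  ∑ i, (mulY h0).bilinearComp ((ContinuousLinearMap.proj i).comp D.K1)
    ((ContinuousLinearMap.proj i).comp D.K1)

variable (h0 : 0 < a) (D : KDat n a lam)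

theorem Kt_apply (r : YZ n a) : Kt h0 D r = MO h0 (D.K r) := rfl

theorem Qt_apply (r ρ : YZ n a) : Qt h0 D r ρ = ∑ i, mulY h0 (D.K1 r i) (D.K1 ρ i) := by
  simp [Qt]

theorem fn_Qt (r ρ : YZ n a) (x : E n) :
    fn (Qt h0 D r ρ) x = ∑ i, gr (D.vv r) x i * gr (D.vv ρ) x i := by
  rw [Qt_apply, fn_sum]
  exact Finset.sum_congr rfl fun i _ => by rw [mulY_fn, D.fnK1, D.fnK1]

theorem one_add_Kt (r : YZ n a) : 1 + Kt h0 D r = MO h0 (idY n h0 + D.K r) := by
  rw [← MO_id h0, Kt_apply, ← MOL_apply, ← MOL_apply, ← MOL_apply, map_add]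

theorem fn_gm (r : YZ n a) (i j : Fin n) (x : E n) :
    fn ((idY n h0 + D.K r) i j) x = gm (D.vv r) x i j := by
  rw [Pi.add_apply, Pi.add_apply, fn_add, idY_fn, D.fnK, ExtInv.gm_apply]

include h0 in
theorem cls_vv (r : YZ n a) : ClsB a (D.C * ‖r‖) (D.vv r) := by
  refine ⟨D.c2 r, ?_, fun i => ?_, fun i j => ?_⟩
  · have h := fn_hb h0 (D.K0 r)
    have h2 : fn (D.K0 r) = D.vv r := funext fun x => D.fnK0 r x
    rw [h2] at h
    exact HB.mono h (D.nK0 r)
  · have h := fn_hb h0 (D.K1 r i)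
    have h2 : fn (D.K1 r i) = fun x => gr (D.vv r) x i := funext fun x => D.fnK1 r i x
    rw [h2] at h
    exact HB.mono h (D.nK1 r i)
  · have h := fn_hb h0 (D.K r i j)
    have h2 : fn (D.K r i j) = fun x => Hs (D.vv r) x i j := funext fun x => D.fnK r i j x
    rw [h2] at h
    exact HB.mono h (D.nK r i j)

/-- the matrix field `τ` as an element of the Banach algebra is the inverse of `1 + K r` -/
theorem unit_of {r : YZ n a} {lo hi : ℝ} (hlo : 0 < lo) (hE : ∀ x, Ell lo hi (gm (D.vv r) x))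
    {τ : Fin n → Fin n → YZ n a} (hτ : ∀ i j x, fn (τ i j) x = tauf (D.vv r) x i j) :
    IsUnit (1 + Kt h0 D r) ∧ ginv (Kt h0 D) r = MO h0 τ := by
  have e1 : (1 + Kt h0 D r) * MO h0 τ = 1 := by
    rw [one_add_Kt, MO_mul, ← MO_id h0]
    congr 1
    funext i k
    refine YZext fun x => ?_
    rw [mm_fn, idY_fn]
    simp only [fn_gm, hτ]
    have := congrFun (congrFun (Ell.sm_mul_inv hlo (hE x)) i) k
    rw [← this, Matrix.mul_apply]
    rfl
  have e2 : MO h0 τ * (1 + Kt h0 D r) = 1 := by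
    rw [one_add_Kt, MO_mul, ← MO_id h0]
    congr 1
    funext i k
    refine YZext fun x => ?_
    rw [mm_fn, idY_fn]
    simp only [fn_gm, hτ]
    have := congrFun (congrFun (Ell.sm_inv_mul hlo (hE x)) i) k
    rw [← this, Matrix.mul_apply]
    rfl
  refine ⟨⟨⟨_, _, e1, e2⟩, rfl⟩, ?_⟩
  have := Ring.inverse_unit (⟨1 + Kt h0 D r, MO h0 τ, e1, e2⟩ : (OpA n a)ˣ)
  exact this

/-- the linearised operator without drift is `L_τ - lam` -/
theorem fn_DK {τ : Fin n → Fin n → YZ n a} {T : E n → Matrix (Fin n) (Fin n) ℝ}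
    (hτ : ∀ i j x, fn (τ i j) x = T x i j) (ρ : YZ n a) (x : E n) :
    fn (DK (Kt h0 D) (trY n h0) (MO h0 τ) ρ) x = LA T (D.vv ρ) x - lam * D.vv ρ x := by
  have h1 : (MO h0 τ - 1) * Kt h0 D ρ = MO h0 (mm h0 (τ - idY n h0) (D.K ρ)) := by
    rw [← MO_id h0, Kt_apply, ← MO_mul]
    congr 1
    rw [← MOL_apply, ← MOL_apply, ← MOL_apply, map_sub]
  have h2 : DK (Kt h0 D) (trY n h0) (MO h0 τ) ρ
      = ρ + trY n h0 ((MO h0 τ - 1) * Kt h0 D ρ) := rfl
  rw [h2, h1, fn_add, trY_MO]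
  simp only [mm_fn, Pi.sub_apply, fn_sub, idY_fn, hτ, D.fnK]
  rw [← D.eqn ρ x]
  unfold LA
  have h3 : ∑ i, ∑ j, (T x i j - (1 : Matrix (Fin n) (Fin n) ℝ) i j) * Hs (D.vv ρ) x j i
      = ∑ i, ∑ j, T x i j * Hs (D.vv ρ) x i j
        - ∑ i, ∑ j, (1 : Matrix (Fin n) (Fin n) ℝ) i j * Hs (D.vv ρ) x i j := by
    rw [← Finset.sum_sub_distrib]
    refine Finset.sum_congr rfl fun i _ => ?_
    rw [← Finset.sum_sub_distrib]
    refine Finset.sum_congr rfl fun j _ => ?_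
    rw [ExtInv.Hs_symm (D.c2 ρ) x j i]
    ring
  rw [h3]
  ring

/-- the linearised operator is `Lb` -/
theorem fn_DQ {r : YZ n a} {τ : Fin n → Fin n → YZ n a} {T : E n → Matrix (Fin n) (Fin n) ℝ}
    (hτ : ∀ i j x, fn (τ i j) x = T x i j) (hg : ginv (Kt h0 D) r = MO h0 τ) (ρ : YZ n a)
    (x : E n) :
    fn (DQ (Kt h0 D) (trY n h0) (Qt h0 D) r ρ) x = Lb lam (gr (D.vv r)) T (D.vv ρ) x := by
  have h1 : DQ (Kt h0 D) (trY n h0) (Qt h0 D) r ρ
      = DK (Kt h0 D) (trY n h0) (MO h0 τ) ρ - Qt h0 D r ρ := by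
    unfold DQ
    rw [hg]
    rfl
  rw [h1, fn_sub, fn_DK h0 D hτ, fn_Qt]
  unfold Lb
  ring

include h0 in
/-- the matrix `τ` as a matrix of `YZ` functions -/
theorem exists_tau {v : E n → ℝ} {lo hi M : ℝ} (hlo : 0 < lo) (hhi : lo ≤ hi)
    (hv : ClsB a M v) (hE : ∀ x, Ell lo hi (gm v x)) :
    ∃ τ : Fin n → Fin n → YZ n a, (∀ i j x, fn (τ i j) x = tauf v x i j) ∧
      ∀ i j, ‖τ i j‖ ≤ 1 / lo + (n : ℝ) ^ 2 * (1 / lo) ^ 2 * (1 + |M|) := by
  have hgm : ∀ i j, HB a (1 + |M|) (fun x => gm v x i j) := by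
    intro i j
    have h1 : HB a 1 (fun _ : E n => (1 : Matrix (Fin n) (Fin n) ℝ) i j) := by
      have h2 := HB.const (n := n) (a := a) ((1 : Matrix (Fin n) (Fin n) ℝ) i j)
      refine HB.mono h2 ?_
      rw [Matrix.one_apply]; split_ifs <;> simp
    have h3 := HB.add h1 (HB.mono (hv.h2 i j) (le_abs_self M))
    have h4 : (fun x => gm v x i j)
        = fun x => (1 : Matrix (Fin n) (Fin n) ℝ) i j + Hs v x i j := funext fun x => by
      rw [ExtInv.gm_apply]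
    rw [h4]; exact h3
  choose τ h1 h2 using fun i j => exists_YZ h0
    (ExtInv.hb_inv hlo (hlo.trans_le hhi) hE hgm i j)
  refine ⟨τ, fun i j x => by rw [h1]; rfl, fun i j => ?_⟩
  have := h2 i j
  rwa [abs_of_nonneg (by positivity : (0 : ℝ) ≤ 1 + |M|)] at this

/-- `L₀ h - lam h` in terms of `Lb` -/
theorem L0_eq_Lb (b : E n → Fin n → ℝ) (T : E n → Matrix (Fin n) (Fin n) ℝ) (h : E n → ℝ)
    (x : E n) : LA (fun _ => (1 : Matrix (Fin n) (Fin n) ℝ)) h x - lam * h x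
      = Lb lam b T h x
        + (∑ i, ∑ j, ((1 : Matrix (Fin n) (Fin n) ℝ) i j - T x i j) * Hs h x i j
          + ∑ i, b x i * gr h x i) := by
  unfold Lb LA
  simp only [sub_mul, Finset.sum_sub_distrib]
  ring

/-- Hölder bound of the correction -/
theorem hb_corr {M Cτ B : ℝ} {b : E n → Fin n → ℝ} {T : E n → Matrix (Fin n) (Fin n) ℝ}
    {h : E n → ℝ} (hb : ∀ i, HB a |M| (fun x => b x i)) (hT : ∀ i j, HB a |Cτ| (fun x => T x i j))
    (hh : ClsB a B h) :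
    HB a ((n : ℝ) ^ 2 * (2 * (1 + |Cτ|) * B) + n * (2 * |M| * B)) (fun x =>
      ∑ i, ∑ j, ((1 : Matrix (Fin n) (Fin n) ℝ) i j - T x i j) * Hs h x i j
          + ∑ i, b x i * gr h x i) := by
  have h2 : ∀ i j, HB a (2 * (1 + |Cτ|) * B) (fun x =>
      ((1 : Matrix (Fin n) (Fin n) ℝ) i j - T x i j) * Hs h x i j) := by
    intro i j
    refine HB.mul ?_ (hh.h2 i j)
    have h3 : HB a 1 (fun _ : E n => (1 : Matrix (Fin n) (Fin n) ℝ) i j) := by
      have h2 := HB.const (n := n) (a := a) ((1 : Matrix (Fin n) (Fin n) ℝ) i j)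
      refine HB.mono h2 ?_
      rw [Matrix.one_apply]; split_ifs <;> simp
    exact HB.sub h3 (hT i j)
  have h3 : ∀ i, HB a (2 * |M| * B) (fun x => b x i * gr h x i) := fun i =>
    HB.mul (hb i) (hh.h1 i)
  have h4 := HB.add (HB.sum Finset.univ fun i _ => HB.sum Finset.univ fun j _ => h2 i j)
    (HB.sum Finset.univ fun i _ => h3 i)
  refine HB.mono h4 (le_of_eq ?_)
  simp
  ring

/-- antilipschitz bound of the linearised operator -/
theorem antilip {r : YZ n a} {v : E n → ℝ} (hr : D.vv r = v) {M M2 Cτ : ℝ}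
    (hv : ClsB a M v) (hA : AprB a lam M2 (gr v) (tauf v))
    {τ : Fin n → Fin n → YZ n a} (hτ : ∀ i j x, fn (τ i j) x = tauf v x i j)
    (hτn : ∀ i j, ‖τ i j‖ ≤ Cτ) (hg : ginv (Kt h0 D) r = MO h0 τ) (ρ : YZ n a) :
    ‖ρ‖ ≤ (1 + ((n : ℝ) ^ 2 * (2 * (1 + |Cτ|) * |M2|) + n * (2 * |M| * |M2|))) *
      ‖DQ (Kt h0 D) (trY n h0) (Qt h0 D) r ρ‖ := by
  set N : ℝ := ‖DQ (Kt h0 D) (trY n h0) (Qt h0 D) r ρ‖ with hN
  have hN0 : 0 ≤ N := norm_nonneg _
  have hf : HB a N (Lb lam (gr v) (tauf v) (D.vv ρ)) := by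
    have h := fn_hb h0 (DQ (Kt h0 D) (trY n h0) (Qt h0 D) r ρ)
    have h2 : fn (DQ (Kt h0 D) (trY n h0) (Qt h0 D) r ρ)
        = Lb lam (gr v) (tauf v) (D.vv ρ) := funext fun x => by
      rw [fn_DQ h0 D hτ hg ρ x, hr]
    rwa [h2] at h
  have hH := hA (D.vv ρ) N ⟨_, cls_vv h0 D ρ⟩ hf
  have hle : M2 * N ≤ |M2| * N := mul_le_mul_of_nonneg_right (le_abs_self _) hN0
  have hH' : ClsB a (|M2| * N) (D.vv ρ) :=
    ⟨hH.c2, HB.mono hH.h0 hle, fun i => HB.mono (hH.h1 i) hle, fun i j => HB.mono (hH.h2 i j) hle⟩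
  refine YZ_norm_le h0 ?_
  have h1 : fn ρ = fun x => Lb lam (gr v) (tauf v) (D.vv ρ) x
      + (∑ i, ∑ j, ((1 : Matrix (Fin n) (Fin n) ℝ) i j - tauf v x i j) * Hs (D.vv ρ) x i j
        + ∑ i, gr v x i * gr (D.vv ρ) x i) := by
    funext x
    rw [← D.eqn ρ x]
    exact L0_eq_Lb _ _ _ _
  rw [h1]
  have hT : ∀ i j, HB a |Cτ| (fun x => tauf v x i j) := by
    intro i j
    have h5 := HB.mono (fn_hb h0 (τ i j)) ((hτn i j).trans (le_abs_self _))
    have h6 : fn (τ i j) = fun x => tauf v x i j := funext fun x => hτ i j x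
    rwa [h6] at h5
  have hb : ∀ i, HB a |M| (fun x => gr v x i) := fun i => HB.mono (hv.h1 i) (le_abs_self _)
  have h3 := HB.add hf (hb_corr hb hT hH')
  refine HB.mono h3 (le_of_eq ?_)
  ring

/-- the linearised operator is invertible -/
theorem isUnit_DQ {r : YZ n a} {v : E n → ℝ} (hr : D.vv r = v) {M M2 Cτ : ℝ}
    (hv : ClsB a M v) (hA : AprB a lam M2 (gr v) (tauf v))
    (hSr : SrjB a lam (gr v) (tauf v))
    {τ : Fin n → Fin n → YZ n a} (hτ : ∀ i j x, fn (τ i j) x = tauf v x i j)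
    (hτn : ∀ i j, ‖τ i j‖ ≤ Cτ) (hg : ginv (Kt h0 D) r = MO h0 τ) :
    IsUnit (DQ (Kt h0 D) (trY n h0) (Qt h0 D) r) := by
  rw [ContinuousLinearMap.isUnit_iff_bijective]
  constructor
  · rw [injective_iff_map_eq_zero]
    intro ρ hρ
    have := antilip h0 D hr hv hA hτ hτn hg ρ
    rw [hρ, norm_zero, mul_zero] at this
    exact norm_le_zero_iff.1 this
  · intro y
    obtain ⟨h, ⟨B, hB⟩, hh⟩ := hSr (fn y) ‖y‖ (fn_hb h0 y)
    have hT : ∀ i j, HB a |Cτ| (fun x => tauf v x i j) := by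
      intro i j
      have h5 := HB.mono (fn_hb h0 (τ i j)) ((hτn i j).trans (le_abs_self _))
      have h6 : fn (τ i j) = fun x => tauf v x i j := funext fun x => hτ i j x
      rwa [h6] at h5
    have hb : ∀ i, HB a |M| (fun x => gr v x i) := fun i => HB.mono (hv.h1 i) (le_abs_self _)
    have h3 := HB.add (fn_hb h0 y) (hb_corr hb hT hB)
    obtain ⟨ρ, hρ, -⟩ := exists_YZ h0 h3
    refine ⟨ρ, ?_⟩
    have hvv : D.vv ρ = h := D.uq ρ h hB.c2 ⟨B, hB.h0.1⟩ fun x => by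
      rw [hρ, L0_eq_Lb (gr v) (tauf v), hh]
    refine YZext fun x => ?_
    rw [fn_DQ h0 D hτ hg, hvv, hr, hh]

/-- solvability from invertibility -/
theorem srj_of {r : YZ n a} {τ : Fin n → Fin n → YZ n a}
    (hτ : ∀ i j x, fn (τ i j) x = tauf (D.vv r) x i j) (hg : ginv (Kt h0 D) r = MO h0 τ)
    (hU : IsUnit (DQ (Kt h0 D) (trY n h0) (Qt h0 D) r)) :
    SrjB a lam (gr (D.vv r)) (tauf (D.vv r)) := by
  intro f N hf
  obtain ⟨y, hy, -⟩ := exists_YZ h0 hf
  obtain ⟨ρ, hρ⟩ := (ContinuousLinearMap.isUnit_iff_bijective.1 hU).2 y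
  refine ⟨D.vv ρ, ⟨_, cls_vv h0 D ρ⟩, fun x => ?_⟩
  rw [← fn_DQ h0 D hτ hg, hρ, hy]

theorem sum_one_mul_Hs (v : E n → ℝ) (x : E n) :
    ∑ i, ∑ j, (1 : Matrix (Fin n) (Fin n) ℝ) i j * Hs v x i j = ∑ i, Hs v x i i := by
  refine Finset.sum_congr rfl fun i _ => ?_
  rw [Finset.sum_eq_single i]
  · simp
  · intro j _ hj; simp [hj.symm]
  · simp

include h0 in
/-- a solution of the Monge-Ampere equation is `vv r` -/
theorem exists_r {v P : E n → ℝ} {s M NP : ℝ} (hv : ClsB a M v) (hP : HB a NP P)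
    (hMA : MAb P lam s v) (hL : ∃ N, HB a N (fun x => Real.log (gm v x).det)) :
    ∃ r : YZ n a, D.vv r = v := by
  obtain ⟨N, hN⟩ := hL
  have h1 : (fun x => LA (fun _ => (1 : Matrix (Fin n) (Fin n) ℝ)) v x - lam * v x)
      = fun x => (∑ i, Hs v x i i) + ((- Real.log (gm v x).det + (-s) * P x)
        + (1 / 2) * ∑ i, gr v x i * gr v x i) := by
    funext x
    have h2 := hMA x
    unfold LA
    rw [sum_one_mul_Hs]
    simp only [sq] at h2
    linarith
  have h2 := HB.add (HB.sum Finset.univ fun i _ => hv.h2 i i)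
    (HB.add (HB.add (HB.neg hN) (HB.const_mul (-s) hP))
      (HB.const_mul (1 / 2) (HB.sum Finset.univ fun i _ => HB.mul (hv.h1 i) (hv.h1 i))))
  obtain ⟨r, hr, -⟩ := exists_YZ h0 h2
  refine ⟨r, D.uq r v hv.c2 ⟨M, hv.h0.1⟩ fun x => ?_⟩
  rw [hr]
  exact congrFun h1 x

/-- value of the Monge-Ampere functional in terms of `r` -/
theorem ma_fn (r : YZ n a) (x : E n) :
    - fderiv ℝ (D.vv r) x x - lam * D.vv r x = fn r x - ∑ i, fn (D.K r i i) x := by
  rw [← D.eqn r x]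
  unfold LA
  have h3 : ∑ i, ∑ j, (1 : Matrix (Fin n) (Fin n) ℝ) i j * Hs (D.vv r) x i j
      = ∑ i, fn (D.K r i i) x := by
    rw [sum_one_mul_Hs]
    exact Finset.sum_congr rfl fun i _ => (D.fnK r i i x).symm
  rw [h3]; ring

/-- the Monge-Ampere equation is preserved along the ODE -/
theorem ma_path {P : E n → ℝ} {PY : YZ n a} (hPY : ∀ x, fn PY x = P x) {s s' lo hi : ℝ}
    (hs : s ≤ s') (hlo : 0 < lo) {α : ℝ → YZ n a}
    (hE : ∀ t ∈ Icc s s', ∀ x, Ell lo hi (gm (D.vv (α t)) x))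
    (hτ : ∀ t ∈ Icc s s', ∃ τ : Fin n → Fin n → YZ n a,
      ∀ i j x, fn (τ i j) x = tauf (D.vv (α t)) x i j)
    (hG : ∀ t ∈ Icc s s', GoodQ (Kt h0 D) (trY n h0) (Qt h0 D) (α t) ∧
      HasDerivWithinAt α (vfQ (Kt h0 D) (trY n h0) (Qt h0 D) PY (α t)) (Icc s s') t)
    (h : MAb P lam s (D.vv (α s))) : MAb P lam s' (D.vv (α s')) := by
  intro x
  set φ : ℝ → ℝ := fun t => Real.log (gm (D.vv (α t)) x).det
    + (fn (α t) x - ∑ i, fn (D.K (α t) i i) x)
    + (- (∑ i, fn (D.K1 (α t) i) x * fn (D.K1 (α t) i) x) / 2) + t * P x with hφ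
  have hd : ∀ t ∈ Icc s s', HasDerivWithinAt φ 0 (Icc s s') t := by
    intro t ht
    obtain ⟨hg, hder⟩ := hG t ht
    obtain ⟨τ, hτt⟩ := hτ t ht
    have hu := unit_of h0 D hlo (hE t ht) hτt
    set β : YZ n a := vfQ (Kt h0 D) (trY n h0) (Qt h0 D) PY (α t) with hβ
    -- evaluation maps
    have e1 : HasDerivWithinAt (fun t => fn (α t) x) (fn β x) (Icc s s') t :=
      (evY h0 x).hasFDerivAt.comp_hasDerivWithinAt t hder
    have e2 : ∀ i j, HasDerivWithinAt (fun t => fn (D.K (α t) i j) x) (fn (D.K β i j) x)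
        (Icc s s') t := by
      intro i j
      have hK1 : HasDerivWithinAt (fun t => D.K (α t)) (D.K β) (Icc s s') t :=
        D.K.hasFDerivAt.comp_hasDerivWithinAt t hder
      have hK2 : HasDerivWithinAt (fun t => D.K (α t) i j) (D.K β i j) (Icc s s') t :=
        (hasDerivWithinAt_pi.1 ((hasDerivWithinAt_pi.1 hK1) i)) j
      exact (evY h0 x).hasFDerivAt.comp_hasDerivWithinAt t hK2
    have e2' : ∀ i, HasDerivWithinAt (fun t => fn (D.K1 (α t) i) x) (fn (D.K1 β i) x)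
        (Icc s s') t := by
      intro i
      have hK1 : HasDerivWithinAt (fun t => D.K1 (α t)) (D.K1 β) (Icc s s') t :=
        D.K1.hasFDerivAt.comp_hasDerivWithinAt t hder
      have hK2 : HasDerivWithinAt (fun t => D.K1 (α t) i) (D.K1 β i) (Icc s s') t :=
        (hasDerivWithinAt_pi.1 hK1) i
      exact (evY h0 x).hasFDerivAt.comp_hasDerivWithinAt t hK2
    have e3 : HasDerivWithinAt (fun t => Real.log (gm (D.vv (α t)) x).det)
        (∑ i, ∑ j, (gm (D.vv (α t)) x)⁻¹ i j * Hs (D.vv β) x i j) (Icc s s') t := by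
      refine sm_hasDerivWithinAt_log_det_sum (g := fun t => gm (D.vv (α t)) x)
        (g' := Matrix.of fun i j => Hs (D.vv β) x i j) ?_ ?_ (Ell.sm_det_pos hlo (hE t ht x))
      · intro i j
        have h1 := (e2 i j).const_add ((1 : Matrix (Fin n) (Fin n) ℝ) i j)
        have h2 : (fun t => gm (D.vv (α t)) x i j)
            = fun t => (1 : Matrix (Fin n) (Fin n) ℝ) i j + fn (D.K (α t) i j) x :=
          funext fun t => by rw [ExtInv.gm_apply, D.fnK]
        rw [D.fnK] at h1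
        show HasDerivWithinAt (fun t => gm (D.vv (α t)) x i j) (Hs (D.vv β) x i j) _ _
        rw [h2]
        exact h1
      · intro i j
        exact ExtInv.Hs_symm (D.c2 β) x i j
    have e4 : HasDerivWithinAt (fun t => ∑ i, fn (D.K (α t) i i) x) (∑ i, fn (D.K β i i) x)
        (Icc s s') t := HasDerivWithinAt.fun_sum fun i _ => e2 i i
    have e4' : HasDerivWithinAt (fun t => ∑ i, fn (D.K1 (α t) i) x * fn (D.K1 (α t) i) x)
        (∑ i, (fn (D.K1 β i) x * fn (D.K1 (α t) i) x + fn (D.K1 (α t) i) x * fn (D.K1 β i) x))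
        (Icc s s') t := HasDerivWithinAt.fun_sum fun i _ => (e2' i).mul (e2' i)
    have e5 : HasDerivWithinAt (fun t : ℝ => t * P x) (1 * P x) (Icc s s') t :=
      (hasDerivWithinAt_id t _).mul_const _
    have e6 := ((e3.add (e1.sub e4)).add (e4'.neg.div_const 2)).add e5
    -- the value of the derivative
    have hDQ : DQ (Kt h0 D) (trY n h0) (Qt h0 D) (α t) β = -PY := by
      rw [hβ, vfQ, map_neg]
      have := Ring.mul_inverse_cancel _ hg.2
      calc -(DQ (Kt h0 D) (trY n h0) (Qt h0 D) (α t))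
            ((Ring.inverse (DQ (Kt h0 D) (trY n h0) (Qt h0 D) (α t))) PY)
          = -((DQ (Kt h0 D) (trY n h0) (Qt h0 D) (α t) *
            Ring.inverse (DQ (Kt h0 D) (trY n h0) (Qt h0 D) (α t))) PY) := rfl
        _ = -PY := by rw [this]; rfl
    have hval : (∑ i, ∑ j, (gm (D.vv (α t)) x)⁻¹ i j * Hs (D.vv β) x i j)
        + (fn β x - ∑ i, fn (D.K β i i) x)
        + (- (∑ i, (fn (D.K1 β i) x * fn (D.K1 (α t) i) x
          + fn (D.K1 (α t) i) x * fn (D.K1 β i) x)) / 2) + 1 * P x = 0 := by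
      have h1 : fn (DQ (Kt h0 D) (trY n h0) (Qt h0 D) (α t) β) x = fn (-PY) x := by
        rw [hDQ]
      rw [fn_DQ h0 D hτt hu.2, fn_neg, hPY] at h1
      rw [← ma_fn D β x]
      have h2 : ∑ i, (fn (D.K1 β i) x * fn (D.K1 (α t) i) x
          + fn (D.K1 (α t) i) x * fn (D.K1 β i) x)
          = 2 * ∑ i, gr (D.vv (α t)) x i * gr (D.vv β) x i := by
        rw [Finset.mul_sum]
        refine Finset.sum_congr rfl fun i _ => ?_
        rw [D.fnK1, D.fnK1]; ring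
      rw [h2]
      unfold Lb LA tauf at h1
      linarith
    have e7 : HasDerivWithinAt φ ((∑ i, ∑ j, (gm (D.vv (α t)) x)⁻¹ i j * Hs (D.vv β) x i j)
        + (fn β x - ∑ i, fn (D.K β i i) x)
        + (- (∑ i, (fn (D.K1 β i) x * fn (D.K1 (α t) i) x
          + fn (D.K1 (α t) i) x * fn (D.K1 β i) x)) / 2) + 1 * P x) (Icc s s') t := e6
    rwa [hval] at e7
  have hconst : φ s' = φ s := by
    have := (convex_Icc s s').norm_image_sub_le_of_norm_hasDerivWithin_le (f := φ)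
      (f' := fun _ => 0) (C := 0) hd (fun _ _ => by simp) (left_mem_Icc.2 hs)
      (right_mem_Icc.2 hs)
    rw [zero_mul] at this
    exact sub_eq_zero.1 (norm_le_zero_iff.1 this)
  have h1 := h x
  have h2 := ma_fn D (α s) x
  have h3 := ma_fn D (α s') x
  have h4 : ∀ t, ∑ i, fn (D.K1 (α t) i) x * fn (D.K1 (α t) i) x
      = ∑ i, gr (D.vv (α t)) x i ^ 2 := fun t =>
    Finset.sum_congr rfl fun i _ => by rw [D.fnK1]; ring
  simp only [hφ, h4] at hconst
  linarith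

include h0 in
theorem cls_diff (r r' : YZ n a) : ClsB a (D.C * ‖r - r'‖) (fun x => D.vv r x - D.vv r' x) := by
  refine ⟨(D.c2 r).sub (D.c2 r'), ?_, fun i => ?_, fun i j => ?_⟩
  · have h := HB.mono (fn_hb h0 (D.K0 (r - r'))) (D.nK0 (r - r'))
    have h2 : fn (D.K0 (r - r')) = fun x => D.vv r x - D.vv r' x := by
      funext x
      rw [map_sub, fn_sub, D.fnK0, D.fnK0]
    rwa [h2] at h
  · have h := HB.mono (fn_hb h0 (D.K1 (r - r') i)) (D.nK1 (r - r') i)
    have h2 : fn (D.K1 (r - r') i) = fun x => gr (fun x => D.vv r x - D.vv r' x) x i := by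
      funext x
      rw [map_sub, Pi.sub_apply, fn_sub, D.fnK1, D.fnK1, gr_sub (D.c2 r) (D.c2 r')]
    rwa [h2] at h
  · have h := HB.mono (fn_hb h0 (D.K (r - r') i j)) (D.nK (r - r') i j)
    have h2 : fn (D.K (r - r') i j) = fun x => Hs (fun x => D.vv r x - D.vv r' x) x i j := by
      funext x
      rw [map_sub, Pi.sub_apply, Pi.sub_apply, fn_sub, D.fnK, D.fnK, Hs_sub (D.c2 r) (D.c2 r')]
    rwa [h2] at h

end Crest.Agent.R253.BrSt
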