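import Crest.Agent.R238.StepLin

/-!
Row 253, T6 (smooth Brenier map), node B4 (helper175): Banach space `YB n a` of bounded Hölder
functions (no evenness), multiplication, matrices of such functions as operators.
Port of `R238/HolDefs` (YS) and `R238/StepK` (helper718, helper487).
-/

set_option autoImplicit false

open MeasureTheory Set Filter
open scoped ContDiff Topology BoundedContinuousFunction

namespace Crest.Agent.R253.BrSt

open Crest.Agent.R238 Crest.Agent.R238.Step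

variable {n : ℕ}

/-- Banach space of bounded `a`-Hölder functions: pairs (`f`, Hölder quotient). -/
def YB (n : ℕ) (a : ℝ) : Submodule ℝ ((E n →ᵇ ℝ) × (PR n →ᵇ ℝ)) where
  carrier := {q | ∀ p : PR n, q.2 p * ‖p.1.1 - p.1.2‖ ^ a = q.1 p.1.1 - q.1 p.1.2}
  add_mem' := by
    intro p q hp hq z
    have h1 := hp z
    have h2 := hq z
    simp only [Prod.snd_add, Prod.fst_add, BoundedContinuousFunction.coe_add, Pi.add_apply]
    linear_combination h1 + h2
  zero_mem' := by
    intro z; simp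
  smul_mem' := by
    intro c q hq z
    have h2 := hq z
    simp only [Prod.smul_snd, Prod.smul_fst, BoundedContinuousFunction.coe_smul, smul_eq_mul]
    linear_combination c * h2

/-- the function -/
def YB.fn {a : ℝ} (r : YB n a) : E n → ℝ := fun x => r.1.1 x

theorem isClosed_YB (n : ℕ) (a : ℝ) :
    IsClosed (YB n a : Set ((E n →ᵇ ℝ) × (PR n →ᵇ ℝ))) := by
  have h : (YB n a : Set ((E n →ᵇ ℝ) × (PR n →ᵇ ℝ)))
      = ⋂ p : PR n, {q | q.2 p * ‖p.1.1 - p.1.2‖ ^ a = q.1 p.1.1 - q.1 p.1.2} := by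
    ext q
    simp only [SetLike.mem_coe, mem_iInter, Set.mem_ofPred_eq]
    rfl
  rw [h]
  have c1 : ∀ x : E n, Continuous fun q : (E n →ᵇ ℝ) × (PR n →ᵇ ℝ) => q.1 x := fun x =>
    (BoundedContinuousFunction.evalCLM ℝ x).continuous.comp continuous_fst
  have c2 : ∀ p : PR n, Continuous fun q : (E n →ᵇ ℝ) × (PR n →ᵇ ℝ) => q.2 p := fun p =>
    (BoundedContinuousFunction.evalCLM ℝ p).continuous.comp continuous_snd
  exact isClosed_iInter fun p => isClosed_eq ((c2 p).mul continuous_const) ((c1 _).sub (c1 _))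

instance (n : ℕ) (a : ℝ) : CompleteSpace (YB n a) := (isClosed_YB n a).completeSpace_coe

theorem YB.hb {a : ℝ} (ha : 0 < a) (r : YB n a) : HB a ‖r‖ (YB.fn r) := by
  have h1 : ‖r.1.1‖ ≤ ‖r‖ := norm_fst_le r.1
  have h2 : ‖r.1.2‖ ≤ ‖r‖ := norm_snd_le r.1
  refine ⟨fun x => ((r.1.1.norm_coe_le_norm x).trans h1), fun x y => ?_⟩
  by_cases hxy : x = y
  · subst hxy
    simp [Real.zero_rpow ha.ne']
  · have h3 := r.2 ⟨(x, y), hxy⟩
    have h4 : |r.1.2 ⟨(x, y), hxy⟩| ≤ ‖r‖ := (r.1.2.norm_coe_le_norm _).trans h2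
    have h5 : 0 ≤ ‖x - y‖ ^ a := Real.rpow_nonneg (norm_nonneg _) a
    show |r.1.1 x - r.1.1 y| ≤ _
    rw [← h3, abs_mul, abs_of_nonneg h5]
    exact mul_le_mul_of_nonneg_right h4 h5

theorem YB.exists_of_hb {a M : ℝ} (ha : 0 < a) {f : E n → ℝ} (h : HB a M f) : ∃ r : YB n a, YB.fn r = f ∧ ‖r‖ ≤ M := by
  have hM : 0 ≤ M := (abs_nonneg _).trans (h.1 0)
  have hc := h.continuous ha
  let f1 : E n →ᵇ ℝ := BoundedContinuousFunction.ofNormedAddCommGroup f hc M h.1
  have hpos : ∀ p : PR n, 0 < ‖p.1.1 - p.1.2‖ := fun p => norm_pos_iff.2 (sub_ne_zero.2 p.2)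
  have hc2 : Continuous fun p : PR n => (f p.1.1 - f p.1.2) / ‖p.1.1 - p.1.2‖ ^ a := by
    have hfst : Continuous fun p : PR n => p.1.1 := continuous_fst.comp continuous_subtype_val
    have hsnd : Continuous fun p : PR n => p.1.2 := continuous_snd.comp continuous_subtype_val
    refine ((hc.comp hfst).sub (hc.comp hsnd)).div
      ((continuous_norm.comp (hfst.sub hsnd)).rpow_const fun p => Or.inr ha.le) fun p => ?_
    exact (Real.rpow_pos_of_pos (hpos p) a).ne'
  have hb2 : ∀ p : PR n, ‖(f p.1.1 - f p.1.2) / ‖p.1.1 - p.1.2‖ ^ a‖ ≤ M := by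
    intro p
    have hp := Real.rpow_pos_of_pos (hpos p) a
    rw [norm_div, Real.norm_eq_abs, Real.norm_of_nonneg hp.le, div_le_iff₀ hp]
    exact h.2 _ _
  let f2 : PR n →ᵇ ℝ := BoundedContinuousFunction.ofNormedAddCommGroup
    (fun p : PR n => (f p.1.1 - f p.1.2) / ‖p.1.1 - p.1.2‖ ^ a) hc2 M hb2
  refine ⟨⟨(f1, f2), fun p => ?_⟩, rfl, ?_⟩
  · show (f p.1.1 - f p.1.2) / ‖p.1.1 - p.1.2‖ ^ a * ‖p.1.1 - p.1.2‖ ^ a = f p.1.1 - f p.1.2
    exact div_mul_cancel₀ _ (Real.rpow_pos_of_pos (hpos p) a).ne'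
  · show ‖(f1, f2)‖ ≤ M
    rw [Prod.norm_def]
    refine max_le ?_ ?_
    · exact BoundedContinuousFunction.norm_ofNormedAddCommGroup_le hc hM h.1
    · exact BoundedContinuousFunction.norm_ofNormedAddCommGroup_le hc2 hM hb2

theorem YB.ext_fn {a : ℝ} {r s : YB n a} (h : YB.fn r = YB.fn s) : r = s := by
  have h1 : r.1.1 = s.1.1 := by
    ext x; exact congrFun h x
  refine Subtype.ext (Prod.ext h1 ?_)
  ext p
  have hp : 0 < ‖p.1.1 - p.1.2‖ ^ a :=
    Real.rpow_pos_of_pos (norm_pos_iff.2 (sub_ne_zero.2 p.2)) a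
  have h2 := r.2 p
  have h3 := s.2 p
  rw [h1, ← h3] at h2
  exact mul_right_cancel₀ hp.ne' h2


variable {a : ℝ}

/-- type synonym of `YB n a` (fast instance search) -/
def YZ (n : ℕ) (a : ℝ) : Type := ↥(YB n a)

noncomputable instance instNAG : NormedAddCommGroup (YZ n a) :=
  inferInstanceAs (NormedAddCommGroup ↥(YB n a))

noncomputable instance instNS : NormedSpace ℝ (YZ n a) :=
  inferInstanceAs (NormedSpace ℝ ↥(YB n a))

instance instCS : CompleteSpace (YZ n a) := inferInstanceAs (CompleteSpace ↥(YB n a))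

/-- the function -/
def fn (r : YZ n a) : E n → ℝ := YB.fn (show ↥(YB n a) from r)

theorem fn_add (r s : YZ n a) (x : E n) : fn (r + s) x = fn r x + fn s x := rfl

theorem fn_sub (r s : YZ n a) (x : E n) : fn (r - s) x = fn r x - fn s x := rfl

theorem fn_neg (r : YZ n a) (x : E n) : fn (-r) x = - fn r x := rfl

theorem fn_smul (c : ℝ) (r : YZ n a) (x : E n) : fn (c • r) x = c * fn r x := rfl

theorem fn_zero (x : E n) : fn (0 : YZ n a) x = 0 := rfl

theorem fn_sum {ι : Type*} (s : Finset ι) (f : ι → YZ n a) (x : E n) :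
    fn (∑ i ∈ s, f i) x = ∑ i ∈ s, fn (f i) x := by
  classical
  induction s using Finset.induction_on with
  | empty => simp [fn_zero]
  | insert i s hi ih => rw [Finset.sum_insert hi, Finset.sum_insert hi, fn_add, ih]

theorem fn_hb (h0 : 0 < a) (r : YZ n a) : HB a ‖r‖ (fn r) := YB.hb h0 (show ↥(YB n a) from r)

theorem YZext {r s : YZ n a} (h : ∀ x, fn r x = fn s x) : r = s := YB.ext_fn (funext h)

theorem exists_YZ (h0 : 0 < a) {M : ℝ} {f : E n → ℝ} (h : HB a M f) : ∃ r : YZ n a, fn r = f ∧ ‖r‖ ≤ M := by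
  obtain ⟨r, h1, h2⟩ := YB.exists_of_hb h0 h
  exact ⟨r, h1, h2⟩

theorem fn_norm_le (h0 : 0 < a) (r : YZ n a) (x : E n) : |fn r x| ≤ ‖r‖ := (fn_hb h0 r).1 x

theorem YZ_norm_le (h0 : 0 < a) {r : YZ n a} {M : ℝ} (h : HB a M (fn r)) : ‖r‖ ≤ M := by
  obtain ⟨s, hs, hs'⟩ := exists_YZ h0 h
  have : r = s := YZext fun x => by rw [hs]
  rw [this]; exact hs'

/-- evaluation at `x` as a continuous linear map -/
noncomputable def evY (h0 : 0 < a) (x : E n) : YZ n a →L[ℝ] ℝ :=
  LinearMap.mkContinuous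
    { toFun := fun r => fn r x
      map_add' := fun r s => fn_add r s x
      map_smul' := fun c r => fn_smul c r x } 1 fun r => by
        rw [one_mul]; exact fn_norm_le h0 r x

@[simp] theorem evY_apply (h0 : 0 < a) (x : E n) (r : YZ n a) : evY h0 x r = fn r x := rfl

/-! ### multiplication -/

theorem exists_mul (h0 : 0 < a) (r s : YZ n a) :
    ∃ t : YZ n a, (∀ x, fn t x = fn r x * fn s x) ∧ ‖t‖ ≤ 2 * ‖r‖ * ‖s‖ := by
  obtain ⟨t, ht, ht'⟩ := exists_YZ h0 (HB.mul (fn_hb h0 r) (fn_hb h0 s))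
  exact ⟨t, fun x => by rw [ht], ht'⟩

/-- multiplication of `YB` functions -/
noncomputable def mulY (h0 : 0 < a) : YZ n a →L[ℝ] YZ n a →L[ℝ] YZ n a :=
  LinearMap.mkContinuous₂ (LinearMap.mk₂ ℝ (fun r s => (exists_mul h0 r s).choose)
    (fun r r' s => YZext fun x => by
      rw [fn_add, (exists_mul h0 _ _).choose_spec.1, (exists_mul h0 _ _).choose_spec.1,
        (exists_mul h0 _ _).choose_spec.1, fn_add]; ring)
    (fun c r s => YZext fun x => by
      rw [fn_smul, (exists_mul h0 _ _).choose_spec.1, (exists_mul h0 _ _).choose_spec.1,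
        fn_smul]; ring)
    (fun r s s' => YZext fun x => by
      rw [fn_add, (exists_mul h0 _ _).choose_spec.1, (exists_mul h0 _ _).choose_spec.1,
        (exists_mul h0 _ _).choose_spec.1, fn_add]; ring)
    (fun c r s => YZext fun x => by
      rw [fn_smul, (exists_mul h0 _ _).choose_spec.1, (exists_mul h0 _ _).choose_spec.1,
        fn_smul]; ring)) 2 fun r s => (exists_mul h0 r s).choose_spec.2

theorem mulY_fn (h0 : 0 < a) (r s : YZ n a) (x : E n) :
    fn (mulY h0 r s) x = fn r x * fn s x := (exists_mul h0 r s).choose_spec.1 x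

theorem mulY_norm (h0 : 0 < a) (r s : YZ n a) : ‖mulY h0 r s‖ ≤ 2 * ‖r‖ * ‖s‖ :=
  (exists_mul h0 r s).choose_spec.2

/-- the constant function `1` -/
theorem exists_one (h0 : 0 < a) : ∃ t : YZ n a, (∀ x, fn t x = 1) := by
  obtain ⟨t, ht, -⟩ := exists_YZ (n := n) h0 (HB.const (a := a) 1)
  exact ⟨t, fun x => by rw [ht]⟩

noncomputable def oneY (h0 : 0 < a) : YZ n a := (exists_one h0).choose

@[simp] theorem oneY_fn (h0 : 0 < a) (x : E n) : fn (oneY (n := n) h0) x = 1 :=
  (exists_one h0).choose_spec x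

/-! ### matrices as operators -/

/-- the Banach algebra of operators on `YB^n` -/
abbrev OpA (n : ℕ) (a : ℝ) : Type := (Fin n → YZ n a) →L[ℝ] (Fin n → YZ n a)

/-- matrix of `YB` functions as a multiplication operator -/
noncomputable def MO (h0 : 0 < a) (m : Fin n → Fin n → YZ n a) : OpA n a :=
  ContinuousLinearMap.pi fun i => ∑ j, (mulY h0 (m i j)).comp (ContinuousLinearMap.proj j)

theorem MO_apply (h0 : 0 < a) (m : Fin n → Fin n → YZ n a) (w : Fin n → YZ n a) (i : Fin n) :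
    MO h0 m w i = ∑ j, mulY h0 (m i j) (w j) := by
  simp [MO]

theorem MO_fn (h0 : 0 < a) (m : Fin n → Fin n → YZ n a) (w : Fin n → YZ n a) (i : Fin n)
    (x : E n) : fn (MO h0 m w i) x = ∑ j, fn (m i j) x * fn (w j) x := by
  rw [MO_apply, fn_sum]
  exact Finset.sum_congr rfl fun j _ => mulY_fn h0 _ _ _

theorem OpA_ext {p q : OpA n a} (h : ∀ w i x, fn (p w i) x = fn (q w i) x) : p = q := by
  refine ContinuousLinearMap.ext fun w => ?_
  funext i
  exact YZext fun x => h w i x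

theorem MO_norm (h0 : 0 < a) (m : Fin n → Fin n → YZ n a) : ‖MO h0 m‖ ≤ 2 * n * ‖m‖ := by
  refine ContinuousLinearMap.opNorm_le_bound _ (by positivity) fun w => ?_
  refine (pi_norm_le_iff_of_nonneg (by positivity)).2 fun i => ?_
  rw [MO_apply]
  calc ‖∑ j, mulY h0 (m i j) (w j)‖ ≤ ∑ j : Fin n, 2 * ‖m‖ * ‖w‖ := by
        refine norm_sum_le_of_le _ fun j _ => ?_
        refine (mulY_norm h0 _ _).trans ?_
        gcongr
        · exact (norm_le_pi_norm (m i) j).trans (norm_le_pi_norm m i)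
        · exact norm_le_pi_norm w j
    _ = 2 * n * ‖m‖ * ‖w‖ := by simp; ring

/-- `MO` as a continuous linear map -/
noncomputable def MOL (n : ℕ) (h0 : 0 < a) : (Fin n → Fin n → YZ n a) →L[ℝ] OpA n a :=
  LinearMap.mkContinuous
    { toFun := fun m => MO h0 m
      map_add' := fun m m' => OpA_ext fun w i x => by
        show fn (MO h0 (m + m') w i) x = fn (MO h0 m w i + MO h0 m' w i) x
        rw [MO_fn, fn_add, MO_fn, MO_fn, ← Finset.sum_add_distrib]
        refine Finset.sum_congr rfl fun j _ => ?_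
        rw [Pi.add_apply, Pi.add_apply, fn_add]; ring
      map_smul' := fun c m => OpA_ext fun w i x => by
        show fn (MO h0 (c • m) w i) x = fn (c • MO h0 m w i) x
        rw [MO_fn, fn_smul, MO_fn, Finset.mul_sum]
        refine Finset.sum_congr rfl fun j _ => ?_
        rw [Pi.smul_apply, Pi.smul_apply, fn_smul]; ring } (2 * n) fun m => MO_norm h0 m

@[simp] theorem MOL_apply (h0 : 0 < a) (m : Fin n → Fin n → YZ n a) :
    MOL n h0 m = MO h0 m := rfl

/-- the trace -/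
noncomputable def trY (n : ℕ) (h0 : 0 < a) : OpA n a →L[ℝ] YZ n a :=
  ∑ i, (ContinuousLinearMap.proj i).comp
    (ContinuousLinearMap.apply ℝ (Fin n → YZ n a) (Pi.single i (oneY h0)))

theorem trY_apply (h0 : 0 < a) (p : OpA n a) :
    trY n h0 p = ∑ i, p (Pi.single i (oneY h0)) i := by
  simp [trY]

theorem trY_MO (h0 : 0 < a) (m : Fin n → Fin n → YZ n a) (x : E n) :
    fn (trY n h0 (MO h0 m)) x = ∑ i, fn (m i i) x := by
  rw [trY_apply, fn_sum]
  refine Finset.sum_congr rfl fun i _ => ?_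
  rw [MO_fn, Finset.sum_eq_single i]
  · simp
  · intro j _ hj
    rw [Pi.single_eq_of_ne hj, fn_zero, mul_zero]
  · simp

/-- product of matrices of `YB` functions -/
noncomputable def mm (h0 : 0 < a) (m m' : Fin n → Fin n → YZ n a) : Fin n → Fin n → YZ n a :=
  fun i k => ∑ j, mulY h0 (m i j) (m' j k)

theorem mm_fn (h0 : 0 < a) (m m' : Fin n → Fin n → YZ n a) (i k : Fin n) (x : E n) :
    fn (mm h0 m m' i k) x = ∑ j, fn (m i j) x * fn (m' j k) x := by
  rw [mm, fn_sum]
  exact Finset.sum_congr rfl fun j _ => mulY_fn h0 _ _ _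

theorem MO_mul (h0 : 0 < a) (m m' : Fin n → Fin n → YZ n a) :
    MO h0 m * MO h0 m' = MO h0 (mm h0 m m') := by
  refine OpA_ext fun w i x => ?_
  show fn (MO h0 m (MO h0 m' w) i) x = _
  rw [MO_fn, MO_fn]
  simp only [MO_fn, mm_fn]
  simp only [Finset.mul_sum, Finset.sum_mul]
  rw [Finset.sum_comm]
  refine Finset.sum_congr rfl fun k _ => Finset.sum_congr rfl fun j _ => by ring

/-- identity matrix of `YB` functions -/
noncomputable def idY (n : ℕ) (h0 : 0 < a) : Fin n → Fin n → YZ n a :=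
  fun i j => if i = j then oneY h0 else 0

theorem idY_fn (h0 : 0 < a) (i j : Fin n) (x : E n) :
    fn (idY n h0 i j) x = (1 : Matrix (Fin n) (Fin n) ℝ) i j := by
  unfold idY
  rw [Matrix.one_apply]
  split_ifs <;> simp [fn_zero]

theorem MO_id (h0 : 0 < a) : MO h0 (idY n h0) = 1 := by
  refine OpA_ext fun w i x => ?_
  rw [MO_fn]
  simp only [idY_fn, Matrix.one_apply, ite_mul, one_mul, zero_mul, Finset.sum_ite_eq,
    Finset.mem_univ, if_true]
  rfl

end Crest.Agent.R253.BrSt
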