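import Crest.Agent.R253.Bud_167

/-!
# Row 253: every real-variable condition of `comb` except `Φ`, for the frozen table (helper167)
-/

set_option autoImplicit false

noncomputable section

namespace Crest.Agent.R253.BudF167

open Crest.Agent.R253.TabF167 Crest.Agent.R253.TrC80 Crest.Agent.R253.L7x167
open Crest.Agent.R253.Bud167

/-- case split over the pieces -/
lemma cases {x : ℝ} (hx : 0 ≤ x) {p : Prop}
    (c0 : x ≤ 1 → b1 x = -(3/50)*(1-x) → b2 x = 0 → ep x = 136/10000 → p)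
    (c1 : 1 ≤ x → x ≤ 2 → b1 x = 3*(x-1)/(2*(10*x-3)) → b2 x = 0 → ep x = 136/10000 → p)
    (c2 : 2 ≤ x → x ≤ 5 → b1 x = 3*(x-1)/(2*(10*x-3)) → b2 x = 21*(x-2)/(25*(x+9)) →
      ep x = 136/10000 → p)
    (c5 : 5 ≤ x → x ≤ 11 → b1 x = 3*(x-1)/(2*(10*x-3)) → b2 x = 21*(x-2)/(25*(x+9)) →
      ep x = 7/1000 → p)
    (c11 : 11 ≤ x → x ≤ 60 → b1 x = 3*(x-1)/(2*(10*x-3)) → b2 x = 21*(x-2)/(25*(x+9)) →
      ep x = 4/1000 → p)
    (c60 : 60 ≤ x → b1 x = 0 → b2 x = 21/25 → ep x = 0 → p) : p := by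
  rcases le_or_gt x 1 with h1 | h1
  · exact c0 h1 (b1_le1 h1) (b2_le2 (by linarith)) (ep_5 (by linarith))
  rcases le_or_gt x 2 with h2 | h2
  · exact c1 h1.le h2 (b1_mid' h1.le (by linarith)) (b2_le2 h2) (ep_5 (by linarith))
  rcases le_or_gt x 5 with h5 | h5
  · exact c2 h2.le h5 (b1_mid' h1.le (by linarith)) (b2_mid' h2.le (by linarith)) (ep_5 h5)
  rcases le_or_gt x 11 with h6 | h6
  · exact c5 h5.le h6 (b1_mid' h1.le (by linarith)) (b2_mid' h2.le (by linarith)) (ep_11 h5 h6)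
  rcases le_or_gt x 60 with h7 | h7
  · exact c11 h6.le h7 (b1_mid' h1.le h7) (b2_mid' h2.le h7) (ep_60 h6 h7)
  · exact c60 h7.le (b1_far h7) (b2_far h7) (ep_far h7)

lemma b1_neg {x : ℝ} (h : x ≤ 1) : max (b1 x) 0 = 0 := by
  rw [b1_le1 h]
  exact max_eq_right (by nlinarith)

lemma b1_pos {x : ℝ} (h : 1 ≤ x) : 0 ≤ 3*(x-1)/(2*(10*x-3)) :=
  div_nonneg (by linarith) (by linarith)

/-- (P) -/
theorem hP (x : ℝ) (hx : 0 ≤ x) : 1 / 200 ≤ 1 - nu b1 (3/8) (1/2) (3/20) (3/4) (3/20) x -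
    fu b2 (1/4) (1/5) (11/25) x - gu A (1/8) (20/23) (12/5) x := by
  unfold nu fu gu A
  refine cases hx ?_ ?_ ?_ ?_ ?_ ?_
  · intro h e1 e2 _
    rw [b1_neg h, e1, e2]
    linarith [P0 x hx h]
  · intro h h' e1 e2 _
    rw [e1, e2, max_eq_left (b1_pos h)]
    linarith [P1 x h h']
  · intro h h' e1 e2 _
    rw [e1, e2, max_eq_left (b1_pos (by linarith))]
    linarith [P2 x h h']
  · intro h h' e1 e2 _
    rw [e1, e2, max_eq_left (b1_pos (by linarith))]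
    linarith [P5 x h h']
  · intro h h' e1 e2 _
    rw [e1, e2, max_eq_left (b1_pos (by linarith))]
    linarith [P11 x h h']
  · intro h e1 e2 _
    rw [e1, e2, max_self]
    linarith [P60 x h]

/-- (H) -/
theorem hH (x : ℝ) (hx : 0 ≤ x) : 2 * (1 / 200) ≤
    2 * (1 - nu b1 (3/8) (1/2) (3/20) (3/4) (3/20) x - fu b2 (1/4) (1/5) (11/25) x -
      gu A (1/8) (20/23) (12/5) x) -
    (1 + nh b1 ep (7/2) (9/64) (3/8) x + fh b2 (6/1000) (1/4) (11/25) (5/16) x +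
      gh A (20/23) x) := by
  unfold nu fu gu nh fh gh A
  refine cases hx ?_ ?_ ?_ ?_ ?_ ?_
  · intro h e1 e2 e3
    rw [b1_neg h, e1, e2, e3]
    linarith [H0 x hx h]
  · intro h h' e1 e2 e3
    rw [e1, e2, e3, max_eq_left (b1_pos h)]
    linarith [H1 x h h']
  · intro h h' e1 e2 e3
    rw [e1, e2, e3, max_eq_left (b1_pos (by linarith))]
    linarith [H2 x h h']
  · intro h h' e1 e2 e3
    rw [e1, e2, e3, max_eq_left (b1_pos (by linarith))]
    linarith [H5 x h h']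
  · intro h h' e1 e2 e3
    rw [e1, e2, e3, max_eq_left (b1_pos (by linarith))]
    linarith [H11 x h h']
  · intro h e1 e2 e3
    rw [e1, e2, e3, max_self]
    linarith [H60 x h]

/-- (K) -/
theorem hK (x : ℝ) (hx : 0 ≤ x) : A x * r x ^ 2 * x ≤ 12 / 5 := by
  unfold A r
  refine cases hx ?_ ?_ ?_ ?_ ?_ ?_
  · intro h e1 e2 _
    rw [e1, e2]
    linarith [K0 x hx h]
  · intro h h' e1 e2 _
    rw [e1, e2]
    linarith [K1 x h h']
  · intro h h' e1 e2 _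
    rw [e1, e2]
    linarith [K2 x h h']
  · intro h h' e1 e2 _
    rw [e1, e2]
    linarith [K5 x h h']
  · intro h h' e1 e2 _
    rw [e1, e2]
    linarith [K11 x h h']
  · intro h e1 e2 _
    rw [e1, e2]
    linarith [K60 x h]

theorem A_ge (x : ℝ) (hx : 0 ≤ x) : 1 / 100 ≤ A x := by
  unfold A
  refine cases hx ?_ ?_ ?_ ?_ ?_ ?_
  · intro h e1 e2 _
    rw [e1, e2]
    linarith [A0 x hx h]
  · intro h h' e1 e2 _
    rw [e1, e2]
    linarith [A1 x h h']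
  · intro h h' e1 e2 _
    rw [e1, e2]
    linarith [A2 x h h']
  · intro h h' e1 e2 _
    rw [e1, e2]
    linarith [A5 x h h']
  · intro h h' e1 e2 _
    rw [e1, e2]
    linarith [A11 x h h']
  · intro h e1 e2 _
    rw [e1, e2]
    linarith [A60 x h]

theorem A_pos (x : ℝ) (hx : 0 ≤ x) : 0 < A x := by linarith [A_ge x hx]

theorem A_le (x : ℝ) (hx : 0 ≤ x) : A x ≤ 53 / 50 := by
  unfold A
  refine cases hx ?_ ?_ ?_ ?_ ?_ ?_
  · intro h e1 e2 _
    rw [e1, e2]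
    linarith [M0 x hx h]
  · intro h h' e1 e2 _
    rw [e1, e2]
    linarith [M1 x h h']
  · intro h h' e1 e2 _
    rw [e1, e2]
    linarith [M2 x h h']
  · intro h h' e1 e2 _
    rw [e1, e2]
    linarith [M5 x h h']
  · intro h h' e1 e2 _
    rw [e1, e2]
    linarith [M11 x h h']
  · intro h e1 e2 _
    rw [e1, e2]
    linarith [M60 x h]

theorem hb (x : ℝ) (_hx : 0 ≤ x) : 1 - A x = b1 x + b2 x := by
  unfold A
  ring

theorem b1_le (x : ℝ) (hx : 0 ≤ x) : b1 x ≤ 3 / 20 := by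
  have hm : ∀ y : ℝ, 1 ≤ y → 3*(y-1)/(2*(10*y-3)) ≤ 3/20 := by
    intro y hy
    rw [div_le_div_iff₀ (by linarith) (by norm_num)]
    linarith
  refine cases hx ?_ ?_ ?_ ?_ ?_ ?_
  · intro h e1 _ _
    rw [e1]; linarith
  · intro h h' e1 e2 _
    rw [e1]; exact hm x h
  · intro h h' e1 e2 _
    rw [e1]; exact hm x (by linarith)
  · intro h h' e1 e2 _
    rw [e1]; exact hm x (by linarith)
  · intro h h' e1 e2 _
    rw [e1]; exact hm x (by linarith)
  · intro h e1 e2 _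
    rw [e1]; norm_num

theorem b1_ge (x : ℝ) (hx : 0 ≤ x) : -(3 / 50) ≤ b1 x := by
  refine cases hx ?_ ?_ ?_ ?_ ?_ ?_
  · intro h e1 _ _
    rw [e1]; linarith
  · intro h h' e1 e2 _
    rw [e1]; linarith [b1_pos h]
  · intro h h' e1 e2 _
    rw [e1]; linarith [b1_pos (x := x) (by linarith)]
  · intro h h' e1 e2 _
    rw [e1]; linarith [b1_pos (x := x) (by linarith)]
  · intro h h' e1 e2 _
    rw [e1]; linarith [b1_pos (x := x) (by linarith)]
  · intro h e1 e2 _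
    rw [e1]; norm_num

theorem b1_sq (x : ℝ) (hx : 0 ≤ x) : b1 x ^ 2 ≤ (3 / 20) ^ 2 := by
  have h1 := b1_le x hx
  have h2 := b1_ge x hx
  nlinarith

theorem b1_x (x : ℝ) (hx : 0 ≤ x) : 0 ≤ b1 x * (x - 1) := by
  refine cases hx ?_ ?_ ?_ ?_ ?_ ?_
  · intro h e1 _ _
    rw [e1]; nlinarith [sq_nonneg (x - 1)]
  · intro h h' e1 e2 _
    rw [e1]; exact mul_nonneg (b1_pos h) (by linarith)
  · intro h h' e1 e2 _
    rw [e1]; exact mul_nonneg (b1_pos (by linarith)) (by linarith)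
  · intro h h' e1 e2 _
    rw [e1]; exact mul_nonneg (b1_pos (by linarith)) (by linarith)
  · intro h h' e1 e2 _
    rw [e1]; exact mul_nonneg (b1_pos (by linarith)) (by linarith)
  · intro h e1 e2 _
    rw [e1]; simp

theorem b2_nonneg (x : ℝ) (hx : 0 ≤ x) : 0 ≤ b2 x := by
  have hm : ∀ y : ℝ, 2 ≤ y → 0 ≤ 21*(y-2)/(25*(y+9)) := fun y hy =>
    div_nonneg (by linarith) (by linarith)
  refine cases hx ?_ ?_ ?_ ?_ ?_ ?_
  · intro h e1 e2 _
    rw [e2]
  · intro h h' e1 e2 _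
    rw [e2]
  · intro h h' e1 e2 _
    rw [e2]; exact hm x h
  · intro h h' e1 e2 _
    rw [e2]; exact hm x (by linarith)
  · intro h h' e1 e2 _
    rw [e2]; exact hm x (by linarith)
  · intro h e1 e2 _
    rw [e2]; norm_num

theorem b2_le (x : ℝ) (hx : 0 ≤ x) : b2 x ≤ 21 / 25 := by
  have hm : ∀ y : ℝ, 2 ≤ y → 21*(y-2)/(25*(y+9)) ≤ 21/25 := by
    intro y hy
    rw [div_le_div_iff₀ (by linarith) (by norm_num)]
    linarith
  refine cases hx ?_ ?_ ?_ ?_ ?_ ?_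
  · intro h e1 e2 _
    rw [e2]; norm_num
  · intro h h' e1 e2 _
    rw [e2]; norm_num
  · intro h h' e1 e2 _
    rw [e2]; exact hm x h
  · intro h h' e1 e2 _
    rw [e2]; exact hm x (by linarith)
  · intro h h' e1 e2 _
    rw [e2]; exact hm x (by linarith)
  · intro h e1 e2 _
    rw [e2]

theorem b2_sq (x : ℝ) (hx : 0 ≤ x) : b2 x ^ 2 ≤ (21 / 25) ^ 2 := by
  have h1 := b2_le x hx
  have h2 := b2_nonneg x hx
  nlinarith

/-- (S), conservative kernels `Ce = 363/10000, Cs = 3/400, Cy = 1/20, Cw = 91/10000` -/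
theorem hS : ((1/20 : ℝ) / (2 * (3/20)) + (91/10000) / (3/20) + 3/20 * (363/10000)) +
    (1 + 1 / (1/5)) * (363/10000) * (21/25 + (21/25) ^ 2 / (4 * (11/25))) +
    1 / (3/23) * (53/50 * (363/10000) + 12/5 * (3/400)) ≤ 1 := by norm_num

end Crest.Agent.R253.BudF167
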