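import Crest.Agent.R253.AsmR_80

/-!
# Row 253: dictionary between the `TE`, `pk`, `eta0` letters and `TR`, `PW`, `HW` (helper80)
-/

set_option autoImplicit false

open MeasureTheory ProbabilityTheory Set Filter Topology Matrix
open scoped ContDiff

noncomputable section

namespace Crest.Agent.R253.TrC80

open Crest.Agent.R238.Gap Crest.Agent.R253.SpecCalc999 Crest.Agent.R253.Meh74
  Crest.Agent.R253.SpecField321 Crest.Agent.R253.S3 Crest.Agent.R253.LamB301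
  Crest.Agent.R253.LamI301
open Crest.Agent.R253.DualP973 (Tm ef Lx MTm Mx_eq dk_eq c1_ef)

variable {n : ℕ} {ζ : Fld n} {lo hi : ℝ}

lemma cv_tr {S : Mat n} (hS : S.IsHermitian) (b : ℝ → ℝ) :
    (_root_.cfc b S * S).trace = TR (fun x => b x * x) S := by
  unfold TR
  conv_lhs => rw [show _root_.cfc b S * S = _root_.cfc b S * _root_.cfc (fun x : ℝ => x) S by
    rw [cfc_id'' hS]]
  rw [cfc_mul' hS]

lemma cv_bb {S : Mat n} (hS : S.IsHermitian) (b : ℝ → ℝ) :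
    _root_.cfc b S * _root_.cfc b S = _root_.cfc (fun x => b x ^ 2) S := by
  rw [cfc_mul' hS]
  simp only [sq]

lemma cv_bbS {S : Mat n} (hS : S.IsHermitian) (b : ℝ → ℝ) :
    (_root_.cfc b S * _root_.cfc b S * S).trace = TR (fun x => b x ^ 2 * x) S := by
  rw [cv_bb hS, cv_tr hS]

lemma cv_bb1 {S : Mat n} (hS : S.IsHermitian) (b : ℝ → ℝ) :
    (_root_.cfc b S * _root_.cfc b S).trace = TR (fun x => b x ^ 2) S := by
  rw [cv_bb hS]; rfl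

lemma cv_pp (hζ : MF ζ lo hi) (w : ℝ → ℝ) :
    ∑ k, TE (fun x => _root_.cfc w (MTm ζ) * (pk ζ (Tm ζ) k x * pk ζ (Tm ζ) k x)) = PW w ζ := by
  unfold PW TE
  rw [EE_sum fun k _ => ((cgm_const _).mul ((cgm_p hζ k).mul (cgm_tr' (cgm_p hζ k)))).trace]
  refine Finset.sum_congr rfl fun k _ => EE_congr fun x => ?_
  beta_reduce
  rw [pk_t hζ, Mx_dk_ef hζ]

lemma cv_bbpp (hζ : MF ζ lo hi) (b : ℝ → ℝ) :
    ∑ k, TE (fun x => _root_.cfc b (MTm ζ) * _root_.cfc b (MTm ζ) *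
      (pk ζ (Tm ζ) k x * pk ζ (Tm ζ) k x)) = PW (fun x => b x ^ 2) ζ := by
  rw [← cv_pp hζ, cv_bb (ts hζ).herm]

lemma cv_hh (hζ : MF ζ lo hi) (h0 : ∀ i j, EE (ζ i j) = 0) (w : ℝ → ℝ) :
    TE (fun x => _root_.cfc w (MTm ζ) * (eta0 ζ (Tm ζ) x * eta0 ζ (Tm ζ) x)) = HW w ζ := by
  refine EE_congr fun x => ?_
  beta_reduce
  rw [ef_t hζ h0, Mx_ef h0]

lemma cv_p (hζ : MF ζ lo hi) : ∑ k, EE (fun x => hs (pk ζ (Tm ζ) k x)) = PW (fun _ => 1) ζ := by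
  rw [PW_one hζ, EE_sum fun k _ => cg_hs (cgm_p hζ k)]
  exact Finset.sum_congr rfl fun k _ => EE_congr fun x => by rw [Mx_dk_ef hζ]

lemma cv_h (hζ : MF ζ lo hi) (h0 : ∀ i j, EE (ζ i j) = 0) :
    EE (fun x => hs (eta0 ζ (Tm ζ) x)) = HW (fun _ => 1) ζ := by
  rw [HW_one hζ]
  exact EE_congr fun x => by rw [Mx_ef h0]

lemma tr_le_const {S : Mat n} (hS : S.PosSemidef) {b : ℝ → ℝ} {bn : ℝ}
    (hb : ∀ x, 0 ≤ x → b x ≤ bn) (X : Mat n) :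
    (_root_.cfc b S * (X * Xᵀ)).trace ≤ bn * hs X := by
  have := tr_mul_mono hS (psd_mul_tr X) (f := b) (g := fun _ => bn) hb
  refine this.trans (le_of_eq ?_)
  have e9 : _root_.cfc (fun _ : ℝ => bn) S = bn • (1 : Mat n) := by
    rw [← cfc_one' hS.isHermitian, cfc_smul' hS.isHermitian]; simp
  rw [e9, Matrix.smul_mul, Matrix.one_mul, Matrix.trace_smul, smul_eq_mul, hs_eq']

/-! ### the far part (629's `eo_ge`) -/

/-- `f` of the far part -/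
def ff (b : ℝ → ℝ) (a e κ ep th th1 : ℝ) (x : ℝ) : ℝ :=
  a * b x + (5 / 16 - e - (1 + ep) * κ ^ 2) * (b x * x) - th1 / 2 * (b x ^ 2 * x) -
    (1 + ep) * κ ^ 2 / (4 * th) * (b x ^ 2 * x)
/-- `u` of the far part -/
def fu (b : ℝ → ℝ) (κ ep th : ℝ) (x : ℝ) : ℝ :=
  (1 / 16 + (1 + ep) * κ ^ 2) * b x + th / 4 + (1 + ep) * κ ^ 2 / (4 * th) * b x ^ 2
/-- `h` of the far part -/
def fh (b : ℝ → ℝ) (e κ th th1 : ℝ) (x : ℝ) : ℝ :=
  -((3 / 8 - e) * b x) + κ ^ 2 / (2 * th1) - 3 / 8 * th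

/-- conversion of the matrix form of the far bound -/
theorem farR_of (hζ : MF ζ lo hi) (h0 : ∀ i j, EE (ζ i j) = 0) {b : ℝ → ℝ} {L Sl : ℝ}
    {a e κ ep th th1 Ce bn bo : ℝ}
    (h : a * (_root_.cfc b (MTm ζ)).trace +
      (5 / 16 - e - (1 + ep) * κ ^ 2) * (_root_.cfc b (MTm ζ) * MTm ζ).trace +
      (3 / 8 - e) * TE (fun x => _root_.cfc b (MTm ζ) * (eta0 ζ (Tm ζ) x * eta0 ζ (Tm ζ) x)) -
      (1 / 16 + (1 + ep) * κ ^ 2) *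
        ∑ k, TE (fun x => _root_.cfc b (MTm ζ) * (pk ζ (Tm ζ) k x * pk ζ (Tm ζ) k x)) -
      th1 / 2 * (_root_.cfc b (MTm ζ) * _root_.cfc b (MTm ζ) * MTm ζ).trace -
      κ ^ 2 / (2 * th1) * EE (fun x => hs (eta0 ζ (Tm ζ) x)) -
      th / 4 * (∑ k, EE (fun x => hs (pk ζ (Tm ζ) k x)) -
        3 / 2 * EE (fun x => hs (eta0 ζ (Tm ζ) x))) -
      (1 + ep) * κ ^ 2 / (4 * th) *
        ((_root_.cfc b (MTm ζ) * _root_.cfc b (MTm ζ) * MTm ζ).trace +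
        ∑ k, TE (fun x => _root_.cfc b (MTm ζ) * _root_.cfc b (MTm ζ) *
          (pk ζ (Tm ζ) k x * pk ζ (Tm ζ) k x))) -
      (1 + 1 / ep) * Ce * (bn + bo ^ 2 / (4 * th)) * Sl ≤ L) :
    TR (ff b a e κ ep th th1) (MTm ζ) - PW (fu b κ ep th) ζ - HW (fh b e κ th th1) ζ -
      (1 + 1 / ep) * Ce * (bn + bo ^ 2 / (4 * th)) * Sl ≤ L := by
  have hS := (ts hζ).herm
  rw [cv_bbS hS, cv_tr hS, cv_hh hζ h0, cv_pp hζ, cv_bbpp hζ, cv_p hζ, cv_h hζ h0] at h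
  have e0 : (_root_.cfc b (MTm ζ)).trace = TR b (MTm ζ) := rfl
  rw [e0] at h
  obtain ⟨s, P, H, hs0, hH0, hPH, eT, eP, eH⟩ := rows hζ
  simp only [eT, eP, eH] at h ⊢
  have e1 : ∑ i, ff b a e κ ep th th1 (s i) - ∑ i, fu b κ ep th (s i) * P i -
      ∑ i, fh b e κ th th1 (s i) * H i =
      a * ∑ i, b (s i) + (5 / 16 - e - (1 + ep) * κ ^ 2) * ∑ i, b (s i) * s i +
      (3 / 8 - e) * ∑ i, b (s i) * H i - (1 / 16 + (1 + ep) * κ ^ 2) * ∑ i, b (s i) * P i -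
      th1 / 2 * ∑ i, b (s i) ^ 2 * s i - κ ^ 2 / (2 * th1) * ∑ i, 1 * H i -
      th / 4 * (∑ i, 1 * P i - 3 / 2 * ∑ i, 1 * H i) -
      (1 + ep) * κ ^ 2 / (4 * th) * (∑ i, b (s i) ^ 2 * s i + ∑ i, b (s i) ^ 2 * P i) := by
    simp only [Finset.mul_sum, ← Finset.sum_add_distrib, ← Finset.sum_sub_distrib]
    refine Finset.sum_congr rfl fun i _ => ?_
    unfold ff fu fh
    ring
  linarith

/-! ### the loss (192's `dualR`) -/

/-- `f` of the loss -/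
def gf (A r : ℝ → ℝ) (lam q0 : ℝ) (x : ℝ) : ℝ :=
  1 / q0 * (1 / 6 * (A x * (1 - r x) ^ 2 * x) + lam / 12 * (A x * (1 - r x * x) ^ 2))
/-- `u` of the loss -/
def gu (A : ℝ → ℝ) (lam q0 K1 : ℝ) (x : ℝ) : ℝ := 1 / q0 * (1 / 3 * A x + lam / 12 * K1)
/-- `h` of the loss -/
def gh (A : ℝ → ℝ) (q0 : ℝ) (x : ℝ) : ℝ := -(1 / q0 * (1 / 3 * A x))

/-- conversion of the matrix form of the loss -/
theorem lossR_of (hζ : MF ζ lo hi) {A r : ℝ → ℝ} (hA : ∀ x, 0 ≤ x → 0 ≤ A x)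
    {L Sl lam q0 k K1 : ℝ}
    (h : L ≤ 1 / q0 * (1 / 3 * (EE (fun x => ∑ k, hs (CC A (MTm ζ) * Mx (dk k (ef ζ)) x)) -
        EE (fun x => hs (CC A (MTm ζ) * Mx (ef ζ) x))) +
      1 / 6 * ∑ k, hs (CC A (MTm ζ) * ((1 - _root_.cfc r (MTm ζ)) * Tm ζ k)) +
      lam / 12 * hs (CC A (MTm ζ) * (1 - _root_.cfc r (MTm ζ) * MTm ζ)) +
      lam / 12 * (K1 * EE (fun x => ∑ k, hs (Mx (dk k (ef ζ)) x)))) + k * Sl) :
    L ≤ TR (gf A r lam q0) (MTm ζ) + PW (gu A lam q0 K1) ζ + HW (gh A q0) ζ + k * Sl := by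
  have hT := ts hζ
  rw [PW_CC hζ hA, HW_CC hζ hA, hT.loss1 r hA, loss2 hT.psd r hA, ← PW_one hζ] at h
  obtain ⟨s, P, H, hs0, hH0, hPH, eT, eP, eH⟩ := rows hζ
  simp only [eT, eP, eH] at h ⊢
  have e1 : ∑ i, gf A r lam q0 (s i) + ∑ i, gu A lam q0 K1 (s i) * P i +
      ∑ i, gh A q0 (s i) * H i =
      1 / q0 * (1 / 3 * (∑ i, A (s i) * P i - ∑ i, A (s i) * H i) +
        1 / 6 * ∑ i, A (s i) * (1 - r (s i)) ^ 2 * s i +
        lam / 12 * ∑ i, A (s i) * (1 - r (s i) * s i) ^ 2 +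
        lam / 12 * (K1 * ∑ i, 1 * P i)) := by
    simp only [Finset.mul_sum, ← Finset.sum_add_distrib, ← Finset.sum_sub_distrib]
    refine Finset.sum_congr rfl fun i _ => ?_
    unfold gf gu gh
    ring
  linarith

end Crest.Agent.R253.TrC80
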