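import Crest.Agent.R253.L7_167
import Crest.Agent.R253.Conv_80

/-! # R253: budget lines of the frozen table (helper167, generated) -/

set_option autoImplicit false
set_option maxHeartbeats 1000000

open Real

noncomputable section

namespace Crest.Agent.R253.Bud167
open Crest.Agent.R253


lemma P0_q0_aux (u w : ℝ) (hu : 0 ≤ u) (hw : 0 ≤ w) : (0:ℝ) ≤ 8467*w + 9019*u := by positivity
lemma P0_q0 (t : ℝ) (h1 : 0 ≤ t) (h2 : t ≤ 1) : (0:ℝ) ≤ 552*t + 8467 := by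
  have h := P0_q0_aux (t - 0) (1 - t) (by linarith) (by linarith)
  have e : (1:ℝ) * (552*t + 8467) = 8467*(1 - t) + 9019*(t - 0) := by ring
  rw [← e] at h
  linarith

lemma P0_q (t : ℝ) (h1 : 0 ≤ t) (h2 : t ≤ 1) : (0:ℝ) ≤ 552*t + 8467 := by
  exact P0_q0 t h1 h2

lemma P0_key (t : ℝ) :
    (1-((3/8)^2/(2*(3/4)) + 3/20*(3/20)^2 + (1/2)^2*(0:ℝ))-((1/16+(1+1/5)*(1/4)^2)*(0:ℝ) + (11/25)/4 + (1+1/5)*(1/4)^2/(4*(11/25))*(0:ℝ)^2)-(1/(20/23)*(1/3*(1-(-(3/50)*(1-t))-(0:ℝ))+1/8/12*(12/5)))) - 1/200 = (1/24000) * (552*t + 8467) / ((1:ℝ)) := by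
  rw [eq_div_iff (by positivity)]
  field_simp
  skip
  ring

theorem P0 (t : ℝ) (h1 : 0 ≤ t) (h2 : t ≤ 1) : 0 ≤ (1-((3/8)^2/(2*(3/4)) + 3/20*(3/20)^2 + (1/2)^2*(0:ℝ))-((1/16+(1+1/5)*(1/4)^2)*(0:ℝ) + (11/25)/4 + (1+1/5)*(1/4)^2/(4*(11/25))*(0:ℝ)^2)-(1/(20/23)*(1/3*(1-(-(3/50)*(1-t))-(0:ℝ))+1/8/12*(12/5)))) - 1/200 := by
  have d0 : (0:ℝ) < 1 := by linarith
  have d1 : (0:ℝ) < t+9 := by linarith
  have d2 : (0:ℝ) < 16+t := by linarith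
  rw [P0_key t]
  have hq := P0_q t h1 h2
  have hD : (0:ℝ) < (1:ℝ) := by positivity
  exact div_nonneg (mul_nonneg (by norm_num) hq) hD.le

lemma H0_q0_aux (u w : ℝ) (hu : 0 ≤ u) (hw : 0 ≤ w) : (0:ℝ) ≤ 3312149*w^2 + 23056000*u*w + 19172000*u^2 := by positivity
lemma H0_q0 (t : ℝ) (h1 : 0 ≤ t) (h2 : t ≤ 1) : (0:ℝ) ≤ -571851*t^2 + 16431702*t + 3312149 := by
  have h := H0_q0_aux (t - 0) (1 - t) (by linarith) (by linarith)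
  have e : (1:ℝ) * (-571851*t^2 + 16431702*t + 3312149) = 3312149*(1 - t)^2 + 23056000*(t - 0)*(1 - t) + 19172000*(t - 0)^2 := by ring
  rw [← e] at h
  linarith

lemma H0_q (t : ℝ) (h1 : 0 ≤ t) (h2 : t ≤ 1) : (0:ℝ) ≤ -571851*t^2 + 16431702*t + 3312149 := by
  exact H0_q0 t h1 h2

lemma H0_key (t : ℝ) :
    2*(1-((3/8)^2/(2*(3/4)) + 3/20*(3/20)^2 + (1/2)^2*(0:ℝ))-((1/16+(1+1/5)*(1/4)^2)*(0:ℝ) + (11/25)/4 + (1+1/5)*(1/4)^2/(4*(11/25))*(0:ℝ)^2)-(1/(20/23)*(1/3*(1-(-(3/50)*(1-t))-(0:ℝ))+1/8/12*(12/5)))) - (1+((-(3/50)*(1-t))*(t-1)*(17/1250) + 7/2/2*(9/64)*(-(3/50)*(1-t))^2 + 1/(2*(7/2)) - 3/8*(-(3/50)*(1-t)))+(-((3/8-6/1000)*(0:ℝ)) + (1/4)^2/(2*(5/16)) - 3/8*(11/25))+(-(1/(20/23)*(1/3*(1-(-(3/50)*(1-t))-(0:ℝ)))))) - 2*(1/200) = (1/336000000) * (-571851*t^2 + 16431702*t + 3312149) / ((1:ℝ)) := by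
  rw [eq_div_iff (by positivity)]
  field_simp
  skip
  ring

theorem H0 (t : ℝ) (h1 : 0 ≤ t) (h2 : t ≤ 1) : 0 ≤ 2*(1-((3/8)^2/(2*(3/4)) + 3/20*(3/20)^2 + (1/2)^2*(0:ℝ))-((1/16+(1+1/5)*(1/4)^2)*(0:ℝ) + (11/25)/4 + (1+1/5)*(1/4)^2/(4*(11/25))*(0:ℝ)^2)-(1/(20/23)*(1/3*(1-(-(3/50)*(1-t))-(0:ℝ))+1/8/12*(12/5)))) - (1+((-(3/50)*(1-t))*(t-1)*(17/1250) + 7/2/2*(9/64)*(-(3/50)*(1-t))^2 + 1/(2*(7/2)) - 3/8*(-(3/50)*(1-t)))+(-((3/8-6/1000)*(0:ℝ)) + (1/4)^2/(2*(5/16)) - 3/8*(11/25))+(-(1/(20/23)*(1/3*(1-(-(3/50)*(1-t))-(0:ℝ)))))) - 2*(1/200) := by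
  have d0 : (0:ℝ) < 1 := by linarith
  have d1 : (0:ℝ) < t+9 := by linarith
  have d2 : (0:ℝ) < 16+t := by linarith
  rw [H0_key t]
  have hq := H0_q t h1 h2
  have hD : (0:ℝ) < (1:ℝ) := by positivity
  exact div_nonneg (mul_nonneg (by norm_num) hq) hD.le

lemma K0_q0_aux (u w : ℝ) (hu : 0 ≤ u) (hw : 0 ≤ w) : (0:ℝ) ≤ 30720*w^2 + 49963*u*w + 20230*u^2 := by positivity
lemma K0_q0 (t : ℝ) (h1 : 0 ≤ t) (h2 : t ≤ 1) : (0:ℝ) ≤ 987*t^2 - 11477*t + 30720 := by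
  have h := K0_q0_aux (t - 0) (1 - t) (by linarith) (by linarith)
  have e : (1:ℝ) * (987*t^2 - 11477*t + 30720) = 30720*(1 - t)^2 + 49963*(t - 0)*(1 - t) + 20230*(t - 0)^2 := by ring
  rw [← e] at h
  linarith

lemma K0_q (t : ℝ) (h1 : 0 ≤ t) (h2 : t ≤ 1) : (0:ℝ) ≤ 987*t^2 - 11477*t + 30720 := by
  exact K0_q0 t h1 h2

lemma K0_key (t : ℝ) (n5 : 16 + t ≠ 0) :
    12/5 - (1-(-(3/50)*(1-t))-(0:ℝ))*(17/(16+t))^2*t = (1/50) * (987*t^2 - 11477*t + 30720) / ((1:ℝ) * (16+t)^2) := by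
  rw [eq_div_iff (by positivity)]
  field_simp
  skip
  ring

theorem K0 (t : ℝ) (h1 : 0 ≤ t) (h2 : t ≤ 1) : 0 ≤ 12/5 - (1-(-(3/50)*(1-t))-(0:ℝ))*(17/(16+t))^2*t := by
  have d0 : (0:ℝ) < 1 := by linarith
  have d1 : (0:ℝ) < t+9 := by linarith
  have d2 : (0:ℝ) < 16+t := by linarith
  rw [K0_key t d2.ne']
  have hq := K0_q t h1 h2
  have hD : (0:ℝ) < (1:ℝ) * (16+t)^2 := by positivity
  exact div_nonneg (mul_nonneg (by norm_num) hq) hD.le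

lemma A0_q0_aux (u w : ℝ) (hu : 0 ≤ u) (hw : 0 ≤ w) : (0:ℝ) ≤ 35*w + 33*u := by positivity
lemma A0_q0 (t : ℝ) (h1 : 0 ≤ t) (h2 : t ≤ 1) : (0:ℝ) ≤ -2*t + 35 := by
  have h := A0_q0_aux (t - 0) (1 - t) (by linarith) (by linarith)
  have e : (1:ℝ) * (-2*t + 35) = 35*(1 - t) + 33*(t - 0) := by ring
  rw [← e] at h
  linarith

lemma A0_q (t : ℝ) (h1 : 0 ≤ t) (h2 : t ≤ 1) : (0:ℝ) ≤ -2*t + 35 := by
  exact A0_q0 t h1 h2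

lemma A0_key (t : ℝ) :
    (1-(-(3/50)*(1-t))-(0:ℝ)) - 1/100 = (3/100) * (-2*t + 35) / ((1:ℝ)) := by
  rw [eq_div_iff (by positivity)]
  field_simp
  skip
  ring

theorem A0 (t : ℝ) (h1 : 0 ≤ t) (h2 : t ≤ 1) : 0 ≤ (1-(-(3/50)*(1-t))-(0:ℝ)) - 1/100 := by
  have d0 : (0:ℝ) < 1 := by linarith
  have d1 : (0:ℝ) < t+9 := by linarith
  have d2 : (0:ℝ) < 16+t := by linarith
  rw [A0_key t]
  have hq := A0_q t h1 h2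
  have hD : (0:ℝ) < (1:ℝ) := by positivity
  exact div_nonneg (mul_nonneg (by norm_num) hq) hD.le

lemma M0_q0_aux (u w : ℝ) (hu : 0 ≤ u) (hw : 0 ≤ w) : (0:ℝ) ≤ 1*u := by positivity
lemma M0_q0 (t : ℝ) (h1 : 0 ≤ t) (h2 : t ≤ 1) : (0:ℝ) ≤ t := by
  have h := M0_q0_aux (t - 0) (1 - t) (by linarith) (by linarith)
  have e : (1:ℝ) * (t) = 1*(t - 0) := by ring
  rw [← e] at h
  linarith

lemma M0_q (t : ℝ) (h1 : 0 ≤ t) (h2 : t ≤ 1) : (0:ℝ) ≤ t := by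
  exact M0_q0 t h1 h2

lemma M0_key (t : ℝ) :
    53/50 - (1-(-(3/50)*(1-t))-(0:ℝ)) = (3/50) * (t) / ((1:ℝ)) := by
  rw [eq_div_iff (by positivity)]
  field_simp
  skip
  ring

theorem M0 (t : ℝ) (h1 : 0 ≤ t) (h2 : t ≤ 1) : 0 ≤ 53/50 - (1-(-(3/50)*(1-t))-(0:ℝ)) := by
  have d0 : (0:ℝ) < 1 := by linarith
  have d1 : (0:ℝ) < t+9 := by linarith
  have d2 : (0:ℝ) < 16+t := by linarith
  rw [M0_key t]
  have hq := M0_q t h1 h2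
  have hD : (0:ℝ) < (1:ℝ) := by positivity
  exact div_nonneg (mul_nonneg (by norm_num) hq) hD.le

lemma P1_q0_aux (u w : ℝ) (hu : 0 ≤ u) (hw : 0 ≤ w) : (0:ℝ) ≤ 63133*w^2 + 311446*u*w + 384013*u^2 := by positivity
lemma P1_q0 (t : ℝ) (h1 : 1 ≤ t) (h2 : t ≤ 2) : (0:ℝ) ≤ 135700*t^2 - 86220*t + 13653 := by
  have h := P1_q0_aux (t - 1) (2 - t) (by linarith) (by linarith)
  have e : (1:ℝ) * (135700*t^2 - 86220*t + 13653) = 63133*(2 - t)^2 + 311446*(t - 1)*(2 - t) + 384013*(t - 1)^2 := by ring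
  rw [← e] at h
  linarith

lemma P1_q (t : ℝ) (h1 : 1 ≤ t) (h2 : t ≤ 2) : (0:ℝ) ≤ 135700*t^2 - 86220*t + 13653 := by
  exact P1_q0 t h1 h2

lemma P1_key (t d : ℝ) (hd : d = 10*t-3) (n3 : d ≠ 0) :
    (1-((3/8)^2/(2*(3/4)) + 3/20*(3/20)^2 + (1/2)^2*(3*(t-1)/(2*d)))-((1/16+(1+1/5)*(1/4)^2)*(0:ℝ) + (11/25)/4 + (1+1/5)*(1/4)^2/(4*(11/25))*(0:ℝ)^2)-(1/(20/23)*(1/3*(1-(3*(t-1)/(2*d))-(0:ℝ))+1/8/12*(12/5)))) - 1/200 = (7/24000) * (135700*t^2 - 86220*t + 13653) / (d^2) := by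
  rw [eq_div_iff (by positivity)]
  field_simp
  subst hd
  ring

theorem P1 (t : ℝ) (h1 : 1 ≤ t) (h2 : t ≤ 2) : 0 ≤ (1-((3/8)^2/(2*(3/4)) + 3/20*(3/20)^2 + (1/2)^2*(3*(t-1)/(2*(10*t-3))))-((1/16+(1+1/5)*(1/4)^2)*(0:ℝ) + (11/25)/4 + (1+1/5)*(1/4)^2/(4*(11/25))*(0:ℝ)^2)-(1/(20/23)*(1/3*(1-(3*(t-1)/(2*(10*t-3)))-(0:ℝ))+1/8/12*(12/5)))) - 1/200 := by
  have d0 : (0:ℝ) < 10*t-3 := by linarith
  have d1 : (0:ℝ) < t+9 := by linarith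
  have d2 : (0:ℝ) < 16+t := by linarith
  rw [P1_key t _ rfl d0.ne']
  have hq := P1_q t h1 h2
  have hD : (0:ℝ) < (10*t-3)^2 := by positivity
  exact div_nonneg (mul_nonneg (by norm_num) hq) hD.le

lemma H1_q0_aux (u w : ℝ) (hu : 0 ≤ u) (hw : 0 ≤ w) : (0:ℝ) ≤ 37577120*w^3 + 256550560*u*w^2 + 519776653*u^2*w + 298061453*u^3 := by positivity
lemma H1_q0 (t : ℝ) (h1 : 1 ≤ t) (h2 : t ≤ 2) : (0:ℝ) ≤ -2741760*t^3 + 127632173*t^2 - 103219866*t + 15906573 := by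
  have h := H1_q0_aux (t - 1) (2 - t) (by linarith) (by linarith)
  have e : (1:ℝ) * (-2741760*t^3 + 127632173*t^2 - 103219866*t + 15906573) = 37577120*(2 - t)^3 + 256550560*(t - 1)*(2 - t)^2 + 519776653*(t - 1)^2*(2 - t) + 298061453*(t - 1)^3 := by ring
  rw [← e] at h
  linarith

lemma H1_q (t : ℝ) (h1 : 1 ≤ t) (h2 : t ≤ 2) : (0:ℝ) ≤ -2741760*t^3 + 127632173*t^2 - 103219866*t + 15906573 := by
  exact H1_q0 t h1 h2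

lemma H1_key (t d : ℝ) (hd : d = 10*t-3) (n3 : d ≠ 0) :
    2*(1-((3/8)^2/(2*(3/4)) + 3/20*(3/20)^2 + (1/2)^2*(3*(t-1)/(2*d)))-((1/16+(1+1/5)*(1/4)^2)*(0:ℝ) + (11/25)/4 + (1+1/5)*(1/4)^2/(4*(11/25))*(0:ℝ)^2)-(1/(20/23)*(1/3*(1-(3*(t-1)/(2*d))-(0:ℝ))+1/8/12*(12/5)))) - (1+((3*(t-1)/(2*d))*(t-1)*(17/1250) + 7/2/2*(9/64)*(3*(t-1)/(2*d))^2 + 1/(2*(7/2)) - 3/8*(3*(t-1)/(2*d)))+(-((3/8-6/1000)*(0:ℝ)) + (1/4)^2/(2*(5/16)) - 3/8*(11/25))+(-(1/(20/23)*(1/3*(1-(3*(t-1)/(2*d))-(0:ℝ)))))) - 2*(1/200) = (1/13440000) * (-2741760*t^3 + 127632173*t^2 - 103219866*t + 15906573) / (d^2) := by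
  rw [eq_div_iff (by positivity)]
  field_simp
  subst hd
  ring

theorem H1 (t : ℝ) (h1 : 1 ≤ t) (h2 : t ≤ 2) : 0 ≤ 2*(1-((3/8)^2/(2*(3/4)) + 3/20*(3/20)^2 + (1/2)^2*(3*(t-1)/(2*(10*t-3))))-((1/16+(1+1/5)*(1/4)^2)*(0:ℝ) + (11/25)/4 + (1+1/5)*(1/4)^2/(4*(11/25))*(0:ℝ)^2)-(1/(20/23)*(1/3*(1-(3*(t-1)/(2*(10*t-3)))-(0:ℝ))+1/8/12*(12/5)))) - (1+((3*(t-1)/(2*(10*t-3)))*(t-1)*(17/1250) + 7/2/2*(9/64)*(3*(t-1)/(2*(10*t-3)))^2 + 1/(2*(7/2)) - 3/8*(3*(t-1)/(2*(10*t-3))))+(-((3/8-6/1000)*(0:ℝ)) + (1/4)^2/(2*(5/16)) - 3/8*(11/25))+(-(1/(20/23)*(1/3*(1-(3*(t-1)/(2*(10*t-3)))-(0:ℝ)))))) - 2*(1/200) := by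
  have d0 : (0:ℝ) < 10*t-3 := by linarith
  have d1 : (0:ℝ) < t+9 := by linarith
  have d2 : (0:ℝ) < 16+t := by linarith
  rw [H1_key t _ rfl d0.ne']
  have hq := H1_q t h1 h2
  have hD : (0:ℝ) < (10*t-3)^2 := by positivity
  exact div_nonneg (mul_nonneg (by norm_num) hq) hD.le

lemma K1_q0_aux (u w : ℝ) (hu : 0 ≤ u) (hw : 0 ≤ w) : (0:ℝ) ≤ 28322*w^3 + 115243*u*w^2 + 129283*u^2*w + 42602*u^3 := by positivity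
lemma K1_q0 (t : ℝ) (h1 : 1 ≤ t) (h2 : t ≤ 2) : (0:ℝ) ≤ 240*t^3 - 16957*t^2 + 63471*t - 18432 := by
  have h := K1_q0_aux (t - 1) (2 - t) (by linarith) (by linarith)
  have e : (1:ℝ) * (240*t^3 - 16957*t^2 + 63471*t - 18432) = 28322*(2 - t)^3 + 115243*(t - 1)*(2 - t)^2 + 129283*(t - 1)^2*(2 - t) + 42602*(t - 1)^3 := by ring
  rw [← e] at h
  linarith

lemma K1_q (t : ℝ) (h1 : 1 ≤ t) (h2 : t ≤ 2) : (0:ℝ) ≤ 240*t^3 - 16957*t^2 + 63471*t - 18432 := by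
  exact K1_q0 t h1 h2

lemma K1_key (t d : ℝ) (hd : d = 10*t-3) (n3 : d ≠ 0) (n5 : 16 + t ≠ 0) :
    12/5 - (1-(3*(t-1)/(2*d))-(0:ℝ))*(17/(16+t))^2*t = (1/10) * (240*t^3 - 16957*t^2 + 63471*t - 18432) / (d^1 * (16+t)^2) := by
  rw [eq_div_iff (by positivity)]
  field_simp
  subst hd
  ring

theorem K1 (t : ℝ) (h1 : 1 ≤ t) (h2 : t ≤ 2) : 0 ≤ 12/5 - (1-(3*(t-1)/(2*(10*t-3)))-(0:ℝ))*(17/(16+t))^2*t := by
  have d0 : (0:ℝ) < 10*t-3 := by linarith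
  have d1 : (0:ℝ) < t+9 := by linarith
  have d2 : (0:ℝ) < 16+t := by linarith
  rw [K1_key t _ rfl d0.ne' d2.ne']
  have hq := K1_q t h1 h2
  have hD : (0:ℝ) < (10*t-3)^1 * (16+t)^2 := by positivity
  exact div_nonneg (mul_nonneg (by norm_num) hq) hD.le

lemma A1_q0_aux (u w : ℝ) (hu : 0 ≤ u) (hw : 0 ≤ w) : (0:ℝ) ≤ 33*w + 73*u := by positivity
lemma A1_q0 (t : ℝ) (h1 : 1 ≤ t) (h2 : t ≤ 2) : (0:ℝ) ≤ 40*t - 7 := by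
  have h := A1_q0_aux (t - 1) (2 - t) (by linarith) (by linarith)
  have e : (1:ℝ) * (40*t - 7) = 33*(2 - t) + 73*(t - 1) := by ring
  rw [← e] at h
  linarith

lemma A1_q (t : ℝ) (h1 : 1 ≤ t) (h2 : t ≤ 2) : (0:ℝ) ≤ 40*t - 7 := by
  exact A1_q0 t h1 h2

lemma A1_key (t d : ℝ) (hd : d = 10*t-3) (n3 : d ≠ 0) :
    (1-(3*(t-1)/(2*d))-(0:ℝ)) - 1/100 = (21/100) * (40*t - 7) / (d^1) := by
  rw [eq_div_iff (by positivity)]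
  field_simp
  subst hd
  ring

theorem A1 (t : ℝ) (h1 : 1 ≤ t) (h2 : t ≤ 2) : 0 ≤ (1-(3*(t-1)/(2*(10*t-3)))-(0:ℝ)) - 1/100 := by
  have d0 : (0:ℝ) < 10*t-3 := by linarith
  have d1 : (0:ℝ) < t+9 := by linarith
  have d2 : (0:ℝ) < 16+t := by linarith
  rw [A1_key t _ rfl d0.ne']
  have hq := A1_q t h1 h2
  have hD : (0:ℝ) < (10*t-3)^1 := by positivity
  exact div_nonneg (mul_nonneg (by norm_num) hq) hD.le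

lemma M1_q0_aux (u w : ℝ) (hu : 0 ≤ u) (hw : 0 ≤ w) : (0:ℝ) ≤ 1*w + 6*u := by positivity
lemma M1_q0 (t : ℝ) (h1 : 1 ≤ t) (h2 : t ≤ 2) : (0:ℝ) ≤ 5*t - 4 := by
  have h := M1_q0_aux (t - 1) (2 - t) (by linarith) (by linarith)
  have e : (1:ℝ) * (5*t - 4) = 1*(2 - t) + 6*(t - 1) := by ring
  rw [← e] at h
  linarith

lemma M1_q (t : ℝ) (h1 : 1 ≤ t) (h2 : t ≤ 2) : (0:ℝ) ≤ 5*t - 4 := by
  exact M1_q0 t h1 h2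

lemma M1_key (t d : ℝ) (hd : d = 10*t-3) (n3 : d ≠ 0) :
    53/50 - (1-(3*(t-1)/(2*d))-(0:ℝ)) = (21/50) * (5*t - 4) / (d^1) := by
  rw [eq_div_iff (by positivity)]
  field_simp
  subst hd
  ring

theorem M1 (t : ℝ) (h1 : 1 ≤ t) (h2 : t ≤ 2) : 0 ≤ 53/50 - (1-(3*(t-1)/(2*(10*t-3)))-(0:ℝ)) := by
  have d0 : (0:ℝ) < 10*t-3 := by linarith
  have d1 : (0:ℝ) < t+9 := by linarith
  have d2 : (0:ℝ) < 16+t := by linarith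
  rw [M1_key t _ rfl d0.ne']
  have hq := M1_q t h1 h2
  have hD : (0:ℝ) < (10*t-3)^1 := by positivity
  exact div_nonneg (mul_nonneg (by norm_num) hq) hD.le

lemma P2_q0_aux (u w : ℝ) (hu : 0 ≤ u) (hw : 0 ≤ w) : (0:ℝ) ≤ 511121303*w^4 + 4220676746*u*w^3 + 12532752381*u^2*w^2 + 15762615116*u^3*w + 7114224278*u^4 := by positivity
lemma P2_q0 (t : ℝ) (h1 : 2 ≤ t) (h2 : t ≤ 5) : (0:ℝ) ≤ 2158100*t^4 + 31426140*t^3 + 86032089*t^2 - 64904058*t + 10862343 := by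
  have h := P2_q0_aux (t - 2) (5 - t) (by linarith) (by linarith)
  have e : (81:ℝ) * (2158100*t^4 + 31426140*t^3 + 86032089*t^2 - 64904058*t + 10862343) = 511121303*(5 - t)^4 + 4220676746*(t - 2)*(5 - t)^3 + 12532752381*(t - 2)^2*(5 - t)^2 + 15762615116*(t - 2)^3*(5 - t) + 7114224278*(t - 2)^4 := by ring
  rw [← e] at h
  linarith

lemma P2_q (t : ℝ) (h1 : 2 ≤ t) (h2 : t ≤ 5) : (0:ℝ) ≤ 2158100*t^4 + 31426140*t^3 + 86032089*t^2 - 64904058*t + 10862343 := by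
  exact P2_q0 t h1 h2

lemma P2_key (t d : ℝ) (hd : d = 10*t-3) (n3 : d ≠ 0) (n4 : t + 9 ≠ 0) :
    (1-((3/8)^2/(2*(3/4)) + 3/20*(3/20)^2 + (1/2)^2*(3*(t-1)/(2*d)))-((1/16+(1+1/5)*(1/4)^2)*(21*(t-2)/(25*(t+9))) + (11/25)/4 + (1+1/5)*(1/4)^2/(4*(11/25))*(21*(t-2)/(25*(t+9)))^2)-(1/(20/23)*(1/3*(1-(3*(t-1)/(2*d))-(21*(t-2)/(25*(t+9))))+1/8/12*(12/5)))) - 1/200 = (7/264000) * (2158100*t^4 + 31426140*t^3 + 86032089*t^2 - 64904058*t + 10862343) / (d^2 * (t+9)^2) := by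
  rw [eq_div_iff (by positivity)]
  field_simp
  subst hd
  ring

theorem P2 (t : ℝ) (h1 : 2 ≤ t) (h2 : t ≤ 5) : 0 ≤ (1-((3/8)^2/(2*(3/4)) + 3/20*(3/20)^2 + (1/2)^2*(3*(t-1)/(2*(10*t-3))))-((1/16+(1+1/5)*(1/4)^2)*(21*(t-2)/(25*(t+9))) + (11/25)/4 + (1+1/5)*(1/4)^2/(4*(11/25))*(21*(t-2)/(25*(t+9)))^2)-(1/(20/23)*(1/3*(1-(3*(t-1)/(2*(10*t-3)))-(21*(t-2)/(25*(t+9))))+1/8/12*(12/5)))) - 1/200 := by
  have d0 : (0:ℝ) < 10*t-3 := by linarith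
  have d1 : (0:ℝ) < t+9 := by linarith
  have d2 : (0:ℝ) < 16+t := by linarith
  rw [P2_key t _ rfl d0.ne' d1.ne']
  have hq := P2_q t h1 h2
  have hD : (0:ℝ) < (10*t-3)^2 * (t+9)^2 := by positivity
  exact div_nonneg (mul_nonneg (by norm_num) hq) hD.le

lemma H2_q0_aux (u w : ℝ) (hu : 0 ≤ u) (hw : 0 ≤ w) : (0:ℝ) ≤ 1983598969715*w^5 + 21301675693639*u*w^4 + 86886538838768*u^2*w^3 + 167496749834300*u^3*w^2 + 151889873605792*u^4*w + 51924942263936*u^5 := by positivity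
lemma H2_q0 (t : ℝ) (h1 : 2 ≤ t) (h2 : t ≤ 5) : (0:ℝ) ≤ -150796800*t^5 + 29499110315*t^4 + 318601870320*t^3 - 216878818662*t^2 - 93054673584*t + 21248361531 := by
  have h := H2_q0_aux (t - 2) (5 - t) (by linarith) (by linarith)
  have e : (243:ℝ) * (-150796800*t^5 + 29499110315*t^4 + 318601870320*t^3 - 216878818662*t^2 - 93054673584*t + 21248361531) = 1983598969715*(5 - t)^5 + 21301675693639*(t - 2)*(5 - t)^4 + 86886538838768*(t - 2)^2*(5 - t)^3 + 167496749834300*(t - 2)^3*(5 - t)^2 + 151889873605792*(t - 2)^4*(5 - t) + 51924942263936*(t - 2)^5 := by ring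
  rw [← e] at h
  linarith

lemma H2_q (t : ℝ) (h1 : 2 ≤ t) (h2 : t ≤ 5) : (0:ℝ) ≤ -150796800*t^5 + 29499110315*t^4 + 318601870320*t^3 - 216878818662*t^2 - 93054673584*t + 21248361531 := by
  exact H2_q0 t h1 h2

lemma H2_key (t d : ℝ) (hd : d = 10*t-3) (n3 : d ≠ 0) (n4 : t + 9 ≠ 0) :
    2*(1-((3/8)^2/(2*(3/4)) + 3/20*(3/20)^2 + (1/2)^2*(3*(t-1)/(2*d)))-((1/16+(1+1/5)*(1/4)^2)*(21*(t-2)/(25*(t+9))) + (11/25)/4 + (1+1/5)*(1/4)^2/(4*(11/25))*(21*(t-2)/(25*(t+9)))^2)-(1/(20/23)*(1/3*(1-(3*(t-1)/(2*d))-(21*(t-2)/(25*(t+9))))+1/8/12*(12/5)))) - (1+((3*(t-1)/(2*d))*(t-1)*(17/1250) + 7/2/2*(9/64)*(3*(t-1)/(2*d))^2 + 1/(2*(7/2)) - 3/8*(3*(t-1)/(2*d)))+(-((3/8-6/1000)*(21*(t-2)/(25*(t+9)))) + (1/4)^2/(2*(5/16)) - 3/8*(11/25))+(-(1/(20/23)*(1/3*(1-(3*(t-1)/(2*d))-(21*(t-2)/(25*(t+9)))))))) - 2*(1/200) = (1/739200000)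 * (-150796800*t^5 + 29499110315*t^4 + 318601870320*t^3 - 216878818662*t^2 - 93054673584*t + 21248361531) / (d^2 * (t+9)^2) := by
  rw [eq_div_iff (by positivity)]
  field_simp
  subst hd
  ring

theorem H2 (t : ℝ) (h1 : 2 ≤ t) (h2 : t ≤ 5) : 0 ≤ 2*(1-((3/8)^2/(2*(3/4)) + 3/20*(3/20)^2 + (1/2)^2*(3*(t-1)/(2*(10*t-3))))-((1/16+(1+1/5)*(1/4)^2)*(21*(t-2)/(25*(t+9))) + (11/25)/4 + (1+1/5)*(1/4)^2/(4*(11/25))*(21*(t-2)/(25*(t+9)))^2)-(1/(20/23)*(1/3*(1-(3*(t-1)/(2*(10*t-3)))-(21*(t-2)/(25*(t+9))))+1/8/12*(12/5)))) - (1+((3*(t-1)/(2*(10*t-3)))*(t-1)*(17/1250) + 7/2/2*(9/64)*(3*(t-1)/(2*(10*t-3)))^2 + 1/(2*(7/2)) - 3/8*(3*(t-1)/(2*(10*t-3))))+(-((3/8-6/1000)*(21*(t-2)/(25*(t+9)))) + (1/4)^2/(2*(5/16)) - 3/8*(11/25))+(-(1/(20/23)*(1/3*(1-(3*(t-1)/(2*(10*t-3)))-(21*(t-2)/(25*(t+9)))))))) - 2*(1/200) := by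
  have d0 : (0:ℝ) < 10*t-3 := by linarith
  have d1 : (0:ℝ) < t+9 := by linarith
  have d2 : (0:ℝ) < 16+t := by linarith
  rw [H2_key t _ rfl d0.ne' d1.ne']
  have hq := H2_q t h1 h2
  have hD : (0:ℝ) < (10*t-3)^2 * (t+9)^2 := by positivity
  exact div_nonneg (mul_nonneg (by norm_num) hq) hD.le

lemma K2_q0_aux (u w : ℝ) (hu : 0 ≤ u) (hw : 0 ≤ w) : (0:ℝ) ≤ 2343110*w^4 + 11005841*u*w^3 + 15253437*u^2*w^2 + 8400656*u^3*w + 1907150*u^4 := by positivity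
lemma K2_q0 (t : ℝ) (h1 : 2 ≤ t) (h2 : t ≤ 5) : (0:ℝ) ≤ 1200*t^4 + 47395*t^3 - 724884*t^2 + 2836863*t - 829440 := by
  have h := K2_q0_aux (t - 2) (5 - t) (by linarith) (by linarith)
  have e : (81:ℝ) * (1200*t^4 + 47395*t^3 - 724884*t^2 + 2836863*t - 829440) = 2343110*(5 - t)^4 + 11005841*(t - 2)*(5 - t)^3 + 15253437*(t - 2)^2*(5 - t)^2 + 8400656*(t - 2)^3*(5 - t) + 1907150*(t - 2)^4 := by ring
  rw [← e] at h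
  linarith

lemma K2_q (t : ℝ) (h1 : 2 ≤ t) (h2 : t ≤ 5) : (0:ℝ) ≤ 1200*t^4 + 47395*t^3 - 724884*t^2 + 2836863*t - 829440 := by
  exact K2_q0 t h1 h2

lemma K2_key (t d : ℝ) (hd : d = 10*t-3) (n3 : d ≠ 0) (n4 : t + 9 ≠ 0) (n5 : 16 + t ≠ 0) :
    12/5 - (1-(3*(t-1)/(2*d))-(21*(t-2)/(25*(t+9))))*(17/(16+t))^2*t = (1/50) * (1200*t^4 + 47395*t^3 - 724884*t^2 + 2836863*t - 829440) / (d^1 * (t+9)^1 * (16+t)^2) := by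
  rw [eq_div_iff (by positivity)]
  field_simp
  subst hd
  ring

theorem K2 (t : ℝ) (h1 : 2 ≤ t) (h2 : t ≤ 5) : 0 ≤ 12/5 - (1-(3*(t-1)/(2*(10*t-3)))-(21*(t-2)/(25*(t+9))))*(17/(16+t))^2*t := by
  have d0 : (0:ℝ) < 10*t-3 := by linarith
  have d1 : (0:ℝ) < t+9 := by linarith
  have d2 : (0:ℝ) < 16+t := by linarith
  rw [K2_key t _ rfl d0.ne' d1.ne' d2.ne']
  have hq := K2_q t h1 h2
  have hD : (0:ℝ) < (10*t-3)^1 * (t+9)^1 * (16+t)^2 := by positivity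
  exact div_nonneg (mul_nonneg (by norm_num) hq) hD.le

lemma A2_q0_aux (u w : ℝ) (hu : 0 ≤ u) (hw : 0 ≤ w) : (0:ℝ) ≤ 803*w + 2138*u := by positivity
lemma A2_q0 (t : ℝ) (h1 : 2 ≤ t) (h2 : t ≤ 5) : (0:ℝ) ≤ 445*t - 87 := by
  have h := A2_q0_aux (t - 2) (5 - t) (by linarith) (by linarith)
  have e : (3:ℝ) * (445*t - 87) = 803*(5 - t) + 2138*(t - 2) := by ring
  rw [← e] at h
  linarith

lemma A2_q (t : ℝ) (h1 : 2 ≤ t) (h2 : t ≤ 5) : (0:ℝ) ≤ 445*t - 87 := by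
  exact A2_q0 t h1 h2

lemma A2_key (t d : ℝ) (hd : d = 10*t-3) (n3 : d ≠ 0) (n4 : t + 9 ≠ 0) :
    (1-(3*(t-1)/(2*d))-(21*(t-2)/(25*(t+9)))) - 1/100 = (21/100) * (445*t - 87) / (d^1 * (t+9)^1) := by
  rw [eq_div_iff (by positivity)]
  field_simp
  subst hd
  ring

theorem A2 (t : ℝ) (h1 : 2 ≤ t) (h2 : t ≤ 5) : 0 ≤ (1-(3*(t-1)/(2*(10*t-3)))-(21*(t-2)/(25*(t+9)))) - 1/100 := by
  have d0 : (0:ℝ) < 10*t-3 := by linarith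
  have d1 : (0:ℝ) < t+9 := by linarith
  have d2 : (0:ℝ) < 16+t := by linarith
  rw [A2_key t _ rfl d0.ne' d1.ne']
  have hq := A2_q t h1 h2
  have hD : (0:ℝ) < (10*t-3)^1 * (t+9)^1 := by positivity
  exact div_nonneg (mul_nonneg (by norm_num) hq) hD.le

lemma M2_q0_aux (u w : ℝ) (hu : 0 ≤ u) (hw : 0 ≤ w) : (0:ℝ) ≤ 22*w^2 + 139*u*w + 192*u^2 := by positivity
lemma M2_q0 (t : ℝ) (h1 : 2 ≤ t) (h2 : t ≤ 5) : (0:ℝ) ≤ 25*t^2 - 5*t - 24 := by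
  have h := M2_q0_aux (t - 2) (5 - t) (by linarith) (by linarith)
  have e : (3:ℝ) * (25*t^2 - 5*t - 24) = 22*(5 - t)^2 + 139*(t - 2)*(5 - t) + 192*(t - 2)^2 := by ring
  rw [← e] at h
  linarith

lemma M2_q (t : ℝ) (h1 : 2 ≤ t) (h2 : t ≤ 5) : (0:ℝ) ≤ 25*t^2 - 5*t - 24 := by
  exact M2_q0 t h1 h2

lemma M2_key (t d : ℝ) (hd : d = 10*t-3) (n3 : d ≠ 0) (n4 : t + 9 ≠ 0) :
    53/50 - (1-(3*(t-1)/(2*d))-(21*(t-2)/(25*(t+9)))) = (21/50) * (25*t^2 - 5*t - 24) / (d^1 * (t+9)^1) := by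
  rw [eq_div_iff (by positivity)]
  field_simp
  subst hd
  ring

theorem M2 (t : ℝ) (h1 : 2 ≤ t) (h2 : t ≤ 5) : 0 ≤ 53/50 - (1-(3*(t-1)/(2*(10*t-3)))-(21*(t-2)/(25*(t+9)))) := by
  have d0 : (0:ℝ) < 10*t-3 := by linarith
  have d1 : (0:ℝ) < t+9 := by linarith
  have d2 : (0:ℝ) < 16+t := by linarith
  rw [M2_key t _ rfl d0.ne' d1.ne']
  have hq := M2_q t h1 h2
  have hD : (0:ℝ) < (10*t-3)^1 * (t+9)^1 := by positivity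
  exact div_nonneg (mul_nonneg (by norm_num) hq) hD.le

lemma P5_q0_aux (u w : ℝ) (hu : 0 ≤ u) (hw : 0 ≤ w) : (0:ℝ) ≤ 3557112139*w^4 + 26922730552*u*w^3 + 75286024224*u^2*w^2 + 92087824468*u^3*w + 41565867457*u^4 := by positivity
lemma P5_q0 (t : ℝ) (h1 : 5 ≤ t) (h2 : t ≤ 11) : (0:ℝ) ≤ 2158100*t^4 + 31426140*t^3 + 86032089*t^2 - 64904058*t + 10862343 := by
  have h := P5_q0_aux (t - 5) (11 - t) (by linarith) (by linarith)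
  have e : (648:ℝ) * (2158100*t^4 + 31426140*t^3 + 86032089*t^2 - 64904058*t + 10862343) = 3557112139*(11 - t)^4 + 26922730552*(t - 5)*(11 - t)^3 + 75286024224*(t - 5)^2*(11 - t)^2 + 92087824468*(t - 5)^3*(11 - t) + 41565867457*(t - 5)^4 := by ring
  rw [← e] at h
  linarith

lemma P5_q (t : ℝ) (h1 : 5 ≤ t) (h2 : t ≤ 11) : (0:ℝ) ≤ 2158100*t^4 + 31426140*t^3 + 86032089*t^2 - 64904058*t + 10862343 := by
  exact P5_q0 t h1 h2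

lemma P5_key (t d : ℝ) (hd : d = 10*t-3) (n3 : d ≠ 0) (n4 : t + 9 ≠ 0) :
    (1-((3/8)^2/(2*(3/4)) + 3/20*(3/20)^2 + (1/2)^2*(3*(t-1)/(2*d)))-((1/16+(1+1/5)*(1/4)^2)*(21*(t-2)/(25*(t+9))) + (11/25)/4 + (1+1/5)*(1/4)^2/(4*(11/25))*(21*(t-2)/(25*(t+9)))^2)-(1/(20/23)*(1/3*(1-(3*(t-1)/(2*d))-(21*(t-2)/(25*(t+9))))+1/8/12*(12/5)))) - 1/200 = (7/264000) * (2158100*t^4 + 31426140*t^3 + 86032089*t^2 - 64904058*t + 10862343) / (d^2 * (t+9)^2) := by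
  rw [eq_div_iff (by positivity)]
  field_simp
  subst hd
  ring

theorem P5 (t : ℝ) (h1 : 5 ≤ t) (h2 : t ≤ 11) : 0 ≤ (1-((3/8)^2/(2*(3/4)) + 3/20*(3/20)^2 + (1/2)^2*(3*(t-1)/(2*(10*t-3))))-((1/16+(1+1/5)*(1/4)^2)*(21*(t-2)/(25*(t+9))) + (11/25)/4 + (1+1/5)*(1/4)^2/(4*(11/25))*(21*(t-2)/(25*(t+9)))^2)-(1/(20/23)*(1/3*(1-(3*(t-1)/(2*(10*t-3)))-(21*(t-2)/(25*(t+9))))+1/8/12*(12/5)))) - 1/200 := by
  have d0 : (0:ℝ) < 10*t-3 := by linarith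
  have d1 : (0:ℝ) < t+9 := by linarith
  have d2 : (0:ℝ) < 16+t := by linarith
  rw [P5_key t _ rfl d0.ne' d1.ne']
  have hq := P5_q t h1 h2
  have hD : (0:ℝ) < (10*t-3)^2 * (t+9)^2 := by positivity
  exact div_nonneg (mul_nonneg (by norm_num) hq) hD.le

lemma H5_q0_aux (u w : ℝ) (hu : 0 ≤ u) (hw : 0 ≤ w) : (0:ℝ) ≤ 3312723044456*w^5 + 30376556575876*u*w^4 + 108845028194927*u^2*w^3 + 189757823180615*u^3*w^2 + 160248492416548*u^4*w + 52234142523440*u^5 := by positivity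
lemma H5_q0 (t : ℝ) (h1 : 5 ≤ t) (h2 : t ≤ 11) : (0:ℝ) ≤ -77616000*t^5 + 30648048875*t^4 + 321616919280*t^3 - 228426748902*t^2 - 83965618224*t + 19470068091 := by
  have h := H5_q0_aux (t - 5) (11 - t) (by linarith) (by linarith)
  have e : (486:ℝ) * (-77616000*t^5 + 30648048875*t^4 + 321616919280*t^3 - 228426748902*t^2 - 83965618224*t + 19470068091) = 3312723044456*(11 - t)^5 + 30376556575876*(t - 5)*(11 - t)^4 + 108845028194927*(t - 5)^2*(11 - t)^3 + 189757823180615*(t - 5)^3*(11 - t)^2 + 160248492416548*(t - 5)^4*(11 - t) + 52234142523440*(t - 5)^5 := by ring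
  rw [← e] at h
  linarith

lemma H5_q (t : ℝ) (h1 : 5 ≤ t) (h2 : t ≤ 11) : (0:ℝ) ≤ -77616000*t^5 + 30648048875*t^4 + 321616919280*t^3 - 228426748902*t^2 - 83965618224*t + 19470068091 := by
  exact H5_q0 t h1 h2

lemma H5_key (t d : ℝ) (hd : d = 10*t-3) (n3 : d ≠ 0) (n4 : t + 9 ≠ 0) :
    2*(1-((3/8)^2/(2*(3/4)) + 3/20*(3/20)^2 + (1/2)^2*(3*(t-1)/(2*d)))-((1/16+(1+1/5)*(1/4)^2)*(21*(t-2)/(25*(t+9))) + (11/25)/4 + (1+1/5)*(1/4)^2/(4*(11/25))*(21*(t-2)/(25*(t+9)))^2)-(1/(20/23)*(1/3*(1-(3*(t-1)/(2*d))-(21*(t-2)/(25*(t+9))))+1/8/12*(12/5)))) - (1+((3*(t-1)/(2*d))*(t-1)*(7/1000) + 7/2/2*(9/64)*(3*(t-1)/(2*d))^2 + 1/(2*(7/2)) - 3/8*(3*(t-1)/(2*d)))+(-((3/8-6/1000)*(21*(t-2)/(25*(t+9)))) + (1/4)^2/(2*(5/16)) - 3/8*(11/25))+(-(1/(20/23)*(1/3*(1-(3*(t-1)/(2*d))-(21*(t-2)/(25*(t+9)))))))) - 2*(1/200) = (1/739200000)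 * (-77616000*t^5 + 30648048875*t^4 + 321616919280*t^3 - 228426748902*t^2 - 83965618224*t + 19470068091) / (d^2 * (t+9)^2) := by
  rw [eq_div_iff (by positivity)]
  field_simp
  subst hd
  ring

theorem H5 (t : ℝ) (h1 : 5 ≤ t) (h2 : t ≤ 11) : 0 ≤ 2*(1-((3/8)^2/(2*(3/4)) + 3/20*(3/20)^2 + (1/2)^2*(3*(t-1)/(2*(10*t-3))))-((1/16+(1+1/5)*(1/4)^2)*(21*(t-2)/(25*(t+9))) + (11/25)/4 + (1+1/5)*(1/4)^2/(4*(11/25))*(21*(t-2)/(25*(t+9)))^2)-(1/(20/23)*(1/3*(1-(3*(t-1)/(2*(10*t-3)))-(21*(t-2)/(25*(t+9))))+1/8/12*(12/5)))) - (1+((3*(t-1)/(2*(10*t-3)))*(t-1)*(7/1000) + 7/2/2*(9/64)*(3*(t-1)/(2*(10*t-3)))^2 + 1/(2*(7/2)) - 3/8*(3*(t-1)/(2*(10*t-3))))+(-((3/8-6/1000)*(21*(t-2)/(25*(t+9)))) + (1/4)^2/(2*(5/16)) - 3/8*(11/25))+(-(1/(20/23)*(1/3*(1-(3*(t-1)/(2*(10*t-3)))-(21*(t-2)/(25*(t+9)))))))) - 2*(1/200) := by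
  have d0 : (0:ℝ) < 10*t-3 := by linarith
  have d1 : (0:ℝ) < t+9 := by linarith
  have d2 : (0:ℝ) < 16+t := by linarith
  rw [H5_key t _ rfl d0.ne' d1.ne']
  have hq := H5_q t h1 h2
  have hD : (0:ℝ) < (10*t-3)^2 * (t+9)^2 := by positivity
  exact div_nonneg (mul_nonneg (by norm_num) hq) hD.le

lemma K5_q0_aux (u w : ℝ) (hu : 0 ≤ u) (hw : 0 ≤ w) : (0:ℝ) ≤ 953575*w^4 + 3042244*u*w^3 + 6394020*u^2*w^2 + 15186268*u^3*w + 11658517*u^4 := by positivity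
lemma K5_q0 (t : ℝ) (h1 : 5 ≤ t) (h2 : t ≤ 11) : (0:ℝ) ≤ 1200*t^4 + 47395*t^3 - 724884*t^2 + 2836863*t - 829440 := by
  have h := K5_q0_aux (t - 5) (11 - t) (by linarith) (by linarith)
  have e : (648:ℝ) * (1200*t^4 + 47395*t^3 - 724884*t^2 + 2836863*t - 829440) = 953575*(11 - t)^4 + 3042244*(t - 5)*(11 - t)^3 + 6394020*(t - 5)^2*(11 - t)^2 + 15186268*(t - 5)^3*(11 - t) + 11658517*(t - 5)^4 := by ring
  rw [← e] at h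
  linarith

lemma K5_q (t : ℝ) (h1 : 5 ≤ t) (h2 : t ≤ 11) : (0:ℝ) ≤ 1200*t^4 + 47395*t^3 - 724884*t^2 + 2836863*t - 829440 := by
  exact K5_q0 t h1 h2

lemma K5_key (t d : ℝ) (hd : d = 10*t-3) (n3 : d ≠ 0) (n4 : t + 9 ≠ 0) (n5 : 16 + t ≠ 0) :
    12/5 - (1-(3*(t-1)/(2*d))-(21*(t-2)/(25*(t+9))))*(17/(16+t))^2*t = (1/50) * (1200*t^4 + 47395*t^3 - 724884*t^2 + 2836863*t - 829440) / (d^1 * (t+9)^1 * (16+t)^2) := by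
  rw [eq_div_iff (by positivity)]
  field_simp
  subst hd
  ring

theorem K5 (t : ℝ) (h1 : 5 ≤ t) (h2 : t ≤ 11) : 0 ≤ 12/5 - (1-(3*(t-1)/(2*(10*t-3)))-(21*(t-2)/(25*(t+9))))*(17/(16+t))^2*t := by
  have d0 : (0:ℝ) < 10*t-3 := by linarith
  have d1 : (0:ℝ) < t+9 := by linarith
  have d2 : (0:ℝ) < 16+t := by linarith
  rw [K5_key t _ rfl d0.ne' d1.ne' d2.ne']
  have hq := K5_q t h1 h2
  have hD : (0:ℝ) < (10*t-3)^1 * (t+9)^1 * (16+t)^2 := by positivity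
  exact div_nonneg (mul_nonneg (by norm_num) hq) hD.le

lemma A5_q0_aux (u w : ℝ) (hu : 0 ≤ u) (hw : 0 ≤ w) : (0:ℝ) ≤ 1069*w + 2404*u := by positivity
lemma A5_q0 (t : ℝ) (h1 : 5 ≤ t) (h2 : t ≤ 11) : (0:ℝ) ≤ 445*t - 87 := by
  have h := A5_q0_aux (t - 5) (11 - t) (by linarith) (by linarith)
  have e : (3:ℝ) * (445*t - 87) = 1069*(11 - t) + 2404*(t - 5) := by ring
  rw [← e] at h
  linarith

lemma A5_q (t : ℝ) (h1 : 5 ≤ t) (h2 : t ≤ 11) : (0:ℝ) ≤ 445*t - 87 := by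
  exact A5_q0 t h1 h2

lemma A5_key (t d : ℝ) (hd : d = 10*t-3) (n3 : d ≠ 0) (n4 : t + 9 ≠ 0) :
    (1-(3*(t-1)/(2*d))-(21*(t-2)/(25*(t+9)))) - 1/100 = (21/100) * (445*t - 87) / (d^1 * (t+9)^1) := by
  rw [eq_div_iff (by positivity)]
  field_simp
  subst hd
  ring

theorem A5 (t : ℝ) (h1 : 5 ≤ t) (h2 : t ≤ 11) : 0 ≤ (1-(3*(t-1)/(2*(10*t-3)))-(21*(t-2)/(25*(t+9)))) - 1/100 := by
  have d0 : (0:ℝ) < 10*t-3 := by linarith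
  have d1 : (0:ℝ) < t+9 := by linarith
  have d2 : (0:ℝ) < 16+t := by linarith
  rw [A5_key t _ rfl d0.ne' d1.ne']
  have hq := A5_q t h1 h2
  have hD : (0:ℝ) < (10*t-3)^1 * (t+9)^1 := by positivity
  exact div_nonneg (mul_nonneg (by norm_num) hq) hD.le

lemma M5_q0_aux (u w : ℝ) (hu : 0 ≤ u) (hw : 0 ≤ w) : (0:ℝ) ≤ 96*w^2 + 437*u*w + 491*u^2 := by positivity
lemma M5_q0 (t : ℝ) (h1 : 5 ≤ t) (h2 : t ≤ 11) : (0:ℝ) ≤ 25*t^2 - 5*t - 24 := by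
  have h := M5_q0_aux (t - 5) (11 - t) (by linarith) (by linarith)
  have e : (6:ℝ) * (25*t^2 - 5*t - 24) = 96*(11 - t)^2 + 437*(t - 5)*(11 - t) + 491*(t - 5)^2 := by ring
  rw [← e] at h
  linarith

lemma M5_q (t : ℝ) (h1 : 5 ≤ t) (h2 : t ≤ 11) : (0:ℝ) ≤ 25*t^2 - 5*t - 24 := by
  exact M5_q0 t h1 h2

lemma M5_key (t d : ℝ) (hd : d = 10*t-3) (n3 : d ≠ 0) (n4 : t + 9 ≠ 0) :
    53/50 - (1-(3*(t-1)/(2*d))-(21*(t-2)/(25*(t+9)))) = (21/50) * (25*t^2 - 5*t - 24) / (d^1 * (t+9)^1) := by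
  rw [eq_div_iff (by positivity)]
  field_simp
  subst hd
  ring

theorem M5 (t : ℝ) (h1 : 5 ≤ t) (h2 : t ≤ 11) : 0 ≤ 53/50 - (1-(3*(t-1)/(2*(10*t-3)))-(21*(t-2)/(25*(t+9)))) := by
  have d0 : (0:ℝ) < 10*t-3 := by linarith
  have d1 : (0:ℝ) < t+9 := by linarith
  have d2 : (0:ℝ) < 16+t := by linarith
  rw [M5_key t _ rfl d0.ne' d1.ne']
  have hq := M5_q t h1 h2
  have hD : (0:ℝ) < (10*t-3)^1 * (t+9)^1 := by positivity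
  exact div_nonneg (mul_nonneg (by norm_num) hq) hD.le

lemma P11_q0_aux (u w : ℝ) (hu : 0 ≤ u) (hw : 0 ≤ w) : (0:ℝ) ≤ 83131734914*w^4 + 1544062480536*u*w^3 + 10591787649033*u^2*w^2 + 31752694244574*u^3*w + 35062854379263*u^4 := by positivity
lemma P11_q0 (t : ℝ) (h1 : 11 ≤ t) (h2 : t ≤ 60) : (0:ℝ) ≤ 2158100*t^4 + 31426140*t^3 + 86032089*t^2 - 64904058*t + 10862343 := by
  have h := P11_q0_aux (t - 11) (60 - t) (by linarith) (by linarith)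
  have e : (5764801:ℝ) * (2158100*t^4 + 31426140*t^3 + 86032089*t^2 - 64904058*t + 10862343) = 83131734914*(60 - t)^4 + 1544062480536*(t - 11)*(60 - t)^3 + 10591787649033*(t - 11)^2*(60 - t)^2 + 31752694244574*(t - 11)^3*(60 - t) + 35062854379263*(t - 11)^4 := by ring
  rw [← e] at h
  linarith

lemma P11_q (t : ℝ) (h1 : 11 ≤ t) (h2 : t ≤ 60) : (0:ℝ) ≤ 2158100*t^4 + 31426140*t^3 + 86032089*t^2 - 64904058*t + 10862343 := by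
  exact P11_q0 t h1 h2

lemma P11_key (t d : ℝ) (hd : d = 10*t-3) (n3 : d ≠ 0) (n4 : t + 9 ≠ 0) :
    (1-((3/8)^2/(2*(3/4)) + 3/20*(3/20)^2 + (1/2)^2*(3*(t-1)/(2*d)))-((1/16+(1+1/5)*(1/4)^2)*(21*(t-2)/(25*(t+9))) + (11/25)/4 + (1+1/5)*(1/4)^2/(4*(11/25))*(21*(t-2)/(25*(t+9)))^2)-(1/(20/23)*(1/3*(1-(3*(t-1)/(2*d))-(21*(t-2)/(25*(t+9))))+1/8/12*(12/5)))) - 1/200 = (7/264000) * (2158100*t^4 + 31426140*t^3 + 86032089*t^2 - 64904058*t + 10862343) / (d^2 * (t+9)^2) := by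
  rw [eq_div_iff (by positivity)]
  field_simp
  subst hd
  ring

theorem P11 (t : ℝ) (h1 : 11 ≤ t) (h2 : t ≤ 60) : 0 ≤ (1-((3/8)^2/(2*(3/4)) + 3/20*(3/20)^2 + (1/2)^2*(3*(t-1)/(2*(10*t-3))))-((1/16+(1+1/5)*(1/4)^2)*(21*(t-2)/(25*(t+9))) + (11/25)/4 + (1+1/5)*(1/4)^2/(4*(11/25))*(21*(t-2)/(25*(t+9)))^2)-(1/(20/23)*(1/3*(1-(3*(t-1)/(2*(10*t-3)))-(21*(t-2)/(25*(t+9))))+1/8/12*(12/5)))) - 1/200 := by
  have d0 : (0:ℝ) < 10*t-3 := by linarith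
  have d1 : (0:ℝ) < t+9 := by linarith
  have d2 : (0:ℝ) < 16+t := by linarith
  rw [P11_key t _ rfl d0.ne' d1.ne']
  have hq := P11_q t h1 h2
  have hD : (0:ℝ) < (10*t-3)^2 * (t+9)^2 := by positivity
  exact div_nonneg (mul_nonneg (by norm_num) hq) hD.le

lemma H11_q0_aux (u w : ℝ) (hu : 0 ≤ u) (hw : 0 ≤ w) : (0:ℝ) ≤ 849983272375040*w^5 + 17711567690493728*u*w^4 + 140293021495986300*u^2*w^3 + 516149664153166152*u^3*w^2 + 843644733399046791*u^4*w + 438398164080100251*u^5 := by positivity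
lemma H11_q0 (t : ℝ) (h1 : 11 ≤ t) (h2 : t ≤ 60) : (0:ℝ) ≤ -44352000*t^5 + 31170293675*t^4 + 322987396080*t^3 - 233675808102*t^2 - 79834229424*t + 18661752891 := by
  have h := H11_q0_aux (t - 11) (60 - t) (by linarith) (by linarith)
  have e : (282475249:ℝ) * (-44352000*t^5 + 31170293675*t^4 + 322987396080*t^3 - 233675808102*t^2 - 79834229424*t + 18661752891) = 849983272375040*(60 - t)^5 + 17711567690493728*(t - 11)*(60 - t)^4 + 140293021495986300*(t - 11)^2*(60 - t)^3 + 516149664153166152*(t - 11)^3*(60 - t)^2 + 843644733399046791*(t - 11)^4*(60 - t) + 438398164080100251*(t - 11)^5 := by ring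
  rw [← e] at h
  linarith

lemma H11_q (t : ℝ) (h1 : 11 ≤ t) (h2 : t ≤ 60) : (0:ℝ) ≤ -44352000*t^5 + 31170293675*t^4 + 322987396080*t^3 - 233675808102*t^2 - 79834229424*t + 18661752891 := by
  exact H11_q0 t h1 h2

lemma H11_key (t d : ℝ) (hd : d = 10*t-3) (n3 : d ≠ 0) (n4 : t + 9 ≠ 0) :
    2*(1-((3/8)^2/(2*(3/4)) + 3/20*(3/20)^2 + (1/2)^2*(3*(t-1)/(2*d)))-((1/16+(1+1/5)*(1/4)^2)*(21*(t-2)/(25*(t+9))) + (11/25)/4 + (1+1/5)*(1/4)^2/(4*(11/25))*(21*(t-2)/(25*(t+9)))^2)-(1/(20/23)*(1/3*(1-(3*(t-1)/(2*d))-(21*(t-2)/(25*(t+9))))+1/8/12*(12/5)))) - (1+((3*(t-1)/(2*d))*(t-1)*(1/250) + 7/2/2*(9/64)*(3*(t-1)/(2*d))^2 + 1/(2*(7/2)) - 3/8*(3*(t-1)/(2*d)))+(-((3/8-6/1000)*(21*(t-2)/(25*(t+9)))) + (1/4)^2/(2*(5/16)) - 3/8*(11/25))+(-(1/(20/23)*(1/3*(1-(3*(t-1)/(2*d))-(21*(t-2)/(25*(t+9)))))))) - 2*(1/200) = (1/739200000)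 * (-44352000*t^5 + 31170293675*t^4 + 322987396080*t^3 - 233675808102*t^2 - 79834229424*t + 18661752891) / (d^2 * (t+9)^2) := by
  rw [eq_div_iff (by positivity)]
  field_simp
  subst hd
  ring

theorem H11 (t : ℝ) (h1 : 11 ≤ t) (h2 : t ≤ 60) : 0 ≤ 2*(1-((3/8)^2/(2*(3/4)) + 3/20*(3/20)^2 + (1/2)^2*(3*(t-1)/(2*(10*t-3))))-((1/16+(1+1/5)*(1/4)^2)*(21*(t-2)/(25*(t+9))) + (11/25)/4 + (1+1/5)*(1/4)^2/(4*(11/25))*(21*(t-2)/(25*(t+9)))^2)-(1/(20/23)*(1/3*(1-(3*(t-1)/(2*(10*t-3)))-(21*(t-2)/(25*(t+9))))+1/8/12*(12/5)))) - (1+((3*(t-1)/(2*(10*t-3)))*(t-1)*(1/250) + 7/2/2*(9/64)*(3*(t-1)/(2*(10*t-3)))^2 + 1/(2*(7/2)) - 3/8*(3*(t-1)/(2*(10*t-3))))+(-((3/8-6/1000)*(21*(t-2)/(25*(t+9)))) + (1/4)^2/(2*(5/16)) - 3/8*(11/25))+(-(1/(20/23)*(1/3*(1-(3*(t-1)/(2*(10*t-3)))-(21*(t-2)/(25*(t+9)))))))) - 2*(1/200) := by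
  have d0 : (0:ℝ) < 10*t-3 := by linarith
  have d1 : (0:ℝ) < t+9 := by linarith
  have d2 : (0:ℝ) < 16+t := by linarith
  rw [H11_key t _ rfl d0.ne' d1.ne']
  have hq := H11_q t h1 h2
  have hD : (0:ℝ) < (10*t-3)^2 * (t+9)^2 := by positivity
  exact div_nonneg (mul_nonneg (by norm_num) hq) hD.le

lemma K11_q0_aux (u w : ℝ) (hu : 0 ≤ u) (hw : 0 ≤ w) : (0:ℝ) ≤ 23317034*w^4 + 606915536*u*w^3 + 5787397155*u^2*w^2 + 21635157393*u^3*w + 23349119940*u^4 := by positivity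
lemma K11_q0 (t : ℝ) (h1 : 11 ≤ t) (h2 : t ≤ 60) : (0:ℝ) ≤ 1200*t^4 + 47395*t^3 - 724884*t^2 + 2836863*t - 829440 := by
  have h := K11_q0_aux (t - 11) (60 - t) (by linarith) (by linarith)
  have e : (5764801:ℝ) * (1200*t^4 + 47395*t^3 - 724884*t^2 + 2836863*t - 829440) = 23317034*(60 - t)^4 + 606915536*(t - 11)*(60 - t)^3 + 5787397155*(t - 11)^2*(60 - t)^2 + 21635157393*(t - 11)^3*(60 - t) + 23349119940*(t - 11)^4 := by ring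
  rw [← e] at h
  linarith

lemma K11_q (t : ℝ) (h1 : 11 ≤ t) (h2 : t ≤ 60) : (0:ℝ) ≤ 1200*t^4 + 47395*t^3 - 724884*t^2 + 2836863*t - 829440 := by
  exact K11_q0 t h1 h2

lemma K11_key (t d : ℝ) (hd : d = 10*t-3) (n3 : d ≠ 0) (n4 : t + 9 ≠ 0) (n5 : 16 + t ≠ 0) :
    12/5 - (1-(3*(t-1)/(2*d))-(21*(t-2)/(25*(t+9))))*(17/(16+t))^2*t = (1/50) * (1200*t^4 + 47395*t^3 - 724884*t^2 + 2836863*t - 829440) / (d^1 * (t+9)^1 * (16+t)^2) := by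
  rw [eq_div_iff (by positivity)]
  field_simp
  subst hd
  ring

theorem K11 (t : ℝ) (h1 : 11 ≤ t) (h2 : t ≤ 60) : 0 ≤ 12/5 - (1-(3*(t-1)/(2*(10*t-3)))-(21*(t-2)/(25*(t+9))))*(17/(16+t))^2*t := by
  have d0 : (0:ℝ) < 10*t-3 := by linarith
  have d1 : (0:ℝ) < t+9 := by linarith
  have d2 : (0:ℝ) < 16+t := by linarith
  rw [K11_key t _ rfl d0.ne' d1.ne' d2.ne']
  have hq := K11_q t h1 h2
  have hD : (0:ℝ) < (10*t-3)^1 * (t+9)^1 * (16+t)^2 := by positivity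
  exact div_nonneg (mul_nonneg (by norm_num) hq) hD.le

lemma A11_q0_aux (u w : ℝ) (hu : 0 ≤ u) (hw : 0 ≤ w) : (0:ℝ) ≤ 4808*w + 26613*u := by positivity
lemma A11_q0 (t : ℝ) (h1 : 11 ≤ t) (h2 : t ≤ 60) : (0:ℝ) ≤ 445*t - 87 := by
  have h := A11_q0_aux (t - 11) (60 - t) (by linarith) (by linarith)
  have e : (49:ℝ) * (445*t - 87) = 4808*(60 - t) + 26613*(t - 11) := by ring
  rw [← e] at h
  linarith

lemma A11_q (t : ℝ) (h1 : 11 ≤ t) (h2 : t ≤ 60) : (0:ℝ) ≤ 445*t - 87 := by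
  exact A11_q0 t h1 h2

lemma A11_key (t d : ℝ) (hd : d = 10*t-3) (n3 : d ≠ 0) (n4 : t + 9 ≠ 0) :
    (1-(3*(t-1)/(2*d))-(21*(t-2)/(25*(t+9)))) - 1/100 = (21/100) * (445*t - 87) / (d^1 * (t+9)^1) := by
  rw [eq_div_iff (by positivity)]
  field_simp
  subst hd
  ring

theorem A11 (t : ℝ) (h1 : 11 ≤ t) (h2 : t ≤ 60) : 0 ≤ (1-(3*(t-1)/(2*(10*t-3)))-(21*(t-2)/(25*(t+9)))) - 1/100 := by
  have d0 : (0:ℝ) < 10*t-3 := by linarith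
  have d1 : (0:ℝ) < t+9 := by linarith
  have d2 : (0:ℝ) < 16+t := by linarith
  rw [A11_key t _ rfl d0.ne' d1.ne']
  have hq := A11_q t h1 h2
  have hD : (0:ℝ) < (10*t-3)^1 * (t+9)^1 := by positivity
  exact div_nonneg (mul_nonneg (by norm_num) hq) hD.le

lemma M11_q0_aux (u w : ℝ) (hu : 0 ≤ u) (hw : 0 ≤ w) : (0:ℝ) ≤ 2946*w^2 + 32597*u*w + 89676*u^2 := by positivity
lemma M11_q0 (t : ℝ) (h1 : 11 ≤ t) (h2 : t ≤ 60) : (0:ℝ) ≤ 25*t^2 - 5*t - 24 := by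
  have h := M11_q0_aux (t - 11) (60 - t) (by linarith) (by linarith)
  have e : (2401:ℝ) * (25*t^2 - 5*t - 24) = 2946*(60 - t)^2 + 32597*(t - 11)*(60 - t) + 89676*(t - 11)^2 := by ring
  rw [← e] at h
  linarith

lemma M11_q (t : ℝ) (h1 : 11 ≤ t) (h2 : t ≤ 60) : (0:ℝ) ≤ 25*t^2 - 5*t - 24 := by
  exact M11_q0 t h1 h2

lemma M11_key (t d : ℝ) (hd : d = 10*t-3) (n3 : d ≠ 0) (n4 : t + 9 ≠ 0) :
    53/50 - (1-(3*(t-1)/(2*d))-(21*(t-2)/(25*(t+9)))) = (21/50) * (25*t^2 - 5*t - 24) / (d^1 * (t+9)^1) := by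
  rw [eq_div_iff (by positivity)]
  field_simp
  subst hd
  ring

theorem M11 (t : ℝ) (h1 : 11 ≤ t) (h2 : t ≤ 60) : 0 ≤ 53/50 - (1-(3*(t-1)/(2*(10*t-3)))-(21*(t-2)/(25*(t+9)))) := by
  have d0 : (0:ℝ) < 10*t-3 := by linarith
  have d1 : (0:ℝ) < t+9 := by linarith
  have d2 : (0:ℝ) < 16+t := by linarith
  rw [M11_key t _ rfl d0.ne' d1.ne']
  have hq := M11_q t h1 h2
  have hD : (0:ℝ) < (10*t-3)^1 * (t+9)^1 := by positivity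
  exact div_nonneg (mul_nonneg (by norm_num) hq) hD.le

lemma P60_q0_aux (u : ℝ) (hu : 0 ≤ u) : (0:ℝ) ≤ 1 := by positivity
lemma P60_q0 (t : ℝ) (h1 : 60 ≤ t) : (0:ℝ) ≤ 1 := by
  have h := P60_q0_aux (t - 60) (by linarith)
  have e : (1:ℝ) * (1) = 1 := by ring
  rw [← e] at h
  linarith

lemma P60_q (t : ℝ) (h1 : 60 ≤ t) : (0:ℝ) ≤ 1 := by
  exact P60_q0 t h1

lemma P60_key (t : ℝ) :
    (1-((3/8)^2/(2*(3/4)) + 3/20*(3/20)^2 + (1/2)^2*(0:ℝ))-((1/16+(1+1/5)*(1/4)^2)*(21/25:ℝ) + (11/25)/4 + (1+1/5)*(1/4)^2/(4*(11/25))*(21/25:ℝ)^2)-(1/(20/23)*(1/3*(1-(0:ℝ)-(21/25:ℝ))+1/8/12*(12/5)))) - 1/200 = (145787/264000) * (1) / ((1:ℝ)) := by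
  rw [eq_div_iff (by positivity)]
  field_simp
  skip
  ring

theorem P60 (t : ℝ) (h1 : 60 ≤ t) : 0 ≤ (1-((3/8)^2/(2*(3/4)) + 3/20*(3/20)^2 + (1/2)^2*(0:ℝ))-((1/16+(1+1/5)*(1/4)^2)*(21/25:ℝ) + (11/25)/4 + (1+1/5)*(1/4)^2/(4*(11/25))*(21/25:ℝ)^2)-(1/(20/23)*(1/3*(1-(0:ℝ)-(21/25:ℝ))+1/8/12*(12/5)))) - 1/200 := by
  have d0 : (0:ℝ) < 1 := by linarith
  have d1 : (0:ℝ) < t+9 := by linarith
  have d2 : (0:ℝ) < 16+t := by linarith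
  rw [P60_key t]
  have hq := P60_q t h1
  have hD : (0:ℝ) < (1:ℝ) := by positivity
  exact div_nonneg (mul_nonneg (by norm_num) hq) hD.le

lemma H60_q0_aux (u : ℝ) (hu : 0 ≤ u) : (0:ℝ) ≤ 1 := by positivity
lemma H60_q0 (t : ℝ) (h1 : 60 ≤ t) : (0:ℝ) ≤ 1 := by
  have h := H60_q0_aux (t - 60) (by linarith)
  have e : (1:ℝ) * (1) = 1 := by ring
  rw [← e] at h
  linarith

lemma H60_q (t : ℝ) (h1 : 60 ≤ t) : (0:ℝ) ≤ 1 := by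
  exact H60_q0 t h1

lemma H60_key (t : ℝ) :
    2*(1-((3/8)^2/(2*(3/4)) + 3/20*(3/20)^2 + (1/2)^2*(0:ℝ))-((1/16+(1+1/5)*(1/4)^2)*(21/25:ℝ) + (11/25)/4 + (1+1/5)*(1/4)^2/(4*(11/25))*(21/25:ℝ)^2)-(1/(20/23)*(1/3*(1-(0:ℝ)-(21/25:ℝ))+1/8/12*(12/5)))) - (1+((0:ℝ)*(t-1)*0 + 7/2/2*(9/64)*(0:ℝ)^2 + 1/(2*(7/2)) - 3/8*(0:ℝ))+(-((3/8-6/1000)*(21/25:ℝ)) + (1/4)^2/(2*(5/16)) - 3/8*(11/25))+(-(1/(20/23)*(1/3*(1-(0:ℝ)-(21/25:ℝ)))))) - 2*(1/200) = (9191101/23100000) * (1) / ((1:ℝ)) := by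
  rw [eq_div_iff (by positivity)]
  field_simp
  skip
  ring

theorem H60 (t : ℝ) (h1 : 60 ≤ t) : 0 ≤ 2*(1-((3/8)^2/(2*(3/4)) + 3/20*(3/20)^2 + (1/2)^2*(0:ℝ))-((1/16+(1+1/5)*(1/4)^2)*(21/25:ℝ) + (11/25)/4 + (1+1/5)*(1/4)^2/(4*(11/25))*(21/25:ℝ)^2)-(1/(20/23)*(1/3*(1-(0:ℝ)-(21/25:ℝ))+1/8/12*(12/5)))) - (1+((0:ℝ)*(t-1)*0 + 7/2/2*(9/64)*(0:ℝ)^2 + 1/(2*(7/2)) - 3/8*(0:ℝ))+(-((3/8-6/1000)*(21/25:ℝ)) + (1/4)^2/(2*(5/16)) - 3/8*(11/25))+(-(1/(20/23)*(1/3*(1-(0:ℝ)-(21/25:ℝ)))))) - 2*(1/200) := by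
  have d0 : (0:ℝ) < 1 := by linarith
  have d1 : (0:ℝ) < t+9 := by linarith
  have d2 : (0:ℝ) < 16+t := by linarith
  rw [H60_key t]
  have hq := H60_q t h1
  have hD : (0:ℝ) < (1:ℝ) := by positivity
  exact div_nonneg (mul_nonneg (by norm_num) hq) hD.le

lemma K60_q0_aux (u : ℝ) (hu : 0 ≤ u) : (0:ℝ) ≤ 69300 + 1991*u + 15*u^2 := by positivity
lemma K60_q0 (t : ℝ) (h1 : 60 ≤ t) : (0:ℝ) ≤ 15*t^2 + 191*t + 3840 := by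
  have h := K60_q0_aux (t - 60) (by linarith)
  have e : (1:ℝ) * (15*t^2 + 191*t + 3840) = 69300 + 1991*(t - 60) + 15*(t - 60)^2 := by ring
  rw [← e] at h
  linarith

lemma K60_q (t : ℝ) (h1 : 60 ≤ t) : (0:ℝ) ≤ 15*t^2 + 191*t + 3840 := by
  exact K60_q0 t h1

lemma K60_key (t : ℝ) (n5 : 16 + t ≠ 0) :
    12/5 - (1-(0:ℝ)-(21/25:ℝ))*(17/(16+t))^2*t = (4/25) * (15*t^2 + 191*t + 3840) / ((1:ℝ) * (16+t)^2) := by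
  rw [eq_div_iff (by positivity)]
  field_simp
  skip
  ring

theorem K60 (t : ℝ) (h1 : 60 ≤ t) : 0 ≤ 12/5 - (1-(0:ℝ)-(21/25:ℝ))*(17/(16+t))^2*t := by
  have d0 : (0:ℝ) < 1 := by linarith
  have d1 : (0:ℝ) < t+9 := by linarith
  have d2 : (0:ℝ) < 16+t := by linarith
  rw [K60_key t d2.ne']
  have hq := K60_q t h1
  have hD : (0:ℝ) < (1:ℝ) * (16+t)^2 := by positivity
  exact div_nonneg (mul_nonneg (by norm_num) hq) hD.le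

lemma A60_q0_aux (u : ℝ) (hu : 0 ≤ u) : (0:ℝ) ≤ 1 := by positivity
lemma A60_q0 (t : ℝ) (h1 : 60 ≤ t) : (0:ℝ) ≤ 1 := by
  have h := A60_q0_aux (t - 60) (by linarith)
  have e : (1:ℝ) * (1) = 1 := by ring
  rw [← e] at h
  linarith

lemma A60_q (t : ℝ) (h1 : 60 ≤ t) : (0:ℝ) ≤ 1 := by
  exact A60_q0 t h1

lemma A60_key (t : ℝ) :
    (1-(0:ℝ)-(21/25:ℝ)) - 1/100 = (3/20) * (1) / ((1:ℝ)) := by
  rw [eq_div_iff (by positivity)]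
  field_simp
  skip
  ring

theorem A60 (t : ℝ) (h1 : 60 ≤ t) : 0 ≤ (1-(0:ℝ)-(21/25:ℝ)) - 1/100 := by
  have d0 : (0:ℝ) < 1 := by linarith
  have d1 : (0:ℝ) < t+9 := by linarith
  have d2 : (0:ℝ) < 16+t := by linarith
  rw [A60_key t]
  have hq := A60_q t h1
  have hD : (0:ℝ) < (1:ℝ) := by positivity
  exact div_nonneg (mul_nonneg (by norm_num) hq) hD.le

lemma M60_q0_aux (u : ℝ) (hu : 0 ≤ u) : (0:ℝ) ≤ 1 := by positivity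
lemma M60_q0 (t : ℝ) (h1 : 60 ≤ t) : (0:ℝ) ≤ 1 := by
  have h := M60_q0_aux (t - 60) (by linarith)
  have e : (1:ℝ) * (1) = 1 := by ring
  rw [← e] at h
  linarith

lemma M60_q (t : ℝ) (h1 : 60 ≤ t) : (0:ℝ) ≤ 1 := by
  exact M60_q0 t h1

lemma M60_key (t : ℝ) :
    53/50 - (1-(0:ℝ)-(21/25:ℝ)) = (9/10) * (1) / ((1:ℝ)) := by
  rw [eq_div_iff (by positivity)]
  field_simp
  skip
  ring

theorem M60 (t : ℝ) (h1 : 60 ≤ t) : 0 ≤ 53/50 - (1-(0:ℝ)-(21/25:ℝ)) := by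
  have d0 : (0:ℝ) < 1 := by linarith
  have d1 : (0:ℝ) < t+9 := by linarith
  have d2 : (0:ℝ) < 16+t := by linarith
  rw [M60_key t]
  have hq := M60_q t h1
  have hD : (0:ℝ) < (1:ℝ) := by positivity
  exact div_nonneg (mul_nonneg (by norm_num) hq) hD.le

end Crest.Agent.R253.Bud167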