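import Crest.Agent.R253.TabF_167

/-!
# Row 253: budget lines of the frozen table (helper214)
-/

set_option autoImplicit false

noncomputable section

namespace Crest.Agent.R253.Bud214

open Crest.Agent.R253.TabF167

/-- the four pieces -/
theorem cases4 {P : ℝ → Prop} (h1 : ∀ x, 0 ≤ x → x ≤ 1 → P x) (h2 : ∀ x, 1 < x → x ≤ 2 → P x)
    (h3 : ∀ x, 2 < x → x ≤ 60 → P x) (h4 : ∀ x, 60 < x → P x) (x : ℝ) (hx : 0 ≤ x) : P x := by
  rcases le_or_gt x 1 with h | h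
  · exact h1 x hx h
  rcases le_or_gt x 2 with h' | h'
  · exact h2 x h h'
  rcases le_or_gt x 60 with h'' | h''
  · exact h3 x h' h''
  · exact h4 x h''

lemma b1_mid_nonneg {x : ℝ} (h : 1 ≤ x) (h' : x ≤ 60) : 0 ≤ b1 x := by
  rw [b1_mid h h']
  have : 0 < x - 3 / 10 := by linarith
  exact div_nonneg (by linarith) this.le

lemma b1_mid_le {x : ℝ} (h : 1 ≤ x) (h' : x ≤ 60) : b1 x ≤ 3 / 20 := by
  rw [b1_mid h h']
  have : 0 < x - 3 / 10 := by linarith
  rw [div_le_iff₀ this]; linarith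

lemma b2_mid_nonneg {x : ℝ} (h : 2 ≤ x) (h' : x ≤ 60) : 0 ≤ b2 x := by
  rw [b2_mid h h']
  have : 0 < x + 9 := by linarith
  exact div_nonneg (by linarith) this.le

lemma b2_mid_le {x : ℝ} (h : 2 ≤ x) (h' : x ≤ 60) : b2 x ≤ 21 / 25 := by
  rw [b2_mid h h']
  have : 0 < x + 9 := by linarith
  rw [div_le_iff₀ this]; linarith

theorem b1_le (x : ℝ) (hx : 0 ≤ x) : b1 x ≤ 3 / 20 := by
  refine cases4 (P := fun x => b1 x ≤ 3 / 20) (fun x _ h => ?_) (fun x h h' => ?_)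
    (fun x h h' => ?_) (fun x h => ?_) x hx
  · rw [b1_le1 h]; linarith
  · exact b1_mid_le h.le (by linarith)
  · exact b1_mid_le (by linarith) h'
  · rw [b1_far h]; norm_num

theorem b1_ge (x : ℝ) (hx : 0 ≤ x) : -(3 / 50) ≤ b1 x := by
  refine cases4 (P := fun x => -(3 / 50) ≤ b1 x) (fun x h0 h => ?_) (fun x h h' => ?_)
    (fun x h h' => ?_) (fun x h => ?_) x hx
  · rw [b1_le1 h]; linarith
  · have := b1_mid_nonneg h.le (by linarith : x ≤ 60); linarith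
  · have := b1_mid_nonneg (by linarith : (1:ℝ) ≤ x) h'; linarith
  · rw [b1_far h]; norm_num

theorem b1_sq (x : ℝ) (hx : 0 ≤ x) : b1 x ^ 2 ≤ (3 / 20) ^ 2 := by
  have h1 := b1_le x hx
  have h2 := b1_ge x hx
  nlinarith

theorem b1_x (x : ℝ) (hx : 0 ≤ x) : 0 ≤ b1 x * (x - 1) := by
  refine cases4 (P := fun x => 0 ≤ b1 x * (x - 1)) (fun x h0 h => ?_) (fun x h h' => ?_)
    (fun x h h' => ?_) (fun x h => ?_) x hx
  · rw [b1_le1 h]; nlinarith [sq_nonneg (1 - x)]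
  · exact mul_nonneg (b1_mid_nonneg h.le (by linarith)) (by linarith)
  · exact mul_nonneg (b1_mid_nonneg (by linarith) h') (by linarith)
  · rw [b1_far h]; norm_num

theorem b2_nonneg (x : ℝ) (hx : 0 ≤ x) : 0 ≤ b2 x := by
  refine cases4 (P := fun x => 0 ≤ b2 x) (fun x h0 h => ?_) (fun x h h' => ?_)
    (fun x h h' => ?_) (fun x h => ?_) x hx
  · rw [b2_le2 (by linarith)]
  · rw [b2_le2 h']
  · exact b2_mid_nonneg h.le h'
  · rw [b2_far h]; norm_num

theorem b2_le (x : ℝ) (hx : 0 ≤ x) : b2 x ≤ 21 / 25 := by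
  refine cases4 (P := fun x => b2 x ≤ 21 / 25) (fun x h0 h => ?_) (fun x h h' => ?_)
    (fun x h h' => ?_) (fun x h => ?_) x hx
  · rw [b2_le2 (by linarith)]; norm_num
  · rw [b2_le2 h']; norm_num
  · exact b2_mid_le h.le h'
  · rw [b2_far h]

theorem b2_sq (x : ℝ) (hx : 0 ≤ x) : b2 x ^ 2 ≤ (21 / 25) ^ 2 := by
  have h1 := b2_le x hx
  have h2 := b2_nonneg x hx
  nlinarith

theorem A_pos (x : ℝ) (hx : 0 ≤ x) : 0 < A x := by
  have h1 := b1_le x hx
  have h2 := b2_le x hx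
  unfold A; linarith

theorem A_le (x : ℝ) (hx : 0 ≤ x) : A x ≤ 53 / 50 := by
  have h1 := b1_ge x hx
  have h2 := b2_nonneg x hx
  unfold A; linarith

theorem split (x : ℝ) : 1 - A x = b1 x + b2 x := by unfold A; ring

theorem b1_sq_lt {x : ℝ} (hx : 0 ≤ x) : b1 x ^ 2 ≤ 9 / 400 := by
  have := b1_sq x hx
  linarith

/-- `A r² x ≤ 12/5` -/
theorem hK (x : ℝ) (hx : 0 ≤ x) : A x * r x ^ 2 * x ≤ 12 / 5 := by
  have h16 : 0 < 16 + x := by linarith
  have e : A x * r x ^ 2 * x = A x * (289 * x) / (16 + x) ^ 2 := by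
    unfold r; field_simp; ring
  rw [e, div_le_iff₀ (by positivity)]
  have hA1 := A_le x hx
  have hA0 := A_pos x hx
  rcases le_or_gt x 2 with h | h
  · -- `A ≤ 53/50`, `x ≤ 2`
    have : A x * (289 * x) ≤ 53 / 50 * (289 * x) :=
      mul_le_mul_of_nonneg_right hA1 (by linarith)
    nlinarith
  rcases le_or_gt x 60 with h' | h'
  · have eA : A x = 1 - 3 / 20 * (x - 1) / (x - 3 / 10) - 21 / 25 * (x - 2) / (x + 9) := by
      unfold A; rw [b1_mid (by linarith) h', b2_mid h.le h']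
    have p1 : 0 < x - 3 / 10 := by linarith
    have p2 : 0 < x + 9 := by linarith
    have eB : A x * ((x - 3 / 10) * (x + 9)) = (x - 3 / 10) * (x + 9) -
        3 / 20 * (x - 1) * (x + 9) - 21 / 25 * (x - 2) * (x - 3 / 10) := by
      rw [eA]
      have q1 : 3 / 20 * (x - 1) / (x - 3 / 10) * (x - 3 / 10) = 3 / 20 * (x - 1) :=
        div_mul_cancel₀ _ p1.ne'
      have q2 : 21 / 25 * (x - 2) / (x + 9) * (x + 9) = 21 / 25 * (x - 2) :=
        div_mul_cancel₀ _ p2.ne'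
      calc (1 - 3 / 20 * (x - 1) / (x - 3 / 10) - 21 / 25 * (x - 2) / (x + 9)) *
            ((x - 3 / 10) * (x + 9)) = (x - 3 / 10) * (x + 9) -
            (3 / 20 * (x - 1) / (x - 3 / 10) * (x - 3 / 10)) * (x + 9) -
            (21 / 25 * (x - 2) / (x + 9) * (x + 9)) * (x - 3 / 10) := by ring
        _ = _ := by rw [q1, q2]
    have p12 := mul_pos p1 p2
    refine le_of_mul_le_mul_right ?_ p12
    have e3 : A x * (289 * x) * ((x - 3 / 10) * (x + 9)) =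
        ((x - 3 / 10) * (x + 9) - 3 / 20 * (x - 1) * (x + 9) -
          21 / 25 * (x - 2) * (x - 3 / 10)) * (289 * x) := by
      rw [← eB]; ring
    rw [e3]
    have h2 : 0 < x - 2 := by linarith
    nlinarith [mul_nonneg (mul_nonneg hx hx) (sq_nonneg (x - 13)), mul_nonneg hx (sq_nonneg (x - 13)),
      sq_nonneg (x - 13), mul_nonneg h2.le (sq_nonneg (x - 13)), sq_nonneg (x * (x - 13)),
      mul_nonneg hx hx, mul_nonneg (mul_nonneg hx hx) h2.le]
  · have eA : A x = 4 / 25 := by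
      unfold A; rw [b1_far h', b2_far h']; norm_num
    rw [eA]; nlinarith

/-- (P) -/
theorem hP (x : ℝ) (hx : 0 ≤ x) : 1 / 200 ≤ 1 -
    ((3 / 8) ^ 2 / (2 * (3 / 4)) + 3 / 20 * (3 / 20) ^ 2 + (1 / 2) ^ 2 * max (b1 x) 0) -
    ((1 / 16 + (1 + 1 / 5) * (1 / 4) ^ 2) * b2 x + 11 / 25 / 4 +
      (1 + 1 / 5) * (1 / 4) ^ 2 / (4 * (11 / 25)) * b2 x ^ 2) -
    1 / (20 / 23) * (1 / 3 * A x + 1 / 8 / 12 * (12 / 5)) := by
  have h1 := b1_le x hx
  have h2 := b1_ge x hx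
  have h3 := b2_nonneg x hx
  have h4 := b2_le x hx
  have h5 : max (b1 x) 0 ≤ b1 x + 3 / 50 := max_le (by linarith) (by linarith)
  have h6 := b2_sq x hx
  unfold A
  nlinarith

/-- `b1 (x-1) ep ≤ 9/250` -/
theorem b1_ep (x : ℝ) (hx : 0 ≤ x) : b1 x * (x - 1) * ep x ≤ 9 / 250 := by
  rcases le_or_gt x 1 with h | h
  · rw [b1_le1 h, ep_5 (by linarith)]; nlinarith
  rcases le_or_gt x 5 with h5 | h5
  · have h1 := b1_mid_le h.le (by linarith : x ≤ 60)
    rw [ep_5 h5]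
    have := mul_le_mul_of_nonneg_right h1 (show 0 ≤ x - 1 by linarith)
    linarith
  rcases le_or_gt x 11 with h11 | h11
  · have h1 := b1_mid_le h.le (by linarith : x ≤ 60)
    rw [ep_11 h5 h11]
    have := mul_le_mul_of_nonneg_right h1 (show 0 ≤ x - 1 by linarith)
    linarith
  rcases le_or_gt x 60 with h60 | h60
  · have h1 := b1_mid_le h.le h60
    rw [ep_60 h11 h60]
    have := mul_le_mul_of_nonneg_right h1 (show 0 ≤ x - 1 by linarith)
    linarith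
  · rw [ep_far h60]; norm_num

/-- (H) -/
theorem hH (x : ℝ) (hx : 0 ≤ x) : 2 * (1 / 200) ≤ 2 * (1 -
    ((3 / 8) ^ 2 / (2 * (3 / 4)) + 3 / 20 * (3 / 20) ^ 2 + (1 / 2) ^ 2 * max (b1 x) 0) -
    ((1 / 16 + (1 + 1 / 5) * (1 / 4) ^ 2) * b2 x + 11 / 25 / 4 +
      (1 + 1 / 5) * (1 / 4) ^ 2 / (4 * (11 / 25)) * b2 x ^ 2) -
    1 / (20 / 23) * (1 / 3 * A x + 1 / 8 / 12 * (12 / 5))) -
    (1 + (b1 x * (x - 1) * ep x + 7 / 2 / 2 * (9 / 64) * b1 x ^ 2 + 1 / (2 * (7 / 2)) -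
      3 / 8 * b1 x) + (-((3 / 8 - 6 / 1000) * b2 x) + (1 / 4) ^ 2 / (2 * (5 / 16)) -
      3 / 8 * (11 / 25)) + -(1 / (20 / 23) * (1 / 3 * A x))) := by
  rcases le_or_gt x 1 with h | h
  · have e1 := b1_le1 h
    have e2 := b2_le2 (by linarith : x ≤ 2)
    have e3 := ep_5 (by linarith : x ≤ 5)
    have e4 : max (b1 x) 0 = 0 := max_eq_right (by rw [e1]; linarith)
    unfold A
    rw [e4, e1, e2, e3]
    nlinarith
  · have h0 : 0 ≤ b1 x := by
      rcases le_or_gt x 60 with h6 | h6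
      · exact b1_mid_nonneg h.le h6
      · rw [b1_far h6]
    have h1 := b1_le x hx
    have h3 := b2_nonneg x hx
    have h4 := b2_le x hx
    have e4 : max (b1 x) 0 = b1 x := max_eq_left h0
    have h5 := b1_ep x hx
    unfold A
    rw [e4]
    nlinarith

end Crest.Agent.R253.Bud214
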