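import Mathlib

/-!
# Row 253: THE frozen table (helper167)

42's #32756 with the one `F2`-minorant `(a, e) = (555/1000, 6/1000)` (65's final DECISION 4).
-/

set_option autoImplicit false

noncomputable section

namespace Crest.Agent.R253.TabF167

/-- near weight -/
def b1 (x : ℝ) : ℝ :=
  if x ≤ 1 then -(3 / 50) * (1 - x) else if x ≤ 60 then 3 / 20 * (x - 1) / (x - 3 / 10) else 0
/-- far weight -/
def b2 (x : ℝ) : ℝ :=
  if x ≤ 2 then 0 else if x ≤ 60 then 21 / 25 * (x - 2) / (x + 9) else 21 / 25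
/-- dual weight -/
def A (x : ℝ) : ℝ := 1 - b1 x - b2 x
/-- multiplier of the dual field -/
def r (x : ℝ) : ℝ := 17 / (16 + x)
/-- minorant `al + ga z - ep z² ≤ hh z`, constant coefficient -/
def al (x : ℝ) : ℝ :=
  if x ≤ 5 then 363 / 1000 else if x ≤ 11 then 330 / 1000 else if x ≤ 60 then 295 / 1000 else 0
/-- minorant `al + ga z - ep z² ≤ hh z`, quadratic coefficient -/
def ep (x : ℝ) : ℝ :=
  if x ≤ 5 then 136 / 10000 else if x ≤ 11 then 7 / 1000 else if x ≤ 60 then 4 / 1000 else 0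

/-! the pieces -/

lemma b1_le1 {x : ℝ} (h : x ≤ 1) : b1 x = -(3 / 50) * (1 - x) := by simp [b1, h]
lemma b1_mid {x : ℝ} (h : 1 ≤ x) (h' : x ≤ 60) : b1 x = 3 / 20 * (x - 1) / (x - 3 / 10) := by
  rcases h.eq_or_lt with e | e
  · subst e; norm_num [b1]
  · simp [b1, not_le.2 e, h']
lemma b1_far {x : ℝ} (h : 60 < x) : b1 x = 0 := by
  have : ¬ x ≤ 1 := by linarith
  simp [b1, this, not_le.2 h]
lemma b2_le2 {x : ℝ} (h : x ≤ 2) : b2 x = 0 := by simp [b2, h]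
lemma b2_mid {x : ℝ} (h : 2 ≤ x) (h' : x ≤ 60) : b2 x = 21 / 25 * (x - 2) / (x + 9) := by
  rcases h.eq_or_lt with e | e
  · subst e; norm_num [b2]
  · simp [b2, not_le.2 e, h']
lemma b2_far {x : ℝ} (h : 60 < x) : b2 x = 21 / 25 := by
  have : ¬ x ≤ 2 := by linarith
  simp [b2, this, not_le.2 h]
lemma al_5 {x : ℝ} (h : x ≤ 5) : al x = 363 / 1000 := by simp [al, h]
lemma al_11 {x : ℝ} (h : 5 < x) (h' : x ≤ 11) : al x = 330 / 1000 := by
  simp [al, not_le.2 h, h']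
lemma al_60 {x : ℝ} (h : 11 < x) (h' : x ≤ 60) : al x = 295 / 1000 := by
  have : ¬ x ≤ 5 := by linarith
  simp [al, this, not_le.2 h, h']
lemma al_far {x : ℝ} (h : 60 < x) : al x = 0 := by
  have h1 : ¬ x ≤ 5 := by linarith
  have h2 : ¬ x ≤ 11 := by linarith
  simp [al, h1, h2, not_le.2 h]
lemma ep_5 {x : ℝ} (h : x ≤ 5) : ep x = 136 / 10000 := by simp [ep, h]
lemma ep_11 {x : ℝ} (h : 5 < x) (h' : x ≤ 11) : ep x = 7 / 1000 := by
  simp [ep, not_le.2 h, h']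
lemma ep_60 {x : ℝ} (h : 11 < x) (h' : x ≤ 60) : ep x = 4 / 1000 := by
  have : ¬ x ≤ 5 := by linarith
  simp [ep, this, not_le.2 h, h']
lemma ep_far {x : ℝ} (h : 60 < x) : ep x = 0 := by
  have h1 : ¬ x ≤ 5 := by linarith
  have h2 : ¬ x ≤ 11 := by linarith
  simp [ep, h1, h2, not_le.2 h]

/-- `Φ` of the table: 80's `log A + nf + ff - gf`, all constants put in
(`θ1 = 3/4, θ2 = 3/20, θ4 = 7/2, a5 = 0, e5 = 9/64; a = 555/1000, e = 6/1000, κ = 1/4, ep = 1/5,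
th = 11/25, th1 = 5/16; lam = 1/8, q0 = 20/23`) -/
def Phi (x : ℝ) : ℝ :=
  Real.log (A x) +
    (b1 x + b1 x * (x - 1) * (al x - ep x * x) - (3 / 4 / 2 + 3 / 20 / 2) * (b1 x ^ 2 * x) -
      7 / 2 / 2 * (0 * b1 x ^ 2 + 9 / 64 * (b1 x ^ 2 * x))) +
    (555 / 1000 * b2 x + (5 / 16 - 6 / 1000 - (1 + 1 / 5) * (1 / 4) ^ 2) * (b2 x * x) -
      5 / 16 / 2 * (b2 x ^ 2 * x) - (1 + 1 / 5) * (1 / 4) ^ 2 / (4 * (11 / 25)) * (b2 x ^ 2 * x)) -
    1 / (20 / 23) * (1 / 6 * (A x * (1 - r x) ^ 2 * x) + 1 / 8 / 12 * (A x * (1 - r x * x) ^ 2))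

end Crest.Agent.R253.TabF167
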