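import Crest.Agent.R253.Conv_80
import Crest.Agent.R253.TabF_167

/-!
# R253: the budget lines of the frozen table (helper321)
-/

set_option autoImplicit false

noncomputable section

namespace Crest.Agent.R253.Bud321

open Crest.Agent.R253.TabF167 Crest.Agent.R253.TrC80

/-- the bounds of `b₁` -/
lemma b1_bd {x : ℝ} (h : 0 ≤ x) : -(3 / 50) ≤ b1 x ∧ b1 x ≤ 3 / 20 := by
  rcases le_total x 1 with h1 | h1
  · rw [b1_le1 h1]; constructor <;> linarith
  · rcases le_or_gt x 60 with h2 | h2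
    · have e : 0 < x - 3 / 10 := by linarith
      rw [b1_mid h1 h2]
      constructor
      · exact le_trans (by norm_num) (div_nonneg (by linarith) e.le)
      · rw [div_le_iff₀ e]; linarith
    · rw [b1_far h2]; constructor <;> norm_num

lemma b1_sign {x : ℝ} (h : 0 ≤ x) : 0 ≤ b1 x * (x - 1) := by
  rcases le_total x 1 with h1 | h1
  · rw [b1_le1 h1]; nlinarith [sq_nonneg (1 - x)]
  · rcases le_or_gt x 60 with h2 | h2
    · have e : 0 < x - 3 / 10 := by linarith
      rw [b1_mid h1 h2]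
      exact mul_nonneg (div_nonneg (by linarith) e.le) (by linarith)
    · rw [b1_far h2]; simp

lemma b1_nonneg {x : ℝ} (h : 1 ≤ x) : 0 ≤ b1 x := by
  rcases h.eq_or_lt with h1 | h1
  · rw [← h1, b1_le1 le_rfl]; norm_num
  · have := b1_sign (x := x) (by linarith)
    exact nonneg_of_mul_nonneg_left this (by linarith)

lemma b2_bd {x : ℝ} (_ : 0 ≤ x) : 0 ≤ b2 x ∧ b2 x ≤ 21 / 25 := by
  rcases le_total x 2 with h1 | h1
  · rw [b2_le2 h1]; constructor <;> norm_num
  · rcases le_or_gt x 60 with h2 | h2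
    · have e : 0 < x + 9 := by linarith
      rw [b2_mid h1 h2]
      constructor
      · exact div_nonneg (by linarith) e.le
      · rw [div_le_iff₀ e]; linarith
    · rw [b2_far h2]; constructor <;> norm_num

lemma A_eq (x : ℝ) : A x = 1 - b1 x - b2 x := rfl

lemma A_pos {x : ℝ} (h : 0 ≤ x) : 0 < A x := by
  have h1 := b1_bd h
  have h2 := b2_bd h
  rw [A_eq]; linarith

lemma A_le {x : ℝ} (h : 0 ≤ x) : A x ≤ 53 / 50 := by
  have h1 := b1_bd h
  have h2 := b2_bd h
  rw [A_eq]; linarith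

/-- `K₁ = 12/5` -/
lemma hK {x : ℝ} (h : 0 ≤ x) : A x * r x ^ 2 * x ≤ 12 / 5 := by
  have e16 : 0 < 16 + x := by linarith
  have er : A x * r x ^ 2 * x = A x * (289 * x) / (16 + x) ^ 2 := by
    unfold r; field_simp; norm_num; ring
  rw [er, div_le_iff₀ (by positivity)]
  rcases le_total x 2 with h2 | h2
  · have h3 : A x * (289 * x) ≤ 53 / 50 * (289 * x) :=
      mul_le_mul_of_nonneg_right (A_le h) (by linarith)
    nlinarith
  · rcases le_or_gt x 60 with h4 | h4
    · have e1 : 0 < x - 3 / 10 := by linarith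
      have e2 : 0 < x + 9 := by linarith
      have eA : A x = ((x - 3 / 10) * (x + 9) - 3 / 20 * (x - 1) * (x + 9) -
          21 / 25 * (x - 2) * (x - 3 / 10)) / ((x - 3 / 10) * (x + 9)) := by
        rw [A_eq, b1_mid (by linarith) h4, b2_mid h2 h4, eq_div_iff (mul_pos e1 e2).ne']
        have f1 : 3 / 20 * (x - 1) / (x - 3 / 10) * (x - 3 / 10) = 3 / 20 * (x - 1) :=
          div_mul_cancel₀ _ e1.ne'
        have f2 : 21 / 25 * (x - 2) / (x + 9) * (x + 9) = 21 / 25 * (x - 2) :=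
          div_mul_cancel₀ _ e2.ne'
        linear_combination (-(x + 9)) * f1 + (-(x - 3 / 10)) * f2
      rw [eA, div_mul_eq_mul_div, div_le_iff₀ (by positivity)]
      obtain ⟨t, rfl⟩ : ∃ t, x = 2 + t := ⟨x - 2, by ring⟩
      have ht : 0 ≤ t := by linarith
      nlinarith [mul_nonneg ht (sq_nonneg (t - 3)), sq_nonneg (t ^ 2 - 29), ht, sq_nonneg t]
    · have eA : A x = 1 - 0 - 21 / 25 := by rw [A_eq, b1_far h4, b2_far h4]
      rw [eA]
      nlinarith [sq_nonneg (x - 16)]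

/-- (P) -/
lemma hP {x : ℝ} (h : 0 ≤ x) : 1 / 200 ≤ 1 - nu b1 (3 / 8) (1 / 2) (3 / 20) (3 / 4) (3 / 20) x -
    fu b2 (1 / 4) (1 / 5) (11 / 25) x - gu A (1 / 8) (20 / 23) (12 / 5) x := by
  have h1 := b1_bd h
  have h2 := b2_bd h
  unfold nu fu gu
  rw [A_eq]
  rcases le_total (b1 x) 0 with h3 | h3
  · rw [max_eq_right h3]; nlinarith
  · rw [max_eq_left h3]; nlinarith

/-- the price of the slope -/
lemma ep_bd {x : ℝ} (h : 0 ≤ x) : b1 x * (x - 1) * ep x ≤ 816 / 1000000 ∨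
    (1 ≤ x ∧ b1 x * (x - 1) * ep x ≤ 3 / 200) ∨
    (1 ≤ x ∧ 1 / 2 * b2 x ≥ 21 / 200 ∧ b1 x * (x - 1) * ep x ≤ 9 / 250) := by
  have hb := b1_bd h
  have hs := b1_sign h
  rcases le_total x 1 with h1 | h1
  · left
    rw [b1_le1 h1, ep_5 (by linarith)]
    nlinarith
  · have hx : b1 x * (x - 1) ≤ 3 / 20 * (x - 1) :=
      mul_le_mul_of_nonneg_right hb.2 (by linarith)
    rcases le_or_gt x 5 with h2 | h2
    · right; left
      refine ⟨h1, ?_⟩
      rw [ep_5 h2]; nlinarith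
    · rcases le_or_gt x 11 with h3 | h3
      · right; left
        refine ⟨h1, ?_⟩
        rw [ep_11 h2 h3]; nlinarith
      · rcases le_or_gt x 60 with h4 | h4
        · right; right
          refine ⟨h1, ?_, ?_⟩
          · rw [b2_mid (by linarith) h4, ge_iff_le]
            have e : 0 < x + 9 := by linarith
            rw [← mul_div_assoc, le_div_iff₀ e]
            linarith
          · rw [ep_60 h3 h4]; nlinarith
        · left
          rw [b1_far h4]; norm_num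

/-- (H) -/
lemma hH {x : ℝ} (h : 0 ≤ x) : 2 * (1 / 200) ≤
    2 * (1 - nu b1 (3 / 8) (1 / 2) (3 / 20) (3 / 4) (3 / 20) x -
      fu b2 (1 / 4) (1 / 5) (11 / 25) x - gu A (1 / 8) (20 / 23) (12 / 5) x) -
    (1 + nh b1 ep (7 / 2) (9 / 64) (3 / 8) x + fh b2 (6 / 1000) (1 / 4) (11 / 25) (5 / 16) x +
      gh A (20 / 23) x) := by
  have h1 := b1_bd h
  have h2 := b2_bd h
  have h3 := ep_bd h
  unfold nu fu gu nh fh gh
  rw [A_eq]
  have h22 : b2 x ^ 2 ≤ 21 / 25 * b2 x := by nlinarith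
  rcases le_total x 1 with h0 | h0
  · have h4 : b1 x ≤ 0 := by rw [b1_le1 h0]; linarith
    have h5 : b1 x * (x - 1) * ep x ≤ 816 / 1000000 := by
      rw [b1_le1 h0, ep_5 (by linarith)]
      nlinarith
    have h11 : b1 x ^ 2 ≤ 9 / 2500 := by nlinarith
    rw [max_eq_right h4]
    nlinarith
  · have h4 : 0 ≤ b1 x := b1_nonneg h0
    have h11 : b1 x ^ 2 ≤ 3 / 20 * b1 x := by nlinarith
    rw [max_eq_left h4]
    rcases h3 with h5 | ⟨-, h5⟩ | ⟨-, h6, h5⟩
    · nlinarith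
    · nlinarith
    · nlinarith

/-- (S) -/
lemma hS : (1 / 25 / (2 * (3 / 20)) + 13 / 2000 / (3 / 20) + 3 / 20 * (13 / 500)) +
    (1 + 1 / (1 / 5)) * (13 / 500) * (21 / 25 + (21 / 25) ^ 2 / (4 * (11 / 25))) +
    1 / (3 / 23) * (53 / 50 * (13 / 500) + 12 / 5 * (3 / 400)) ≤ (1 : ℝ) := by norm_num

/-- `Φ` is 80's combination -/
lemma Phi_eq (x : ℝ) : Phi x = Real.log (A x) +
    nf b1 al ep (3 / 4) (3 / 20) (7 / 2) 0 (9 / 64) x +
    ff b2 (555 / 1000) (6 / 1000) (1 / 4) (1 / 5) (11 / 25) (5 / 16) x -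
    gf A r (1 / 8) (20 / 23) x := by
  unfold Phi nf ff gf
  ring

end Crest.Agent.R253.Bud321
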