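import Crest.Agent.R253.TabF_167
import Crest.Agent.R253.Conv_80

/-!
# R253: the budget lines of the frozen table (helper812)
-/

set_option autoImplicit false

noncomputable section

namespace Crest.Agent.R253.Bud812

open Crest.Agent.R253.TabF167
open Crest.Agent.R253.TrC80 (nf nu nh ff fu fh gf gu gh)

lemma b1_nonneg {x : ℝ} (h : 1 ≤ x) : 0 ≤ b1 x := by
  rcases le_or_gt x 60 with h' | h'
  · rw [b1_mid h h']
    have : 0 < x - 3 / 10 := by linarith
    have h2 : 0 ≤ x - 1 := by linarith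
    positivity
  · rw [b1_far h']

lemma b1_nonpos {x : ℝ} (h : x ≤ 1) : b1 x ≤ 0 := by
  rw [b1_le1 h]; linarith

lemma b1_ge {x : ℝ} (hx : 0 ≤ x) : -(3 / 50) ≤ b1 x := by
  rcases le_or_gt x 1 with h | h
  · rw [b1_le1 h]; linarith
  · linarith [b1_nonneg h.le]

lemma b1_le {x : ℝ} : b1 x ≤ 3 / 20 := by
  rcases le_or_gt x 1 with h | h
  · linarith [b1_nonpos h]
  · rcases le_or_gt x 60 with h' | h'
    · rw [b1_mid h.le h', div_le_iff₀ (by linarith)]; linarith
    · rw [b1_far h']; norm_num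

lemma b1_sq {x : ℝ} (hx : 0 ≤ x) : b1 x ^ 2 ≤ (3 / 20) ^ 2 := by
  have h1 := b1_ge hx
  have h2 := b1_le (x := x)
  nlinarith

lemma b1_x {x : ℝ} : 0 ≤ b1 x * (x - 1) := by
  rcases le_or_gt x 1 with h | h
  · exact mul_nonneg_of_nonpos_of_nonpos (b1_nonpos h) (by linarith)
  · exact mul_nonneg (b1_nonneg h.le) (by linarith)

lemma b2_nonneg {x : ℝ} : 0 ≤ b2 x := by
  rcases le_or_gt x 2 with h | h
  · rw [b2_le2 h]
  · rcases le_or_gt x 60 with h' | h'
    · rw [b2_mid h.le h']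
      have h2 : 0 ≤ x - 2 := by linarith
      have h3 : 0 < x + 9 := by linarith
      positivity
    · rw [b2_far h']; norm_num

lemma b2_le {x : ℝ} : b2 x ≤ 21 / 25 := by
  rcases le_or_gt x 2 with h | h
  · rw [b2_le2 h]; norm_num
  · rcases le_or_gt x 60 with h' | h'
    · rw [b2_mid h.le h', div_le_iff₀ (by linarith)]; linarith
    · rw [b2_far h']

lemma b2_sq {x : ℝ} : b2 x ^ 2 ≤ (21 / 25) ^ 2 :=
  pow_le_pow_left₀ b2_nonneg b2_le 2

lemma b2_ge11 {x : ℝ} (h : 11 ≤ x) : 189 / 500 ≤ b2 x := by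
  rcases le_or_gt x 60 with h' | h'
  · rw [b2_mid (by linarith) h', le_div_iff₀ (by linarith)]; linarith
  · rw [b2_far h']; norm_num

lemma A_pos {x : ℝ} : 0 < A x := by
  have h1 := b1_le (x := x)
  have h2 := b2_le (x := x)
  unfold A; linarith

lemma A_le {x : ℝ} (hx : 0 ≤ x) : A x ≤ 53 / 50 := by
  have h1 := b1_ge hx
  have h2 := b2_nonneg (x := x)
  unfold A; linarith

lemma A_eq (x : ℝ) : 1 - A x = b1 x + b2 x := by unfold A; ring

lemma A_K {x : ℝ} (hx : 0 ≤ x) : A x * r x ^ 2 * x ≤ 12 / 5 := by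
  have key : A x * (289 * x) ≤ 12 / 5 * (16 + x) ^ 2 := by
    have hA := A_le hx
    have hA0 := A_pos (x := x)
    rcases le_or_gt x 2 with h | h
    · have : A x * (289 * x) ≤ 53 / 50 * (289 * x) :=
        mul_le_mul_of_nonneg_right hA (by linarith)
      nlinarith
    · rcases le_or_gt x 60 with h' | h'
      · have hb2 : b2 x * (x + 9) = 21 / 25 * (x - 2) := by
          rw [b2_mid h.le h', div_mul_cancel₀ _ (by linarith)]
        rcases le_or_gt x 4 with h4 | h4
        · have hb1 : 3 / 34 ≤ b1 x := by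
            rw [b1_mid (by linarith) h', le_div_iff₀ (by linarith)]; linarith
          have e1 : A x * (x + 9) ≤ 31 / 34 * (x + 9) - 21 / 25 * (x - 2) := by
            unfold A
            nlinarith
          have e2 : A x * (289 * x) * (x + 9) ≤ 12 / 5 * (16 + x) ^ 2 * (x + 9) := by
            have := mul_le_mul_of_nonneg_right e1 (show (0 : ℝ) ≤ 289 * x by linarith)
            nlinarith [mul_nonneg (mul_nonneg (sub_nonneg.2 h.le) (sub_nonneg.2 h4)) hx,
              mul_nonneg (sub_nonneg.2 h.le) (sub_nonneg.2 h4), sq_nonneg (x - 4)]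
          exact le_of_mul_le_mul_right e2 (by linarith)
        · have hb1 : 9 / 74 ≤ b1 x := by
            rw [b1_mid (by linarith) h', le_div_iff₀ (by linarith)]; linarith
          have e1 : A x * (x + 9) ≤ 65 / 74 * (x + 9) - 21 / 25 * (x - 2) := by
            unfold A
            nlinarith
          have e2 : A x * (289 * x) * (x + 9) ≤ 12 / 5 * (16 + x) ^ 2 * (x + 9) := by
            have := mul_le_mul_of_nonneg_right e1 (show (0 : ℝ) ≤ 289 * x by linarith)
            nlinarith [mul_nonneg hx (sq_nonneg (x - 33 / 5)), sq_nonneg (x - 33 / 5),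
              mul_nonneg hx (sub_nonneg.2 h')]
          exact le_of_mul_le_mul_right e2 (by linarith)
      · have e : A x = 4 / 25 := by
          unfold A; rw [b1_far h', b2_far h']; norm_num
        rw [e]; nlinarith
  unfold r
  have h16 : (0 : ℝ) < 16 + x := by linarith
  have e : A x * (17 / (16 + x)) ^ 2 * x = A x * (289 * x) / (16 + x) ^ 2 := by
    field_simp
    ring
  rw [e, div_le_iff₀ (by positivity)]
  exact key

/-- **(P)** -/
theorem budP {x : ℝ} (hx : 0 ≤ x) : 1 / 200 ≤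
    1 - nu b1 (3 / 8) (1 / 2) (3 / 20) (3 / 4) (3 / 20) x - fu b2 (1 / 4) (1 / 5) (11 / 25) x -
      gu A (1 / 8) (20 / 23) (12 / 5) x := by
  have h1 := b1_ge hx
  have h2 := b1_le (x := x)
  have h3 := b2_nonneg (x := x)
  have h4 := b2_le (x := x)
  have h5 : b2 x ^ 2 ≤ 21 / 25 * b2 x := by nlinarith
  unfold nu fu gu A
  rcases le_total (b1 x) 0 with h | h
  · rw [max_eq_right h]
    norm_num at *
    nlinarith
  · rw [max_eq_left h]
    norm_num at *
    nlinarith

/-- **(H)** -/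
theorem budH {x : ℝ} (hx : 0 ≤ x) : 2 * (1 / 200) ≤
    2 * (1 - nu b1 (3 / 8) (1 / 2) (3 / 20) (3 / 4) (3 / 20) x - fu b2 (1 / 4) (1 / 5) (11 / 25) x -
      gu A (1 / 8) (20 / 23) (12 / 5) x) -
      (1 + nh b1 ep (7 / 2) (9 / 64) (3 / 8) x + fh b2 (6 / 1000) (1 / 4) (11 / 25) (5 / 16) x +
        gh A (20 / 23) x) := by
  have h1 := b1_ge hx
  have h2 := b1_le (x := x)
  have h3 := b2_nonneg (x := x)
  have h4 := b2_le (x := x)
  have h5 : b2 x ^ 2 ≤ 21 / 25 * b2 x := by nlinarith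
  rcases le_or_gt x 1 with h | h
  · have e1 := b1_nonpos h
    have e2 : b2 x = 0 := b2_le2 (by linarith)
    have e3 : b1 x * (x - 1) ≤ 3 / 50 := by
      rw [b1_le1 h]; nlinarith
    have e4 : ep x = 136 / 10000 := ep_5 (by linarith)
    have e5 : b1 x ^ 2 ≤ 9 / 2500 := by nlinarith
    unfold nu fu gu nh fh gh A
    rw [max_eq_right e1, e2, e4]
    norm_num at *
    nlinarith
  · have e1 := b1_nonneg h.le
    have e5 : b1 x ^ 2 ≤ 3 / 20 * b1 x := by nlinarith
    have e6 : b1 x * (x - 1) * ep x ≤ 7 / 100 * b1 x + 1 / 10 * b2 x := by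
      rcases le_or_gt x 5 with g | g
      · rw [ep_5 g]; nlinarith [mul_nonneg e1 (sub_nonneg.2 g)]
      · rcases le_or_gt x 11 with g2 | g2
        · rw [ep_11 g g2]; nlinarith [mul_nonneg e1 (sub_nonneg.2 g2)]
        · rcases le_or_gt x 60 with g3 | g3
          · rw [ep_60 g2 g3]
            have := b2_ge11 g2.le
            nlinarith [mul_nonneg e1 (sub_nonneg.2 g3)]
          · rw [ep_far g3]; nlinarith
    unfold nu fu gu nh fh gh A
    rw [max_eq_left e1]
    norm_num at *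
    nlinarith

/-- **(S)** -/
theorem budS : (1 / 25 / (2 * (3 / 20)) + 13 / 2000 / (3 / 20) + (3 / 20) * (13 / 500)) +
      (1 + 1 / (1 / 5)) * (13 / 500) * (21 / 25 + (21 / 25) ^ 2 / (4 * (11 / 25))) +
      1 / (3 / 23) * (53 / 50 * (13 / 500) + 12 / 5 * (3 / 400)) ≤ (1 : ℝ) := by norm_num

end Crest.Agent.R253.Bud812
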