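import Crest.Agent.R253.CalB1_957
import Crest.Agent.R238.ECal3

/-!
Row 253, node B6: evaluation at a point where `g = 1`; helper957, port of helper254's ECal2.
-/

set_option autoImplicit false

namespace Crest.Agent.R253.CalB

open Finset

namespace SysB

variable {n : ℕ} {A : Type*} [CommRing A] [Algebra ℝ A] (s : SysB n A) (ev : A →+* ℝ)

def T (a b c : Fin n) : ℝ := ev (s.D c (s.g a b))
def F (a b c d : Fin n) : ℝ := ev (s.D d (s.D c (s.g a b)))
def Q2 (a b : Fin n) : ℝ := ev (s.D b (s.q a))
def Q3 (a b c : Fin n) : ℝ := ev (s.D c (s.D b (s.q a)))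
def M (a b : Fin n) : ℝ := ∑ i, ∑ j, s.T ev a i j * s.T ev b i j

lemma T_12 (a b c : Fin n) : s.T ev a b c = s.T ev b a c := by
  unfold T; rw [s.T_symm1]
lemma T_23 (a b c : Fin n) : s.T ev a b c = s.T ev a c b := by
  unfold T; rw [s.T_symm2]
lemma T_13 (a b c : Fin n) : s.T ev a b c = s.T ev c b a := by
  unfold T; rw [s.gcod]

lemma F_12 (a b c d : Fin n) : s.F ev a b c d = s.F ev b a c d := by
  unfold F; rw [s.T_symm1 a b c]
lemma F_23 (a b c d : Fin n) : s.F ev a b c d = s.F ev a c b d := by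
  unfold F; rw [s.T_symm2 a b c]
lemma F_34 (a b c d : Fin n) : s.F ev a b c d = s.F ev a b d c := by
  unfold F; rw [s.comm d c]

lemma M_symm (a b : Fin n) : s.M ev a b = s.M ev b a := by
  unfold M
  refine Finset.sum_congr rfl fun i _ => Finset.sum_congr rfl fun j _ => by ring

variable {ev}
variable (hev : ∀ a b, ev (s.g a b) = if a = b then 1 else 0)
include hev

omit hev in
lemma ev_real (r : ℝ) : ev (algebraMap ℝ A r) = r := by
  have h : ev.comp (algebraMap ℝ A) = RingHom.id ℝ := Subsingleton.elim _ _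
  exact DFunLike.congr_fun h r

omit hev in
lemma ev_smul (r : ℝ) (f : A) : ev (r • f) = r * ev f := by
  rw [Algebra.smul_def, map_mul, ev_real]

lemma ev_t (a b : Fin n) : ev (s.t a b) = if a = b then 1 else 0 := by
  have h := congrArg ev (s.tg a b)
  rw [map_sum] at h
  simp only [map_mul, hev] at h
  simpa [apply_ite ev] using h

lemma ev_Dt (a b c : Fin n) : ev (s.D c (s.t a b)) = - s.T ev a b c := by
  rw [s.D_t]
  simp only [map_neg, map_sum, map_mul, s.ev_t hev, T]
  simp

lemma ev_DDt (a b c d : Fin n) : ev (s.D d (s.D c (s.t a b))) =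
    ∑ i, (s.T ev a i d * s.T ev i b c + s.T ev a i c * s.T ev i b d) - s.F ev a b c d := by
  rw [s.D_t, map_neg, s.D_sum, map_neg, map_sum]
  have h : ∀ i, ev (s.D d (∑ j, s.t a i * s.D c (s.g i j) * s.t j b)) =
      - (s.T ev a i d * s.T ev i b c) - (∑ j, (if a = i then 1 else 0) * (s.T ev i j c * s.T ev j b d))
        + (if a = i then 1 else 0) * s.F ev i b c d := by
    intro i
    rw [s.D_sum, map_sum]
    have h2 : ∀ j, ev (s.D d (s.t a i * s.D c (s.g i j) * s.t j b)) =
        - (s.T ev a i d * s.T ev i j c * (if j = b then 1 else 0))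
        - (if a = i then 1 else 0) * (s.T ev i j c * s.T ev j b d)
        + (if a = i then 1 else 0) * (s.F ev i j c d * (if j = b then 1 else 0)) := by
      intro j
      rw [s.D_mul, s.D_mul]
      simp only [map_add, map_mul, s.ev_Dt hev, s.ev_t hev]
      unfold F
      rw [show ev (s.D c (s.g i j)) = s.T ev i j c from rfl]
      ring
    simp only [h2, Finset.sum_add_distrib, Finset.sum_sub_distrib]
    simp
  simp only [h, Finset.sum_add_distrib, Finset.sum_sub_distrib]
  simp only [Finset.sum_neg_distrib]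
  rw [Finset.sum_comm (s := univ) (t := univ)]
  simp only [ite_mul, one_mul, zero_mul, Finset.sum_ite_eq, Finset.mem_univ, if_true]
  have h5 : ∑ i, s.T ev a i c * s.T ev i b d = ∑ x, s.T ev a x c * s.T ev x b d := rfl
  linarith

lemma ev_L (f : A) : ev (s.L f) = ∑ a, ev (s.D a (s.D a f)) - ∑ a, ev (s.x a) * ev (s.D a f) := by
  unfold L
  simp only [map_sub, map_sum, map_mul, s.ev_t hev]
  simp

lemma ev_Gam (f h : A) : ev (s.Gam f h) = ∑ a, ev (s.D a f) * ev (s.D a h) := by
  unfold Gam
  simp only [map_sum, map_mul, s.ev_t hev]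
  simp

lemma ev_Lg (e f : Fin n) : ev (s.L (s.g e f)) =
    s.M ev e f + s.be e f - s.Q2 ev e f + s.lam * (if e = f then 1 else 0) := by
  rw [s.E1]
  simp only [map_add, map_sub, map_sum, map_mul, s.ev_t hev, hev, ev_smul]
  unfold Q2
  have h1 : ∑ a, (∑ c, s.be a c * (if f = c then (1:ℝ) else 0)) * (if a = e then 1 else 0) =
      s.be e f := by simp
  rw [h1]
  congr 3
  have : ∀ a b, ∑ i, ∑ j, ((if a = i then (1:ℝ) else 0) * (if b = j then 1 else 0)) *
      (ev (s.D f (s.g i j)) * ev (s.D e (s.g a b))) = s.T ev a b f * s.T ev a b e := by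
    intro a b; unfold T; simp
  simp only [this]
  unfold M
  refine Finset.sum_congr rfl fun i _ => Finset.sum_congr rfl fun j _ => ?_
  rw [s.T_13 ev e i j, s.T_13 ev f i j, s.T_12 ev j i e, s.T_12 ev j i f]; ring

lemma ev_Lt (a b : Fin n) : ev (s.L (s.t a b)) =
    s.M ev a b - s.be a b + s.Q2 ev a b - s.lam * (if a = b then 1 else 0) := by
  have h1 := s.ev_Lg hev a b
  rw [s.ev_L hev] at h1 ⊢
  simp only [s.ev_DDt hev, s.ev_Dt hev]
  simp only [Finset.sum_sub_distrib, Finset.sum_add_distrib]
  have h2 : ∑ a_1, ev (s.D a_1 (s.D a_1 (s.g a b))) = ∑ c, s.F ev a b c c := rfl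
  have h3 : ∀ c, ev (s.D c (s.g a b)) = s.T ev a b c := fun c => rfl
  have h4 : ∑ x, ∑ x_1, s.T ev a x_1 x * s.T ev x_1 b x = s.M ev a b := by
    unfold M; rw [Finset.sum_comm]
    refine Finset.sum_congr rfl fun i _ => Finset.sum_congr rfl fun j _ => ?_
    rw [s.T_12 ev i b j]
  simp only [h3] at h1
  rw [h2] at h1
  rw [h4]
  simp only [mul_neg, Finset.sum_neg_distrib]
  linarith

/-- the quartic/cubic contractions -/
lemma ev_LT (e f h : Fin n) : ev (s.L (s.D h (s.g e f))) =
    (∑ i, s.be e i * s.T ev i f h + ∑ i, s.be f i * s.T ev e i h + ∑ i, s.be h i * s.T ev e f i)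
      + ∑ p, ∑ q, (s.T ev h p q * s.F ev p q e f + s.T ev f p q * s.F ev p q e h
          + s.T ev e p q * s.F ev p q f h)
      - 2 * ∑ p, ∑ q, ∑ r, s.T ev e p q * s.T ev f q r * s.T ev h r p
      - s.Q3 ev e f h + s.lam * s.T ev e f h := by
  -- D_h of (E1)
  have key : s.D h (s.L (s.g e f)) = s.L (s.D h (s.g e f))
      + ∑ a, ∑ b, s.D h (s.t a b) * s.D a (s.D b (s.g e f))
      - ∑ a, (∑ c, s.be a c • s.g h c) * s.D a (s.g e f) := by
    unfold L
    rw [map_sub, s.D_sum, s.D_sum]
    have h1 : ∀ a, s.D h (∑ b, s.t a b * s.D a (s.D b (s.g e f))) =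
        ∑ b, s.t a b * s.D a (s.D b (s.D h (s.g e f))) +
          ∑ b, s.D h (s.t a b) * s.D a (s.D b (s.g e f)) := by
      intro a
      rw [s.D_sum, ← Finset.sum_add_distrib]
      refine Finset.sum_congr rfl fun b _ => ?_
      rw [s.D_mul, s.comm h a, s.comm h b]; ring
    have h2 : ∀ a, s.D h (s.x a * s.D a (s.g e f)) =
        s.x a * s.D a (s.D h (s.g e f)) + (∑ c, s.be a c • s.g h c) * s.D a (s.g e f) := by
      intro a
      rw [s.D_mul, s.D_x, s.comm h a]; ring
    simp only [h1, h2, Finset.sum_add_distrib]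
    ring
  have k2 := congrArg (s.D h) (s.E1 e f)
  rw [key] at k2
  have k3 := congrArg ev k2
  simp only [map_add, map_sub, Derivation.map_smul, ev_smul] at k3
  have e1 : ev (∑ a, ∑ b, s.D h (s.t a b) * s.D a (s.D b (s.g e f))) =
      - ∑ p, ∑ q, s.T ev h p q * s.F ev p q e f := by
    simp only [map_sum, map_mul, s.ev_Dt hev, ← Finset.sum_neg_distrib]
    refine Finset.sum_congr rfl fun p _ => Finset.sum_congr rfl fun q _ => ?_
    rw [← s.F_symm]
    rw [s.T_23 ev p q h, s.T_12 ev p h q]
    unfold F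
    rw [s.comm f e]; ring
  have e2 : ev (s.D h (∑ a, ∑ b, ∑ i, ∑ j, s.t a i * s.t b j *
      (s.D f (s.g i j) * s.D e (s.g a b)))) =
      ∑ p, ∑ q, (s.T ev f p q * s.F ev p q e h + s.T ev e p q * s.F ev p q f h)
        - 2 * ∑ p, ∑ q, ∑ r, s.T ev e p q * s.T ev f q r * s.T ev h r p := by
    have t0 : ∀ a b i j, ev (s.D h (s.t a i * s.t b j * (s.D f (s.g i j) * s.D e (s.g a b)))) =
        - (s.T ev a i h * (if b = j then 1 else 0)) * (s.T ev i j f * s.T ev a b e)
        - ((if a = i then 1 else 0) * s.T ev b j h) * (s.T ev i j f * s.T ev a b e)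
        + ((if a = i then 1 else 0) * (if b = j then 1 else 0)) *
          (s.F ev i j f h * s.T ev a b e + s.T ev i j f * s.F ev a b e h) := by
      intro a b i j
      rw [s.D_mul, s.D_mul, s.D_mul]
      simp only [map_add, map_mul, s.ev_Dt hev, s.ev_t hev]
      unfold F T
      ring
    simp only [s.D_sum, map_sum, t0, Finset.sum_add_distrib, Finset.sum_sub_distrib]
    have s1 : ∑ a, ∑ b, ∑ i, ∑ j, - (s.T ev a i h * (if b = j then 1 else 0)) *
        (s.T ev i j f * s.T ev a b e) =
        - ∑ p, ∑ q, ∑ r, s.T ev e p q * s.T ev f q r * s.T ev h r p := by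
      simp only [← Finset.sum_neg_distrib]
      have : ∀ a b i, ∑ j, - (s.T ev a i h * (if b = j then 1 else 0)) *
          (s.T ev i j f * s.T ev a b e) = - (s.T ev e a b * s.T ev f b i * s.T ev h i a) := by
        intro a b i
        have : ∀ j, - (s.T ev a i h * (if b = j then (1:ℝ) else 0)) *
          (s.T ev i j f * s.T ev a b e) = if b = j then - (s.T ev a i h *
          (s.T ev i j f * s.T ev a b e)) else 0 := by
          intro j; split_ifs <;> ring
        simp only [this, Finset.sum_ite_eq, Finset.mem_univ, if_true]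
        rw [s.T_13 ev a i h, s.T_13 ev i b f, s.T_13 ev a b e, s.T_12 ev e b a, s.T_23 ev b e a,
          s.T_12 ev b a e, s.T_13 ev a b e, s.T_23 ev e b a]
        ring
      simp only [this]
    have s2 : ∑ a, ∑ b, ∑ i, ∑ j, ((if a = i then (1:ℝ) else 0) * s.T ev b j h) *
        (s.T ev i j f * s.T ev a b e) =
        ∑ p, ∑ q, ∑ r, s.T ev e p q * s.T ev f q r * s.T ev h r p := by
      have : ∀ a b, ∑ i, ∑ j, ((if a = i then (1:ℝ) else 0) * s.T ev b j h) *
          (s.T ev i j f * s.T ev a b e) = ∑ j, s.T ev e b a * s.T ev f a j * s.T ev h j b := by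
        intro a b
        rw [Finset.sum_comm]
        refine Finset.sum_congr rfl fun j _ => ?_
        have : ∀ i, ((if a = i then (1:ℝ) else 0) * s.T ev b j h) *
          (s.T ev i j f * s.T ev a b e) = if a = i then s.T ev b j h *
          (s.T ev i j f * s.T ev a b e) else 0 := by
          intro i; split_ifs <;> ring
        simp only [this, Finset.sum_ite_eq, Finset.mem_univ, if_true]
        rw [s.T_13 ev b j h, s.T_13 ev a j f, s.T_13 ev a b e, s.T_23 ev f j a]
        ring
      simp only [this]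
      rw [Finset.sum_comm]
    have s3 : ∑ a, ∑ b, ∑ i, ∑ j, ((if a = i then (1:ℝ) else 0) * (if b = j then 1 else 0)) *
          (s.F ev i j f h * s.T ev a b e + s.T ev i j f * s.F ev a b e h) =
        ∑ p, ∑ q, (s.T ev f p q * s.F ev p q e h + s.T ev e p q * s.F ev p q f h) := by
      refine Finset.sum_congr rfl fun a _ => Finset.sum_congr rfl fun b _ => ?_
      have : ∀ i j, ((if a = i then (1:ℝ) else 0) * (if b = j then 1 else 0)) *
          (s.F ev i j f h * s.T ev a b e + s.T ev i j f * s.F ev a b e h) =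
          if a = i then (if b = j then (s.F ev i j f h * s.T ev a b e + s.T ev i j f * s.F ev a b e h)
            else 0) else 0 := by
        intro i j; split_ifs <;> ring
      simp only [this]
      simp only [Finset.sum_ite_eq, Finset.mem_univ, if_true, Finset.sum_const_zero,
        Finset.sum_ite_irrel]
      rw [s.T_13 ev a b e, s.T_13 ev a b f, s.T_23 ev e b a, s.T_23 ev f b a]
      ring
    have s3' := s3
    simp only [mul_add, Finset.sum_add_distrib] at s3'
    simp only [mul_add, Finset.sum_add_distrib]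
    rw [s1, s2]
    linarith
  have e3 : ev (s.D h (s.D f (s.q e))) = s.Q3 ev e f h := rfl
  have e5 : ev (∑ a, (∑ c, s.be a c • s.g h c) * s.D a (s.g e f)) =
      ∑ i, s.be h i * s.T ev e f i := by
    simp only [map_sum, map_mul, ev_smul, hev]
    refine Finset.sum_congr rfl fun i _ => ?_
    have : ∑ c, s.be i c * (if h = c then (1:ℝ) else 0) = s.be h i := by
      simp [s.besymm i h]
    rw [this]; rfl
  have e6 : ev (s.D h (∑ a, (∑ c, s.be a c • s.g f c) * s.g a e)) =
      ∑ i, s.be e i * s.T ev i f h + ∑ i, s.be f i * s.T ev e i h := by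
    simp only [s.D_sum, s.D_mul, Derivation.map_smul, map_sum, map_mul, map_add, ev_smul, hev,
      Finset.sum_add_distrib]
    have a1 : ∑ a, (∑ c, s.be a c * (if f = c then (1:ℝ) else 0)) * ev (s.D h (s.g a e)) =
        ∑ i, s.be f i * s.T ev e i h := by
      refine Finset.sum_congr rfl fun i _ => ?_
      have : ∑ c, s.be i c * (if f = c then (1:ℝ) else 0) = s.be f i := by
        simp [s.besymm i f]
      rw [this, s.T_12 ev e i h]; rfl
    have a2 : ∑ a, (if a = e then (1:ℝ) else 0) * ∑ c, s.be a c * ev (s.D h (s.g f c)) =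
        ∑ i, s.be e i * s.T ev i f h := by
      simp only [ite_mul, one_mul, zero_mul, Finset.sum_ite_eq', Finset.mem_univ, if_true]
      refine Finset.sum_congr rfl fun i _ => ?_
      rw [s.T_12 ev i f h]; rfl
    rw [a1, a2]; ring
  have e4 : ev (s.D h (s.g e f)) = s.T ev e f h := rfl
  rw [e1, e2, e3, e4, e5, e6] at k3
  simp only [Finset.sum_add_distrib] at k3 ⊢
  linarith

end SysB

end Crest.Agent.R253.CalB
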