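import Crest.Agent.R253.CalB2_957
import Crest.Agent.R238.ECal7

/-!
Row 253, node B6: `L S` at a point where `g = 1`; helper957, port of helper254's ECal4, ECal5.
-/

set_option autoImplicit false

namespace Crest.Agent.R253.CalB

open Finset
open Crest.Agent.R238.ECal (Sym3 Sym4 St Mt dt c4 X1 A1 A2 A3 Q sum4 TW1 TW2 TW3 TX1 TX2 TX3 TA2
  TA3 TA3' FA1 FA2 FA3 F_sq_ge c4_le_dt St_sq_le St_eq_trM)

namespace SysB

variable {n : ℕ} {A : Type*} [CommRing A] [Algebra ℝ A] (s : SysB n A)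

def T1 (a b c : Fin n) : A := ∑ i, s.t a i * s.D c (s.g i b)
def T2 (a b c : Fin n) : A := ∑ i, s.t b i * s.T1 a i c
def T3 (a b c : Fin n) : A := ∑ i, s.t c i * s.T2 a b i
/-- the Calabi scalar `S = |D³u|²_g` -/
def S : A := ∑ a, ∑ b, ∑ c, s.T3 a b c * s.D c (s.g a b)

variable {s} {ev : A →+* ℝ}

lemma sym3 : Sym3 (s.T ev) := ⟨s.T_12 ev, s.T_23 ev⟩
lemma sym4 : Sym4 (s.F ev) := ⟨s.F_12 ev, s.F_23 ev, s.F_34 ev⟩

variable (hev : ∀ a b, ev (s.g a b) = if a = b then 1 else 0)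
include hev

lemma ev_tV (a : Fin n) (V : Fin n → A) : ev (∑ i, s.t a i * V i) = ev (V a) := by
  simp only [map_sum, map_mul, s.ev_t hev]
  simp

lemma ev_DtV (a d : Fin n) (V : Fin n → A) : ev (s.D d (∑ i, s.t a i * V i)) =
    ev (s.D d (V a)) - ∑ i, s.T ev a i d * ev (V i) := by
  simp only [s.D_sum, s.D_mul, map_sum, map_add, map_mul, s.ev_t hev, s.ev_Dt hev,
    Finset.sum_add_distrib]
  have : ∑ i, ev (V i) * -s.T ev a i d = - ∑ i, s.T ev a i d * ev (V i) := by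
    rw [← Finset.sum_neg_distrib]; exact Finset.sum_congr rfl fun i _ => by ring
  rw [this]
  simp only [ite_mul, one_mul, zero_mul, Finset.sum_ite_eq, Finset.mem_univ, if_true]
  ring

lemma ev_LtV (a : Fin n) (V : Fin n → A) : ev (s.L (∑ i, s.t a i * V i)) =
    ev (s.L (V a)) + ∑ i, (s.M ev a i - s.be a i + s.Q2 ev a i - s.lam * (if a = i then 1 else 0)) * ev (V i)
      - 2 * ∑ i, ∑ d, s.T ev a i d * ev (s.D d (V i)) := by
  simp only [s.L_sum, s.L_mul, map_sum, map_add, map_mul, s.ev_t hev, s.ev_Lt hev,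
    s.ev_Gam hev, s.ev_Dt hev, Finset.sum_add_distrib]
  have e1 : ∑ i, (if a = i then (1:ℝ) else 0) * ev (s.L (V i)) = ev (s.L (V a)) := by simp
  have e2 : ∑ i, ev (V i) * (s.M ev a i - s.be a i + s.Q2 ev a i - s.lam * (if a = i then 1 else 0)) =
      ∑ i, (s.M ev a i - s.be a i + s.Q2 ev a i - s.lam * (if a = i then 1 else 0)) * ev (V i) :=
    Finset.sum_congr rfl fun i _ => by ring
  have e3 : ∑ i, ev (2:A) * ∑ d, -s.T ev a i d * ev (s.D d (V i)) =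
      - (2 * ∑ i, ∑ d, s.T ev a i d * ev (s.D d (V i))) := by
    rw [← Finset.mul_sum, map_ofNat]
    simp only [neg_mul, Finset.sum_neg_distrib]
    ring
  rw [e1, e2, e3]
  ring

lemma ev_T1 (a b c : Fin n) : ev (s.T1 a b c) = s.T ev a b c := by
  unfold T1; rw [ev_tV hev]; rfl

lemma ev_T2 (a b c : Fin n) : ev (s.T2 a b c) = s.T ev a b c := by
  unfold T2; rw [ev_tV hev, ev_T1 hev]

lemma ev_T3 (a b c : Fin n) : ev (s.T3 a b c) = s.T ev a b c := by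
  unfold T3; rw [ev_tV hev, ev_T2 hev]

lemma ev_S : ev s.S = St (s.T ev) := by
  unfold S St
  simp only [map_sum, map_mul, ev_T3 hev]
  refine Finset.sum_congr rfl fun a _ => Finset.sum_congr rfl fun b _ =>
    Finset.sum_congr rfl fun c _ => ?_
  rw [pow_two]; rfl

lemma ev_DT1 (a b c d : Fin n) : ev (s.D d (s.T1 a b c)) =
    s.F ev a b c d - A1 (s.T ev) a b c d := by
  unfold T1 A1; rw [ev_DtV hev]; rfl

lemma ev_DT2 (a b c d : Fin n) : ev (s.D d (s.T2 a b c)) =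
    s.F ev a b c d - A1 (s.T ev) a b c d - A2 (s.T ev) a b c d := by
  unfold T2; rw [ev_DtV hev, ev_DT1 hev]; unfold A2
  simp only [ev_T1 hev]

lemma ev_DT3 (a b c d : Fin n) : ev (s.D d (s.T3 a b c)) =
    s.F ev a b c d - Q (s.T ev) a b c d := by
  unfold T3; rw [ev_DtV hev, ev_DT2 hev]; unfold Q A3
  simp only [ev_T2 hev]
  ring

lemma ev_LT1 (a b c : Fin n) : ev (s.L (s.T1 a b c)) =
    ev (s.L (s.D c (s.g a b)))
      + ∑ i, (s.M ev a i - s.be a i + s.Q2 ev a i - s.lam * (if a = i then 1 else 0)) * s.T ev i b c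
      - 2 * ∑ i, ∑ d, s.T ev a i d * s.F ev i b c d := by
  unfold T1; rw [ev_LtV hev]; rfl

lemma ev_LT2 (a b c : Fin n) : ev (s.L (s.T2 a b c)) =
    ev (s.L (s.T1 a b c))
      + ∑ i, (s.M ev b i - s.be b i + s.Q2 ev b i - s.lam * (if b = i then 1 else 0)) * s.T ev a i c
      - 2 * ∑ i, ∑ d, s.T ev b i d * (s.F ev a i c d - A1 (s.T ev) a i c d) := by
  unfold T2; rw [ev_LtV hev]
  simp only [ev_T1 hev, ev_DT1 hev]

lemma ev_LT3 (a b c : Fin n) : ev (s.L (s.T3 a b c)) =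
    ev (s.L (s.T2 a b c))
      + ∑ i, (s.M ev c i - s.be c i + s.Q2 ev c i - s.lam * (if c = i then 1 else 0)) * s.T ev a b i
      - 2 * ∑ i, ∑ d, s.T ev c i d *
        (s.F ev a b i d - A1 (s.T ev) a b i d - A2 (s.T ev) a b i d) := by
  unfold T3; rw [ev_LtV hev]
  simp only [ev_T2 hev, ev_DT2 hev]

lemma ev_LS : ev (s.L s.S) =
    ∑ a, ∑ b, ∑ c, (s.T ev a b c * ev (s.L (s.D c (s.g a b)))
      + s.T ev a b c * ev (s.L (s.T3 a b c))
      + 2 * ∑ d, (s.F ev a b c d - Q (s.T ev) a b c d) * s.F ev a b c d) := by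
  unfold S
  simp only [s.L_sum, s.L_mul, map_sum, map_add, map_mul, ev_T3 hev, s.ev_Gam hev, ev_DT3 hev,
    map_ofNat]
  rfl

end SysB

namespace SysB

variable {n : ℕ} {A : Type*} [CommRing A] [Algebra ℝ A] {s : SysB n A} {ev : A →+* ℝ}
variable (hev : ∀ a b, ev (s.g a b) = if a = b then 1 else 0)

lemma TBT : ∑ a, ∑ b, ∑ c, s.T ev a b c * (∑ i, s.be a i * s.T ev i b c
      + ∑ i, s.be b i * s.T ev a i c + ∑ i, s.be c i * s.T ev a b i) =
    3 * ∑ a, ∑ b, s.be a b * Mt (s.T ev) a b := by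
  have hT : Sym3 (s.T ev) := sym3
  simp only [mul_add, Finset.sum_add_distrib]
  rw [TW1, TW2 hT, TW3 hT]
  ring

include hev in
lemma TLT : ∑ a, ∑ b, ∑ c, s.T ev a b c * ev (s.L (s.D c (s.g a b))) =
    3 * (∑ a, ∑ b, s.be a b * Mt (s.T ev) a b) + 3 * X1 (s.T ev) (s.F ev) - 2 * c4 (s.T ev)
      - ∑ a, ∑ b, ∑ c, s.T ev a b c * s.Q3 ev a b c + s.lam * St (s.T ev) := by
  have hT : Sym3 (s.T ev) := sym3
  have hF : Sym4 (s.F ev) := sym4
  simp only [s.ev_LT hev]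
  have e : ∀ a b c, s.T ev a b c * ((∑ i, s.be a i * s.T ev i b c
      + ∑ i, s.be b i * s.T ev a i c + ∑ i, s.be c i * s.T ev a b i)
      + ∑ p, ∑ q, (s.T ev c p q * s.F ev p q a b + s.T ev b p q * s.F ev p q a c
          + s.T ev a p q * s.F ev p q b c)
      - 2 * ∑ p, ∑ q, ∑ r, s.T ev a p q * s.T ev b q r * s.T ev c r p
      - s.Q3 ev a b c + s.lam * s.T ev a b c) =
      s.T ev a b c * (∑ i, s.be a i * s.T ev i b c
      + ∑ i, s.be b i * s.T ev a i c + ∑ i, s.be c i * s.T ev a b i)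
      + s.T ev a b c * ∑ p, ∑ q, s.T ev c p q * s.F ev a b p q
      + s.T ev a b c * ∑ p, ∑ q, s.T ev b p q * s.F ev a p c q
      + s.T ev a b c * ∑ p, ∑ q, s.T ev a p q * s.F ev p b c q
      - 2 * ∑ p, ∑ q, ∑ r, s.T ev a b c * (s.T ev a p q * s.T ev b q r * s.T ev c r p)
      - s.T ev a b c * s.Q3 ev a b c + s.lam * s.T ev a b c ^ 2 := by
    intro a b c
    have f1 : ∀ p q, s.F ev p q a b = s.F ev a b p q := fun p q => by
      rw [hF.h23 p q a b, hF.h12 p a q b, hF.h34 a p q b, hF.h23 a p b q]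
    have f2 : ∀ p q, s.F ev p q a c = s.F ev a p c q := fun p q => by
      rw [hF.h23 p q a c, hF.h12 p a q c, hF.h34 a p q c]
    have f3 : ∀ p q, s.F ev p q b c = s.F ev p b c q := fun p q => by
      rw [hF.h23 p q b c, hF.h34 p b q c]
    simp only [f1, f2, f3, Finset.sum_add_distrib, ← Finset.mul_sum]
    ring
  simp only [e]
  simp only [Finset.sum_sub_distrib, Finset.sum_add_distrib]
  have hB := TBT (s := s) (ev := ev)
  rw [hB, TX3 hT hF, TX2 hT hF, TX1 hF]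
  unfold St c4
  simp only [Finset.mul_sum]
  ring

include hev

lemma ev_LS_eq : ev (s.L s.S) =
    (∑ a, ∑ b, ∑ c, ∑ d, 2 * (s.F ev a b c d * s.F ev a b c d) - 6 * X1 (s.T ev) (s.F ev))
      + 2 * c4 (s.T ev) + 3 * dt (s.T ev) + 3 * (∑ a, ∑ b, s.be a b * Mt (s.T ev) a b)
      + 3 * (∑ a, ∑ b, s.Q2 ev a b * Mt (s.T ev) a b) - s.lam * St (s.T ev)
      - 2 * ∑ a, ∑ b, ∑ c, s.T ev a b c * s.Q3 ev a b c := by
  have hT : Sym3 (s.T ev) := sym3
  have hF : Sym4 (s.F ev) := sym4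
  rw [ev_LS hev]
  obtain ⟨W, hW⟩ : ∃ W, W = dt (s.T ev) - (∑ a, ∑ b, s.be a b * Mt (s.T ev) a b)
      + (∑ a, ∑ b, s.Q2 ev a b * Mt (s.T ev) a b) - s.lam * St (s.T ev) := ⟨_, rfl⟩
  have eW : ∑ a, ∑ b, (s.M ev a b - s.be a b + s.Q2 ev a b
      - s.lam * (if a = b then 1 else 0)) * Mt (s.T ev) a b = W := by
    rw [hW]
    have e1 : ∀ a b, (s.M ev a b - s.be a b + s.Q2 ev a b
        - s.lam * (if a = b then (1:ℝ) else 0)) *
        Mt (s.T ev) a b = Mt (s.T ev) a b ^ 2 - s.be a b * Mt (s.T ev) a b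
          + s.Q2 ev a b * Mt (s.T ev) a b - s.lam * (if a = b then Mt (s.T ev) a b else 0) := by
      intro a b
      have : s.M ev a b = Mt (s.T ev) a b := rfl
      rw [this]; split_ifs <;> ring
    simp only [e1, Finset.sum_add_distrib, Finset.sum_sub_distrib, ← Finset.mul_sum]
    rw [St_eq_trM]
    unfold dt
    simp
  have h1 : ∑ a, ∑ b, ∑ c, s.T ev a b c * ev (s.L (s.T1 a b c)) =
      ∑ a, ∑ b, ∑ c, s.T ev a b c * ev (s.L (s.D c (s.g a b)))
        + W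
        - 2 * X1 (s.T ev) (s.F ev) := by
    rw [← eW, ← TX1 (T := s.T ev) hF, ← TW1 (s.T ev)]
    simp only [ev_LT1 hev, mul_sub, mul_add, Finset.sum_sub_distrib, Finset.sum_add_distrib]
    congr 1
    simp only [Finset.mul_sum]
    refine Finset.sum_congr rfl fun a _ => Finset.sum_congr rfl fun b _ =>
      Finset.sum_congr rfl fun c _ => Finset.sum_congr rfl fun p _ =>
      Finset.sum_congr rfl fun q _ => by ring
  have h2 : ∑ a, ∑ b, ∑ c, s.T ev a b c * ev (s.L (s.T2 a b c)) =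
      ∑ a, ∑ b, ∑ c, s.T ev a b c * ev (s.L (s.T1 a b c))
        + W
        - 2 * (X1 (s.T ev) (s.F ev) - c4 (s.T ev)) := by
    rw [← eW, ← TX2 hT hF, ← TA2 hT, ← TW2 hT]
    simp only [ev_LT2 hev, mul_sub, mul_add, Finset.sum_sub_distrib, Finset.sum_add_distrib]
    have : ∀ a b c, s.T ev a b c * (2 * ∑ x, ∑ x_1, s.T ev b x x_1 * s.F ev a x c x_1) =
      2 * (s.T ev a b c * ∑ x, ∑ x_1, s.T ev b x x_1 * s.F ev a x c x_1) := by
      intro a b c; ring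
    simp only [this]
    have : ∀ a b c, s.T ev a b c * (2 * ∑ x, ∑ x_1, s.T ev b x x_1 * A1 (s.T ev) a x c x_1) =
      2 * (s.T ev a b c * ∑ x, ∑ x_1, s.T ev b x x_1 * A1 (s.T ev) a x c x_1) := by
      intro a b c; ring
    simp only [this, ← Finset.mul_sum]
  have h3 : ∑ a, ∑ b, ∑ c, s.T ev a b c * ev (s.L (s.T3 a b c)) =
      ∑ a, ∑ b, ∑ c, s.T ev a b c * ev (s.L (s.T2 a b c))
        + W
        - 2 * (X1 (s.T ev) (s.F ev) - c4 (s.T ev) - c4 (s.T ev)) := by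
    rw [← eW, ← TW3 hT]
    nth_rewrite 1 [← TA3 hT]
    rw [← TA3' hT, ← TX3 hT hF]
    simp only [ev_LT3 hev, mul_sub, mul_add, Finset.sum_sub_distrib, Finset.sum_add_distrib]
    have : ∀ a b c, s.T ev a b c * (2 * ∑ x, ∑ x_1, s.T ev c x x_1 * s.F ev a b x x_1) =
      2 * (s.T ev a b c * ∑ x, ∑ x_1, s.T ev c x x_1 * s.F ev a b x x_1) := by
      intro a b c; ring
    simp only [this]
    have : ∀ a b c, s.T ev a b c * (2 * ∑ x, ∑ x_1, s.T ev c x x_1 * A1 (s.T ev) a b x x_1) =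
      2 * (s.T ev a b c * ∑ x, ∑ x_1, s.T ev c x x_1 * A1 (s.T ev) a b x x_1) := by
      intro a b c; ring
    simp only [this]
    have : ∀ a b c, s.T ev a b c * (2 * ∑ x, ∑ x_1, s.T ev c x x_1 * A2 (s.T ev) a b x x_1) =
      2 * (s.T ev a b c * ∑ x, ∑ x_1, s.T ev c x x_1 * A2 (s.T ev) a b x x_1) := by
      intro a b c; ring
    simp only [this, ← Finset.mul_sum]
  have h4 : ∑ a, ∑ b, ∑ c, 2 * ∑ d, (s.F ev a b c d - Q (s.T ev) a b c d) * s.F ev a b c d =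
      ∑ a, ∑ b, ∑ c, ∑ d, 2 * (s.F ev a b c d * s.F ev a b c d) - 6 * X1 (s.T ev) (s.F ev) := by
    have e : ∀ a b c, 2 * ∑ d, (s.F ev a b c d - Q (s.T ev) a b c d) * s.F ev a b c d =
        ∑ d, (2 * (s.F ev a b c d * s.F ev a b c d) - 2 * (s.F ev a b c d * A1 (s.T ev) a b c d)
          - 2 * (s.F ev a b c d * A2 (s.T ev) a b c d)
          - 2 * (s.F ev a b c d * A3 (s.T ev) a b c d)) := by
      intro a b c
      rw [Finset.mul_sum]
      refine Finset.sum_congr rfl fun d _ => ?_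
      unfold Q; ring
    simp only [e, Finset.sum_sub_distrib, ← Finset.mul_sum]
    rw [FA1 hT hF, FA2 hT hF, FA3 hT hF]
    ring
  simp only [Finset.sum_add_distrib]
  rw [h4, h3, h2, h1, TLT hev, hW]
  ring

omit hev in
lemma form_Mt_nonneg {W : Fin n → Fin n → ℝ}
    (hP : ∀ v : Fin n → ℝ, 0 ≤ ∑ a, ∑ b, W a b * (v a * v b)) (T : Fin n → Fin n → Fin n → ℝ) :
    0 ≤ ∑ a, ∑ b, W a b * Mt T a b := by
  have : ∑ a, ∑ b, W a b * Mt T a b =
      ∑ i, ∑ j, ∑ a, ∑ b, W a b * (T a i j * T b i j) := by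
    unfold Mt
    simp only [Finset.mul_sum]
    rw [sum4 (fun a b i j => W a b * (T a i j * T b i j)),
      sum4 (fun i j a b => W a b * (T a i j * T b i j))]
    refine Fintype.sum_equiv ⟨fun x => (x.2.2.1, x.2.2.2, x.1, x.2.1),
      fun y => (y.2.2.1, y.2.2.2, y.1, y.2.1),
      fun x => rfl, fun y => rfl⟩ _ _ ?_
    rintro ⟨a, b, i, j⟩
    rfl
  rw [this]
  exact Finset.sum_nonneg fun i _ => Finset.sum_nonneg fun j _ => hP fun a => T a i j

/-- (E4) at a point where `g = 1`. -/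
theorem ev_LS_ge (hn : 0 < n) (hB : ∀ v : Fin n → ℝ, 0 ≤ ∑ a, ∑ b, s.be a b * (v a * v b))
    (hP : ∀ v : Fin n → ℝ, 0 ≤ ∑ a, ∑ b, s.Q2 ev a b * (v a * v b)) :
    ev s.S ^ 2 / (2 * n) - s.lam * ev s.S
      - 2 * ∑ a, ∑ b, ∑ c, s.T ev a b c * s.Q3 ev a b c ≤ ev (s.L s.S) := by
  have hT : Sym3 (s.T ev) := sym3
  have hF : Sym4 (s.F ev) := sym4
  rw [ev_LS_eq hev, ev_S hev]
  have h1 := F_sq_ge hT hF
  have h2 := c4_le_dt hT
  have h3 := St_sq_le (s.T ev)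
  have h4 := form_Mt_nonneg hP (s.T ev)
  have h6 := form_Mt_nonneg hB (s.T ev)
  have hn' : (0:ℝ) < n := by exact_mod_cast hn
  have h5 : St (s.T ev) ^ 2 / (2 * n) ≤ dt (s.T ev) / 2 := by
    rw [div_le_iff₀ (by positivity)]
    nlinarith
  linarith

end SysB

end Crest.Agent.R253.CalB
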