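import Crest.Agent.R253.CalB3_957

/-!
Row 253, node B6: change of frame; helper957, port of helper254's ECal6, ECal7.
-/

set_option autoImplicit false

namespace Crest.Agent.R253.CalB

open Finset
open Crest.Agent.R238.ECal (Frame contr contr2 swap2 sum4A sum4 exists_frame frame_bound
  frame_bound' tensor_bound cs3 St)
open Crest.Agent.R238.ECal.Sys (bt gt' bt_gt gt_bt contr3 ev_alg ev_bt ev_gt')

namespace SysB

variable {n : ℕ} {A : Type*} [CommRing A] [Algebra ℝ A] (s : SysB n A) (fr : Frame n)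

lemma D_bt (a k l : Fin n) (f : A) : s.D a (bt A fr k l * f) = bt A fr k l * s.D a f := by
  rw [s.D_mul]; simp [bt]

lemma D_gt (a k l : Fin n) (f : A) : s.D a (gt' A fr k l * f) = gt' A fr k l * s.D a f := by
  rw [s.D_mul]; simp [gt']

/-- new derivations -/
def Dn (a : Fin n) : Derivation ℝ A A := ∑ k, bt A fr k a • s.D k

lemma Dn_apply (a : Fin n) (f : A) : s.Dn fr a f = ∑ k, bt A fr k a * s.D k f := by
  have h := congrFun (map_sum (Derivation.coeFnAddMonoidHom (R := ℝ) (A := A) (M := A))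
    (fun k => bt A fr k a • s.D k) univ) f
  rw [Finset.sum_apply] at h
  exact h

lemma Dn_Dn (a b : Fin n) (f : A) : s.Dn fr a (s.Dn fr b f) =
    ∑ k, bt A fr k a * ∑ l, bt A fr l b * s.D k (s.D l f) := by
  rw [Dn_apply, Dn_apply]
  simp only [s.D_sum, s.D_bt]

/-- lower index object -/
def gn (a b : Fin n) : A := ∑ k, bt A fr k a * ∑ l, bt A fr l b * s.g k l
def tn (a b : Fin n) : A := ∑ k, gt' A fr a k * ∑ l, gt' A fr b l * s.t k l
def xn (a : Fin n) : A := ∑ k, gt' A fr a k * s.x k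
def un (a : Fin n) : A := ∑ k, bt A fr k a * s.u k
def qn (a : Fin n) : A := ∑ k, bt A fr k a * s.q k
def ben (a b : Fin n) : ℝ := ∑ k, fr.C a k * ∑ l, fr.C b l * s.be k l

lemma ben_symm (a b : Fin n) : s.ben fr a b = s.ben fr b a := by
  unfold ben
  rw [swap2]
  refine Finset.sum_congr rfl fun k _ => ?_
  congr 1
  refine Finset.sum_congr rfl fun l _ => ?_
  rw [s.besymm]

lemma ben_u (a : Fin n) : ∑ c, s.ben fr a c • s.un fr c = s.xn fr a := by
  have e1 : ∀ c, s.ben fr a c • s.un fr c =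
      (∑ l, gt' A fr c l * ∑ k, gt' A fr a k * algebraMap ℝ A (s.be k l)) *
        (∑ m, bt A fr m c * s.u m) := by
    intro c
    rw [Algebra.smul_def]
    congr 1
    unfold ben
    rw [swap2, map_sum]
    refine Finset.sum_congr rfl fun l _ => ?_
    rw [map_mul, map_sum]
    congr 1
    refine Finset.sum_congr rfl fun k _ => ?_
    rw [map_mul]; rfl
  simp only [e1]
  rw [contr (bt_gt fr)]
  unfold xn x
  simp only [Finset.mul_sum, Finset.sum_mul]
  rw [Finset.sum_comm]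
  refine Finset.sum_congr rfl fun k _ => Finset.sum_congr rfl fun l _ => ?_
  rw [Algebra.smul_def]; ring

lemma Dn_gn (a b c : Fin n) : s.Dn fr c (s.gn fr a b) =
    ∑ m, bt A fr m c * ∑ k, bt A fr k a * ∑ l, bt A fr l b * s.D m (s.g k l) := by
  rw [Dn_apply]; unfold gn
  simp only [s.D_sum, s.D_bt]

lemma Dn_gn' (a b c : Fin n) : s.Dn fr c (s.gn fr a b) =
    ∑ k, bt A fr k a * ∑ l, bt A fr l b * ∑ m, bt A fr m c * s.D m (s.g k l) := by
  rw [Dn_gn]
  rw [swap2]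
  refine Finset.sum_congr rfl fun k _ => ?_
  congr 1
  rw [swap2]

lemma gn_symm (a b : Fin n) : s.gn fr a b = s.gn fr b a := by
  unfold gn
  rw [swap2]
  refine Finset.sum_congr rfl fun k _ => ?_
  congr 1
  refine Finset.sum_congr rfl fun l _ => ?_
  rw [s.gsymm]

lemma tn_symm (a b : Fin n) : s.tn fr a b = s.tn fr b a := by
  unfold tn
  rw [swap2]
  refine Finset.sum_congr rfl fun k _ => ?_
  congr 1
  refine Finset.sum_congr rfl fun l _ => ?_
  rw [s.tsymm]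

/-- raising one index -/
lemma raise (a : Fin n) (V : Fin n → A) : ∑ i, s.tn fr a i * (∑ k, bt A fr k i * V k) =
    ∑ k, gt' A fr a k * ∑ j, s.t k j * V j := by
  have e : ∀ i, s.tn fr a i = ∑ l, gt' A fr i l * ∑ k, gt' A fr a k * s.t k l := by
    intro i; unfold tn; rw [swap2]
  simp only [e]
  rw [contr (bt_gt fr)]
  simp only [Finset.mul_sum, Finset.sum_mul]
  rw [Finset.sum_comm]
  refine Finset.sum_congr rfl fun k _ => Finset.sum_congr rfl fun l _ => by ring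

/-- the system in the new frame -/
def chg : SysB n A where
  D := s.Dn fr
  comm a b f := by
    rw [Dn_Dn, Dn_Dn, swap2]
    refine Finset.sum_congr rfl fun k _ => ?_
    congr 1
    refine Finset.sum_congr rfl fun l _ => ?_
    rw [s.comm]
  u := s.un fr
  Du a b := by
    rw [Dn_apply]; unfold un gn
    simp only [s.D_sum, s.D_bt, s.Du]
  be := s.ben fr
  besymm := s.ben_symm fr
  lam := s.lam
  g := s.gn fr
  gsymm := s.gn_symm fr
  gcod a b c := by
    rw [Dn_gn, Dn_gn, swap2]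
    refine Finset.sum_congr rfl fun k _ => ?_
    congr 1
    refine Finset.sum_congr rfl fun l _ => ?_
    congr 1
    refine Finset.sum_congr rfl fun m _ => ?_
    rw [s.gcod]
  t := s.tn fr
  tsymm := s.tn_symm fr
  tg a b := by
    have h := s.raise fr a (fun k => ∑ l, bt A fr l b * s.g k l)
    have e : ∑ c, s.tn fr a c * s.gn fr c b =
        ∑ i, s.tn fr a i * ∑ k, bt A fr k i * ∑ l, bt A fr l b * s.g k l := rfl
    rw [e, h]
    have e2 : ∀ k, ∑ j, s.t k j * ∑ l, bt A fr l b * s.g j l = bt A fr k b := by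
      intro k
      rw [swap2 (fun j => s.t k j)]
      simp only [s.tg]
      simp
    simp only [e2]
    exact gt_bt fr a b
  q := s.qn fr
  qcod a b := by
    rw [Dn_apply, Dn_apply]; unfold qn
    simp only [s.D_sum, s.D_bt]
    rw [swap2]
    refine Finset.sum_congr rfl fun k _ => ?_
    congr 1
    refine Finset.sum_congr rfl fun l _ => ?_
    rw [s.qcod]
  eq e := by
    have e1 : ∑ a, ∑ b, s.tn fr a b * s.Dn fr e (s.gn fr a b) =
        ∑ k, ∑ l, s.t k l * ∑ m, bt A fr m e * s.D m (s.g k l) := by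
      simp only [Dn_gn']
      exact contr2 (bt_gt fr) _ _
    have e2 : ∑ k, ∑ l, s.t k l * ∑ m, bt A fr m e * s.D m (s.g k l) =
        ∑ m, bt A fr m e * ∑ k, ∑ l, s.t k l * s.D m (s.g k l) := by
      simp only [Finset.mul_sum]
      have e3 : ∀ k, ∑ l, ∑ m, s.t k l * (bt A fr m e * s.D m (s.g k l)) =
          ∑ m, ∑ l, bt A fr m e * (s.t k l * s.D m (s.g k l)) := by
        intro k
        rw [Finset.sum_comm]
        refine Finset.sum_congr rfl fun m _ => Finset.sum_congr rfl fun l _ => by ring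
      simp only [e3]
      rw [Finset.sum_comm]
    have e4 : ∑ a, s.xn fr a * s.gn fr a e = ∑ k, s.x k * ∑ l, bt A fr l e * s.g k l :=
      contr (bt_gt fr) _ _
    have e5 : ∀ k, ∑ c, s.be k c • s.u c = s.x k := fun k => rfl
    simp only [ben_u]
    rw [e1, e2, e4]
    simp only [s.eq, mul_sub, Finset.sum_sub_distrib, e5]
    have e6 : ∑ k, s.x k * ∑ l, bt A fr l e * s.g k l =
        ∑ l, bt A fr l e * ∑ k, s.x k * s.g k l := swap2 _ _ _
    have e7 : ∑ m, bt A fr m e * s.lam • s.u m = s.lam • s.un fr e := by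
      unfold un
      rw [Finset.smul_sum]
      refine Finset.sum_congr rfl fun m _ => ?_
      rw [mul_smul_comm]
    rw [e6, e7]
    unfold qn
    ring

lemma chg_L (f : A) : (s.chg fr).L f = s.L f := by
  unfold L
  have e1 : ∑ a, ∑ b, (s.chg fr).t a b * (s.chg fr).D a ((s.chg fr).D b f) =
      ∑ a, ∑ b, s.t a b * s.D a (s.D b f) := by
    show ∑ a, ∑ b, s.tn fr a b * s.Dn fr a (s.Dn fr b f) = _
    simp only [Dn_Dn]
    exact contr2 (bt_gt fr) _ _
  have e2 : ∑ a, (s.chg fr).x a * (s.chg fr).D a f = ∑ a, s.x a * s.D a f := by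
    have e5 : ∀ a, (s.chg fr).x a = s.xn fr a := fun a => s.ben_u fr a
    simp only [e5]
    show ∑ a, s.xn fr a * s.Dn fr a f = _
    simp only [Dn_apply]
    exact contr (bt_gt fr) _ _
  rw [e1, e2]

lemma chg_T1 (a b c : Fin n) : (s.chg fr).T1 a b c =
    ∑ l, bt A fr l b * ∑ k, gt' A fr a k * ∑ m, bt A fr m c * s.T1 k l m := by
  have h := s.raise fr a (fun k => ∑ l, bt A fr l b * ∑ m, bt A fr m c * s.D m (s.g k l))
  have e : (s.chg fr).T1 a b c = ∑ i, s.tn fr a i * s.Dn fr c (s.gn fr i b) := rfl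
  rw [e]
  simp only [Dn_gn']
  rw [h]
  unfold T1
  simp only [Finset.mul_sum]
  rw [sum4A, sum4A]
  refine Fintype.sum_equiv ⟨fun x => (x.2.2.1, x.1, x.2.2.2, x.2.1),
    fun y => (y.2.1, y.2.2.2, y.1, y.2.2.1), fun x => rfl, fun y => rfl⟩ _ _ ?_
  rintro ⟨k, j, l, m⟩
  simp only [Equiv.coe_fn_mk]
  ring

lemma chg_T2 (a b c : Fin n) : (s.chg fr).T2 a b c =
    ∑ m, bt A fr m c * ∑ k, gt' A fr a k * ∑ l, gt' A fr b l * s.T2 k l m := by
  have h := s.raise fr b (fun l => ∑ k, gt' A fr a k * ∑ m, bt A fr m c * s.T1 k l m)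
  have e : (s.chg fr).T2 a b c = ∑ i, s.tn fr b i * (s.chg fr).T1 a i c := rfl
  rw [e]
  simp only [chg_T1]
  rw [h]
  unfold T2
  simp only [Finset.mul_sum]
  rw [sum4A, sum4A]
  refine Fintype.sum_equiv ⟨fun x => (x.2.2.2, x.2.2.1, x.1, x.2.1),
    fun y => (y.2.2.1, y.2.2.2, y.2.1, y.1), fun x => rfl, fun y => rfl⟩ _ _ ?_
  rintro ⟨k, j, l, m⟩
  simp only [Equiv.coe_fn_mk]
  ring

lemma chg_T3 (a b c : Fin n) : (s.chg fr).T3 a b c =
    ∑ k, gt' A fr a k * ∑ l, gt' A fr b l * ∑ m, gt' A fr c m * s.T3 k l m := by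
  have h := s.raise fr c (fun m => ∑ k, gt' A fr a k * ∑ l, gt' A fr b l * s.T2 k l m)
  have e : (s.chg fr).T3 a b c = ∑ i, s.tn fr c i * (s.chg fr).T2 a b i := rfl
  rw [e]
  simp only [chg_T2]
  rw [h]
  unfold T3
  simp only [Finset.mul_sum]
  rw [sum4A, sum4A]
  refine Fintype.sum_equiv ⟨fun x => (x.2.2.1, x.2.2.2, x.1, x.2.1),
    fun y => (y.2.2.1, y.2.2.2, y.1, y.2.1), fun x => rfl, fun y => rfl⟩ _ _ ?_
  rintro ⟨k, j, l, m⟩
  simp only [Equiv.coe_fn_mk]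
  ring

lemma chg_S : (s.chg fr).S = s.S := by
  unfold S
  have : ∀ a b c, (s.chg fr).D c ((s.chg fr).g a b) = s.Dn fr c (s.gn fr a b) := fun _ _ _ => rfl
  simp only [this, chg_T3, Dn_gn']
  exact contr3 (bt_gt fr) _ _

variable (ev : A →+* ℝ)

/-- `<T, D³Ψ>` -/
def TP : A := ∑ a, ∑ b, ∑ c, s.T3 a b c * s.D c (s.D b (s.q a))

lemma Dn_qn2 (a b c : Fin n) : s.Dn fr c (s.Dn fr b (s.qn fr a)) =
    ∑ k, bt A fr k a * ∑ l, bt A fr l b * ∑ m, bt A fr m c * s.D m (s.D l (s.q k)) := by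
  rw [Dn_Dn]
  unfold qn
  simp only [s.D_sum, s.D_bt]
  have e1 : ∀ (u v w : Fin n → A) (V : Fin n → Fin n → Fin n → A),
      ∑ k, u k * ∑ l, v l * ∑ m, w m * V k l m = ∑ m, w m * ∑ l, v l * ∑ k, u k * V k l m := by
    intro u v w V
    rw [swap2]
    have : ∀ l, ∑ k, u k * ∑ m, w m * V k l m = ∑ m, w m * ∑ k, u k * V k l m :=
      fun l => swap2 _ _ _
    simp only [this]
    rw [swap2]
  exact e1 _ _ _ _

lemma chg_TP : (s.chg fr).TP = s.TP := by
  unfold TP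
  have : ∀ a b c, (s.chg fr).D c ((s.chg fr).D b ((s.chg fr).q a)) =
    s.Dn fr c (s.Dn fr b (s.qn fr a)) := fun _ _ _ => rfl
  simp only [this, chg_T3, Dn_qn2]
  exact contr3 (bt_gt fr) _ _

variable {s ev}

/-- everything about a point: a frame with `g = 1` there -/
lemma exists_good_frame {lo : ℝ} (hlo : 0 < lo)
    (hG : ∀ z : Fin n → ℝ, lo * ∑ i, z i ^ 2 ≤ ∑ i, ∑ j, ev (s.g i j) * z i * z j) :
    ∃ fr : Frame n, (∀ a b, ev ((s.chg fr).g a b) = if a = b then 1 else 0) ∧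
      (∀ V : Fin n → ℝ, ∑ a, (∑ k, fr.B k a * V k) ^ 2 ≤ lo⁻¹ * ∑ k, V k ^ 2) ∧
      ∀ hi : ℝ, (∀ z : Fin n → ℝ, ∑ i, ∑ j, ev (s.g i j) * z i * z j ≤ hi * ∑ i, z i ^ 2) →
        ∀ V : Fin n → ℝ, ∑ k, (∑ a, fr.C a k * V a) ^ 2 ≤ hi * ∑ a, V a ^ 2 := by
  have hPD : (Matrix.of fun i j => ev (s.g i j)).PosDef := by
    refine Matrix.PosDef.of_dotProduct_mulVec_pos ?_ ?_
    · ext i j
      simp [Matrix.conjTranspose_apply, s.gsymm i j]
    · intro z hz
      have h1 := hG z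
      have h2 : 0 < ∑ i, z i ^ 2 := by
        obtain ⟨i, hi⟩ := Function.ne_iff.1 hz
        exact Finset.sum_pos' (fun i _ => sq_nonneg _) ⟨i, Finset.mem_univ i, by
          have : z i ≠ 0 := hi
          positivity⟩
      have h3 : star z ⬝ᵥ (Matrix.of fun i j => ev (s.g i j)).mulVec z =
          ∑ i, ∑ j, ev (s.g i j) * z i * z j := by
        simp only [dotProduct, Matrix.mulVec, Matrix.of_apply, Finset.mul_sum, Pi.star_apply,
          star_trivial]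
        refine Finset.sum_congr rfl fun i _ => Finset.sum_congr rfl fun j _ => by ring
      rw [h3]
      exact lt_of_lt_of_le (mul_pos hlo h2) h1
  obtain ⟨fr, hfr⟩ := exists_frame _ hPD
  refine ⟨fr, fun a b => ?_, frame_bound fr.B (fun i j => ev (s.g i j)) hlo hG ?_,
    fun hi hG' => frame_bound' fr.B fr.C (fun i j => ev (s.g i j)) hG' ?_ fr.BC⟩
  · rw [show (s.chg fr).g a b = s.gn fr a b from rfl]
    unfold gn
    simp only [map_sum, map_mul, ev_bt]
    exact hfr a b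
  · exact hfr
  · exact hfr

lemma ev_chgT (a b c : Fin n) : (s.chg fr).T ev a b c =
    ∑ k, fr.B k a * ∑ l, fr.B l b * ∑ m, fr.B m c * s.T ev k l m := by
  unfold T
  rw [show (s.chg fr).D c ((s.chg fr).g a b) = s.Dn fr c (s.gn fr a b) from rfl, Dn_gn']
  simp only [map_sum, map_mul, ev_bt]

lemma ev_chgQ3 (a b c : Fin n) : (s.chg fr).Q3 ev a b c =
    ∑ k, fr.B k a * ∑ l, fr.B l b * ∑ m, fr.B m c * s.Q3 ev k l m := by
  unfold Q3
  rw [show (s.chg fr).D c ((s.chg fr).D b ((s.chg fr).q a)) =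
    s.Dn fr c (s.Dn fr b (s.qn fr a)) from rfl, Dn_qn2]
  simp only [map_sum, map_mul, ev_bt]

lemma ev_chgQ2 (a b : Fin n) : (s.chg fr).Q2 ev a b =
    ∑ k, fr.B k a * ∑ l, fr.B l b * s.Q2 ev k l := by
  unfold Q2
  rw [show (s.chg fr).D b ((s.chg fr).q a) = s.Dn fr b (s.qn fr a) from rfl, Dn_apply]
  unfold qn
  simp only [s.D_sum, s.D_bt, map_sum, map_mul, ev_bt]
  rw [swap2]

/-- upper bound of `S` by the euclidean norm of `D³u` -/
lemma S_le {lo : ℝ} (hlo : 0 < lo)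
    (hG : ∀ z : Fin n → ℝ, lo * ∑ i, z i ^ 2 ≤ ∑ i, ∑ j, ev (s.g i j) * z i * z j) :
    0 ≤ ev s.S ∧ ev s.S ≤ lo⁻¹ ^ 3 * ∑ a, ∑ b, ∑ c, s.T ev a b c ^ 2 := by
  obtain ⟨fr, hfr, hb, -⟩ := exists_good_frame hlo hG
  have h1 := ev_S hfr
  rw [chg_S] at h1
  rw [h1]
  unfold St
  refine ⟨by positivity, ?_⟩
  simp only [ev_chgT]
  exact tensor_bound fr.B (inv_nonneg.2 hlo.le) hb _

/-- the euclidean norm of `D³u` is bounded by `S` -/
lemma S_ge {lo hi : ℝ} (hlo : 0 < lo) (hhi : 0 ≤ hi)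
    (hG : ∀ z : Fin n → ℝ, lo * ∑ i, z i ^ 2 ≤ ∑ i, ∑ j, ev (s.g i j) * z i * z j)
    (hG' : ∀ z : Fin n → ℝ, ∑ i, ∑ j, ev (s.g i j) * z i * z j ≤ hi * ∑ i, z i ^ 2) :
    ∑ a, ∑ b, ∑ c, s.T ev a b c ^ 2 ≤ hi ^ 3 * ev s.S := by
  obtain ⟨fr, hfr, -, hb⟩ := exists_good_frame hlo hG
  have h1 := ev_S hfr
  rw [chg_S] at h1
  rw [h1]
  have h2 := tensor_bound (fun k a => fr.C k a) hhi (fun V => hb hi hG' V) ((s.chg fr).T ev)
  have h3 : ∀ a b c, (∑ k, fr.C k a * ∑ l, fr.C l b * ∑ m, fr.C m c * (s.chg fr).T ev k l m) =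
      s.T ev a b c := by
    intro a b c
    have key : ∀ (a : Fin n) (V : Fin n → ℝ), ∑ k, fr.C k a * ∑ i, fr.B i k * V i = V a := by
      intro a V
      simp only [Finset.mul_sum]
      rw [Finset.sum_comm]
      have : ∀ i, ∑ k, fr.C k a * (fr.B i k * V i) = (if i = a then 1 else 0) * V i := by
        intro i
        rw [← fr.BC, Finset.sum_mul]
        exact Finset.sum_congr rfl fun a _ => by ring
      simp only [this]
      simp
    simp only [ev_chgT]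
    have k1 : ∀ l m, ∑ k, fr.C k a * ∑ i, fr.B i k * ∑ j, fr.B j l * ∑ p, fr.B p m * s.T ev i j p =
        ∑ j, fr.B j l * ∑ p, fr.B p m * s.T ev a j p := fun l m => key a _
    have k2 : ∑ k, fr.C k a * ∑ l, fr.C l b * ∑ m, fr.C m c *
        ∑ i, fr.B i k * ∑ j, fr.B j l * ∑ p, fr.B p m * s.T ev i j p =
        ∑ l, fr.C l b * ∑ m, fr.C m c * ∑ k, fr.C k a *
          ∑ i, fr.B i k * ∑ j, fr.B j l * ∑ p, fr.B p m * s.T ev i j p := by
      rw [swap2]
      refine Finset.sum_congr rfl fun l _ => ?_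
      congr 1
      exact swap2 _ _ _
    rw [k2]
    simp only [k1]
    have k3 : ∀ m, ∑ l, fr.C l b * ∑ j, fr.B j l * ∑ p, fr.B p m * s.T ev a j p =
        ∑ p, fr.B p m * s.T ev a b p := fun m => key b _
    rw [swap2]
    simp only [k3]
    exact key c _
  simp only [h3] at h2
  exact h2

/-- (E4) at an arbitrary point -/
theorem E4_pt (hn : 0 < n) {lo : ℝ} (hlo : 0 < lo)
    (hG : ∀ z : Fin n → ℝ, lo * ∑ i, z i ^ 2 ≤ ∑ i, ∑ j, ev (s.g i j) * z i * z j)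
    (hB : ∀ z : Fin n → ℝ, 0 ≤ ∑ i, ∑ j, s.be i j * z i * z j)
    (hP : ∀ z : Fin n → ℝ, 0 ≤ ∑ i, ∑ j, ev (s.D j (s.q i)) * z i * z j) :
    ev s.S ^ 2 / (2 * n) - s.lam * ev s.S - 2 * ev s.TP ≤ ev (s.L s.S) := by
  obtain ⟨fr, hfr, hb, -⟩ := exists_good_frame hlo hG
  have h1 := ev_LS_ge hfr hn (by
    intro v
    have h2 := hB (fun k => ∑ a, fr.C a k * v a)
    have e : ∑ a, ∑ b, (s.chg fr).be a b * (v a * v b) =
        ∑ i, ∑ j, s.be i j * (∑ a, fr.C a i * v a) * ∑ a, fr.C a j * v a := by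
      have e0 : ∀ a b, (s.chg fr).be a b = ∑ k, fr.C a k * ∑ l, fr.C b l * s.be k l :=
        fun _ _ => rfl
      simp only [e0]
      simp only [Finset.mul_sum, Finset.sum_mul]
      rw [sum4 (fun a b k l => fr.C a k * (fr.C b l * s.be k l) * (v a * v b)),
        sum4 (fun i j a b => s.be i j * (fr.C b i * v b) * (fr.C a j * v a))]
      refine Fintype.sum_equiv ⟨fun x => (x.2.2.1, x.2.2.2, x.2.1, x.1),
        fun y => (y.2.2.2, y.2.2.1, y.1, y.2.1), fun x => rfl, fun y => rfl⟩ _ _ ?_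
      rintro ⟨a, b, i, j⟩
      simp only [Equiv.coe_fn_mk]
      ring
    rw [e]; exact h2) (by
    intro v
    have h2 := hP (fun k => ∑ a, fr.B k a * v a)
    have e : ∑ a, ∑ b, (s.chg fr).Q2 ev a b * (v a * v b) =
        ∑ i, ∑ j, ev (s.D j (s.q i)) * (∑ a, fr.B i a * v a) * ∑ a, fr.B j a * v a := by
      simp only [ev_chgQ2]
      simp only [Finset.mul_sum, Finset.sum_mul]
      rw [sum4 (fun a b k l => fr.B k a * (fr.B l b * s.Q2 ev k l) * (v a * v b)),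
        sum4 (fun i j a b => ev (s.D j (s.q i)) * (fr.B i b * v b) * (fr.B j a * v a))]
      refine Fintype.sum_equiv ⟨fun x => (x.2.2.1, x.2.2.2, x.2.1, x.1),
        fun y => (y.2.2.2, y.2.2.1, y.1, y.2.1), fun x => rfl, fun y => rfl⟩ _ _ ?_
      rintro ⟨a, b, i, j⟩
      simp only [Equiv.coe_fn_mk]
      unfold Q2
      ring
    rw [e]; exact h2)
  rw [chg_S, chg_L] at h1
  have h3 : ev s.TP = ∑ a, ∑ b, ∑ c, (s.chg fr).T ev a b c * (s.chg fr).Q3 ev a b c := by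
    rw [← chg_TP s fr]
    unfold TP
    simp only [map_sum, map_mul, ev_T3 hfr]
    rfl
  rw [h3]
  exact h1

/-- Cauchy-Schwarz for the cubic term -/
theorem TP_le {lo : ℝ} (hlo : 0 < lo)
    (hG : ∀ z : Fin n → ℝ, lo * ∑ i, z i ^ 2 ≤ ∑ i, ∑ j, ev (s.g i j) * z i * z j) :
    ev s.TP ^ 2 ≤ ev s.S * (lo⁻¹ ^ 3 * ∑ a, ∑ b, ∑ c, s.Q3 ev a b c ^ 2) := by
  obtain ⟨fr, hfr, hb, -⟩ := exists_good_frame hlo hG
  have h3 : ev s.TP = ∑ a, ∑ b, ∑ c, (s.chg fr).T ev a b c * (s.chg fr).Q3 ev a b c := by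
    rw [← chg_TP s fr]
    unfold TP
    simp only [map_sum, map_mul, ev_T3 hfr]
    rfl
  have h1 := ev_S hfr
  rw [chg_S] at h1
  have h4 := cs3 ((s.chg fr).T ev) ((s.chg fr).Q3 ev)
  rw [← h3] at h4
  have h5 : ∑ a, ∑ b, ∑ c, (s.chg fr).Q3 ev a b c ^ 2 ≤
      lo⁻¹ ^ 3 * ∑ a, ∑ b, ∑ c, s.Q3 ev a b c ^ 2 := by
    simp only [ev_chgQ3]
    exact tensor_bound fr.B (inv_nonneg.2 hlo.le) hb _
  have h6 : 0 ≤ ev s.S := (S_le hlo hG).1
  calc ev s.TP ^ 2 ≤ _ := h4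
    _ = ev s.S * ∑ a, ∑ b, ∑ c, (s.chg fr).Q3 ev a b c ^ 2 := by rw [h1]; rfl
    _ ≤ _ := mul_le_mul_of_nonneg_left h5 h6

end SysB

end Crest.Agent.R253.CalB
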