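import Crest.Agent.R253.BrInst_649
import Crest.Agent.R253.CalB4_957
import Crest.Agent.R238.ECalFin

/-!
Row 253, T6, node B6 (helper957): Calabi's inequality for a smooth solution of `MAb P lam s v`
(port of helper254's `ECalFin`).
-/

set_option autoImplicit false

open scoped ContDiff Topology
open Set Filter Finset

noncomputable section

namespace Crest.Agent.R253.CalB

open Crest.Agent.R238 Crest.Agent.R238.XInst Crest.Agent.R253.Br
open Crest.Agent.R238.ECal (D3)

variable {n : ℕ}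

section abs

variable {A : Type*} [CommRing A] [Algebra ℝ A]

/-- 649's system as a system with constant form `be = 1` -/
def ofB (s : BrCal.SysB n A) (lam : ℝ) : SysB n A where
  D := s.D
  comm := s.comm
  u := s.X
  g := s.g
  Du := s.DX
  be a b := if a = b then 1 else 0
  besymm a b := by simp only [eq_comm]
  gsymm := s.gsymm
  gcod := s.gcod
  t := s.t
  tsymm := s.tsymm
  tg := s.tg
  q a := s.p a + lam • s.X a
  qcod a b := by
    rw [map_add, map_add, Derivation.map_smul, Derivation.map_smul, s.pcod a b, s.DX, s.DX,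
      s.gsymm a b]
  lam := lam
  eq e := by
    have h : ∀ a, ∑ c, (if a = c then (1:ℝ) else 0) • s.X c = s.X a := by
      intro a
      simp [ite_smul]
    simp only [h, s.eq]
    ring

lemma ofB_L (s : BrCal.SysB n A) (lam : ℝ) (f : A) : (ofB s lam).L f = s.L f := by
  unfold SysB.L BrCal.SysB.L
  have h : ∀ a, (ofB s lam).x a = s.X a := by
    intro a
    unfold SysB.x
    have : ∀ c, (ofB s lam).be a c • (ofB s lam).u c = (if a = c then (1:ℝ) else 0) • s.X c :=
      fun c => rfl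
    simp [this, ite_smul]
  simp only [h]
  rfl

end abs

/-- **B6, pointwise**: Calabi's inequality. `S` is smooth, comparable to `|D³v|²`, and
`S²/(2n) - lam S - 2 √(lo⁻³ K) √S ≤ (L - ∇v·∇) S`. -/
theorem calabi_ineqB (hn : 0 < n) {v P : E n → ℝ} (hv : ContDiff ℝ ∞ v) (hP : ContDiff ℝ ∞ P)
    {lam s lo hi : ℝ} (hlam : 0 ≤ lam) (hlo : 0 < lo) (hell : ∀ x, Ell lo hi (gm v x))
    (hma : MAb P lam s v)
    (hconv : ∀ x (z : Fin n → ℝ),
      0 ≤ ∑ i, ∑ j, ((if i = j then 1 else 0) + s * Hs P x i j) * z i * z j)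
    {K : ℝ} (hK : ∀ x, ∑ a, ∑ b, ∑ c, (s * D3 P x a b c) ^ 2 ≤ K) :
    ∃ S : E n → ℝ, ContDiff ℝ ∞ S ∧ (∀ x, 0 ≤ S x) ∧
      (∀ x, S x ≤ lo⁻¹ ^ 3 * ∑ a, ∑ b, ∑ c, D3 v x a b c ^ 2) ∧
      (∀ x, ∑ a, ∑ b, ∑ c, D3 v x a b c ^ 2 ≤ hi ^ 3 * S x) ∧
      ∀ x, S x ^ 2 / (2 * n) - lam * S x - 2 * Real.sqrt (lo⁻¹ ^ 3 * K) * Real.sqrt (S x) ≤
        LA (tauf v) S x - ∑ i, gr v x i * gr S x i := by
  obtain ⟨Y, hY⟩ := BrCal.exists_factsB hv hP hlo hell hma
  set Z : SysB n (SA n) := ofB Y lam with hZ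
  have hg : ∀ a b x, (Z.g a b).1 x = gm v x a b := hY.g
  have hT : ∀ x a b c, Z.T (ECal.evr x) a b c = D3 v x a b c := fun x a b c => hY.Dg a b c x
  have hG : ∀ x (z : Fin n → ℝ),
      lo * ∑ i, z i ^ 2 ≤ ∑ i, ∑ j, ECal.evr x (Z.g i j) * z i * z j := by
    intro x z
    simp only [ECal.evr_apply, hg]
    exact ((hell x).2 z).1
  have hG' : ∀ x (z : Fin n → ℝ),
      ∑ i, ∑ j, ECal.evr x (Z.g i j) * z i * z j ≤ hi * ∑ i, z i ^ 2 := by
    intro x z
    simp only [ECal.evr_apply, hg]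
    exact ((hell x).2 z).2
  have hhi : 0 ≤ hi := by
    have h1 := ((hell 0).2 (fun _ => 1)).1.trans ((hell 0).2 (fun _ => 1)).2
    have h2 : (0:ℝ) < ∑ i : Fin n, (1:ℝ) ^ 2 := by
      simp only [one_pow, Finset.sum_const, Finset.card_univ, Fintype.card_fin, nsmul_eq_mul,
        mul_one]
      exact_mod_cast hn
    have h3 := le_of_mul_le_mul_right h1 h2
    exact hlo.le.trans h3
  -- derivatives of `q`
  have hq2 : ∀ x a b, ECal.evr x (Z.D b (Z.q a)) =
      (1 + lam) * (if a = b then 1 else 0) + s * Hs P x a b := by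
    intro x a b
    have h1 : Z.D b (Z.q a) = Y.D b (Y.p a) + lam • Y.g b a := by
      have : Z.D b (Z.q a) = Y.D b (Y.p a + lam • Y.X a) := rfl
      rw [this, map_add, Derivation.map_smul, Y.DX]
    have h2 : ECal.evr x (Y.D b (Y.p a)) =
        (if a = b then 1 else 0) + s * Hs P x a b - lam * Hs v x a b := hY.Dp hv hP a b x
    have h3 : ECal.evr x (Y.g b a) = gm v x b a := hY.g b a x
    rw [h1, map_add, SysB.ev_smul, h2, h3]
    have h4 : gm v x b a = (if a = b then 1 else 0) + Hs v x a b := by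
      simp only [gm, Matrix.add_apply, Matrix.of_apply, Matrix.one_apply]
      rw [Hs_symm (hv.of_le (by norm_cast)) x b a]
      simp only [eq_comm]
    rw [h4]; ring
  have hq3 : ∀ x a b c, Z.Q3 (ECal.evr x) a b c = s * D3 P x a b c := by
    intro x a b c
    have h1 : Z.D c (Z.D b (Z.q a)) = Y.D c (Y.D b (Y.p a)) + lam • Y.D c (Y.g b a) := by
      have : Z.D c (Z.D b (Z.q a)) = Y.D c (Y.D b (Y.p a + lam • Y.X a)) := rfl
      rw [this, map_add, Derivation.map_smul, Y.DX, map_add, Derivation.map_smul]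
    have h2 : ECal.evr x (Y.D c (Y.D b (Y.p a))) = s * D3 P x a b c - lam * D3 v x a b c :=
      hY.DDp hv hP a b c x
    have h3 : ECal.evr x (Y.D c (Y.g b a)) = D3 v x a b c := by
      rw [Y.gsymm b a]; exact hY.Dg a b c x
    unfold SysB.Q3
    rw [h1, map_add, SysB.ev_smul, h2, h3]; ring
  refine ⟨Z.S.1, Z.S.2, fun x => ?_, fun x => ?_, fun x => ?_, fun x => ?_⟩
  · exact (SysB.S_le hlo (hG x)).1
  · have h := (SysB.S_le hlo (hG x)).2
    simp only [hT] at h
    exact h
  · have h := SysB.S_ge hlo hhi (hG x) (hG' x)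
    simp only [hT] at h
    exact h
  · have h1 := SysB.E4_pt hn hlo (hG x) (by
      intro z
      have e : ∑ i, ∑ j, Z.be i j * z i * z j = ∑ i, z i ^ 2 := by
        refine Finset.sum_congr rfl fun i _ => ?_
        have : ∀ j, Z.be i j * z i * z j = if i = j then z i * z j else 0 := by
          intro j
          have : Z.be i j = if i = j then 1 else 0 := rfl
          rw [this]; split_ifs <;> ring
        simp only [this, Finset.sum_ite_eq, Finset.mem_univ, if_true]
        ring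
      rw [e]; positivity) (by
      intro z
      have h2 := hconv x z
      have e : ∑ i, ∑ j, ECal.evr x (Z.D j (Z.q i)) * z i * z j =
          ∑ i, ∑ j, ((if i = j then 1 else 0) + s * Hs P x i j) * z i * z j
            + lam * ∑ i, z i ^ 2 := by
        rw [Finset.mul_sum, ← Finset.sum_add_distrib]
        refine Finset.sum_congr rfl fun i _ => ?_
        have : lam * z i ^ 2 = ∑ j, (if i = j then lam * (z i * z j) else 0) := by
          simp only [Finset.sum_ite_eq, Finset.mem_univ, if_true]; ring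
        rw [this, ← Finset.sum_add_distrib]
        refine Finset.sum_congr rfl fun j _ => ?_
        rw [hq2]; split_ifs <;> ring
      rw [e]
      have : 0 ≤ lam * ∑ i, z i ^ 2 := by positivity
      linarith)
    have h3 := SysB.TP_le (s := Z) (ev := ECal.evr x) hlo (hG x)
    simp only [hq3] at h3
    have h7 : ECal.evr x (Z.L Z.S) = LA (tauf v) Z.S.1 x - ∑ i, gr v x i * gr Z.S.1 x i := by
      rw [hZ, ofB_L]; exact hY.L _ x
    rw [h7] at h1
    have hS0 : 0 ≤ ECal.evr x Z.S := (SysB.S_le hlo (hG x)).1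
    have hlo3 : 0 ≤ lo⁻¹ ^ 3 := by positivity
    have hK0 : 0 ≤ K := le_trans (by positivity) (hK x)
    have h5 : ECal.evr x Z.TP ≤ Real.sqrt (lo⁻¹ ^ 3 * K) * Real.sqrt (ECal.evr x Z.S) := by
      rw [← Real.sqrt_mul (by positivity)]
      apply Real.le_sqrt_of_sq_le
      calc ECal.evr x Z.TP ^ 2 ≤ _ := h3
        _ ≤ ECal.evr x Z.S * (lo⁻¹ ^ 3 * K) :=
          mul_le_mul_of_nonneg_left (mul_le_mul_of_nonneg_left (hK x) hlo3) hS0
        _ = _ := by ring
    have h6 : ECal.evr x Z.S = Z.S.1 x := rfl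
    rw [h6] at h1 h5
    have h8 : Z.lam = lam := rfl
    rw [h8] at h1
    have h9 : 2 * Real.sqrt (lo⁻¹ ^ 3 * K) * Real.sqrt (Z.S.1 x) =
      2 * (Real.sqrt (lo⁻¹ ^ 3 * K) * Real.sqrt (Z.S.1 x)) := by ring
    rw [h9]
    linarith

end Crest.Agent.R253.CalB
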