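import Crest.Agent.R253.Curve_930

set_option autoImplicit false

open MeasureTheory Set Filter Topology

namespace Crest.Agent.R253.Conc930

open Crest.Agent.R253.Mills930 Crest.Agent.R253.Hazard930 Crest.Agent.R253.Curve930

noncomputable def Rp (L u : ℝ) : ℝ :=
  (3) * (L^6 * u^0) + (8) * (L^5 * u^1) + (6) * (L^4 * u^2) + (-6) * (L^4 * u^0) + (8) * (L^3 *
  u^2) + (-8) * (L^3 * u^1) + (-1) * (L^2 * u^4) + (16) * (L^2 * u^3) + (-14) * (L^2 * u^2) +
  (3) * (L^2 * u^0) + (8) * (L^1 * u^4) + (-24) * (L^1 * u^3) + (16) * (L^1 * u^2) + (-12) *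
  (L^0 * u^4) + (24) * (L^0 * u^3) + (-12) * (L^0 * u^2)

noncomputable def RL (L u : ℝ) : ℝ :=
  (18) * (L^5 * u^0) + (40) * (L^4 * u^1) + (24) * (L^3 * u^2) + (-24) * (L^3 * u^0) + (24) *
  (L^2 * u^2) + (-24) * (L^2 * u^1) + (-2) * (L^1 * u^4) + (32) * (L^1 * u^3) + (-28) * (L^1 *
  u^2) + (6) * (L^1 * u^0) + (8) * (L^0 * u^4) + (-24) * (L^0 * u^3) + (16) * (L^0 * u^2)

noncomputable def RU (L u : ℝ) : ℝ :=
  (8) * (L^5 * u^0) + (12) * (L^4 * u^1) + (16) * (L^3 * u^1) + (-8) * (L^3 * u^0) + (-4) *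
  (L^2 * u^3) + (48) * (L^2 * u^2) + (-28) * (L^2 * u^1) + (32) * (L^1 * u^3) + (-72) * (L^1 *
  u^2) + (32) * (L^1 * u^1) + (-48) * (L^0 * u^3) + (72) * (L^0 * u^2) + (-24) * (L^0 * u^1)

noncomputable def Ep (L u : ℝ) : ℝ :=
  (1) * (L^3 * u^0) + (2) * (L^2 * u^1) + (1) * (L^1 * u^2) + (-1) * (L^1 * u^0)

noncomputable def Ap (L u : ℝ) : ℝ :=
  (3) * (L^5 * u^0) + (10) * (L^4 * u^1) + (12) * (L^3 * u^2) + (-4) * (L^3 * u^1) + (-2) *
  (L^3 * u^0) + (6) * (L^2 * u^3) + (-10) * (L^2 * u^2) + (1) * (L^1 * u^4) + (-8) * (L^1 *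
  u^3) + (4) * (L^1 * u^2) + (4) * (L^1 * u^1) + (-1) * (L^1 * u^0) + (-2) * (L^0 * u^4) + (2)
  * (L^0 * u^3) + (2) * (L^0 * u^2) + (-2) * (L^0 * u^1)

noncomputable def AL (L u : ℝ) : ℝ :=
  (15) * (L^4 * u^0) + (40) * (L^3 * u^1) + (36) * (L^2 * u^2) + (-12) * (L^2 * u^1) + (-6) *
  (L^2 * u^0) + (12) * (L^1 * u^3) + (-20) * (L^1 * u^2) + (1) * (L^0 * u^4) + (-8) * (L^0 *
  u^3) + (4) * (L^0 * u^2) + (4) * (L^0 * u^1) + (-1) * (L^0 * u^0)

noncomputable def AU (L u : ℝ) : ℝ :=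
  (10) * (L^4 * u^0) + (24) * (L^3 * u^1) + (-4) * (L^3 * u^0) + (18) * (L^2 * u^2) + (-20) *
  (L^2 * u^1) + (4) * (L^1 * u^3) + (-24) * (L^1 * u^2) + (8) * (L^1 * u^1) + (4) * (L^1 * u^0)
  + (-8) * (L^0 * u^3) + (6) * (L^0 * u^2) + (4) * (L^0 * u^1) + (-2) * (L^0 * u^0)

lemma Rp_chain {L u : ℝ → ℝ} {L' u' z : ℝ} (hL : HasDerivAt L L' z) (hu : HasDerivAt u u' z) :
    HasDerivAt (fun z => Rp (L z) (u z)) (RL (L z) (u z) * L' + RU (L z) (u z) * u') z := by
  refine (((((((((((((((((((hL.pow 6).mul (hu.pow 0)).const_mul (3)).add (((hL.pow 5).mul (hu.pow 1)).const_mul (8))).add (((hL.pow 4).mul (hu.pow 2)).const_mul (6))).add (((hL.pow 4).mul (hu.pow 0)).const_mul (-6))).add (((hL.pow 3).mul (hu.pow 2)).const_mul (8))).add (((hL.pow 3).mul (hu.pow 1)).const_mul (-8))).add (((hL.pow 2).mul (hu.pow 4)).const_mul (-1))).add (((hL.pow 2).mul (hu.pow 3)).const_mul (16))).add (((hL.pow 2).mul (hu.pow 2)).const_mul (-14))).add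 (((hL.pow 2).mul (hu.pow 0)).const_mul (3))).add (((hL.pow 1).mul (hu.pow 4)).const_mul (8))).add (((hL.pow 1).mul (hu.pow 3)).const_mul (-24))).add (((hL.pow 1).mul (hu.pow 2)).const_mul (16))).add (((hL.pow 0).mul (hu.pow 4)).const_mul (-12))).add (((hL.pow 0).mul (hu.pow 3)).const_mul (24))).add (((hL.pow 0).mul (hu.pow 2)).const_mul (-12)))).congr_deriv ?_
  simp only [Pi.mul_apply, Pi.pow_apply, RL, RU]
  norm_num
  ring

noncomputable def EpL (L u : ℝ) : ℝ :=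
  (3) * (L^2 * u^0) + (4) * (L^1 * u^1) + (1) * (L^0 * u^2) + (-1) * (L^0 * u^0)

noncomputable def EpU (L u : ℝ) : ℝ :=
  (2) * (L^2 * u^0) + (2) * (L^1 * u^1)

lemma Ep_chain {L u : ℝ → ℝ} {L' u' z : ℝ} (hL : HasDerivAt L L' z) (hu : HasDerivAt u u' z) :
    HasDerivAt (fun z => Ep (L z) (u z)) (EpL (L z) (u z) * L' + EpU (L z) (u z) * u') z := by
  refine (((((((hL.pow 3).mul (hu.pow 0)).const_mul (1)).add (((hL.pow 2).mul (hu.pow 1)).const_mul (2))).add (((hL.pow 1).mul (hu.pow 2)).const_mul (1))).add (((hL.pow 1).mul (hu.pow 0)).const_mul (-1)))).congr_deriv ?_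
  simp only [Pi.mul_apply, Pi.pow_apply, EpL, EpU]
  norm_num
  ring

lemma Ap_chain {L u : ℝ → ℝ} {L' u' z : ℝ} (hL : HasDerivAt L L' z) (hu : HasDerivAt u u' z) :
    HasDerivAt (fun z => Ap (L z) (u z)) (AL (L z) (u z) * L' + AU (L z) (u z) * u') z := by
  refine (((((((((((((((((((hL.pow 5).mul (hu.pow 0)).const_mul (3)).add (((hL.pow 4).mul (hu.pow 1)).const_mul (10))).add (((hL.pow 3).mul (hu.pow 2)).const_mul (12))).add (((hL.pow 3).mul (hu.pow 1)).const_mul (-4))).add (((hL.pow 3).mul (hu.pow 0)).const_mul (-2))).add (((hL.pow 2).mul (hu.pow 3)).const_mul (6))).add (((hL.pow 2).mul (hu.pow 2)).const_mul (-10))).add (((hL.pow 1).mul (hu.pow 4)).const_mul (1))).add (((hL.pow 1).mul (hu.pow 3)).const_mul (-8))).add (((hL.pow 1).mul (hu.pow 2)).const_mul (4))).add (((hL.pow 1).mul (hu.pow 1)).const_mul (4))).add (((hL.pow 1).mul (hu.pow 0)).const_mul (-1))).add (((hL.pow 0).mul (hu.pow 4)).const_mul (-2))).add (((hL.pow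 0).mul (hu.pow 3)).const_mul (2))).add (((hL.pow 0).mul (hu.pow 2)).const_mul (2))).add (((hL.pow 0).mul (hu.pow 1)).const_mul (-2)))).congr_deriv ?_
  simp only [Pi.mul_apply, Pi.pow_apply, AL, AU]
  norm_num
  ring

noncomputable def hRp (y u : ℝ) : ℝ :=
      (192)*y^0*u^0 + (256)*y^1*u^1 + (96)*y^2*u^2 + (-96)*y^2*u^0 + (64)*y^3*u^2 +
      (-64)*y^3*u^1 + (-4)*y^4*u^4 + (64)*y^4*u^3 + (-56)*y^4*u^2 + (12)*y^4*u^0 + (16)*y^5*u^4
      + (-48)*y^5*u^3 + (32)*y^5*u^2 + (-12)*y^6*u^4 + (24)*y^6*u^3 + (-12)*y^6*u^2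

lemma Rp_hom (y u : ℝ) (hy : y ≠ 0) : y^6 * Rp (2/y) u = hRp y u := by
  unfold Rp hRp
  field_simp
  ring

noncomputable def hRL (y u : ℝ) : ℝ :=
      (576)*y^0*u^0 + (640)*y^1*u^1 + (192)*y^2*u^2 + (-192)*y^2*u^0 + (96)*y^3*u^2 +
      (-96)*y^3*u^1 + (-4)*y^4*u^4 + (64)*y^4*u^3 + (-56)*y^4*u^2 + (12)*y^4*u^0 + (8)*y^5*u^4
      + (-24)*y^5*u^3 + (16)*y^5*u^2

lemma RL_hom (y u : ℝ) (hy : y ≠ 0) : y^5 * RL (2/y) u = hRL y u := by
  unfold RL hRL
  field_simp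
  ring

noncomputable def hRU (y u : ℝ) : ℝ :=
      (256)*y^0*u^0 + (192)*y^1*u^1 + (128)*y^2*u^1 + (-64)*y^2*u^0 + (-16)*y^3*u^3 +
      (192)*y^3*u^2 + (-112)*y^3*u^1 + (64)*y^4*u^3 + (-144)*y^4*u^2 + (64)*y^4*u^1 +
      (-48)*y^5*u^3 + (72)*y^5*u^2 + (-24)*y^5*u^1

lemma RU_hom (y u : ℝ) (hy : y ≠ 0) : y^5 * RU (2/y) u = hRU y u := by
  unfold RU hRU
  field_simp
  ring

noncomputable def he (y u : ℝ) : ℝ :=
      (8)*y^0*u^0 + (8)*y^1*u^1 + (2)*y^2*u^2 + (-2)*y^2*u^0 + (-2)*y^3*u^2 + (2)*y^3*u^1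

lemma e_hom (y u : ℝ) (hy : y ≠ 0) : y^3 * e (2/y) u = he y u := by
  unfold e he
  field_simp
  ring

noncomputable def alphaC (x t : ℝ) : ℝ :=
      (-47) + (-31/2)*t^1 + (-1)*t^2 + (-57)*x^1 + (-35)*x^1*t^1 + (-7/2)*x^1*t^2 + (-12)*x^2 +
      (-29)*x^2*t^1 + (-15/4)*x^2*t^2 + (-6)*x^3 + (-7)*x^3*t^1 + (-2)*x^3*t^2
noncomputable def betaC (x t : ℝ) : ℝ :=
      (71/4)*t^1 + (19)*t^2 + (213)*x^1*t^1 + (165)*x^1*t^2 + (2)*x^1*t^3 + (1)*x^2 +
      (613)*x^2*t^1 + (384)*x^2*t^2 + (1)*x^2*t^3 + (351)*x^3 + (472)*x^3*t^1 + (327)*x^3*t^2 +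
      (5)*x^3*t^3 + (13/4)*x^3*t^4 + (16)*x^4 + (1421/8)*x^4*t^1 + (63)*x^4*t^2 + (7)*x^4*t^3 +
      (45/4)*x^4*t^4 + (14)*x^5 + (76)*x^5*t^1 + (8)*x^5*t^2 + (10)*x^5*t^4 + (3)*x^6 +
      (18)*x^6*t^1 + (18)*x^6*t^2 + (19/4)*x^6*t^4
noncomputable def gammaC (x t : ℝ) : ℝ :=
      (2096) + (972)*t^1 + (5/2)*t^2 + (656)*x^1 + (1074)*x^1*t^1 + (97/2)*x^1*t^2 +
      (55/2)*x^1*t^3 + (16)*x^2 + (942)*x^2*t^1 + (63/2)*x^2*t^2 + (47)*x^2*t^3 + (3)*x^2*t^4 +
      (520)*x^3 + (1064)*x^3*t^1 + (3/2)*x^3*t^2 + (31/2)*x^3*t^3 + (10)*x^3*t^4 +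
      (3/2)*x^3*t^5 + (1848)*x^4 + (698)*x^4*t^1 + (7/4)*x^4*t^2 + (2)*x^4*t^3 + (5)*x^4*t^4 +
      (3)*x^4*t^5 + (3/2)*x^4*t^6 + (1008)*x^5 + (1047)*x^5*t^1 + (15/4)*x^5*t^2 +
      (37/4)*x^5*t^3 + (28)*x^5*t^4 + (26)*x^5*t^5 + (15/2)*x^5*t^6 + (288)*x^6 + (628)*x^6*t^1
      + (5/4)*x^6*t^2 + (9/2)*x^6*t^3 + (3)*x^6*t^4 + (47/2)*x^6*t^5 + (19/2)*x^6*t^6 +
      (72)*x^7 + (94)*x^7*t^1 + (69/4)*x^7*t^2 + (149/4)*x^7*t^3 + (18)*x^7*t^4 + (1)*x^7*t^5 +
      (4)*x^7*t^6 + (2)*x^8*t^1 + (20)*x^8*t^2 + (32)*x^8*t^3 + (35)*x^8*t^4 + (15/2)*x^8*t^5 +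
      (2)*x^8*t^6 + (6)*x^9*t^1 + (2)*x^9*t^2 + (4)*x^9*t^3 + (12)*x^9*t^4 + (11/2)*x^9*t^5 +
      (3/2)*x^9*t^6

lemma cert0 (x t : ℝ) :
    -((1+x)^4 * (2 * ((1+t) * ((1+t) - 1))) * hRU (1+x) (1+t)
      + (1+x) * he (1+x) (1+t) * hRL (1+x) (1+t))
    = alphaC x t * hRp (1+x) (1+t) + betaC x t * he (1+x) (1+t) + gammaC x t := by
  unfold alphaC betaC gammaC hRp hRL hRU he
  ring

lemma betaC_nonneg (x t : ℝ) (hx : 0 < x) (ht : 0 < t) : 0 ≤ betaC x t := by
  unfold betaC; positivity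

lemma gammaC_pos (x t : ℝ) (hx : 0 < x) (ht : 0 < t) : 0 < gammaC x t := by
  unfold gammaC; positivity

/-- at a zero of `Rp` the flow derivative is negative. -/
lemma flow_neg (L u : ℝ) (hL : 0 < L) (hL2 : L < 2) (hu : 1 < u) (he : 0 < e L u) (hR : Rp L u = 0) :
    2 * (u * (u - 1)) * RU L u + e L u * RL L u < 0 := by
  set x := 2 / L - 1 with hx
  set t := u - 1 with ht
  have hx0 : 0 < x := by
    rw [hx, sub_pos, lt_div_iff₀ hL]; linarith
  have ht0 : 0 < t := by rw [ht]; linarith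
  have hy : (1 + x) ≠ 0 := by positivity
  have hLx : L = 2 / (1 + x) := by rw [hx]; field_simp; ring
  have hut : u = 1 + t := by rw [ht]; ring
  have c := cert0 x t
  rw [← Rp_hom _ _ hy, ← RL_hom _ _ hy, ← RU_hom _ _ hy, ← e_hom _ _ hy, ← hLx, ← hut, hR] at c
  have hb := betaC_nonneg x t hx0 ht0
  have hg := gammaC_pos x t hx0 ht0
  have hy0 : 0 < 1 + x := by positivity
  have h9 : 0 < (1+x)^9 := by positivity
  have h3 : 0 ≤ betaC x t * ((1+x)^3 * e L u) := by positivity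
  have hfin : -((1+x)^9 * (2 * (u * (u - 1)) * RU L u + e L u * RL L u))
      = betaC x t * ((1+x)^3 * e L u) + gammaC x t := by
    rw [show -((1+x)^9 * (2 * (u * (u - 1)) * RU L u + e L u * RL L u))
      = -((1+x)^4 * (2 * (u * (u - 1))) * ((1+x)^5 * RU L u)
      + (1+x) * ((1+x)^3 * e L u) * ((1+x)^5 * RL L u)) by ring, c]
    ring
  by_contra hcon
  push Not at hcon
  have := mul_nonneg h9.le hcon
  linarith

lemma Ep_eq (L u : ℝ) : Ep L u = ((L + u)^2 - 1) * L := by unfold Ep; ring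

lemma e_eq (L u : ℝ) : e L u = Ep L u - 2 * (u * (u - 1)) := by unfold e; rw [Ep_eq]

lemma P_pos {u : ℝ} (hu : 1 < u) : 0 < u * (u - 1) := mul_pos (by linarith) (by linarith)

/-- `Rz z = R(L z, u z)`. -/
noncomputable def Rz (z : ℝ) : ℝ := Rp (L z) (u z)

lemma Rz_deriv (z : ℝ) : HasDerivAt Rz
    ((2 * (u z * (u z - 1)) * RU (L z) (u z) + e (L z) (u z) * RL (L z) (u z))
      / (2 * (u z * (u z - 1))) * g z) z := by
  refine (Rp_chain (L_deriv z) (u_deriv z)).congr_deriv ?_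
  rw [V_eq _ _ (u_gt z)]
  have hu0 : u z ≠ 0 := by have := u_gt z; positivity
  have hu1 : u z - 1 ≠ 0 := by have := u_gt z; intro h; linarith
  generalize e (L z) (u z) = ee
  generalize RL (L z) (u z) = al
  generalize RU (L z) (u z) = au
  field_simp
  ring

lemma Rz_barrier {a b : ℝ} (hab : a < b) (ha : Rz a ≤ 0) : Rz b < 0 := by
  refine barrier (c := a) (fun z _ => Rz_deriv z) ?_ le_rfl hab ha
  intro z _ hz
  have h := flow_neg (L z) (u z) (L_pos z) (L_lt_two z) (u_gt z) (e_pos z) hz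
  have h1 := P_pos (u_gt z)
  have h2 := g_pos z
  apply mul_neg_of_neg_of_pos _ h2
  exact div_neg_of_neg_of_pos h (by positivity)

/-- `Γ(s) = 1/4 - s² l''(s)/2` along the curve. -/
noncomputable def Gam (z : ℝ) : ℝ := Ep (L z) (u z) / (8 * (u z * (u z - 1)))

/-- `dΓ/du` -/
noncomputable def G1 (z : ℝ) : ℝ := Ap (L z) (u z) / (16 * (u z * (u z - 1))^2)

/-- `d²Γ/du²` -/
noncomputable def G2 (z : ℝ) : ℝ :=
  (AL (L z) (u z) * e (L z) (u z) + 2 * (u z * (u z - 1)) * AU (L z) (u z)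
    - 4 * Ap (L z) (u z) * (2 * u z - 1)) / (32 * (u z * (u z - 1))^3)

lemma P_deriv (z : ℝ) : HasDerivAt (fun z => u z * (u z - 1)) ((2 * u z - 1) * g z) z :=
  ((u_deriv z).mul ((u_deriv z).sub_const 1)).congr_deriv (by ring)

lemma Gam_deriv (z : ℝ) : HasDerivAt Gam (G1 z * g z) z := by
  have hP := (P_pos (u_gt z))
  have h := (Ep_chain (L_deriv z) (u_deriv z)).div ((P_deriv z).const_mul 8) (by positivity)
  refine h.congr_deriv ?_
  rw [V_eq _ _ (u_gt z), e_eq]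
  unfold G1
  have hP' := hP.ne'
  have hu0 : u z ≠ 0 := by have := u_gt z; positivity
  have hu1 : u z - 1 ≠ 0 := by have := u_gt z; intro h; linarith
  field_simp
  unfold Ap EpL EpU Ep
  ring

lemma G1_deriv (z : ℝ) : HasDerivAt G1 (G2 z * g z) z := by
  have hP := (P_pos (u_gt z))
  have h := (Ap_chain (L_deriv z) (u_deriv z)).div (((P_deriv z).pow 2).const_mul 16) (by
    simp only [Pi.pow_apply]; positivity)
  refine h.congr_deriv ?_
  rw [V_eq _ _ (u_gt z)]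
  unfold G2
  simp only [Pi.pow_apply, Nat.cast_ofNat, Nat.add_one_sub_one, pow_one]
  generalize e (L z) (u z) = ee
  generalize AL (L z) (u z) = al
  generalize AU (L z) (u z) = au
  generalize Ap (L z) (u z) = aa
  have hu0 : u z ≠ 0 := by have := u_gt z; positivity
  have hu1 : u z - 1 ≠ 0 := by have := u_gt z; intro h; linarith
  field_simp
  ring

lemma schwarz (z : ℝ) : 2 * Gam z * G2 z - 3 * G1 z ^ 2
    = Gam z ^ 2 * Rz z / (4 * L z ^ 2 * (u z * (u z - 1))^2) := by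
  unfold Gam G2 G1 Rz
  have hL := (L_pos z).ne'
  have hu0 : u z ≠ 0 := by have := u_gt z; positivity
  have hu1 : u z - 1 ≠ 0 := by have := u_gt z; intro h; linarith
  generalize L z = l at *
  generalize u z = v at *
  rw [e_eq]
  have key : (2 * Ep l v * (AL l v * (Ep l v - 2 * (v * (v - 1))) + 2 * (v * (v - 1)) * AU l v
    - 4 * Ap l v * (2 * v - 1)) - 3 * Ap l v ^ 2) * l^2 = Ep l v ^ 2 * Rp l v := by
    unfold Ep AL AU Ap Rp
    ring
  generalize Ep l v = E0 at *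
  generalize AL l v = A0 at *
  generalize AU l v = A1 at *
  generalize Ap l v = A2 at *
  generalize Rp l v = R0 at *
  field_simp
  linear_combination 8192 * key

lemma Gam_gt (z : ℝ) : 1/4 < Gam z := by
  have h := e_pos z
  rw [e_eq] at h
  have hP := P_pos (u_gt z)
  unfold Gam
  rw [lt_div_iff₀ (by positivity)]
  linarith

lemma Gam_pos (z : ℝ) : 0 < Gam z := by have := Gam_gt z; linarith

lemma Gam_lim : Tendsto Gam atTop (𝓝 (1/4)) := by
  have h : Tendsto (fun z => L z * (1 + 2 * L z * s z + ((L z)^2 - 1) * (s z)^2) / (8 * (1 - s z)))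
      atTop (𝓝 (2 * (1 + 2 * 2 * 0 + (2^2 - 1) * 0^2) / (8 * (1 - 0)))) := by
    refine Tendsto.div (L_lim.mul ?_) ((s_lim.const_sub 1).const_mul 8) (by norm_num)
    exact ((((L_lim.const_mul 2).mul s_lim).const_add 1)).add
      ((((L_lim.pow 2).sub_const 1)).mul (s_lim.pow 2))
  norm_num at h
  refine h.congr ?_
  intro z
  unfold Gam
  rw [Ep_eq]
  have h1 := (s_pos z).ne'
  have h2 : 1 - s z ≠ 0 := by have := s_lt_one z; intro h; linarith
  have : u z * (u z - 1) = (1 - s z) / s z ^ 2 := P_eq z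
  rw [this]
  unfold u
  field_simp
  ring

noncomputable def q (z : ℝ) : ℝ := Real.sqrt (Gam z)
noncomputable def p (z : ℝ) : ℝ := (q z)⁻¹
/-- `dp/du` -/
noncomputable def p1 (z : ℝ) : ℝ := -G1 z / (2 * q z ^ 3)

lemma q_pos (z : ℝ) : 0 < q z := Real.sqrt_pos.mpr (Gam_pos z)
lemma q_sq (z : ℝ) : q z ^ 2 = Gam z := Real.sq_sqrt (Gam_pos z).le
lemma p_pos (z : ℝ) : 0 < p z := inv_pos.mpr (q_pos z)

lemma q_gt (z : ℝ) : 1/2 < q z := by
  have h1 := q_sq z
  have h2 := Gam_gt z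
  have h3 := q_pos z
  nlinarith

lemma p_lt (z : ℝ) : p z < 2 := by
  have := q_gt z
  unfold p
  rw [inv_lt_comm₀ (q_pos z) (by norm_num)]
  linarith

lemma q_deriv (z : ℝ) : HasDerivAt q (G1 z * g z / (2 * q z)) z := by
  have h := (Gam_deriv z).sqrt (Gam_pos z).ne'
  exact h

lemma p_deriv (z : ℝ) : HasDerivAt p (p1 z * g z) z := by
  have h := (q_deriv z).inv (q_pos z).ne'
  refine h.congr_deriv ?_
  unfold p1
  have := (q_pos z).ne'
  field_simp

lemma p1_deriv (z : ℝ) : HasDerivAt p1 (-(Gam z ^ 2 * Rz z / (4 * L z ^ 2 * (u z * (u z - 1))^2))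
    / (4 * q z ^ 5) * g z) z := by
  have hq := (q_pos z).ne'
  have h := (G1_deriv z).neg.div (((q_deriv z).pow 3).const_mul 2) (by
    simp only [Pi.pow_apply]; positivity)
  refine h.congr_deriv ?_
  rw [← schwarz, ← q_sq z]
  simp only [Pi.pow_apply, Pi.neg_apply, Nat.cast_ofNat, Nat.add_one_sub_one]
  field_simp
  ring

lemma p_lim : Tendsto p atTop (𝓝 2) := by
  have h : Tendsto q atTop (𝓝 (Real.sqrt (1/4))) := (Real.continuous_sqrt.tendsto _).comp Gam_lim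
  have h2 : Real.sqrt (1/4) = 1/2 := by
    rw [show (1/4:ℝ) = (1/2)^2 by norm_num]
    exact Real.sqrt_sq (by norm_num)
  rw [h2] at h
  have := h.inv₀ (by norm_num)
  norm_num at this
  exact this

lemma p1_deriv_pos {z : ℝ} (hz : Rz z < 0) :
    0 < -(Gam z ^ 2 * Rz z / (4 * L z ^ 2 * (u z * (u z - 1))^2)) / (4 * q z ^ 5) * g z := by
  have h1 := Gam_pos z
  have h2 := L_pos z
  have h3 := P_pos (u_gt z)
  have h4 := q_pos z
  have h5 := g_pos z
  have h6 : Gam z ^ 2 * Rz z / (4 * L z ^ 2 * (u z * (u z - 1))^2) < 0 :=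
    div_neg_of_neg_of_pos (mul_neg_of_pos_of_neg (by positivity) hz) (by positivity)
  have h7 : 0 < -(Gam z ^ 2 * Rz z / (4 * L z ^ 2 * (u z * (u z - 1))^2)) := by linarith
  positivity

theorem Rz_pos (z : ℝ) : 0 < Rz z := by
  by_contra hcon
  push Not at hcon
  have hR : ∀ y, z < y → Rz y < 0 := fun y hy => Rz_barrier hy hcon
  -- p1 strictly monotone on [z,∞)
  have hmono : MonotoneOn p1 (Ici z) := by
    apply monotoneOn_of_deriv_nonneg (convex_Ici z)
    · intro x _; exact (p1_deriv x).continuousAt.continuousWithinAt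
    · intro x _; exact (p1_deriv x).differentiableAt.differentiableWithinAt
    · intro x hx; rw [interior_Ici] at hx
      rw [(p1_deriv x).deriv]
      exact (p1_deriv_pos (hR x hx)).le
  by_cases hA : ∃ y, z ≤ y ∧ 0 < p1 y
  · obtain ⟨y, hy, hpy⟩ := hA
    -- p x - p1 y * u x monotone on [y,∞)
    have hm : MonotoneOn (fun x => p x - p1 y * u x) (Ici y) := by
      have hd : ∀ x, HasDerivAt (fun x => p x - p1 y * u x) (p1 x * g x - p1 y * g x) x :=
        fun x => (p_deriv x).sub ((u_deriv x).const_mul _)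
      apply monotoneOn_of_deriv_nonneg (convex_Ici y)
      · intro x _; exact (hd x).continuousAt.continuousWithinAt
      · intro x _; exact (hd x).differentiableAt.differentiableWithinAt
      · intro x hx; rw [interior_Ici] at hx
        rw [(hd x).deriv]
        have h1 := hmono (mem_Ici.mpr hy) (mem_Ici.mpr (hy.trans (le_of_lt hx))) (le_of_lt hx)
        have h2 := g_pos x
        nlinarith
    obtain ⟨x, hx1, hx2⟩ := ((u_lim.eventually_gt_atTop ((2 - p y) / p1 y + u y)).and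
      (eventually_ge_atTop y)).exists
    have h1 := hm (mem_Ici.mpr le_rfl) (mem_Ici.mpr hx2) hx2
    simp only at h1
    have h2 := p_lt x
    have h3 : 2 - p y < p1 y * (u x - u y) := by
      have : (2 - p y) / p1 y < u x - u y := by linarith
      rw [div_lt_iff₀ hpy] at this
      linarith
    nlinarith
  · push Not at hA
    have hm : AntitoneOn p (Ici z) := by
      apply antitoneOn_of_deriv_nonpos (convex_Ici z)
      · intro x _; exact (p_deriv x).continuousAt.continuousWithinAt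
      · intro x _; exact (p_deriv x).differentiableAt.differentiableWithinAt
      · intro x hx; rw [interior_Ici] at hx
        rw [(p_deriv x).deriv]
        exact mul_nonpos_of_nonpos_of_nonneg (hA x (le_of_lt hx)) (g_pos x).le
    have h1 : 2 ≤ p z := by
      apply le_of_tendsto p_lim
      filter_upwards [eventually_ge_atTop z] with x hx
      exact hm (mem_Ici.mpr le_rfl) (mem_Ici.mpr hx) hx
    linarith [p_lt z]

/-- `p = Γ^{-1/2}` is concave as a function of `u = 1/s`: its `u`-derivative is antitone. -/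
theorem p1_antitone : StrictAnti p1 := by
  apply strictAnti_of_deriv_neg
  intro z
  rw [(p1_deriv z).deriv]
  have h1 := Gam_pos z
  have h2 := L_pos z
  have h3 := P_pos (u_gt z)
  have h4 := q_pos z
  have h5 := g_pos z
  have h6 := Rz_pos z
  have h7 : 0 < Gam z ^ 2 * Rz z / (4 * L z ^ 2 * (u z * (u z - 1))^2) / (4 * q z ^ 5) * g z := by
    positivity
  have : -(Gam z ^ 2 * Rz z / (4 * L z ^ 2 * (u z * (u z - 1))^2)) / (4 * q z ^ 5) * g z
      = -(Gam z ^ 2 * Rz z / (4 * L z ^ 2 * (u z * (u z - 1))^2) / (4 * q z ^ 5) * g z) := by ring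
  rw [this]; linarith

lemma u_strictMono : StrictMono u := by
  apply strictMono_of_deriv_pos
  intro z; rw [(u_deriv z).deriv]; exact g_pos z

lemma Hf_deriv (z : ℝ) : HasDerivAt (fun z => L z + u z) (4 * Gam z * g z) z := by
  refine ((L_deriv z).add (u_deriv z)).congr_deriv ?_
  unfold V Gam
  rw [Ep_eq]
  have hu0 : u z ≠ 0 := by have := u_gt z; positivity
  have hu1 : u z - 1 ≠ 0 := by have := u_gt z; intro h; linarith
  field_simp
  ring

/-- **Pairwise inequality** (one-sided form). -/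
theorem pair_le {a b : ℝ} (hab : a ≤ b) :
    (L b + u b) - (L a + u a) ≤ 4 * (u b - u a) * (q a * q b) := by
  -- ψ = (p - p a) - (u - u a) p1 ≥ 0
  have hψ : ∀ y, a ≤ y → 0 ≤ (p y - p a) - (u y - u a) * p1 y := by
    intro y hy
    have hd : ∀ x, HasDerivAt (fun x => (p x - p a) - (u x - u a) * p1 x)
        ((p1 x * g x) - (g x * p1 x + (u x - u a) * (-(Gam x ^ 2 * Rz x /
          (4 * L x ^ 2 * (u x * (u x - 1))^2)) / (4 * q x ^ 5) * g x))) x := fun x =>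
      (((p_deriv x).sub_const (p a)).sub (((u_deriv x).sub_const (u a)).mul (p1_deriv x)))
    have hm : MonotoneOn (fun x => (p x - p a) - (u x - u a) * p1 x) (Ici a) := by
      apply monotoneOn_of_deriv_nonneg (convex_Ici a)
      · intro x _; exact (hd x).continuousAt.continuousWithinAt
      · intro x _; exact (hd x).differentiableAt.differentiableWithinAt
      · intro x hx; rw [interior_Ici] at hx
        rw [(hd x).deriv]
        have h1 := Gam_pos x
        have h2 := L_pos x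
        have h3 := P_pos (u_gt x)
        have h4 := q_pos x
        have h5 := g_pos x
        have h6 := Rz_pos x
        have h7 : 0 < Gam x ^ 2 * Rz x / (4 * L x ^ 2 * (u x * (u x - 1))^2) / (4 * q x ^ 5) * g x := by
          positivity
        have h8 : 0 ≤ u x - u a := by have := u_strictMono.monotone (le_of_lt hx : a ≤ x); linarith
        have h9 := mul_nonneg h8 h7.le
        have : (p1 x * g x) - (g x * p1 x + (u x - u a) * (-(Gam x ^ 2 * Rz x /
          (4 * L x ^ 2 * (u x * (u x - 1))^2)) / (4 * q x ^ 5) * g x)) =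
          (u x - u a) * (Gam x ^ 2 * Rz x / (4 * L x ^ 2 * (u x * (u x - 1))^2) / (4 * q x ^ 5) * g x) := by
          ring
        rw [this]; exact h9
    have h := hm (mem_Ici.mpr le_rfl) (mem_Ici.mpr hy) hy
    have h' : (p a - p a) - (u a - u a) * p1 a ≤ (p y - p a) - (u y - u a) * p1 y := h
    have h'' : (p a - p a) - (u a - u a) * p1 a = 0 := by ring
    linarith
  -- Φ/p = Φ q monotone
  have hd : ∀ x, HasDerivAt (fun x => (4 * (u x - u a) - ((L x + u x) - (L a + u a)) * (p x * p a)) * q x)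
      (4 * g x * ((p x - p a) - (u x - u a) * p1 x) * q x ^ 2) x := by
    intro x
    have h := ((((u_deriv x).sub_const (u a)).const_mul 4).sub
      (((Hf_deriv x).sub_const (L a + u a)).mul ((p_deriv x).mul_const (p a)))).mul (q_deriv x)
    refine h.congr_deriv ?_
    have hq := (q_pos x).ne'
    have hG := q_sq x
    have hqa := (q_pos a).ne'
    unfold p p1
    rw [← hG]
    simp only [Pi.sub_apply, Pi.mul_apply]
    field_simp
    ring
  have hm : MonotoneOn (fun x => (4 * (u x - u a) - ((L x + u x) - (L a + u a)) * (p x * p a)) * q x)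
      (Ici a) := by
    apply monotoneOn_of_deriv_nonneg (convex_Ici a)
    · intro x _; exact (hd x).continuousAt.continuousWithinAt
    · intro x _; exact (hd x).differentiableAt.differentiableWithinAt
    · intro x hx; rw [interior_Ici] at hx
      rw [(hd x).deriv]
      have h1 := g_pos x
      have h2 := hψ x (le_of_lt hx)
      positivity
  have h0 := hm (mem_Ici.mpr le_rfl) (mem_Ici.mpr hab) hab
  have h1 : (4 * (u a - u a) - ((L a + u a) - (L a + u a)) * (p a * p a)) * q a ≤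
    (4 * (u b - u a) - ((L b + u b) - (L a + u a)) * (p b * p a)) * q b := h0
  have h1' : (4 * (u a - u a) - ((L a + u a) - (L a + u a)) * (p a * p a)) * q a = 0 := by ring
  rw [h1'] at h1
  have hqb := q_pos b
  have hqa := q_pos a
  have h2 : 0 ≤ 4 * (u b - u a) - ((L b + u b) - (L a + u a)) * (p b * p a) :=
    nonneg_of_mul_nonneg_left h1 hqb
  have h3 : p b * p a = (q a * q b)⁻¹ := by unfold p; rw [mul_inv, mul_comm]
  rw [h3] at h2
  have h4 : 0 < q a * q b := mul_pos hqa hqb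
  have h5 := mul_nonneg h2 h4.le
  rw [sub_mul, mul_assoc _ (q a * q b)⁻¹, inv_mul_cancel₀ h4.ne', mul_one] at h5
  linarith

end Crest.Agent.R253.Conc930
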