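import Mathlib

/-!
# R253: compactness of log-concave densities, part A (helper435)

`LogC f` : log-concavity of a real function on `Fin m → ℝ` (multiplicative form).
`LCD f`  : log-concave probability density.
Results: positive on a ball, bounded, superlevel sets bounded.
-/

set_option autoImplicit false
open MeasureTheory Set Filter Topology
open scoped ENNReal NNReal

namespace Crest.Agent.R253.Cpt435

variable {m : ℕ}

/-- multiplicative log-concavity -/
def LogC (f : (Fin m → ℝ) → ℝ) : Prop :=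
  ∀ (x y : Fin m → ℝ) (s t : ℝ), 0 < s → 0 < t → s + t = 1 →
    f x ^ s * f y ^ t ≤ f (s • x + t • y)

/-- log-concave probability density -/
structure LCD (f : (Fin m → ℝ) → ℝ) : Prop where
  meas : Measurable f
  nonneg : ∀ x, 0 ≤ f x
  logc : LogC f
  int1 : ∫ x, f x = 1

/-- the hypotheses of S0391 give `LCD` -/
theorem LCD.of_S0391 (f : (Fin m → ℝ) → ℝ) (hf : Measurable f) (hf0 : ∀ x, 0 ≤ f x)
    (hf1 : ∫ x, f x = 1)
    (hfc : Convex ℝ {x | 0 < f x}) (hfl : ConcaveOn ℝ {x | 0 < f x} (fun x => Real.log (f x))) :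
    LCD f := by
  refine ⟨hf, hf0, ?_, hf1⟩
  intro x y s t hs ht hst
  rcases (hf0 x).lt_or_eq with hx | hx
  · rcases (hf0 y).lt_or_eq with hy | hy
    · have h1 := hfl.2 hx hy hs.le ht.le hst
      have h2 : 0 < f (s • x + t • y) := hfc hx hy hs.le ht.le hst
      simp only [smul_eq_mul] at h1
      rw [Real.rpow_def_of_pos hx, Real.rpow_def_of_pos hy, ← Real.exp_add]
      calc Real.exp (Real.log (f x) * s + Real.log (f y) * t)
          ≤ Real.exp (Real.log (f (s • x + t • y))) := by
            apply Real.exp_le_exp.mpr; linarith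
        _ = f (s • x + t • y) := Real.exp_log h2
    · rw [← hy, Real.zero_rpow ht.ne', mul_zero]; exact hf0 _
  · rw [← hx, Real.zero_rpow hs.ne', zero_mul]; exact hf0 _

namespace LogC

variable {f : (Fin m → ℝ) → ℝ}

/-- superlevel sets are convex -/
theorem convex_superlevel (h : LogC f) {c : ℝ} (hc : 0 < c) : Convex ℝ {x | c ≤ f x} := by
  rw [convex_iff_forall_pos]
  intro x hx y hy s t hs ht hst
  simp only [mem_ofPred_eq] at *
  calc c = c ^ s * c ^ t := by rw [← Real.rpow_add hc, hst, Real.rpow_one]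
    _ ≤ f x ^ s * f y ^ t := by
        apply mul_le_mul
        · exact Real.rpow_le_rpow hc.le hx hs.le
        · exact Real.rpow_le_rpow hc.le hy ht.le
        · exact (Real.rpow_pos_of_pos hc _).le
        · exact Real.rpow_nonneg (hc.le.trans hx) _
    _ ≤ _ := h x y s t hs ht hst

/-- the positivity set is convex -/
theorem convex_pos (h : LogC f) : Convex ℝ {x | 0 < f x} := by
  rw [convex_iff_forall_pos]
  intro x hx y hy s t hs ht hst
  simp only [mem_ofPred_eq] at *
  exact lt_of_lt_of_le (mul_pos (Real.rpow_pos_of_pos hx _) (Real.rpow_pos_of_pos hy _))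
    (h x y s t hs ht hst)

/-- converse of `LCD.of_S0391` -/
theorem concaveOn_log (h : LogC f) :
    ConcaveOn ℝ {x | 0 < f x} (fun x => Real.log (f x)) := by
  refine ⟨h.convex_pos, ?_⟩
  intro x hx y hy s t hs ht hst
  simp only [mem_ofPred_eq] at *
  rcases hs.lt_or_eq with hs | hs
  · rcases ht.lt_or_eq with ht | ht
    · have h1 := h x y s t hs ht hst
      have h2 : 0 < f x ^ s * f y ^ t :=
        mul_pos (Real.rpow_pos_of_pos hx _) (Real.rpow_pos_of_pos hy _)
      have h3 := Real.log_le_log h2 h1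
      rw [Real.log_mul (Real.rpow_pos_of_pos hx _).ne' (Real.rpow_pos_of_pos hy _).ne',
        Real.log_rpow hx, Real.log_rpow hy] at h3
      simpa [smul_eq_mul] using h3
    · have : s = 1 := by linarith
      subst this; rw [← ht]; simp
  · have : t = 1 := by linarith
    subst this; rw [← hs]; simp

/-- log-concavity on the positivity set gives `LogC` for a nonnegative function -/
theorem of_pos (h0 : ∀ x, 0 ≤ f x)
    (h : ∀ x y, 0 < f x → 0 < f y → ∀ s t : ℝ, 0 < s → 0 < t → s + t = 1 →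
      f x ^ s * f y ^ t ≤ f (s • x + t • y)) : LogC f := by
  intro x y s t hs ht hst
  rcases (h0 x).lt_or_eq with hx | hx
  · rcases (h0 y).lt_or_eq with hy | hy
    · exact h x y hx hy s t hs ht hst
    · rw [← hy, Real.zero_rpow ht.ne', mul_zero]; exact h0 _
  · rw [← hx, Real.zero_rpow hs.ne', zero_mul]; exact h0 _

theorem mul {g : (Fin m → ℝ) → ℝ} (hf0 : ∀ x, 0 ≤ f x) (hg0 : ∀ x, 0 ≤ g x)
    (hf : LogC f) (hg : LogC g) : LogC (fun x => f x * g x) := by
  intro x y s t hs ht hst
  simp only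
  rw [Real.mul_rpow (hf0 x) (hg0 x), Real.mul_rpow (hf0 y) (hg0 y)]
  calc f x ^ s * g x ^ s * (f y ^ t * g y ^ t)
      = (f x ^ s * f y ^ t) * (g x ^ s * g y ^ t) := by ring
    _ ≤ _ := by
      apply mul_le_mul (hf x y s t hs ht hst) (hg x y s t hs ht hst)
      · exact mul_nonneg (Real.rpow_nonneg (hg0 _) _) (Real.rpow_nonneg (hg0 _) _)
      · exact hf0 _

theorem const_mul {c : ℝ} (hc : 0 ≤ c) (hf0 : ∀ x, 0 ≤ f x)
    (hf : LogC f) : LogC (fun x => c * f x) := by
  rcases hc.lt_or_eq with hc | hc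
  · intro x y s t hs ht hst
    simp only
    rw [Real.mul_rpow hc.le (hf0 x), Real.mul_rpow hc.le (hf0 y)]
    calc c ^ s * f x ^ s * (c ^ t * f y ^ t)
        = (c ^ s * c ^ t) * (f x ^ s * f y ^ t) := by ring
      _ = c * (f x ^ s * f y ^ t) := by rw [← Real.rpow_add hc, hst, Real.rpow_one]
      _ ≤ _ := by gcongr; exact hf x y s t hs ht hst
  · intro x y s t hs ht hst
    simp only [← hc, zero_mul]
    rw [Real.zero_rpow hs.ne', zero_mul]

/-- affine change of variables -/
theorem comp_affine {n : ℕ} (hf : LogC f) (T : (Fin n → ℝ) →ₗ[ℝ] (Fin m → ℝ)) (b : Fin m → ℝ) :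
    LogC (fun u => f (b + T u)) := by
  intro x y s t hs ht hst
  simp only
  have : b + T (s • x + t • y) = s • (b + T x) + t • (b + T y) := by
    rw [map_add, map_smul, map_smul, smul_add, smul_add]
    have : b = s • b + t • b := by rw [← add_smul, hst, one_smul]
    nth_rewrite 1 [this]; abel
  rw [this]
  exact hf _ _ s t hs ht hst

/-- exponentials of affine functions are log-concave (log-affine) -/
theorem exp_linear (L : (Fin m → ℝ) →ₗ[ℝ] ℝ) : LogC (fun x : Fin m → ℝ => Real.exp (L x)) := by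
  intro x y s t hs ht hst
  simp only
  rw [← Real.exp_mul, ← Real.exp_mul, ← Real.exp_add, map_add, map_smul, map_smul]
  apply le_of_eq; congr 1; simp only [smul_eq_mul]; ring

/-- pointwise limits of log-concave functions are log-concave -/
theorem of_tendsto {ι : Type*} {l : Filter ι} [l.NeBot] {F : ι → (Fin m → ℝ) → ℝ}
    (hF : ∀ᶠ i in l, LogC (F i)) (h0 : ∀ x, 0 ≤ f x)
    (hlim : ∀ x y, 0 < f x → 0 < f y → ∀ s t : ℝ, 0 < s → 0 < t → s + t = 1 →
      Tendsto (fun i => F i x) l (𝓝 (f x)) ∧ Tendsto (fun i => F i y) l (𝓝 (f y)) ∧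
      Tendsto (fun i => F i (s • x + t • y)) l (𝓝 (f (s • x + t • y)))) :
    LogC f := by
  refine of_pos h0 ?_
  intro x y hx hy s t hs ht hst
  obtain ⟨h1, h2, h3⟩ := hlim x y hx hy s t hs ht hst
  refine le_of_tendsto_of_tendsto
    ((h1.rpow_const (Or.inr hs.le)).mul (h2.rpow_const (Or.inr ht.le))) h3 ?_
  filter_upwards [hF] with i hi
  exact hi x y s t hs ht hst

end LogC

namespace LCD

variable {f : (Fin m → ℝ) → ℝ}

theorem integrable (hf : LCD f) : Integrable f := by
  by_contra h
  have := hf.int1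
  rw [integral_undef h] at this
  exact zero_ne_one this

/-- a log-concave density is bounded below on some ball -/
theorem exists_ball (hf : LCD f) :
    ∃ (z : Fin m → ℝ) (r δ : ℝ), 0 < r ∧ 0 < δ ∧ ∀ x ∈ Metric.ball z r, δ ≤ f x := by
  -- some superlevel set has positive measure
  have h1 : ∃ n : ℕ, volume {x | (1 / ((n : ℝ) + 1)) ≤ f x} ≠ 0 := by
    by_contra hcon
    push Not at hcon
    have h2 : volume {x | 0 < f x} = 0 := by
      have : {x | 0 < f x} ⊆ ⋃ n : ℕ, {x | (1 / ((n : ℝ) + 1)) ≤ f x} := by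
        intro x hx
        obtain ⟨n, hn⟩ := exists_nat_one_div_lt (show (0 : ℝ) < f x from hx)
        exact mem_iUnion.mpr ⟨n, hn.le⟩
      exact measure_mono_null this (measure_iUnion_null hcon)
    have h3 : f =ᵐ[volume] 0 := by
      have : ∀ᵐ x, ¬ (0 < f x) := by
        rw [ae_iff]; simpa using h2
      filter_upwards [this] with x hx
      exact le_antisymm (not_lt.mp hx) (hf.nonneg x)
    have h4 := hf.int1
    rw [integral_congr_ae h3] at h4
    simp at h4
  obtain ⟨n, hn⟩ := h1
  set δ : ℝ := 1 / ((n : ℝ) + 1) with hδ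
  have hδ0 : 0 < δ := by positivity
  have hconv := hf.logc.convex_superlevel hδ0
  have hint : (interior {x | δ ≤ f x}).Nonempty := by
    by_contra hemp
    rw [not_nonempty_iff_eq_empty] at hemp
    apply hn
    have : {x | δ ≤ f x} ⊆ frontier {x | δ ≤ f x} := by
      intro x hx
      rw [frontier, hemp, sdiff_empty]
      exact subset_closure hx
    exact measure_mono_null this (hconv.addHaar_frontier _)
  obtain ⟨z, hz⟩ := hint
  obtain ⟨r, hr, hb⟩ := Metric.isOpen_iff.mp isOpen_interior z hz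
  refine ⟨z, r, δ, hr, hδ0, fun x hx => ?_⟩
  have h9 : x ∈ {x | δ ≤ f x} := interior_subset (hb hx)
  exact h9

/-- superlevel sets have finite measure -/
theorem measure_superlevel_lt_top (hf : LCD f) {c : ℝ} (hc : 0 < c) :
    volume {x | c ≤ f x} < ∞ := by
  have := hf.integrable.measure_norm_ge_lt_top hc
  refine lt_of_le_of_lt (measure_mono ?_) this
  intro x hx
  simp only [mem_ofPred_eq, Real.norm_eq_abs] at *
  exact hx.trans (le_abs_self _)

/-- Markov : `c * vol{f ≥ c} ≤ 1` -/
theorem mul_measure_superlevel (hf : LCD f) {c : ℝ} (hc : 0 < c) {S : Set (Fin m → ℝ)}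
    (hS : MeasurableSet S) (h : ∀ x ∈ S, c ≤ f x) : c * (volume S).toReal ≤ 1 := by
  have hfin : volume S < ∞ :=
    lt_of_le_of_lt (measure_mono fun x hx => h x hx) (hf.measure_superlevel_lt_top hc)
  calc c * (volume S).toReal = ∫ _x in S, c := by
        rw [setIntegral_const, smul_eq_mul, mul_comm]; rfl
    _ ≤ ∫ x in S, f x := by
        apply setIntegral_mono_on (integrableOn_const hfin.ne) hf.integrable.integrableOn hS h
    _ ≤ ∫ x, f x := setIntegral_le_integral hf.integrable (ae_of_all _ hf.nonneg)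
    _ = 1 := hf.int1

/-- a log-concave density is bounded -/
theorem bddAbove (hf : LCD f) : ∃ M : ℝ, 0 < M ∧ ∀ x, f x ≤ M := by
  obtain ⟨z, r, δ, hr, hδ, hb⟩ := hf.exists_ball
  set v : ℝ := (volume (Metric.ball (0 : Fin m → ℝ) (r / 2))).toReal with hv
  have hv0 : 0 < v := by
    rw [hv]
    apply ENNReal.toReal_pos
    · exact (Metric.measure_ball_pos _ _ (by positivity)).ne'
    · exact measure_ball_lt_top.ne
  refine ⟨1 / (δ * v ^ 2), by positivity, fun x => ?_⟩
  rcases (hf.nonneg x).lt_or_eq with hx | hx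
  swap
  · rw [← hx]; positivity
  have h1 : ∀ y ∈ Metric.ball ((1 / 2 : ℝ) • x + (1 / 2 : ℝ) • z) (r / 2),
      Real.sqrt (f x) * Real.sqrt δ ≤ f y := by
    intro y hy
    have h2 : y = (1 / 2 : ℝ) • x + (1 / 2 : ℝ) • ((2 : ℝ) • y - x) := by
      rw [smul_sub, smul_smul]; norm_num
    have h3 : (2 : ℝ) • y - x ∈ Metric.ball z r := by
      rw [mem_ball_iff_norm] at hy ⊢
      have : (2 : ℝ) • y - x - z = (2 : ℝ) • (y - ((1 / 2 : ℝ) • x + (1 / 2 : ℝ) • z)) := by
        rw [smul_sub, smul_add, smul_smul, smul_smul]; norm_num; abel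
      rw [this, norm_smul, Real.norm_eq_abs, abs_two]
      linarith
    have h4 := hf.logc x ((2 : ℝ) • y - x) (1 / 2) (1 / 2) (by norm_num) (by norm_num) (by norm_num)
    rw [← h2] at h4
    refine le_trans ?_ h4
    rw [Real.sqrt_eq_rpow, Real.sqrt_eq_rpow]
    apply mul_le_mul_of_nonneg_left _ (Real.rpow_nonneg hx.le _)
    exact Real.rpow_le_rpow hδ.le (hb _ h3) (by norm_num)
  have h5 := hf.mul_measure_superlevel (c := Real.sqrt (f x) * Real.sqrt δ) (by positivity)
    measurableSet_ball h1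
  rw [Measure.addHaar_ball_center] at h5
  have h6 : (Real.sqrt (f x) * Real.sqrt δ * v) ^ 2 ≤ 1 := by
    apply pow_le_one₀ (by positivity) h5
  rw [mul_pow, mul_pow, Real.sq_sqrt hx.le, Real.sq_sqrt hδ.le] at h6
  rw [le_div_iff₀ (by positivity)]
  linarith

end LCD

/-- a convex set of finite measure containing a ball is bounded -/
theorem isBounded_of_convex_of_measure_lt_top {s : Set (Fin m → ℝ)} (hs : Convex ℝ s)
    {z : Fin m → ℝ} {r : ℝ} (hr : 0 < r) (hb : Metric.ball z r ⊆ s) (hfin : volume s < ∞) :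
    Bornology.IsBounded s := by
  by_contra hunb
  -- points far away
  have h1 : ∀ n : ℕ, ∃ x ∈ s, (n : ℝ) < ‖x‖ := by
    intro n
    by_contra hcon
    push Not at hcon
    exact hunb (isBounded_iff_forall_norm_le.mpr ⟨n, hcon⟩)
  choose x hxs hxn using h1
  -- the tail sets
  let A : ℕ → Set (Fin m → ℝ) := fun n => s ∩ {y | (n : ℝ) ≤ 2 * ‖y‖ + ‖z‖ + r}
  have hA : Tendsto (fun n => volume (A n)) atTop (𝓝 (volume (⋂ n, A n))) := by
    apply tendsto_measure_iInter_atTop
    · intro n
      apply NullMeasurableSet.inter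
      · exact hs.nullMeasurableSet _
      · apply MeasurableSet.nullMeasurableSet
        apply measurableSet_le <;> fun_prop
    · intro a b hab y hy
      refine ⟨hy.1, ?_⟩
      have := hy.2
      simp only [mem_ofPred_eq] at *
      have : (a : ℝ) ≤ b := by exact_mod_cast hab
      linarith
    · exact ⟨0, (lt_of_le_of_lt (measure_mono inter_subset_left) hfin).ne⟩
  have hA2 : (⋂ n, A n) = ∅ := by
    rw [eq_empty_iff_forall_notMem]
    intro y hy
    obtain ⟨n, hn⟩ := exists_nat_gt (2 * ‖y‖ + ‖z‖ + r)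
    have := (mem_iInter.mp hy n).2
    simp only [mem_ofPred_eq] at this
    linarith
  rw [hA2, measure_empty] at hA
  have hpos : 0 < volume (Metric.ball (0 : Fin m → ℝ) (r / 2)) :=
    Metric.measure_ball_pos _ _ (by positivity)
  have h2 := (hA.eventually (gt_mem_nhds hpos)).exists
  obtain ⟨n, hn⟩ := h2
  have h3 : Metric.ball ((1 / 2 : ℝ) • x n + (1 / 2 : ℝ) • z) (r / 2) ⊆ A n := by
    intro y hy
    have h2 : y = (1 / 2 : ℝ) • x n + (1 / 2 : ℝ) • ((2 : ℝ) • y - x n) := by
      rw [smul_sub, smul_smul]; norm_num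
    have h3 : (2 : ℝ) • y - x n ∈ Metric.ball z r := by
      rw [mem_ball_iff_norm] at hy ⊢
      have : (2 : ℝ) • y - x n - z = (2 : ℝ) • (y - ((1 / 2 : ℝ) • x n + (1 / 2 : ℝ) • z)) := by
        rw [smul_sub, smul_add, smul_smul, smul_smul]; norm_num; abel
      rw [this, norm_smul, Real.norm_eq_abs, abs_two]
      linarith
    refine ⟨?_, ?_⟩
    · rw [h2]
      exact hs (hxs n) (hb h3) (by norm_num) (by norm_num) (by norm_num)
    · simp only [mem_ofPred_eq]
      have h4 := mem_ball_iff_norm.mp h3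
      have h5 := hxn n
      have h6 : ‖x n‖ ≤ ‖(2 : ℝ) • y‖ + ‖(2 : ℝ) • y - x n - z‖ + ‖z‖ := by
        calc ‖x n‖ = ‖(2 : ℝ) • y - ((2 : ℝ) • y - x n - z) - z‖ := by congr 1; abel
          _ ≤ ‖(2 : ℝ) • y - ((2 : ℝ) • y - x n - z)‖ + ‖z‖ := norm_sub_le _ _
          _ ≤ _ := by gcongr; exact norm_sub_le _ _
      rw [norm_smul, Real.norm_eq_abs, abs_two] at h6
      linarith
  have h4 := measure_mono (μ := volume) h3
  rw [Measure.addHaar_ball_center] at h4
  exact absurd (lt_of_le_of_lt h4 hn) (lt_irrefl _)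

end Crest.Agent.R253.Cpt435
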