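import Crest.Agent.R253.CptA_435

/-!
# R253: compactness of log-concave densities, part B (helper435)

The normal form: every log-concave probability density `f` on `Fin m → ℝ` is affinely equivalent
to a density `g` with `kap m ≤ g` on the open standard simplex and `g u ≤ Cup m * exp (-‖u‖/6)`.
-/

set_option autoImplicit false
open MeasureTheory Set Filter Topology Matrix
open scoped ENNReal NNReal

namespace Crest.Agent.R253.Cpt435

variable {m : ℕ}

/-! ### integrability of `exp (-c ‖u‖)` -/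

theorem pow_mul_exp_neg_le (n : ℕ) {c : ℝ} (hc : 0 < c) (t : ℝ) (ht : 0 ≤ t) :
    (1 + t) ^ n * Real.exp (-c * t) ≤ Real.exp c * (n.factorial : ℝ) / c ^ n := by
  have h1 := Real.pow_div_factorial_le_exp (x := c * (1 + t)) (by positivity) n
  have hn : (0 : ℝ) < n.factorial := by exact_mod_cast n.factorial_pos
  rw [div_le_iff₀ hn, mul_pow] at h1
  rw [le_div_iff₀ (by positivity)]
  have h2 : Real.exp (-c * t) * Real.exp (c * (1 + t)) = Real.exp c := by
    rw [← Real.exp_add]; ring_nf
  calc (1 + t) ^ n * Real.exp (-c * t) * c ^ n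
      = Real.exp (-c * t) * (c ^ n * (1 + t) ^ n) := by ring
    _ ≤ Real.exp (-c * t) * (Real.exp (c * (1 + t)) * n.factorial) := by gcongr
    _ = (Real.exp (-c * t) * Real.exp (c * (1 + t))) * n.factorial := by ring
    _ = _ := by rw [h2]

theorem integrable_exp_neg_norm {c : ℝ} (hc : 0 < c) :
    Integrable (fun u : Fin m → ℝ => Real.exp (-c * ‖u‖)) := by
  have h1 : Integrable (fun x : Fin m → ℝ => (1 + ‖x‖) ^ (-((m : ℝ) + 1))) := by
    apply integrable_one_add_norm
    simp
  set K : ℝ := Real.exp c * ((m + 1).factorial : ℝ) / c ^ (m + 1) with hK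
  refine (h1.const_mul K).mono' (by fun_prop) (ae_of_all _ fun u => ?_)
  have h2 := pow_mul_exp_neg_le (m + 1) hc ‖u‖ (norm_nonneg _)
  rw [Real.norm_eq_abs, abs_of_pos (Real.exp_pos _)]
  have h3 : (0 : ℝ) < 1 + ‖u‖ := by positivity
  rw [Real.rpow_neg h3.le, ← div_eq_mul_inv, le_div_iff₀ (by positivity)]
  have h4 : (1 + ‖u‖) ^ ((m : ℝ) + 1) = (1 + ‖u‖) ^ (m + 1) := by
    rw [← Real.rpow_natCast]; push_cast; rfl
  rw [h4, mul_comm]
  exact h2

theorem integrable_pow_mul_exp_neg_norm (n : ℕ) {c : ℝ} (hc : 0 < c) :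
    Integrable (fun u : Fin m → ℝ => (1 + ‖u‖) ^ n * Real.exp (-c * ‖u‖)) := by
  have h1 := integrable_exp_neg_norm (m := m) (half_pos hc)
  set K : ℝ := Real.exp (c / 2) * (n.factorial : ℝ) / (c / 2) ^ n with hK
  refine (h1.const_mul K).mono' (by fun_prop) (ae_of_all _ fun u => ?_)
  have h2 := pow_mul_exp_neg_le n (half_pos hc) ‖u‖ (norm_nonneg _)
  rw [Real.norm_eq_abs, abs_of_nonneg (by positivity)]
  calc (1 + ‖u‖) ^ n * Real.exp (-c * ‖u‖)
      = ((1 + ‖u‖) ^ n * Real.exp (-(c / 2) * ‖u‖)) * Real.exp (-(c / 2) * ‖u‖) := by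
        rw [mul_assoc, ← Real.exp_add]; ring_nf
    _ ≤ K * Real.exp (-(c / 2) * ‖u‖) := by
        gcongr

/-! ### the normal form -/

/-- open standard simplex -/
def oSimplex (m : ℕ) : Set (Fin m → ℝ) := {u | (∀ i, 0 < u i) ∧ ∑ i, u i < 1}

theorem isOpen_oSimplex : IsOpen (oSimplex m) := by
  have h1 : oSimplex m = (⋂ i, {u : Fin m → ℝ | 0 < u i}) ∩ {u | ∑ i, u i < 1} := by
    ext u; simp [oSimplex]
  rw [h1]
  refine IsOpen.inter (isOpen_iInter_of_finite fun i => ?_) ?_
  · exact isOpen_lt continuous_const (continuous_apply i)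
  · exact isOpen_lt (by fun_prop) continuous_const

theorem oSimplex_nonempty : (oSimplex m).Nonempty := by
  refine ⟨fun _ => 1 / ((m : ℝ) + 1), fun i => by positivity, ?_⟩
  rw [Finset.sum_const, Finset.card_univ, Fintype.card_fin, nsmul_eq_mul, mul_one_div,
    div_lt_one (by positivity)]
  linarith

theorem oSimplex_subset : oSimplex m ⊆ Metric.closedBall 0 1 := by
  intro u hu
  rw [mem_closedBall_zero_iff, pi_norm_le_iff_of_nonneg zero_le_one]
  intro i
  rw [Real.norm_eq_abs, abs_of_pos (hu.1 i)]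
  refine le_trans ?_ hu.2.le
  exact Finset.single_le_sum (fun j _ => (hu.1 j).le) (Finset.mem_univ i)

theorem volume_oSimplex_pos : 0 < (volume (oSimplex m)).toReal := by
  apply ENNReal.toReal_pos
  · exact (isOpen_oSimplex.measure_pos _ oSimplex_nonempty).ne'
  · exact (lt_of_le_of_lt (measure_mono oSimplex_subset) measure_closedBall_lt_top).ne

/-- total mass of the majorant -/
noncomputable def Iup (m : ℕ) : ℝ := ∫ u : Fin m → ℝ, Real.exp (-(1 / 6) * ‖u‖)

theorem Iup_pos : 0 < Iup m := by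
  unfold Iup
  apply integral_exp_pos
  exact integrable_exp_neg_norm (by norm_num)

/-- lower constant -/
noncomputable def kap (m : ℕ) : ℝ := 1 / (Real.exp (3 / 2) * Iup m)

/-- upper constant -/
noncomputable def Cup (m : ℕ) : ℝ := Real.exp (3 / 2) / (volume (oSimplex m)).toReal

theorem kap_pos : 0 < kap m := by
  have := Iup_pos (m := m)
  unfold kap; positivity

theorem Cup_pos : 0 < Cup m := by
  have := volume_oSimplex_pos (m := m)
  unfold Cup; positivity

/-- densities in normal form -/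
structure NF (g : (Fin m → ℝ) → ℝ) : Prop extends LCD g where
  lower : ∀ u ∈ oSimplex m, kap m ≤ g u
  upper : ∀ u, g u ≤ Cup m * Real.exp (-(1 / 6) * ‖u‖)

/-! ### change of variables -/

theorem integral_comp_affine (f : (Fin m → ℝ) → ℝ) (hf : Measurable f)
    (T : Matrix (Fin m) (Fin m) ℝ) (hT : T.det ≠ 0)
    (b : Fin m → ℝ) : ∫ u, |T.det| * f (b + T.mulVec u) = ∫ x, f x := by
  have h1 := Real.map_matrix_volume_pi_eq_smul_volume_pi hT
  have h2 : ∫ x, f (b + x) ∂(Measure.map (toLin' T) volume) = ∫ u, f (b + T.mulVec u) := by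
    rw [integral_map]
    · simp
    · exact (LinearMap.continuous_of_finiteDimensional (toLin' T)).measurable.aemeasurable
    · exact (hf.comp (measurable_const_add b)).aestronglyMeasurable
  rw [h1, integral_smul_measure, integral_add_left_eq_self] at h2
  rw [integral_const_mul, ← h2, smul_eq_mul, ENNReal.toReal_ofReal (abs_nonneg _), ← mul_assoc,
    ← abs_mul, mul_inv_cancel₀ hT, abs_one, one_mul]

namespace LCD

variable {f : (Fin m → ℝ) → ℝ}

/-- affine images of log-concave densities -/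
theorem comp_affine (hf : LCD f) (T : Matrix (Fin m) (Fin m) ℝ) (hT : T.det ≠ 0)
    (b : Fin m → ℝ) : LCD (fun u => |T.det| * f (b + T.mulVec u)) where
  meas := by
    have h1 : Measurable fun u : Fin m → ℝ => b + T.mulVec u := by
      have : Continuous fun u : Fin m → ℝ => b + T.mulVec u := by fun_prop
      exact this.measurable
    exact (hf.meas.comp h1).const_mul _
  nonneg u := mul_nonneg (abs_nonneg _) (hf.nonneg _)
  logc := by
    apply LogC.const_mul (abs_nonneg _) (fun u => hf.nonneg _)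
    exact hf.logc.comp_affine (toLin' T) b
  int1 := by rw [integral_comp_affine f hf.meas T hT b, hf.int1]

end LCD

/-- scalar computation for the decay -/
theorem decay_scalar {M F0 Fu Fy τ : ℝ} (hM : 0 < M) (hτ : 0 < τ) (hτ1 : τ < 1)
    (h0 : M * Real.exp (-(1 / 2)) ≤ F0) (hy : Fy < M * Real.exp (-1)) (hu : 0 ≤ Fu)
    (h : F0 ^ (1 - τ) * Fu ^ τ ≤ Fy) : Fu ≤ M * Real.exp (-(1 / (2 * τ))) := by
  rcases hu.lt_or_eq with hu | hu
  swap
  · rw [← hu]; positivity
  have hF0 : 0 < F0 := lt_of_lt_of_le (by positivity) h0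
  have h1 : 0 < F0 ^ (1 - τ) * Fu ^ τ := by positivity
  have h2 := Real.log_lt_log h1 (lt_of_le_of_lt h hy)
  have h3 := Real.log_le_log (by positivity) h0
  rw [Real.log_mul (by positivity) (by positivity), Real.log_rpow hF0, Real.log_rpow hu,
    Real.log_mul hM.ne' (Real.exp_pos _).ne', Real.log_exp] at h2
  rw [Real.log_mul hM.ne' (Real.exp_pos _).ne', Real.log_exp] at h3
  have h4 : (1 - τ) * (Real.log M + -(1 / 2)) ≤ (1 - τ) * Real.log F0 :=
    mul_le_mul_of_nonneg_left h3 (by linarith)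
  have h5 : τ * (Real.log Fu - Real.log M) ≤ -(1 / 2) := by nlinarith
  have h6 : Real.log Fu - Real.log M ≤ -(1 / (2 * τ)) := by
    have : -(1 / (2 * τ)) = -(1 / 2) / τ := by field_simp
    rw [this, le_div_iff₀ hτ]
    linarith
  calc Fu = Real.exp (Real.log Fu) := (Real.exp_log hu).symm
    _ ≤ Real.exp (Real.log M + -(1 / (2 * τ))) := by
        apply Real.exp_le_exp.mpr; linarith
    _ = _ := by rw [Real.exp_add, Real.exp_log hM]

/-- some `ρ ∈ (0, r)` makes `ρ I + a 1ᵀ` invertible -/
theorem exists_det_ne_zero (a : Fin m → ℝ) {r : ℝ} (hr : 0 < r) :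
    ∃ ρ : ℝ, 0 < ρ ∧ ρ < r ∧
      (Matrix.of fun i j : Fin m => a i + if i = j then ρ else 0).det ≠ 0 := by
  set B : Matrix (Fin m) (Fin m) ℝ := -(Matrix.of fun i _ => a i) with hB
  have h1 : B.charpoly ≠ 0 := B.charpoly_monic.ne_zero
  have h2 : {x | B.charpoly.IsRoot x}.Finite := Polynomial.finite_setOf_isRoot h1
  have h3 : (Ioo 0 r).Infinite := Ioo_infinite hr
  obtain ⟨ρ, hρ, hρ2⟩ := h3.exists_notMem_finite h2
  refine ⟨ρ, hρ.1, hρ.2, ?_⟩
  have h4 : B.charpoly.eval ρ ≠ 0 := hρ2
  rw [Matrix.eval_charpoly] at h4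
  convert h4 using 2
  ext i j
  simp only [hB, Matrix.of_apply, Matrix.sub_apply, Matrix.neg_apply, Matrix.scalar_apply,
    Matrix.diagonal_apply]
  ring

/-- **Normal form theorem**: every log-concave density is affinely equivalent to one in `NF`. -/
theorem LCD.exists_normal_form {f : (Fin m → ℝ) → ℝ} (hf : LCD f) :
    ∃ (T : Matrix (Fin m) (Fin m) ℝ) (b : Fin m → ℝ), T.det ≠ 0 ∧
      NF (fun u => |T.det| * f (b + T.mulVec u)) := by
  classical
  -- the sup
  obtain ⟨M0, hM0, hfM0⟩ := hf.bddAbove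
  have hbdd : BddAbove (range f) := ⟨M0, by rintro _ ⟨x, rfl⟩; exact hfM0 x⟩
  set M : ℝ := sSup (range f) with hMdef
  have hfM : ∀ x, f x ≤ M := fun x => le_csSup hbdd ⟨x, rfl⟩
  obtain ⟨z, r, δ, hr, hδ, hball⟩ := hf.exists_ball
  have hM : 0 < M := by
    have h1 := hball z (Metric.mem_ball_self hr)
    linarith [hfM z]
  -- near maximum point
  obtain ⟨z0, hz0⟩ : ∃ z0, M * Real.exp (-(1 / 2)) < f z0 := by
    have : M * Real.exp (-(1 / 2)) < sSup (range f) := by
      rw [← hMdef]
      have : Real.exp (-(1 / 2)) < 1 := by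
        rw [Real.exp_lt_one_iff]; norm_num
      nlinarith
    obtain ⟨_, ⟨x, rfl⟩, hx⟩ := exists_lt_of_lt_csSup (range_nonempty f) this
    exact ⟨x, hx⟩
  have he : Real.exp (-1) < Real.exp (-(1 / 2)) := Real.exp_lt_exp.mpr (by norm_num)
  set K : Set (Fin m → ℝ) := {x | M * Real.exp (-1) ≤ f x} with hKdef
  have hc0 : 0 < M * Real.exp (-1) := by positivity
  have hz0K : z0 ∈ K := by
    have : M * Real.exp (-1) ≤ M * Real.exp (-(1 / 2)) := by gcongr
    exact this.trans hz0.le
  have hKconv : Convex ℝ K := hf.logc.convex_superlevel hc0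
  have hKfin : volume K < ∞ := hf.measure_superlevel_lt_top hc0
  -- K contains a ball
  obtain ⟨z', r', hr', hball'⟩ : ∃ z' r', 0 < r' ∧ Metric.ball z' r' ⊆ K := by
    have hlim : Tendsto (fun t : ℝ => (M * Real.exp (-(1 / 2))) ^ (1 - t) * δ ^ t) (𝓝[>] 0)
        (𝓝 (M * Real.exp (-(1 / 2)))) := by
      have h1 : ContinuousAt (fun t : ℝ => (M * Real.exp (-(1 / 2))) ^ (1 - t) * δ ^ t) 0 := by
        apply ContinuousAt.mul
        · apply ContinuousAt.rpow
          · exact continuousAt_const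
          · fun_prop
          · left; positivity
        · apply ContinuousAt.rpow
          · exact continuousAt_const
          · fun_prop
          · left; exact hδ.ne'
      have h2 := h1.tendsto
      simp only [sub_zero, Real.rpow_one, Real.rpow_zero, mul_one] at h2
      exact h2.mono_left nhdsWithin_le_nhds
    have h1 : ∀ᶠ t in 𝓝[>] (0 : ℝ), M * Real.exp (-1) <
        (M * Real.exp (-(1 / 2))) ^ (1 - t) * δ ^ t :=
      hlim.eventually (lt_mem_nhds (by gcongr))
    have h2 : ∀ᶠ t in 𝓝[>] (0 : ℝ), t ∈ Ioo (0 : ℝ) 1 :=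
      Ioo_mem_nhdsGT (by norm_num)
    obtain ⟨t, ht1, ht0, ht1'⟩ := (h1.and h2).exists
    refine ⟨(1 - t) • z0 + t • z, t * r, by positivity, ?_⟩
    intro y hy
    have h3 : y = (1 - t) • z0 + t • (t⁻¹ • (y - (1 - t) • z0)) := by
      rw [smul_smul, mul_inv_cancel₀ ht0.ne', one_smul]; abel
    have h4 : t⁻¹ • (y - (1 - t) • z0) ∈ Metric.ball z r := by
      rw [mem_ball_iff_norm] at hy ⊢
      have h5 : t⁻¹ • (y - (1 - t) • z0) - z = t⁻¹ • (y - ((1 - t) • z0 + t • z)) := by
        rw [smul_sub, smul_sub, smul_add, smul_smul t⁻¹ t, inv_mul_cancel₀ ht0.ne', one_smul]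
        abel
      rw [h5, norm_smul, norm_inv, Real.norm_eq_abs, abs_of_pos ht0, inv_mul_lt_iff₀ ht0]
      exact hy
    have h6 := hf.logc z0 (t⁻¹ • (y - (1 - t) • z0)) (1 - t) t (by linarith) ht0 (by ring)
    rw [← h3] at h6
    have h7 : (M * Real.exp (-(1 / 2))) ^ (1 - t) * δ ^ t ≤
        f z0 ^ (1 - t) * f (t⁻¹ • (y - (1 - t) • z0)) ^ t := by
      apply mul_le_mul
      · exact Real.rpow_le_rpow (by positivity) hz0.le (by linarith)
      · exact Real.rpow_le_rpow hδ.le (hball _ h4) ht0.le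
      · positivity
      · exact Real.rpow_nonneg (hf.nonneg _) _
    exact (ht1.le.trans h7).trans h6
  have hKbdd : Bornology.IsBounded K :=
    isBounded_of_convex_of_measure_lt_top hKconv hr' hball' hKfin
  obtain ⟨R, hR⟩ := isBounded_iff_forall_norm_le.mp hKbdd
  -- the determinant functional
  let D : (Fin m → Fin m → ℝ) → ℝ := fun w => |(Matrix.of fun i j => w j i).det|
  let S : Set (Fin m → Fin m → ℝ) := {w | ∀ j, z0 + w j ∈ K}
  have hDcont : Continuous D := by
    apply Continuous.abs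
    apply Continuous.matrix_det
    fun_prop
  have hSbdd : BddAbove (D '' S) := by
    have hcomp : IsCompact (Metric.closedBall (0 : Fin m → Fin m → ℝ) (R + ‖z0‖)) :=
      isCompact_closedBall _ _
    have h1 := hcomp.bddAbove_image hDcont.continuousOn
    refine h1.mono (image_mono ?_)
    intro w hw
    have hR0 : 0 ≤ R := (norm_nonneg _).trans (hR z0 hz0K)
    rw [mem_closedBall_zero_iff, pi_norm_le_iff_of_nonneg (by positivity)]
    intro j
    have h2 := hR _ (hw j)
    calc ‖w j‖ = ‖(z0 + w j) - z0‖ := by congr 1; abel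
      _ ≤ ‖z0 + w j‖ + ‖z0‖ := norm_sub_le _ _
      _ ≤ R + ‖z0‖ := by linarith
  obtain ⟨w1, hw1S, hw1⟩ : ∃ w1 ∈ S, 0 < D w1 := by
    obtain ⟨ρ, hρ0, hρr, hρ⟩ := exists_det_ne_zero (z' - z0) hr'
    refine ⟨fun j i => (z' - z0) i + if i = j then ρ else 0, ?_, ?_⟩
    · intro j
      apply hball'
      rw [mem_ball_iff_norm]
      have h1 : z0 + (fun i => (z' - z0) i + if i = j then ρ else 0) - z' =
          fun i => if i = j then ρ else 0 := by
        ext i; simp only [Pi.add_apply, Pi.sub_apply]; ring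
      rw [h1]
      refine lt_of_le_of_lt ?_ hρr
      rw [pi_norm_le_iff_of_nonneg hρ0.le]
      intro i
      split_ifs
      · rw [Real.norm_eq_abs, abs_of_pos hρ0]
      · simpa using hρ0.le
    · exact abs_pos.mpr hρ
  have hSne : (D '' S).Nonempty := ⟨_, mem_image_of_mem _ hw1S⟩
  set sS : ℝ := sSup (D '' S) with hsS
  have hsS0 : 0 < sS := lt_of_lt_of_le hw1 (le_csSup hSbdd (mem_image_of_mem _ hw1S))
  obtain ⟨w, hwS, hw⟩ : ∃ w ∈ S, sS / 2 < D w := by
    have : sS / 2 < sSup (D '' S) := by rw [← hsS]; linarith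
    obtain ⟨_, ⟨w, hwS, rfl⟩, hw⟩ := exists_lt_of_lt_csSup hSne this
    exact ⟨w, hwS, hw⟩
  set T : Matrix (Fin m) (Fin m) ℝ := Matrix.of fun i j => w j i with hT
  have hDT : D w = |T.det| := rfl
  have hTdet : 0 < |T.det| := by rw [← hDT]; linarith
  have hTdet0 : T.det ≠ 0 := abs_pos.mp hTdet
  -- Cramer
  have hcoord : ∀ u : Fin m → ℝ, z0 + T.mulVec u ∈ K → ‖u‖ ≤ 2 := by
    intro u hu
    rw [pi_norm_le_iff_of_nonneg (by norm_num)]
    intro i
    have h1 : T.det • T⁻¹ *ᵥ (T.mulVec u) = cramer T (T.mulVec u) :=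
      det_smul_inv_mulVec_eq_cramer T _ (isUnit_iff_ne_zero.mpr hTdet0)
    rw [mulVec_mulVec, nonsing_inv_mul _ (isUnit_iff_ne_zero.mpr hTdet0), one_mulVec] at h1
    have h2 := congrFun h1 i
    rw [cramer_apply] at h2
    have h3 : (T.updateCol i (T.mulVec u)) =
        Matrix.of fun a b => (Function.update w i (T.mulVec u)) b a := by
      ext a b
      rw [updateCol_apply, of_apply, Function.update_apply]
      by_cases hb : b = i
      · simp [hb]
      · simp [hb, hT]
    have h4 : Function.update w i (T.mulVec u) ∈ S := by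
      intro j
      by_cases hj : j = i
      · subst hj; simpa using hu
      · rw [Function.update_of_ne hj]; exact hwS j
    have h5 : D (Function.update w i (T.mulVec u)) ≤ sS :=
      le_csSup hSbdd (mem_image_of_mem _ h4)
    have h6 : |T.det| * |u i| ≤ sS := by
      rw [← abs_mul]
      have : T.det * u i = (T.updateCol i (T.mulVec u)).det := by
        rw [← h2]; simp
      rw [this, h3]
      exact h5
    rw [Real.norm_eq_abs]
    have h7 : |T.det| * |u i| < 2 * |T.det| := by
      rw [← hDT] at h6 ⊢; linarith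
    nlinarith [abs_nonneg (u i)]
  -- F
  set F : (Fin m → ℝ) → ℝ := fun u => f (z0 + T.mulVec u) with hF
  have hFlogc : LogC F := hf.logc.comp_affine (toLin' T) z0
  have hF0 : M * Real.exp (-(1 / 2)) ≤ F 0 := by
    simp only [hF, mulVec_zero, add_zero]; exact hz0.le
  have hFnn : ∀ u, 0 ≤ F u := fun u => hf.nonneg _
  have hFdecay : ∀ u, F u ≤ M * Real.exp (1 / 2) * Real.exp (-(1 / 6) * ‖u‖) := by
    intro u
    rcases le_or_gt ‖u‖ 3 with hu | hu
    · calc F u ≤ M * 1 := by rw [mul_one]; exact hfM _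
        _ ≤ M * Real.exp (1 / 2 + -(1 / 6) * ‖u‖) := by
            gcongr
            apply Real.one_le_exp; linarith
        _ = _ := by rw [Real.exp_add, mul_assoc]
    · set τ : ℝ := 3 / ‖u‖ with hτ
      have hu0 : 0 < ‖u‖ := by linarith
      have hτ0 : 0 < τ := by positivity
      have hτ1 : τ < 1 := by rw [hτ, div_lt_one hu0]; exact hu
      have h1 := hFlogc 0 u (1 - τ) τ (by linarith) hτ0 (by ring)
      rw [smul_zero, zero_add] at h1
      have h2 : F (τ • u) < M * Real.exp (-1) := by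
        by_contra hcon
        push Not at hcon
        have h3 := hcoord (τ • u) hcon
        rw [norm_smul, Real.norm_eq_abs, abs_of_pos hτ0, hτ, div_mul_cancel₀ _ hu0.ne'] at h3
        linarith
      have h3 := decay_scalar hM hτ0 hτ1 hF0 h2 (hFnn u) h1
      refine h3.trans ?_
      rw [mul_assoc, ← Real.exp_add]
      gcongr
      have : -(1 / (2 * τ)) = -(1 / 6) * ‖u‖ := by
        rw [hτ]; field_simp; norm_num
      rw [this]; linarith
  have hFlower : ∀ u ∈ oSimplex m, M * Real.exp (-1) ≤ F u := by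
    intro u hu
    have hconvF : Convex ℝ {u | M * Real.exp (-1) ≤ F u} := hFlogc.convex_superlevel hc0
    have h0mem : (0 : Fin m → ℝ) ∈ {u | M * Real.exp (-1) ≤ F u} := by
      refine le_trans ?_ hF0
      gcongr
    have hemem : ∀ j, (Pi.single j (1 : ℝ)) ∈ {u | M * Real.exp (-1) ≤ F u} := by
      intro j
      have h1 : T.mulVec (Pi.single j (1 : ℝ)) = w j := by
        rw [mulVec_single_one]; ext i; simp [hT]
      have h2 : F (Pi.single j 1) = f (z0 + w j) := by
        simp only [hF]; rw [h1]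
      change M * Real.exp (-1) ≤ F (Pi.single j 1)
      rw [h2]; exact hwS j
    let pts : Option (Fin m) → (Fin m → ℝ) := fun o => o.elim 0 (fun j => Pi.single j 1)
    let wts : Option (Fin m) → ℝ := fun o => o.elim (1 - ∑ i, u i) u
    have h1 : ∑ o, wts o • pts o = u := by
      rw [Fintype.sum_option]
      simp only [wts, pts, Option.elim, smul_zero, zero_add]
      ext i
      simp [Finset.sum_apply, Pi.single_apply]
    have h2 : ∑ o, wts o • pts o ∈ {u | M * Real.exp (-1) ≤ F u} := by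
      apply hconvF.sum_mem
      · intro o _
        rcases o with _ | j
        · simp only [wts, Option.elim]; linarith [hu.2]
        · simp only [wts, Option.elim]; exact (hu.1 j).le
      · rw [Fintype.sum_option]; simp [wts]
      · intro o _
        rcases o with _ | j
        · exact h0mem
        · exact hemem j
    rw [h1] at h2
    exact h2
  -- conclusion
  have hg : LCD (fun u => |T.det| * f (z0 + T.mulVec u)) := hf.comp_affine T hTdet0 z0
  set κ : ℝ := |T.det| * (M * Real.exp (-1)) with hκ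
  have hκ0 : 0 < κ := by positivity
  have hup1 : ∀ u, |T.det| * f (z0 + T.mulVec u) ≤
      κ * Real.exp (3 / 2) * Real.exp (-(1 / 6) * ‖u‖) := by
    intro u
    have h1 := hFdecay u
    have h2 : κ * Real.exp (3 / 2) = |T.det| * (M * Real.exp (1 / 2)) := by
      rw [hκ, mul_assoc, mul_assoc, ← Real.exp_add]; norm_num
    rw [h2, mul_assoc]
    exact mul_le_mul_of_nonneg_left h1 (abs_nonneg _)
  have hlow1 : ∀ u ∈ oSimplex m, κ ≤ |T.det| * f (z0 + T.mulVec u) := by
    intro u hu
    exact mul_le_mul_of_nonneg_left (hFlower u hu) (abs_nonneg _)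
  have hκ1 : κ * (volume (oSimplex m)).toReal ≤ 1 :=
    hg.mul_measure_superlevel hκ0 isOpen_oSimplex.measurableSet hlow1
  have hκ2 : 1 ≤ κ * Real.exp (3 / 2) * Iup m := by
    rw [← hg.int1, Iup, ← integral_const_mul]
    apply integral_mono hg.integrable
    · exact (integrable_exp_neg_norm (by norm_num)).const_mul _
    · intro u; exact hup1 u
  refine ⟨T, z0, hTdet0, ⟨hg, ?_, ?_⟩⟩
  · intro u hu
    refine le_trans ?_ (hlow1 u hu)
    have h1 := Iup_pos (m := m)
    rw [kap, div_le_iff₀ (by positivity)]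
    linarith
  · intro u
    refine (hup1 u).trans ?_
    have h1 := volume_oSimplex_pos (m := m)
    have h2 : κ * Real.exp (3 / 2) ≤ Cup m := by
      rw [Cup, le_div_iff₀ h1]
      calc κ * Real.exp (3 / 2) * (volume (oSimplex m)).toReal
          = Real.exp (3 / 2) * (κ * (volume (oSimplex m)).toReal) := by ring
        _ ≤ Real.exp (3 / 2) * 1 := by gcongr
        _ = _ := mul_one _
    gcongr

end Crest.Agent.R253.Cpt435
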