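import Crest.Agent.R253.CptB_435

/-!
# R253: compactness of log-concave densities, part C (helper435)

Selection theorem: a sequence of log-concave functions with a common exponential majorant and a
common lower bound on a nonempty open set has a subsequence converging a.e. (pointwise and
positively on an open convex set `U`, to `0` off the closure of `U`).
-/

set_option autoImplicit false
open MeasureTheory Set Filter Topology
open scoped ENNReal NNReal

namespace Crest.Agent.R253.Cpt435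

variable {m : ℕ}

/-- rational points -/
def ratPt (q : Fin m → ℚ) : Fin m → ℝ := fun i => (q i : ℝ)

theorem denseRange_ratPt : DenseRange (ratPt : (Fin m → ℚ) → (Fin m → ℝ)) :=
  DenseRange.piMap (fun _ => Rat.denseRange_cast)

/-- diagonal extraction on the rational points -/
theorem exists_subseq_rat (g : ℕ → (Fin m → ℝ) → ℝ) {C : ℝ} (h0 : ∀ k x, 0 ≤ g k x)
    (hC : ∀ k x, g k x ≤ C) :
    ∃ φ : ℕ → ℕ, StrictMono φ ∧ ∃ a : (Fin m → ℚ) → ℝ,
      ∀ q, Tendsto (fun k => g (φ k) (ratPt q)) atTop (𝓝 (a q)) := by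
  have hcomp : IsCompact (Set.univ.pi (fun _ : Fin m → ℚ => Icc (0 : ℝ) C)) :=
    isCompact_univ_pi (fun _ => isCompact_Icc)
  obtain ⟨a, _, φ, hφ, hlim⟩ := hcomp.tendsto_subseq
    (x := fun k => fun q => g k (ratPt q)) (fun k q _ => ⟨h0 _ _, hC _ _⟩)
  refine ⟨φ, hφ, a, fun q => ?_⟩
  exact (tendsto_pi_nhds.mp hlim) q

/-- a convex set containing the vertices of a box contains the box -/
theorem Icc_subset_of_vertices {S : Set (Fin m → ℝ)} (hS : Convex ℝ S) (a b : Fin m → ℝ)
    (h : ∀ v : Fin m → ℝ, (∀ i, v i = a i ∨ v i = b i) → v ∈ S) (hab : ∀ i, a i ≤ b i) :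
    Icc a b ⊆ S := by
  have h1 : Set.univ.pi (fun i => ({a i, b i} : Set ℝ)) ⊆ S := by
    intro v hv
    exact h v (fun i => by simpa using hv i (mem_univ i))
  have h2 := convexHull_min h1 hS
  rw [convexHull_pi] at h2
  refine Subset.trans ?_ h2
  intro x hx
  intro i _
  simp only [convexHull_pair, segment_eq_Icc (hab i)]
  exact ⟨hx.1 i, hx.2 i⟩

section seq

variable (g : ℕ → (Fin m → ℝ) → ℝ)

/-- the set of points where the sequence is eventually locally bounded below -/
def limU : Set (Fin m → ℝ) :=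
  {x | ∃ ε > 0, ∃ r > 0, ∀ᶠ k in atTop, ∀ y ∈ Metric.ball x r, ε ≤ g k y}

theorem isOpen_limU : IsOpen (limU g) := by
  rw [Metric.isOpen_iff]
  rintro x ⟨ε, hε, r, hr, h⟩
  refine ⟨r / 2, by positivity, ?_⟩
  intro x' hx'
  refine ⟨ε, hε, r / 2, by positivity, ?_⟩
  filter_upwards [h] with k hk y hy
  apply hk
  rw [Metric.mem_ball] at *
  have := dist_triangle y x' x
  linarith

theorem convex_limU (hlc : ∀ k, LogC (g k)) : Convex ℝ (limU g) := by
  rw [convex_iff_forall_pos]
  rintro x ⟨ε, hε, r, hr, h⟩ x' ⟨ε', hε', r', hr', h'⟩ s t hs ht hst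
  refine ⟨min ε ε', lt_min hε hε', min r r', lt_min hr hr', ?_⟩
  filter_upwards [h, h'] with k hk hk' y hy
  set v := y - (s • x + t • x') with hv
  have h1 : y = s • (x + v) + t • (x' + v) := by
    have : v = s • v + t • v := by rw [← add_smul, hst, one_smul]
    rw [smul_add, smul_add]
    calc y = (s • x + t • x') + v := by rw [hv]; abel
      _ = (s • x + t • x') + (s • v + t • v) := by rw [← this]
      _ = _ := by abel
  have hvn : ‖v‖ < min r r' := by rw [hv, ← mem_ball_iff_norm]; exact hy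
  have h2 : x + v ∈ {z | min ε ε' ≤ g k z} := by
    change min ε ε' ≤ g k (x + v)
    refine (min_le_left _ _).trans (hk _ ?_)
    rw [mem_ball_iff_norm, add_sub_cancel_left]
    exact lt_of_lt_of_le hvn (min_le_left _ _)
  have h3 : x' + v ∈ {z | min ε ε' ≤ g k z} := by
    change min ε ε' ≤ g k (x' + v)
    refine (min_le_right _ _).trans (hk' _ ?_)
    rw [mem_ball_iff_norm, add_sub_cancel_left]
    exact lt_of_lt_of_le hvn (min_le_right _ _)
  have h4 := (hlc k).convex_superlevel (lt_min hε hε') h2 h3 hs.le ht.le hst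
  rw [← h1] at h4
  exact h4

theorem subset_limU {W : Set (Fin m → ℝ)} (hW : IsOpen W) {κ : ℝ} (hκ : 0 < κ)
    (hlow : ∀ k, ∀ x ∈ W, κ ≤ g k x) : W ⊆ limU g := by
  intro x hx
  obtain ⟨r, hr, hb⟩ := Metric.isOpen_iff.mp hW x hx
  exact ⟨κ, hκ, r, hr, Eventually.of_forall fun k y hy => hlow k y (hb hy)⟩

variable {g}

/-- log-Lipschitz bound on half balls -/
theorem log_lipschitz {f : (Fin m → ℝ) → ℝ} (hlc : LogC f) {x : Fin m → ℝ} {r ε C : ℝ}
    (hr : 0 < r) (hε : 0 < ε) (hlow : ∀ y ∈ Metric.ball x r, ε ≤ f y) (hC : ∀ y, f y ≤ C) :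
    LipschitzOnWith (2 * (|Real.log ε| + |Real.log C|) / (r / 2)).toNNReal
      (fun y => Real.log (f y)) (Metric.ball x (r / 2)) := by
  have h1 : ConcaveOn ℝ (Metric.ball x r) (fun y => Real.log (f y)) := by
    refine hlc.concaveOn_log.subset ?_ (convex_ball x r)
    intro y hy
    exact lt_of_lt_of_le hε (hlow y hy)
  have h2 := h1.lipschitzOnWith_of_abs_le (half_pos hr)
    (M := |Real.log ε| + |Real.log C|) ?_
  · have h3 : r - r / 2 = r / 2 := by ring
    rw [h3] at h2
    exact h2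
  · intro y hy
    have hy' : ε ≤ f y := hlow y hy
    have hfy : 0 < f y := lt_of_lt_of_le hε hy'
    have h3 := Real.log_le_log hε hy'
    have h4 := Real.log_le_log hfy (hC y)
    rw [abs_le]
    constructor
    · have := neg_abs_le (Real.log ε)
      have := abs_nonneg (Real.log C)
      linarith
    · have := le_abs_self (Real.log C)
      have := abs_nonneg (Real.log ε)
      linarith

/-- pointwise convergence on `limU` -/
theorem tendsto_on_limU (hlc : ∀ k, LogC (g k)) {C : ℝ} (hC : ∀ k x, g k x ≤ C)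
    {a : (Fin m → ℚ) → ℝ} (ha : ∀ q, Tendsto (fun k => g k (ratPt q)) atTop (𝓝 (a q)))
    {x : Fin m → ℝ} (hx : x ∈ limU g) :
    ∃ l, 0 < l ∧ Tendsto (fun k => g k x) atTop (𝓝 l) := by
  obtain ⟨ε, hε, r, hr, hev⟩ := hx
  have hev' : ∀ᶠ k in atTop, ∀ y ∈ Metric.ball x r, ε ≤ g k y := hev
  set L : ℝ≥0 := (2 * (|Real.log ε| + |Real.log C|) / (r / 2)).toNNReal with hL
  have hcauchy : CauchySeq (fun k => Real.log (g k x)) := by
    rw [Metric.cauchySeq_iff]
    intro δ hδ
    -- choose rational q near x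
    obtain ⟨y, hy, q, rfl⟩ : ∃ y, y ∈ Metric.ball x (min (r / 2) (δ / (4 * (L + 1)))) ∧
        ∃ q, ratPt q = y := by
      have hpos : 0 < min (r / 2) (δ / (4 * (L + 1))) := by positivity
      obtain ⟨q, hq⟩ := denseRange_ratPt.exists_mem_open Metric.isOpen_ball
        ⟨x, Metric.mem_ball_self hpos⟩
      exact ⟨_, hq, _, rfl⟩
    have hqr : ratPt q ∈ Metric.ball x (r / 2) :=
      Metric.ball_subset_ball (min_le_left _ _) hy
    have hqr' : ratPt q ∈ Metric.ball x r :=
      Metric.ball_subset_ball (by linarith) hqr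
    have hqd : dist (ratPt q) x < δ / (4 * (L + 1)) :=
      lt_of_lt_of_le (Metric.mem_ball.mp hy) (min_le_right _ _)
    have haq : ε ≤ a q := by
      refine ge_of_tendsto (ha q) ?_
      filter_upwards [hev'] with k hk
      exact hk _ hqr'
    have hlogq : CauchySeq (fun k => Real.log (g k (ratPt q))) :=
      ((Real.continuousAt_log (lt_of_lt_of_le hε haq).ne').tendsto.comp (ha q)).cauchySeq
    rw [Metric.cauchySeq_iff] at hlogq
    obtain ⟨N1, hN1⟩ := hlogq (δ / 2) (by positivity)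
    obtain ⟨N2, hN2⟩ := eventually_atTop.mp hev'
    have hclose : ∀ k ≥ N2, dist (Real.log (g k x)) (Real.log (g k (ratPt q))) < δ / 4 := by
      intro k hk
      have h1 := (log_lipschitz (hlc k) hr hε (hN2 k hk) (hC k)).dist_le_mul x
        (Metric.mem_ball_self (half_pos hr)) (ratPt q) hqr
      refine lt_of_le_of_lt h1 ?_
      rw [← hL, dist_comm]
      calc (L : ℝ) * dist (ratPt q) x ≤ L * (δ / (4 * (L + 1))) := by gcongr
        _ < (L + 1) * (δ / (4 * (L + 1))) := by
            gcongr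
            linarith
        _ = δ / 4 := by
            have : (L : ℝ) + 1 ≠ 0 := by positivity
            field_simp
    refine ⟨max N1 N2, fun k hk l hl => ?_⟩
    have h1 := hclose k (le_of_max_le_right hk)
    have h2 := hclose l (le_of_max_le_right hl)
    have h3 := hN1 k (le_of_max_le_left hk) l (le_of_max_le_left hl)
    have h4 := dist_triangle4 (Real.log (g k x)) (Real.log (g k (ratPt q)))
      (Real.log (g l (ratPt q))) (Real.log (g l x))
    rw [dist_comm (Real.log (g l (ratPt q))) (Real.log (g l x))] at h4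
    linarith
  obtain ⟨l, hl⟩ := cauchySeq_tendsto_of_complete hcauchy
  refine ⟨Real.exp l, Real.exp_pos l, ?_⟩
  have h1 := (Real.continuous_exp.tendsto l).comp hl
  refine h1.congr' ?_
  filter_upwards [hev'] with k hk
  simp only [Function.comp_apply]
  exact Real.exp_log (lt_of_lt_of_le hε (hk x (Metric.mem_ball_self hr)))

/-- rational box around a point inside a ball -/
theorem exists_rat_box (p : Fin m → ℝ) {r : ℝ} (hr : 0 < r) :
    ∃ a b : Fin m → ℚ, (∀ i, (a i : ℝ) < p i ∧ p i < (b i : ℝ)) ∧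
      Icc (ratPt a) (ratPt b) ⊆ Metric.ball p r := by
  have h1 : ∀ i, ∃ a : ℚ, p i - r / 2 < a ∧ (a : ℝ) < p i :=
    fun i => exists_rat_btwn (by linarith)
  have h2 : ∀ i, ∃ b : ℚ, p i < b ∧ (b : ℝ) < p i + r / 2 :=
    fun i => exists_rat_btwn (by linarith)
  choose a ha using h1
  choose b hb using h2
  refine ⟨a, b, fun i => ⟨(ha i).2, (hb i).1⟩, ?_⟩
  intro y hy
  rw [Metric.mem_ball]
  refine lt_of_le_of_lt ((dist_pi_le_iff (by positivity)).mpr (fun i => ?_)) (half_lt_self hr)
  have h3 := hy.1 i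
  have h4 := hy.2 i
  simp only [ratPt] at h3 h4
  rw [Real.dist_eq, abs_le]
  constructor <;> linarith [(ha i).1, (hb i).2]

/-- convergence to `0` outside the closure of `limU` -/
theorem tendsto_zero_off (hlc : ∀ k, LogC (g k)) (h0 : ∀ k x, 0 ≤ g k x)
    {W : Set (Fin m → ℝ)} (hW : IsOpen W) (hWne : W.Nonempty) {κ : ℝ} (hκ : 0 < κ)
    (hlow : ∀ k, ∀ x ∈ W, κ ≤ g k x)
    {a : (Fin m → ℚ) → ℝ} (ha : ∀ q, Tendsto (fun k => g k (ratPt q)) atTop (𝓝 (a q)))
    {x : Fin m → ℝ} (hx : x ∉ closure (limU g)) :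
    Tendsto (fun k => g k x) atTop (𝓝 0) := by
  by_contra hcon
  -- frequently bounded below
  obtain ⟨c, hc, hfreq⟩ : ∃ c > 0, ∃ᶠ k in atTop, c ≤ g k x := by
    by_contra hno
    push Not at hno
    apply hcon
    rw [Metric.tendsto_nhds]
    intro δ hδ
    filter_upwards [hno δ hδ] with k hk
    rw [Real.dist_eq, sub_zero, abs_of_nonneg (h0 _ _)]
    exact hk
  obtain ⟨w, hw⟩ := hWne
  obtain ⟨ρ, hρ, hball⟩ := Metric.isOpen_iff.mp hW w hw
  -- a point p on the segment near x
  have hopen : IsOpen (closure (limU g))ᶜ := isClosed_closure.isOpen_compl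
  have hseg : Tendsto (fun t : ℝ => (1 - t) • x + t • w) (𝓝[>] 0) (𝓝 x) := by
    have h1 : Continuous fun t : ℝ => (1 - t) • x + t • w := by fun_prop
    have h2 := h1.tendsto 0
    simp only [sub_zero, one_smul, zero_smul, add_zero] at h2
    exact h2.mono_left nhdsWithin_le_nhds
  have h1 : ∀ᶠ t in 𝓝[>] (0 : ℝ), (1 - t) • x + t • w ∈ (closure (limU g))ᶜ :=
    hseg.eventually (hopen.mem_nhds hx)
  have h2 : ∀ᶠ t in 𝓝[>] (0 : ℝ), t ∈ Ioo (0 : ℝ) 1 := Ioo_mem_nhdsGT (by norm_num)
  obtain ⟨t, ht, ht0, ht1⟩ := (h1.and h2).exists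
  set p := (1 - t) • x + t • w with hp
  set c' := c ^ (1 - t) * κ ^ t with hc'
  have hc'0 : 0 < c' := by positivity
  have hballp : ∀ k, c ≤ g k x → ∀ y ∈ Metric.ball p (t * ρ), c' ≤ g k y := by
    intro k hk y hy
    have h3 : y = (1 - t) • x + t • (t⁻¹ • (y - (1 - t) • x)) := by
      rw [smul_smul, mul_inv_cancel₀ ht0.ne', one_smul]; abel
    have h4 : t⁻¹ • (y - (1 - t) • x) ∈ Metric.ball w ρ := by
      rw [mem_ball_iff_norm] at hy ⊢
      have h5 : t⁻¹ • (y - (1 - t) • x) - w = t⁻¹ • (y - p) := by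
        rw [hp, smul_sub, smul_sub, smul_add, smul_smul t⁻¹ t, inv_mul_cancel₀ ht0.ne', one_smul]
        abel
      rw [h5, norm_smul, norm_inv, Real.norm_eq_abs, abs_of_pos ht0, inv_mul_lt_iff₀ ht0]
      exact hy
    have h6 := hlc k x (t⁻¹ • (y - (1 - t) • x)) (1 - t) t (by linarith) ht0 (by ring)
    rw [← h3] at h6
    refine le_trans ?_ h6
    apply mul_le_mul
    · exact Real.rpow_le_rpow hc.le hk (by linarith)
    · exact Real.rpow_le_rpow hκ.le (hlow k _ (hball h4)) ht0.le
    · positivity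
    · exact Real.rpow_nonneg (h0 _ _) _
  obtain ⟨qa, qb, hq, hbox⟩ := exists_rat_box p (mul_pos ht0 hρ)
  -- vertices
  have hvert : ∀ v : Fin m → ℚ, (∀ i, v i = qa i ∨ v i = qb i) →
      ∀ᶠ k in atTop, c' / 2 ≤ g k (ratPt v) := by
    intro v hv
    have hvbox : ratPt v ∈ Icc (ratPt qa) (ratPt qb) := by
      constructor
      · intro i
        simp only [ratPt]
        rcases hv i with h | h
        · rw [h]
        · rw [h]; exact ((hq i).1.trans (hq i).2).le
      · intro i
        simp only [ratPt]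
        rcases hv i with h | h
        · rw [h]; exact ((hq i).1.trans (hq i).2).le
        · rw [h]
    have h3 : ∃ᶠ k in atTop, c' ≤ g k (ratPt v) :=
      hfreq.mono (fun k hk => hballp k hk _ (hbox hvbox))
    have h4 : c' ≤ a v := ge_of_tendsto_of_frequently (ha v) h3
    have h5 : c' / 2 < a v := by linarith
    filter_upwards [(ha v).eventually (lt_mem_nhds h5)] with k hk
    exact hk.le
  have hall : ∀ᶠ k in atTop, ∀ v : Fin m → Bool,
      c' / 2 ≤ g k (ratPt (fun i => if v i then qa i else qb i)) := by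
    rw [Filter.eventually_all]
    intro v
    apply hvert
    intro i
    by_cases h : v i <;> simp [h]
  have hpU : p ∈ limU g := by
    -- Icc is a neighbourhood of p
    have hnb : Icc (ratPt qa) (ratPt qb) ∈ 𝓝 p := by
      have h3 : (Set.univ.pi fun i => Ioo (qa i : ℝ) (qb i)) ∈ 𝓝 p := by
        apply set_pi_mem_nhds Set.finite_univ
        intro i _
        exact Ioo_mem_nhds (hq i).1 (hq i).2
      refine mem_of_superset h3 ?_
      intro y hy
      exact ⟨fun i => (hy i (mem_univ i)).1.le, fun i => (hy i (mem_univ i)).2.le⟩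
    obtain ⟨r', hr', hb'⟩ := Metric.mem_nhds_iff.mp hnb
    refine ⟨c' / 2, by positivity, r', hr', ?_⟩
    filter_upwards [hall] with k hk y hy
    have h3 : Icc (ratPt qa) (ratPt qb) ⊆ {z | c' / 2 ≤ g k z} := by
      apply Icc_subset_of_vertices ((hlc k).convex_superlevel (by positivity))
      · intro v hv
        classical
        have h4 : v = ratPt (fun i => if (decide (v i = (qa i : ℝ)) : Bool) then qa i else qb i) := by
          ext i
          simp only [ratPt]
          rcases hv i with h | h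
          · simp only [ratPt] at h; simp [h]
          · simp only [ratPt] at h
            by_cases h5 : v i = (qa i : ℝ)
            · simp [h5]
            · simp [h5, h]
        change c' / 2 ≤ g k v
        rw [h4]
        exact hk _
      · intro i; exact ((hq i).1.trans (hq i).2).le
    exact h3 (hb' hy)
  exact ht (subset_closure hpU)

end seq

/-- **Selection theorem**, general form. -/
theorem selection_gen (g : ℕ → (Fin m → ℝ) → ℝ) (hmeas : ∀ k, Measurable (g k))
    (hlc : ∀ k, LogC (g k)) (h0 : ∀ k x, 0 ≤ g k x)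
    {C : ℝ} (hC : ∀ k x, g k x ≤ C)
    {W : Set (Fin m → ℝ)} (hW : IsOpen W) (hWne : W.Nonempty) {κ : ℝ} (hκ : 0 < κ)
    (hlow : ∀ k, ∀ x ∈ W, κ ≤ g k x) :
    ∃ φ : ℕ → ℕ, StrictMono φ ∧ ∃ (U : Set (Fin m → ℝ)) (f : (Fin m → ℝ) → ℝ),
      IsOpen U ∧ Convex ℝ U ∧ W ⊆ U ∧ Measurable f ∧ (∀ x, 0 ≤ f x) ∧ LogC f ∧
      (∀ x ∈ U, 0 < f x ∧ Tendsto (fun k => g (φ k) x) atTop (𝓝 (f x))) ∧
      (∀ x ∉ U, f x = 0) ∧
      (∀ x ∉ closure U, Tendsto (fun k => g (φ k) x) atTop (𝓝 0)) ∧
      (∀ᵐ x, Tendsto (fun k => g (φ k) x) atTop (𝓝 (f x))) := by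
  classical
  obtain ⟨φ, hφ, a, ha⟩ := exists_subseq_rat g h0 hC
  set G : ℕ → (Fin m → ℝ) → ℝ := fun k => g (φ k) with hG
  set U := limU G with hU
  have hUo : IsOpen U := isOpen_limU G
  have hUc : Convex ℝ U := convex_limU G (fun k => hlc _)
  have hWU : W ⊆ U := subset_limU G hW hκ (fun k => hlow _)
  have hconv : ∀ x ∈ U, ∃ l, 0 < l ∧ Tendsto (fun k => G k x) atTop (𝓝 l) := fun x hx =>
    tendsto_on_limU (fun k => hlc _) (fun k => hC _) ha hx
  let f : (Fin m → ℝ) → ℝ := fun x => if h : x ∈ U then (hconv x h).choose else 0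
  have hfU : ∀ x ∈ U, 0 < f x ∧ Tendsto (fun k => G k x) atTop (𝓝 (f x)) := by
    intro x hx
    have h1 : f x = (hconv x hx).choose := by simp only [f, dif_pos hx]
    rw [h1]
    exact (hconv x hx).choose_spec
  have hfU' : ∀ x ∉ U, f x = 0 := fun x hx => by simp only [f, dif_neg hx]
  have hf0 : ∀ x, 0 ≤ f x := by
    intro x
    by_cases hx : x ∈ U
    · exact (hfU x hx).1.le
    · rw [hfU' x hx]
  have hoff : ∀ x ∉ closure U, Tendsto (fun k => G k x) atTop (𝓝 0) := fun x hx =>
    tendsto_zero_off (fun k => hlc _) (fun k => h0 _) hW hWne hκ (fun k => hlow _) ha hx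
  refine ⟨φ, hφ, U, f, hUo, hUc, hWU, ?_, hf0, ?_, hfU, hfU', hoff, ?_⟩
  · refine measurable_of_tendsto_metrizable (f := fun k => U.indicator (G k))
      (fun k => (hmeas _).indicator hUo.measurableSet) ?_
    rw [tendsto_pi_nhds]
    intro x
    by_cases hx : x ∈ U
    · simp only [indicator_of_mem hx]
      exact (hfU x hx).2
    · simp only [indicator_of_notMem hx, hfU' x hx]
      exact tendsto_const_nhds
  · refine LogC.of_tendsto (l := atTop) (F := G) (Eventually.of_forall fun k => hlc _) hf0 ?_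
    intro x y hx hy s t hs ht hst
    have hxU : x ∈ U := by
      by_contra h; rw [hfU' x h] at hx; exact lt_irrefl _ hx
    have hyU : y ∈ U := by
      by_contra h; rw [hfU' y h] at hy; exact lt_irrefl _ hy
    exact ⟨(hfU x hxU).2, (hfU y hyU).2, (hfU _ (hUc hxU hyU hs.le ht.le hst)).2⟩
  · have hfr : volume (frontier U) = 0 := hUc.addHaar_frontier _
    have h1 : ∀ᵐ x, x ∉ frontier U := by
      rw [ae_iff]; simpa using hfr
    filter_upwards [h1] with x hx
    by_cases hxU : x ∈ U
    · exact (hfU x hxU).2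
    · have hxc : x ∉ closure U := by
        intro hxc
        apply hx
        rw [frontier, hUo.interior_eq]
        exact ⟨hxc, hxU⟩
      rw [hfU' x hxU]
      exact hoff x hxc

/-- **Selection theorem for densities in normal form.** -/
theorem NF.selection (g : ℕ → (Fin m → ℝ) → ℝ) (hg : ∀ k, NF (g k)) :
    ∃ φ : ℕ → ℕ, StrictMono φ ∧ ∃ (U : Set (Fin m → ℝ)) (f : (Fin m → ℝ) → ℝ),
      NF f ∧ IsOpen U ∧ Convex ℝ U ∧ oSimplex m ⊆ U ∧
      (∀ x ∈ U, 0 < f x ∧ Tendsto (fun k => g (φ k) x) atTop (𝓝 (f x))) ∧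
      (∀ x ∉ U, f x = 0) ∧
      (∀ x ∉ closure U, Tendsto (fun k => g (φ k) x) atTop (𝓝 0)) ∧
      (∀ᵐ x, Tendsto (fun k => g (φ k) x) atTop (𝓝 (f x))) := by
  have hC : ∀ k x, g k x ≤ Cup m := by
    intro k x
    refine ((hg k).upper x).trans ?_
    have h1 : Real.exp (-(1 / 6) * ‖x‖) ≤ 1 := by
      rw [Real.exp_le_one_iff]
      have := norm_nonneg x
      linarith
    have := Cup_pos (m := m)
    nlinarith
  obtain ⟨φ, hφ, U, f, hUo, hUc, hWU, hfm, hf0, hflc, hfU, hfU', hoff, hae⟩ :=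
    selection_gen g (fun k => (hg k).meas) (fun k => (hg k).logc) (fun k => (hg k).nonneg) hC
      isOpen_oSimplex oSimplex_nonempty kap_pos (fun k => (hg k).lower)
  refine ⟨φ, hφ, U, f, ⟨⟨hfm, hf0, hflc, ?_⟩, ?_, ?_⟩, hUo, hUc, hWU, hfU, hfU', hoff, hae⟩
  · -- total mass by dominated convergence
    have h1 : Tendsto (fun k => ∫ x, g (φ k) x) atTop (𝓝 (∫ x, f x)) := by
      refine tendsto_integral_of_dominated_convergence
        (fun x => Cup m * Real.exp (-(1 / 6) * ‖x‖)) ?_ ?_ ?_ hae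
      · intro k; exact (hg _).meas.aestronglyMeasurable
      · exact (integrable_exp_neg_norm (by norm_num)).const_mul _
      · intro k
        refine ae_of_all _ fun x => ?_
        rw [Real.norm_eq_abs, abs_of_nonneg ((hg _).nonneg x)]
        exact (hg _).upper x
    have h2 : (fun k => ∫ x, g (φ k) x) = fun _ => (1 : ℝ) := by
      funext k; exact (hg _).int1
    rw [h2] at h1
    exact tendsto_nhds_unique h1 tendsto_const_nhds
  · intro u hu
    exact ge_of_tendsto (hfU u (hWU hu)).2 (Eventually.of_forall fun k => (hg _).lower u hu)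
  · intro u
    by_cases hu : u ∈ U
    · exact le_of_tendsto (hfU u hu).2 (Eventually.of_forall fun k => (hg _).upper u)
    · rw [hfU' u hu]
      have := Cup_pos (m := m)
      positivity

end Crest.Agent.R253.Cpt435
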