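import Crest.Agent.R253.CptC_435
import Crest.Prelude.Def_Isotropic

/-!
# R253: compactness of log-concave densities, part D (helper435)

* `PB ψ` polynomially bounded, `EB f` exponentially decaying; `LCD f → EB f`;
* convergence of integrals and of the entropy along the selection theorem;
* the curve `t ↦ ∫ ψ f exp (t l - t²/2 q)` and its derivative.
-/

set_option autoImplicit false
open MeasureTheory Set Filter Topology Matrix
open scoped ENNReal NNReal

namespace Crest.Agent.R253.Cpt435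

variable {m : ℕ}

/-- polynomially bounded measurable functions -/
structure PB (ψ : (Fin m → ℝ) → ℝ) : Prop where
  meas : Measurable ψ
  bound : ∃ (K : ℝ) (n : ℕ), 0 ≤ K ∧ ∀ x, |ψ x| ≤ K * (1 + ‖x‖) ^ n

/-- measurable functions with exponential decay -/
structure EB (f : (Fin m → ℝ) → ℝ) : Prop where
  meas : Measurable f
  bound : ∃ (C c : ℝ), 0 ≤ C ∧ 0 < c ∧ ∀ x, |f x| ≤ C * Real.exp (-c * ‖x‖)

namespace PB

variable {ψ χ : (Fin m → ℝ) → ℝ}

theorem mul (h1 : PB ψ) (h2 : PB χ) : PB (fun x => ψ x * χ x) := by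
  obtain ⟨K1, n1, hK1, hb1⟩ := h1.bound
  obtain ⟨K2, n2, hK2, hb2⟩ := h2.bound
  refine ⟨h1.meas.mul h2.meas, K1 * K2, n1 + n2, by positivity, fun x => ?_⟩
  rw [abs_mul, pow_add]
  calc |ψ x| * |χ x| ≤ (K1 * (1 + ‖x‖) ^ n1) * (K2 * (1 + ‖x‖) ^ n2) :=
        mul_le_mul (hb1 x) (hb2 x) (abs_nonneg _) (by positivity)
    _ = _ := by ring

theorem add (h1 : PB ψ) (h2 : PB χ) : PB (fun x => ψ x + χ x) := by
  obtain ⟨K1, n1, hK1, hb1⟩ := h1.bound
  obtain ⟨K2, n2, hK2, hb2⟩ := h2.bound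
  refine ⟨h1.meas.add h2.meas, K1 + K2, max n1 n2, by positivity, fun x => ?_⟩
  have h3 : (1 : ℝ) ≤ 1 + ‖x‖ := by linarith [norm_nonneg x]
  calc |ψ x + χ x| ≤ |ψ x| + |χ x| := abs_add_le _ _
    _ ≤ K1 * (1 + ‖x‖) ^ n1 + K2 * (1 + ‖x‖) ^ n2 := add_le_add (hb1 x) (hb2 x)
    _ ≤ K1 * (1 + ‖x‖) ^ (max n1 n2) + K2 * (1 + ‖x‖) ^ (max n1 n2) := by
        gcongr
        · exact le_max_left _ _
        · exact le_max_right _ _
    _ = _ := by ring

theorem const (c : ℝ) : PB (fun _ : Fin m → ℝ => c) :=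
  ⟨measurable_const, |c|, 0, abs_nonneg _, fun x => by simp⟩

theorem neg (h1 : PB ψ) : PB (fun x => -ψ x) := by
  have := (const (m := m) (-1)).mul h1
  simpa using this

theorem sub (h1 : PB ψ) (h2 : PB χ) : PB (fun x => ψ x - χ x) := by
  simpa [sub_eq_add_neg] using h1.add h2.neg

theorem const_mul (c : ℝ) (h1 : PB ψ) : PB (fun x => c * ψ x) := (const c).mul h1

theorem mul_const (c : ℝ) (h1 : PB ψ) : PB (fun x => ψ x * c) := h1.mul (const c)

theorem pow (h1 : PB ψ) (n : ℕ) : PB (fun x => ψ x ^ n) := by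
  induction n with
  | zero => simpa using const (m := m) 1
  | succ n ih => simpa [pow_succ] using ih.mul h1

theorem coord (i : Fin m) : PB (fun x : Fin m → ℝ => x i) := by
  refine ⟨measurable_pi_apply i, 1, 1, zero_le_one, fun x => ?_⟩
  have := norm_le_pi_norm x i
  rw [Real.norm_eq_abs] at this
  rw [pow_one, one_mul]; linarith

theorem sum {ι : Type*} (s : Finset ι) {F : ι → (Fin m → ℝ) → ℝ} (h : ∀ i ∈ s, PB (F i)) :
    PB (fun x => ∑ i ∈ s, F i x) := by
  classical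
  induction s using Finset.induction_on with
  | empty => simpa using const (m := m) 0
  | insert a s ha ih =>
    simp only [Finset.sum_insert ha]
    exact (h a (Finset.mem_insert_self _ _)).add
      (ih fun i hi => h i (Finset.mem_insert_of_mem hi))

theorem linear (l : (Fin m → ℝ) →ₗ[ℝ] ℝ) : PB (fun x => l x) := by
  have h : (fun x => l x) = fun x : Fin m → ℝ => ∑ i, x i * l (Pi.single i 1) := by
    funext x
    conv_lhs => rw [pi_eq_sum_univ' x, map_sum]
    refine Finset.sum_congr rfl fun i _ => ?_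
    rw [map_smul, smul_eq_mul]
  rw [h]
  exact sum _ fun i _ => (coord i).mul_const _

theorem norm : PB (fun x : Fin m → ℝ => ‖x‖) :=
  ⟨by fun_prop, 1, 1, zero_le_one, fun x => by rw [abs_of_nonneg (norm_nonneg _)]; simp⟩

/-- polynomial growth is dominated by any exponential -/
theorem exp_bound (h : PB ψ) {c : ℝ} (hc : 0 < c) :
    ∃ K, 0 ≤ K ∧ ∀ x, |ψ x| ≤ K * Real.exp (c * ‖x‖) := by
  obtain ⟨K, n, hK, hb⟩ := h.bound
  refine ⟨K * (Real.exp c * (n.factorial : ℝ) / c ^ n), by positivity, fun x => ?_⟩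
  have h1 := pow_mul_exp_neg_le n hc ‖x‖ (norm_nonneg _)
  refine (hb x).trans ?_
  rw [mul_assoc]
  gcongr
  have h2 : Real.exp (-c * ‖x‖) * Real.exp (c * ‖x‖) = 1 := by
    rw [← Real.exp_add]; simp
  calc (1 + ‖x‖) ^ n = (1 + ‖x‖) ^ n * (Real.exp (-c * ‖x‖) * Real.exp (c * ‖x‖)) := by
        rw [h2, mul_one]
    _ = ((1 + ‖x‖) ^ n * Real.exp (-c * ‖x‖)) * Real.exp (c * ‖x‖) := by ring
    _ ≤ _ := by gcongr

end PB

namespace EB

variable {ψ f : (Fin m → ℝ) → ℝ}

theorem mul_PB (hf : EB f) (hψ : PB ψ) : EB (fun x => ψ x * f x) := by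
  obtain ⟨C, c, hC, hc, hb⟩ := hf.bound
  obtain ⟨K, hK, hKb⟩ := hψ.exp_bound (half_pos hc)
  refine ⟨hψ.meas.mul hf.meas, K * C, c / 2, by positivity, half_pos hc, fun x => ?_⟩
  rw [abs_mul]
  calc |ψ x| * |f x| ≤ (K * Real.exp (c / 2 * ‖x‖)) * (C * Real.exp (-c * ‖x‖)) :=
        mul_le_mul (hKb x) (hb x) (abs_nonneg _) (by positivity)
    _ = K * C * (Real.exp (c / 2 * ‖x‖) * Real.exp (-c * ‖x‖)) := by ring
    _ = _ := by rw [← Real.exp_add]; ring_nf

theorem integrable (hf : EB f) : Integrable f := by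
  obtain ⟨C, c, hC, hc, hb⟩ := hf.bound
  exact ((integrable_exp_neg_norm hc).const_mul C).mono' hf.meas.aestronglyMeasurable
    (ae_of_all _ hb)

theorem integrable_mul (hf : EB f) (hψ : PB ψ) : Integrable (fun x => ψ x * f x) :=
  (hf.mul_PB hψ).integrable

theorem of_le {g : (Fin m → ℝ) → ℝ} (hg : EB g) (hf : Measurable f) (h : ∀ x, |f x| ≤ |g x|) :
    EB f := by
  obtain ⟨C, c, hC, hc, hb⟩ := hg.bound
  exact ⟨hf, C, c, hC, hc, fun x => (h x).trans (hb x)⟩

end EB

theorem NF.eb {g : (Fin m → ℝ) → ℝ} (hg : NF g) : EB g :=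
  ⟨hg.meas, Cup m, 1 / 6, Cup_pos.le, by norm_num, fun x => by
    rw [abs_of_nonneg (hg.nonneg x)]; exact hg.upper x⟩

/-- every log-concave density decays exponentially -/
theorem LCD.eb {f : (Fin m → ℝ) → ℝ} (hf : LCD f) : EB f := by
  obtain ⟨T, b, hT, hg⟩ := hf.exists_normal_form
  refine ⟨hf.meas, ?_⟩
  have hunit : IsUnit T.det := isUnit_iff_ne_zero.mpr hT
  -- operator bound for T
  obtain ⟨L, hL0, hL⟩ : ∃ L, 0 < L ∧ ∀ u, ‖T.mulVec u‖ ≤ L * ‖u‖ := by
    have h1 := (LinearMap.toContinuousLinearMap (toLin' T)).le_opNorm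
    refine ⟨‖LinearMap.toContinuousLinearMap (toLin' T)‖ + 1, by positivity, fun u => ?_⟩
    have h2 := h1 u
    have h3 : (LinearMap.toContinuousLinearMap (toLin' T)) u = T.mulVec u := by simp
    rw [h3] at h2
    refine h2.trans ?_
    gcongr
    linarith
  refine ⟨|T.det|⁻¹ * Cup m * Real.exp (1 / (6 * L) * ‖b‖), 1 / (6 * L), ?_, by positivity,
    fun x => ?_⟩
  · have := Cup_pos (m := m); positivity
  · set u := T⁻¹.mulVec (x - b) with hu
    have hx : x = b + T.mulVec u := by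
      rw [hu, mulVec_mulVec, mul_nonsing_inv _ hunit, one_mulVec]; abel
    have h1 := hg.upper u
    have h2 : ‖x‖ ≤ ‖b‖ + L * ‖u‖ := by
      conv_lhs => rw [hx]
      exact (norm_add_le _ _).trans (add_le_add le_rfl (hL u))
    have h3 : 0 < |T.det| := abs_pos.mpr hT
    rw [abs_of_nonneg (hf.nonneg x)]
    have h4 : f x ≤ |T.det|⁻¹ * (Cup m * Real.exp (-(1 / 6) * ‖u‖)) := by
      rw [inv_mul_eq_div, le_div_iff₀ h3, mul_comm]
      conv_lhs => rw [hx]
      exact h1
    refine h4.trans ?_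
    rw [mul_assoc, mul_assoc, ← Real.exp_add]
    have := Cup_pos (m := m)
    gcongr
    have h5 : ‖x‖ / L ≤ ‖b‖ / L + ‖u‖ := by
      rw [div_add' _ _ _ hL0.ne', div_le_div_iff_of_pos_right hL0]
      linarith
    have h6 : 1 / (6 * L) * ‖b‖ + -(1 / (6 * L)) * ‖x‖ = (1 / 6) * (‖b‖ / L - ‖x‖ / L) := by
      field_simp
      ring
    rw [h6]
    linarith

theorem LCD.integrable_mul {f ψ : (Fin m → ℝ) → ℝ} (hf : LCD f) (hψ : PB ψ) :
    Integrable (fun x => ψ x * f x) := hf.eb.integrable_mul hψ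

/-! ### convergence of integrals -/

/-- dominated convergence along a.e. convergent sequences in `NF` -/
theorem NF.tendsto_integral {g : ℕ → (Fin m → ℝ) → ℝ} {f : (Fin m → ℝ) → ℝ}
    (hg : ∀ k, NF (g k)) (hae : ∀ᵐ x, Tendsto (fun k => g k x) atTop (𝓝 (f x)))
    {ψ : ℕ → (Fin m → ℝ) → ℝ} {χ : (Fin m → ℝ) → ℝ} (hψm : ∀ k, Measurable (ψ k))
    {K c : ℝ} (hc : c < 1 / 6) (hψ : ∀ k x, |ψ k x| ≤ K * Real.exp (c * ‖x‖))
    (hlim : ∀ᵐ x, Tendsto (fun k => ψ k x) atTop (𝓝 (χ x))) :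
    Tendsto (fun k => ∫ x, ψ k x * g k x) atTop (𝓝 (∫ x, χ x * f x)) := by
  refine tendsto_integral_of_dominated_convergence
    (fun x => K * Cup m * Real.exp (-(1 / 6 - c) * ‖x‖)) ?_ ?_ ?_ ?_
  · intro k; exact ((hψm k).mul (hg k).meas).aestronglyMeasurable
  · exact (integrable_exp_neg_norm (by linarith)).const_mul _
  · intro k
    refine ae_of_all _ fun x => ?_
    rw [Real.norm_eq_abs, abs_mul]
    have h1 := (hg k).upper x
    rw [← abs_of_nonneg ((hg k).nonneg x)] at h1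
    have hK : 0 ≤ K * Real.exp (c * ‖x‖) := (abs_nonneg _).trans (hψ k x)
    calc |ψ k x| * |g k x| ≤ (K * Real.exp (c * ‖x‖)) * (Cup m * Real.exp (-(1 / 6) * ‖x‖)) :=
          mul_le_mul (hψ k x) h1 (abs_nonneg _) hK
      _ = K * Cup m * (Real.exp (c * ‖x‖) * Real.exp (-(1 / 6) * ‖x‖)) := by ring
      _ = _ := by rw [← Real.exp_add]; ring_nf
  · filter_upwards [hae, hlim] with x h1 h2
    exact h2.mul h1

/-- convergence of polynomial moments -/
theorem NF.tendsto_integral_PB {g : ℕ → (Fin m → ℝ) → ℝ} {f : (Fin m → ℝ) → ℝ}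
    (hg : ∀ k, NF (g k)) (hae : ∀ᵐ x, Tendsto (fun k => g k x) atTop (𝓝 (f x)))
    {ψ : (Fin m → ℝ) → ℝ} (hψ : PB ψ) :
    Tendsto (fun k => ∫ x, ψ x * g k x) atTop (𝓝 (∫ x, ψ x * f x)) := by
  obtain ⟨K, _, hK⟩ := hψ.exp_bound (c := 1 / 12) (by norm_num)
  exact NF.tendsto_integral hg hae (fun _ => hψ.meas) (by norm_num) (fun _ => hK)
    (ae_of_all _ fun x => tendsto_const_nhds)

/-- scalar entropy bound -/
theorem abs_mul_log_le {u C : ℝ} (hu : 0 ≤ u) (huC : u ≤ C) :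
    |u * Real.log u| ≤ 2 * (1 + C) * Real.sqrt u := by
  rcases hu.lt_or_eq with hu | hu
  swap
  · rw [← hu]; simp
  have hC : 0 < C := lt_of_lt_of_le hu huC
  set s := Real.sqrt u with hs
  have hs0 : 0 < s := Real.sqrt_pos.mpr hu
  have hus : u = s * s := (Real.mul_self_sqrt hu.le).symm
  have hlog : Real.log u = 2 * Real.log s := by
    rw [hus, Real.log_mul hs0.ne' hs0.ne']; ring
  rw [abs_mul, abs_of_pos hu, hlog, abs_mul, abs_two]
  have h1 : Real.log s ≤ s - 1 := Real.log_le_sub_one_of_pos hs0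
  have h2 : -Real.log s ≤ s⁻¹ - 1 := by
    rw [← Real.log_inv]; exact Real.log_le_sub_one_of_pos (inv_pos.mpr hs0)
  have h3 : |Real.log s| ≤ s + s⁻¹ := by
    rw [abs_le]
    have : 0 < s⁻¹ := inv_pos.mpr hs0
    constructor <;> linarith
  calc u * (2 * |Real.log s|) ≤ u * (2 * (s + s⁻¹)) := by gcongr
    _ = 2 * (u + 1) * s := by
        have : u * s⁻¹ = s := by rw [hus]; field_simp
        calc u * (2 * (s + s⁻¹)) = 2 * (u * s + u * s⁻¹) := by ring
          _ = 2 * (u * s + s) := by rw [this]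
          _ = _ := by ring
    _ ≤ 2 * (1 + C) * s := by
        have : u + 1 ≤ 1 + C := by linarith
        gcongr

theorem EB.entropy {f : (Fin m → ℝ) → ℝ} (hf : EB f) (h0 : ∀ x, 0 ≤ f x) :
    EB (fun x => f x * Real.log (f x)) := by
  obtain ⟨C, c, hC, hc, hb⟩ := hf.bound
  refine ⟨hf.meas.mul (Real.measurable_log.comp hf.meas), 2 * (1 + C) * Real.sqrt C, c / 2,
    by positivity, half_pos hc, fun x => ?_⟩
  have h1 : f x ≤ C * Real.exp (-c * ‖x‖) := by
    rw [← abs_of_nonneg (h0 x)]; exact hb x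
  have h2 : f x ≤ C := h1.trans (by
    have : Real.exp (-c * ‖x‖) ≤ 1 := by
      rw [Real.exp_le_one_iff]; have := norm_nonneg x; nlinarith
    nlinarith)
  refine (abs_mul_log_le (h0 x) h2).trans ?_
  rw [mul_assoc (2 * (1 + C))]
  gcongr
  calc Real.sqrt (f x) ≤ Real.sqrt (C * Real.exp (-c * ‖x‖)) := Real.sqrt_le_sqrt h1
    _ = _ := by
      rw [Real.sqrt_mul hC, Real.sqrt_eq_rpow (Real.exp _), ← Real.exp_mul]; ring_nf

/-- continuity of the entropy -/
theorem NF.tendsto_entropy {g : ℕ → (Fin m → ℝ) → ℝ} {f : (Fin m → ℝ) → ℝ}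
    (hg : ∀ k, NF (g k)) (hae : ∀ᵐ x, Tendsto (fun k => g k x) atTop (𝓝 (f x))) :
    Tendsto (fun k => ∫ x, g k x * Real.log (g k x)) atTop (𝓝 (∫ x, f x * Real.log (f x))) := by
  have hC := Cup_pos (m := m)
  refine tendsto_integral_of_dominated_convergence
    (fun x => 2 * (1 + Cup m) * Real.sqrt (Cup m) * Real.exp (-(1 / 12) * ‖x‖)) ?_ ?_ ?_ ?_
  · intro k
    exact ((hg k).meas.mul (Real.measurable_log.comp (hg k).meas)).aestronglyMeasurable
  · exact (integrable_exp_neg_norm (by norm_num)).const_mul _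
  · intro k
    refine ae_of_all _ fun x => ?_
    rw [Real.norm_eq_abs]
    have h1 := (hg k).upper x
    have h2 : g k x ≤ Cup m := h1.trans (by
      have : Real.exp (-(1 / 6) * ‖x‖) ≤ 1 := by
        rw [Real.exp_le_one_iff]; have := norm_nonneg x; linarith
      nlinarith)
    refine (abs_mul_log_le ((hg k).nonneg x) h2).trans ?_
    rw [mul_assoc (2 * (1 + Cup m))]
    gcongr
    calc Real.sqrt (g k x) ≤ Real.sqrt (Cup m * Real.exp (-(1 / 6) * ‖x‖)) := Real.sqrt_le_sqrt h1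
      _ = _ := by
        rw [Real.sqrt_mul hC.le, Real.sqrt_eq_rpow (Real.exp _), ← Real.exp_mul]; ring_nf
  · filter_upwards [hae] with x h1
    exact (Real.continuous_mul_log.tendsto (f x)).comp h1

/-! ### the tilt curve -/

/-- unnormalised moments along the curve `f * exp (t l - t²/2 q)` -/
noncomputable def curveI (f l q ψ : (Fin m → ℝ) → ℝ) (t : ℝ) : ℝ :=
  ∫ x, ψ x * (f x * Real.exp (t * l x - t ^ 2 / 2 * q x))

theorem curveI_zero (f l q ψ : (Fin m → ℝ) → ℝ) : curveI f l q ψ 0 = ∫ x, ψ x * f x := by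
  simp [curveI]

/-- integrability and derivative of the curve near `0` -/
theorem exists_curve_deriv {f l q : (Fin m → ℝ) → ℝ} (hf : EB f) (hl : Measurable l)
    {L : ℝ} (hL0 : 0 ≤ L) (hL : ∀ x, |l x| ≤ L * (1 + ‖x‖)) (hq : PB q) (hq0 : ∀ x, 0 ≤ q x) :
    ∃ δ > 0, ∀ ψ : (Fin m → ℝ) → ℝ, PB ψ → ∀ t : ℝ, |t| < δ →
      EB (fun x => f x * Real.exp (t * l x - t ^ 2 / 2 * q x)) ∧
      HasDerivAt (curveI f l q ψ)
        (curveI f l q (fun x => ψ x * l x) t - t * curveI f l q (fun x => ψ x * q x) t) t := by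
  obtain ⟨C, c, hC, hc, hb⟩ := hf.bound
  set δ : ℝ := c / (2 * (L + 1)) with hδ
  have hδ0 : 0 < δ := by positivity
  have hlPB : PB l := ⟨hl, L, 1, hL0, fun x => by rw [pow_one]; exact hL x⟩
  -- uniform bound
  have hexp : ∀ t : ℝ, |t| < δ → ∀ x, |f x * Real.exp (t * l x - t ^ 2 / 2 * q x)| ≤
      (C * Real.exp (c / 2)) * Real.exp (-(c / 2) * ‖x‖) := by
    intro t ht x
    have h1 : t * l x - t ^ 2 / 2 * q x ≤ c / 2 * (1 + ‖x‖) := by
      have h2 : t * l x ≤ |t| * (L * (1 + ‖x‖)) := by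
        calc t * l x ≤ |t * l x| := le_abs_self _
          _ = |t| * |l x| := abs_mul _ _
          _ ≤ _ := by gcongr; exact hL x
      have h3 : |t| * (L * (1 + ‖x‖)) ≤ δ * ((L + 1) * (1 + ‖x‖)) := by
        gcongr
        linarith
      have h4 : δ * ((L + 1) * (1 + ‖x‖)) = c / 2 * (1 + ‖x‖) := by
        rw [hδ]; field_simp
      have h5 : 0 ≤ t ^ 2 / 2 * q x := mul_nonneg (by positivity) (hq0 x)
      linarith
    rw [abs_mul, abs_of_pos (Real.exp_pos _)]
    calc |f x| * Real.exp (t * l x - t ^ 2 / 2 * q x)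
        ≤ (C * Real.exp (-c * ‖x‖)) * Real.exp (c / 2 * (1 + ‖x‖)) := by
          gcongr
          exact hb x
      _ = C * (Real.exp (-c * ‖x‖) * Real.exp (c / 2 * (1 + ‖x‖))) := by ring
      _ = C * (Real.exp (c / 2) * Real.exp (-(c / 2) * ‖x‖)) := by
          rw [← Real.exp_add, ← Real.exp_add]; ring_nf
      _ = _ := by ring
  have hEB : ∀ t : ℝ, |t| < δ → EB (fun x => f x * Real.exp (t * l x - t ^ 2 / 2 * q x)) := by
    intro t ht
    refine ⟨?_, C * Real.exp (c / 2), c / 2, by positivity, by positivity, hexp t ht⟩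
    exact hf.meas.mul (Real.measurable_exp.comp ((hl.const_mul t).sub (hq.meas.const_mul _)))
  refine ⟨δ, hδ0, fun ψ hψ t ht => ⟨hEB t ht, ?_⟩⟩
  -- derivative
  have hP : PB (fun x => |ψ x| * (|l x| + δ * |q x|)) := by
    refine ⟨?_, ?_⟩
    · exact (hψ.meas.abs).mul ((hl.abs).add (hq.meas.abs.const_mul _))
    · obtain ⟨K1, n1, hK1, h1⟩ := hψ.bound
      obtain ⟨K2, n2, hK2, h2⟩ := hlPB.bound
      obtain ⟨K3, n3, hK3, h3⟩ := hq.bound
      refine ⟨K1 * (K2 + δ * K3), n1 + max n2 n3, by positivity, fun x => ?_⟩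
      have hx1 : (1 : ℝ) ≤ 1 + ‖x‖ := by linarith [norm_nonneg x]
      rw [abs_of_nonneg (by positivity), pow_add]
      calc |ψ x| * (|l x| + δ * |q x|)
          ≤ (K1 * (1 + ‖x‖) ^ n1) * (K2 * (1 + ‖x‖) ^ n2 + δ * (K3 * (1 + ‖x‖) ^ n3)) := by
            gcongr
            · exact h1 x
            · exact h2 x
            · exact h3 x
        _ ≤ (K1 * (1 + ‖x‖) ^ n1) * (K2 * (1 + ‖x‖) ^ (max n2 n3) +
              δ * (K3 * (1 + ‖x‖) ^ (max n2 n3))) := by
            gcongr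
            · exact le_max_left _ _
            · exact le_max_right _ _
        _ = _ := by ring
  have hbd : Integrable (fun x => (|ψ x| * (|l x| + δ * |q x|)) *
      ((C * Real.exp (c / 2)) * Real.exp (-(c / 2) * ‖x‖))) := by
    have hE : EB (fun x : Fin m → ℝ => (C * Real.exp (c / 2)) * Real.exp (-(c / 2) * ‖x‖)) := by
      refine ⟨by fun_prop, C * Real.exp (c / 2), c / 2, by positivity, by positivity,
        fun x => ?_⟩
      rw [abs_of_nonneg (by positivity)]
    exact hE.integrable_mul hP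
  have hnb : Ioo (-δ) δ ∈ 𝓝 t := Ioo_mem_nhds (abs_lt.mp ht).1 (abs_lt.mp ht).2
  have key := hasDerivAt_integral_of_dominated_loc_of_deriv_le
    (F := fun t x => ψ x * (f x * Real.exp (t * l x - t ^ 2 / 2 * q x)))
    (F' := fun t x => ψ x * (f x * (Real.exp (t * l x - t ^ 2 / 2 * q x) * (l x - t * q x))))
    (x₀ := t) (μ := (volume : Measure (Fin m → ℝ)))
    (bound := fun x => (|ψ x| * (|l x| + δ * |q x|)) *
      ((C * Real.exp (c / 2)) * Real.exp (-(c / 2) * ‖x‖)))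
    hnb ?_ ?_ ?_ ?_ hbd ?_
  · have h1 := key.2
    have h2 : (∫ x, ψ x * (f x * (Real.exp (t * l x - t ^ 2 / 2 * q x) * (l x - t * q x)))) =
        curveI f l q (fun x => ψ x * l x) t - t * curveI f l q (fun x => ψ x * q x) t := by
      unfold curveI
      rw [← integral_const_mul, ← integral_sub]
      · congr 1; funext x; ring
      · exact (hEB t ht).integrable_mul (hψ.mul hlPB)
      · exact ((hEB t ht).integrable_mul (hψ.mul hq)).const_mul t
    rw [h2] at h1
    exact h1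
  · filter_upwards [hnb] with s hs
    exact ((hEB s (abs_lt.mpr hs)).integrable_mul hψ).aestronglyMeasurable
  · exact (hEB t ht).integrable_mul hψ
  · apply Measurable.aestronglyMeasurable
    have h1 : Measurable fun x => Real.exp (t * l x - t ^ 2 / 2 * q x) :=
      Real.measurable_exp.comp ((hl.const_mul t).sub (hq.meas.const_mul _))
    exact hψ.meas.mul (hf.meas.mul (h1.mul (hl.sub (hq.meas.const_mul _))))
  · refine ae_of_all _ fun x s hs => ?_
    have hs' : |s| < δ := abs_lt.mpr hs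
    have h1 := hexp s hs' x
    rw [Real.norm_eq_abs]
    calc |ψ x * (f x * (Real.exp (s * l x - s ^ 2 / 2 * q x) * (l x - s * q x)))|
        = |ψ x| * |l x - s * q x| * |f x * Real.exp (s * l x - s ^ 2 / 2 * q x)| := by
          rw [← abs_mul, ← abs_mul]; congr 1; ring
      _ ≤ |ψ x| * (|l x| + δ * |q x|) *
          ((C * Real.exp (c / 2)) * Real.exp (-(c / 2) * ‖x‖)) := by
          gcongr
          calc |l x - s * q x| ≤ |l x| + |s * q x| := abs_sub _ _
            _ = |l x| + |s| * |q x| := by rw [abs_mul]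
            _ ≤ _ := by gcongr
  · refine ae_of_all _ fun x s _ => ?_
    have h1 : HasDerivAt (fun s : ℝ => s * l x - s ^ 2 / 2 * q x) (l x - s * q x) s := by
      have h2 := (hasDerivAt_id s).mul_const (l x)
      have h3 := (((hasDerivAt_pow 2 s).div_const 2).mul_const (q x))
      refine (h2.sub h3).congr_deriv ?_
      simp
    have h2 := h1.exp
    have h3 := (h2.const_mul (f x)).const_mul (ψ x)
    exact h3

end Crest.Agent.R253.Cpt435
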