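import Crest.Agent.R253.CptD_435
import Crest.Agent.Lib.PrekopaLeindler

/-!
# R253, part E (helper435): the class of states `(f, G)`

* affine covariance of mean, covariance, third central moment, entropy;
* `SLC f G` : `f` log-concave density, `G ≥ 0`, `f * exp (⟨G x, x⟩ / 2)` log-concave;
* boundedness of `G` in normal form; selection theorem for `(f_k, G_k)`.
-/

set_option autoImplicit false
open MeasureTheory Set Filter Topology Matrix
open Crest.GeometryTopology.Isotropic
open scoped ENNReal NNReal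

namespace Crest.Agent.R253.Cpt435

variable {m : ℕ}

/-! ### change of variables for densities -/

/-- the affine image of `f` -/
noncomputable def aff (f : (Fin m → ℝ) → ℝ) (T : Matrix (Fin m) (Fin m) ℝ) (b : Fin m → ℝ) :
    (Fin m → ℝ) → ℝ := fun u => |T.det| * f (b + T.mulVec u)

theorem integral_mul_aff (f ψ : (Fin m → ℝ) → ℝ) (hf : Measurable f) (hψ : Measurable ψ)
    (T : Matrix (Fin m) (Fin m) ℝ) (hT : T.det ≠ 0) (b : Fin m → ℝ) :
    ∫ u, ψ (b + T.mulVec u) * aff f T b u = ∫ x, ψ x * f x := by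
  rw [← integral_comp_affine (fun x => ψ x * f x) (hψ.mul hf) T hT b]
  congr 1; funext u; simp only [aff]; ring

/-- expectation notation -/
noncomputable def ex (f ψ : (Fin m → ℝ) → ℝ) : ℝ := ∫ x, ψ x * f x

theorem ex_aff {f ψ : (Fin m → ℝ) → ℝ} (hf : Measurable f) (hψ : Measurable ψ)
    {T : Matrix (Fin m) (Fin m) ℝ} (hT : T.det ≠ 0) (b : Fin m → ℝ) :
    ex (aff f T b) (fun u => ψ (b + T.mulVec u)) = ex f ψ :=
  integral_mul_aff f ψ hf hψ T hT b

section exlin

variable {f ψ χ : (Fin m → ℝ) → ℝ}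

theorem ex_add (hf : EB f) (h1 : PB ψ) (h2 : PB χ) :
    ex f (fun x => ψ x + χ x) = ex f ψ + ex f χ := by
  unfold ex
  rw [← integral_add (hf.integrable_mul h1) (hf.integrable_mul h2)]
  congr 1; funext x; ring

theorem ex_sub (hf : EB f) (h1 : PB ψ) (h2 : PB χ) :
    ex f (fun x => ψ x - χ x) = ex f ψ - ex f χ := by
  unfold ex
  rw [← integral_sub (hf.integrable_mul h1) (hf.integrable_mul h2)]
  congr 1; funext x; ring

theorem ex_const_mul (c : ℝ) : ex f (fun x => c * ψ x) = c * ex f ψ := by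
  unfold ex
  rw [← integral_const_mul]
  congr 1; funext x; ring

theorem ex_mul_const (c : ℝ) : ex f (fun x => ψ x * c) = ex f ψ * c := by
  rw [mul_comm, ← ex_const_mul]
  congr 1; funext x; ring

theorem ex_sum {ι : Type*} (s : Finset ι) (hf : EB f) {F : ι → (Fin m → ℝ) → ℝ}
    (h : ∀ i ∈ s, PB (F i)) :
    ex f (fun x => ∑ i ∈ s, F i x) = ∑ i ∈ s, ex f (F i) := by
  unfold ex
  rw [← integral_finsetSum s (fun i hi => hf.integrable_mul (h i hi))]
  congr 1; funext x; rw [Finset.sum_mul]

theorem LCD.ex_const (hf : LCD f) (c : ℝ) : ex f (fun _ => c) = c := by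
  unfold ex
  rw [integral_const_mul, hf.int1, mul_one]

end exlin

theorem densMean_eq (f : (Fin m → ℝ) → ℝ) (i : Fin m) : densMean f i = ex f (fun x => x i) := rfl

theorem densCov_eq (f : (Fin m → ℝ) → ℝ) (i j : Fin m) :
    densCov f i j = ex f (fun x => (x i - densMean f i) * (x j - densMean f j)) := rfl

/-- third central moments -/
noncomputable def densM3 (f : (Fin m → ℝ) → ℝ) (i j k : Fin m) : ℝ :=
  ex f (fun x => (x i - densMean f i) * (x j - densMean f j) * (x k - densMean f k))

/-- centred linear form -/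
noncomputable def cl (f : (Fin m → ℝ) → ℝ) (u : Fin m → ℝ) (x : Fin m → ℝ) : ℝ :=
  ∑ i, u i * (x i - densMean f i)

theorem PB.cl (f : (Fin m → ℝ) → ℝ) (u : Fin m → ℝ) : PB (cl f u) := by
  unfold Cpt435.cl
  exact PB.sum _ fun i _ => (PB.const_mul _ ((PB.coord i).sub (PB.const _)))

theorem cl_single (f : (Fin m → ℝ) → ℝ) (i : Fin m) (x : Fin m → ℝ) :
    cl f (Pi.single i 1) x = x i - densMean f i := by
  simp [cl, Pi.single_apply]

/-- affine covariance of the mean -/
theorem densMean_aff {f : (Fin m → ℝ) → ℝ} (hf : LCD f) {T : Matrix (Fin m) (Fin m) ℝ}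
    (hT : T.det ≠ 0) (b : Fin m → ℝ) :
    densMean f = b + T.mulVec (densMean (aff f T b)) := by
  have hg : LCD (aff f T b) := hf.comp_affine T hT b
  ext i
  rw [densMean_eq, ← ex_aff hf.meas (measurable_pi_apply i) hT b]
  have h1 : (fun u : Fin m → ℝ => (b + T.mulVec u) i) =
      fun u => b i + ∑ j, T i j * u j := by
    funext u; simp [mulVec, dotProduct]
  rw [h1, ex_add hg.eb (PB.const _) (PB.sum _ fun j _ => (PB.coord j).const_mul _), hg.ex_const,
    ex_sum _ hg.eb (fun j _ => (PB.coord j).const_mul _)]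
  simp only [Pi.add_apply, mulVec, dotProduct]
  congr 1
  refine Finset.sum_congr rfl fun j _ => ?_
  rw [ex_const_mul, densMean_eq]

theorem cl_aff {f : (Fin m → ℝ) → ℝ} (hf : LCD f) {T : Matrix (Fin m) (Fin m) ℝ}
    (hT : T.det ≠ 0) (b : Fin m → ℝ) (u : Fin m → ℝ) (v : Fin m → ℝ) :
    cl f u (b + T.mulVec v) = cl (aff f T b) (Tᵀ.mulVec u) v := by
  have h1 := densMean_aff hf hT b
  unfold cl
  conv_lhs => rw [h1]
  simp only [Pi.add_apply, add_sub_add_left_eq_sub, mulVec, dotProduct, transpose_apply]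
  simp_rw [← Finset.sum_sub_distrib, Finset.sum_mul, Finset.mul_sum]
  rw [Finset.sum_comm]
  refine Finset.sum_congr rfl fun j _ => Finset.sum_congr rfl fun i _ => ?_
  ring

/-- second central moments as a bilinear form -/
theorem ex_cl_cl {f : (Fin m → ℝ) → ℝ} (hf : EB f) (u v : Fin m → ℝ) :
    ex f (fun x => cl f u x * cl f v x) = ∑ i, ∑ j, u i * v j * densCov f i j := by
  have h1 : (fun x => cl f u x * cl f v x) = fun x => ∑ i, ∑ j,
      (u i * v j) * ((x i - densMean f i) * (x j - densMean f j)) := by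
    funext x
    unfold cl
    rw [Finset.sum_mul_sum]
    refine Finset.sum_congr rfl fun i _ => Finset.sum_congr rfl fun j _ => ?_
    ring
  rw [h1, ex_sum _ hf]
  · refine Finset.sum_congr rfl fun i _ => ?_
    rw [ex_sum _ hf]
    · refine Finset.sum_congr rfl fun j _ => ?_
      rw [ex_const_mul, densCov_eq]
    · intro j _
      exact PB.const_mul _ (((PB.coord i).sub (PB.const _)).mul ((PB.coord j).sub (PB.const _)))
  · intro i _
    refine PB.sum _ fun j _ => ?_
    exact PB.const_mul _ (((PB.coord i).sub (PB.const _)).mul ((PB.coord j).sub (PB.const _)))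

theorem ex_cl_cl' {f : (Fin m → ℝ) → ℝ} (hf : EB f) (u v : Fin m → ℝ) :
    ex f (fun x => cl f u x * cl f v x) = u ⬝ᵥ (densCov f).mulVec v := by
  rw [ex_cl_cl hf]
  simp only [dotProduct, mulVec, Finset.mul_sum]
  refine Finset.sum_congr rfl fun i _ => Finset.sum_congr rfl fun j _ => ?_
  ring

/-- third central moments as a trilinear form -/
theorem ex_cl3 {f : (Fin m → ℝ) → ℝ} (hf : EB f) (u v w : Fin m → ℝ) :
    ex f (fun x => cl f u x * cl f v x * cl f w x) =
      ∑ i, ∑ j, ∑ k, u i * v j * w k * densM3 f i j k := by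
  have h1 : (fun x => cl f u x * cl f v x * cl f w x) = fun x => ∑ i, ∑ j, ∑ k,
      (u i * v j * w k) * ((x i - densMean f i) * (x j - densMean f j) * (x k - densMean f k)) := by
    funext x
    unfold cl
    rw [Finset.sum_mul_sum, Finset.sum_mul]
    refine Finset.sum_congr rfl fun i _ => ?_
    rw [Finset.sum_mul_sum]
    refine Finset.sum_congr rfl fun j _ => Finset.sum_congr rfl fun k _ => ?_
    ring
  have hPB : ∀ i j k : Fin m, PB (fun x : Fin m → ℝ => (u i * v j * w k) *
      ((x i - densMean f i) * (x j - densMean f j) * (x k - densMean f k))) := fun i j k =>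
    PB.const_mul _ ((((PB.coord i).sub (PB.const _)).mul ((PB.coord j).sub (PB.const _))).mul
      ((PB.coord k).sub (PB.const _)))
  rw [h1, ex_sum _ hf (fun i _ => PB.sum _ fun j _ => PB.sum _ fun k _ => hPB i j k)]
  refine Finset.sum_congr rfl fun i _ => ?_
  rw [ex_sum _ hf (fun j _ => PB.sum _ fun k _ => hPB i j k)]
  refine Finset.sum_congr rfl fun j _ => ?_
  rw [ex_sum _ hf (fun k _ => hPB i j k)]
  refine Finset.sum_congr rfl fun k _ => ?_
  rw [ex_const_mul, densM3]

/-- affine covariance of the covariance matrix -/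
theorem densCov_aff {f : (Fin m → ℝ) → ℝ} (hf : LCD f) {T : Matrix (Fin m) (Fin m) ℝ}
    (hT : T.det ≠ 0) (b : Fin m → ℝ) :
    densCov f = T * densCov (aff f T b) * Tᵀ := by
  have hg : LCD (aff f T b) := hf.comp_affine T hT b
  ext i j
  have h1 : densCov f i j = ex f (fun x => cl f (Pi.single i 1) x * cl f (Pi.single j 1) x) := by
    rw [densCov_eq]; simp only [cl_single]
  rw [h1, ← ex_aff hf.meas (((PB.cl f _).mul (PB.cl f _)).meas) hT b]
  simp only [cl_aff hf hT b]
  rw [ex_cl_cl hg.eb]
  simp only [mul_apply, transpose_apply, mulVec_single_one, col_apply, Finset.sum_mul]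
  rw [Finset.sum_comm]
  refine Finset.sum_congr rfl fun l _ => Finset.sum_congr rfl fun k _ => ?_
  ring

/-- affine covariance of the third central moments -/
theorem densM3_aff {f : (Fin m → ℝ) → ℝ} (hf : LCD f) {T : Matrix (Fin m) (Fin m) ℝ}
    (hT : T.det ≠ 0) (b : Fin m → ℝ) (i j k : Fin m) :
    densM3 f i j k = ∑ i', ∑ j', ∑ k', T i i' * T j j' * T k k' * densM3 (aff f T b) i' j' k' := by
  have hg : LCD (aff f T b) := hf.comp_affine T hT b
  have h1 : densM3 f i j k = ex f (fun x => cl f (Pi.single i 1) x * cl f (Pi.single j 1) x *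
      cl f (Pi.single k 1) x) := by
    simp only [densM3, cl_single]
  rw [h1, ← ex_aff hf.meas ((((PB.cl f _).mul (PB.cl f _)).mul (PB.cl f _)).meas) hT b]
  simp only [cl_aff hf hT b]
  rw [ex_cl3 hg.eb]
  simp only [transpose_apply, mulVec_single_one, col_apply]

/-- affine covariance of the entropy -/
theorem diffEntropy_aff {f : (Fin m → ℝ) → ℝ} (hf : LCD f) {T : Matrix (Fin m) (Fin m) ℝ}
    (hT : T.det ≠ 0) (b : Fin m → ℝ) :
    diffEntropy f = diffEntropy (aff f T b) + Real.log |T.det| := by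
  have hg : LCD (aff f T b) := hf.comp_affine T hT b
  have hdet : 0 < |T.det| := abs_pos.mpr hT
  have h1 : ∫ x, f x * Real.log (f x) =
      ∫ u, (aff f T b u * Real.log (aff f T b u) - Real.log |T.det| * aff f T b u) := by
    rw [← integral_comp_affine (fun x => f x * Real.log (f x))
      (hf.meas.mul (Real.measurable_log.comp hf.meas)) T hT b]
    congr 1; funext u
    simp only [aff]
    rcases (hf.nonneg (b + T.mulVec u)).lt_or_eq with h | h
    · rw [Real.log_mul hdet.ne' h.ne']; ring
    · rw [← h]; simp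
  have h2 : ∫ u, (aff f T b u * Real.log (aff f T b u) - Real.log |T.det| * aff f T b u) =
      (∫ u, aff f T b u * Real.log (aff f T b u)) - Real.log |T.det| := by
    rw [integral_sub (hg.eb.entropy hg.nonneg).integrable (hg.integrable.const_mul _),
      integral_const_mul, hg.int1, mul_one]
  unfold diffEntropy
  rw [h1, h2]; ring

/-! ### states -/

/-- quadratic form -/
def qf (G : Matrix (Fin m) (Fin m) ℝ) (x : Fin m → ℝ) : ℝ := x ⬝ᵥ G.mulVec x

theorem continuous_qf (G : Matrix (Fin m) (Fin m) ℝ) : Continuous (qf G) := by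
  unfold qf
  fun_prop

/-- the state space: `f` a log-concave density, `G ≥ 0`, `f * exp (⟨G x, x⟩/2)` log-concave -/
structure SLC (f : (Fin m → ℝ) → ℝ) (G : Matrix (Fin m) (Fin m) ℝ) : Prop extends LCD f where
  psd : G.PosSemidef
  slc : LogC (fun x => f x * Real.exp (qf G x / 2))

theorem SLC.of_LCD {f : (Fin m → ℝ) → ℝ} (hf : LCD f) : SLC f 0 where
  toLCD := hf
  psd := PosSemidef.zero
  slc := by
    have : (fun x => f x * Real.exp (qf 0 x / 2)) = f := by
      funext x; simp [qf]
    rw [this]; exact hf.logc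

theorem qf_add {G : Matrix (Fin m) (Fin m) ℝ} (hG : G.IsHermitian) (x y : Fin m → ℝ) :
    qf G (x + y) = qf G x + 2 * (x ⬝ᵥ G.mulVec y) + qf G y := by
  have h1 : y ⬝ᵥ G.mulVec x = x ⬝ᵥ G.mulVec y := by
    have hT : Gᵀ = G := by
      rw [← conjTranspose_eq_transpose_of_trivial]; exact hG
    rw [dotProduct_mulVec, ← mulVec_transpose, hT, dotProduct_comm]
  simp only [qf, mulVec_add, dotProduct_add, add_dotProduct, h1]
  ring

theorem qf_smul (G : Matrix (Fin m) (Fin m) ℝ) (c : ℝ) (x : Fin m → ℝ) :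
    qf G (c • x) = c ^ 2 * qf G x := by
  simp only [qf, mulVec_smul, dotProduct_smul, smul_dotProduct, smul_eq_mul]; ring

theorem qf_mulVec (G T : Matrix (Fin m) (Fin m) ℝ) (x : Fin m → ℝ) :
    qf G (T.mulVec x) = qf (Tᵀ * G * T) x := by
  simp only [qf]
  rw [← mulVec_mulVec, ← mulVec_mulVec, dotProduct_mulVec x Tᵀ, vecMul_transpose]

theorem qf_nonneg {G : Matrix (Fin m) (Fin m) ℝ} (hG : G.PosSemidef) (x : Fin m → ℝ) :
    0 ≤ qf G x := by
  have := hG.dotProduct_mulVec_nonneg x
  simpa [qf] using this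

/-- log-affine factor -/
theorem LogC.exp_affine (L : (Fin m → ℝ) →ₗ[ℝ] ℝ) (c : ℝ) :
    LogC (fun x : Fin m → ℝ => Real.exp (L x + c)) := by
  intro x y s t hs ht hst
  simp only
  rw [← Real.exp_mul, ← Real.exp_mul, ← Real.exp_add, map_add, map_smul, map_smul]
  apply le_of_eq; congr 1; simp only [smul_eq_mul]
  have : c = s * c + t * c := by rw [← add_mul, hst, one_mul]
  nth_rewrite 3 [this]
  ring

/-- affine covariance of the class -/
theorem SLC.aff {f : (Fin m → ℝ) → ℝ} {G : Matrix (Fin m) (Fin m) ℝ} (hf : SLC f G)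
    {T : Matrix (Fin m) (Fin m) ℝ} (hT : T.det ≠ 0) (b : Fin m → ℝ) :
    SLC (aff f T b) (Tᵀ * G * T) where
  toLCD := hf.toLCD.comp_affine T hT b
  psd := by
    have := hf.psd.conjTranspose_mul_mul_same T
    rwa [conjTranspose_eq_transpose_of_trivial] at this
  slc := by
    have h1 : LogC (fun u => f (b + T.mulVec u) * Real.exp (qf G (b + T.mulVec u) / 2)) :=
      hf.slc.comp_affine (toLin' T) b
    have h2 : LogC (fun u : Fin m → ℝ =>
        Real.exp ((-(LinearMap.comp (dotProductBilin ℝ ℝ (b ᵥ* G)) (toLin' T))) u +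
          (-(qf G b / 2)))) := LogC.exp_affine _ _
    have h3 : LogC (fun u => |T.det| * ((f (b + T.mulVec u) *
        Real.exp (qf G (b + T.mulVec u) / 2)) *
        Real.exp ((-(LinearMap.comp (dotProductBilin ℝ ℝ (b ᵥ* G)) (toLin' T))) u +
          (-(qf G b / 2))))) := by
      apply LogC.const_mul (abs_nonneg _)
      · intro x
        exact mul_nonneg (mul_nonneg (hf.nonneg _) (Real.exp_pos _).le) (Real.exp_pos _).le
      · apply LogC.mul _ _ h1 h2
        · intro x; exact mul_nonneg (hf.nonneg _) (Real.exp_pos _).le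
        · intro x; exact (Real.exp_pos _).le
    convert h3 using 2 with u
    simp only [Cpt435.aff]
    rw [mul_assoc |T.det|, mul_assoc (f _) (Real.exp _) (Real.exp _), ← Real.exp_add]
    congr 3
    rw [qf_add hf.psd.isHermitian, qf_mulVec]
    simp only [LinearMap.neg_apply, LinearMap.comp_apply, toLin'_apply, dotProductBilin_apply_apply,
      dotProduct_mulVec]
    ring

end Crest.Agent.R253.Cpt435
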