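import Crest.Agent.R253.CptF_435

/-!
# R253, part G (helper435)

* second-order expansion of `curveI`;
* Brascamp–Lieb for states: `qf (densCov f) (G v) ≤ qf G v`;
* the tilt curve `tl f u t`, it stays in the class, and expansions of mean, covariance, third
  central moment and entropy.
-/

set_option autoImplicit false
open MeasureTheory Set Filter Topology Matrix
open Crest.GeometryTopology.Isotropic
open scoped ENNReal NNReal

namespace Crest.Agent.R253.Cpt435

variable {m : ℕ}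

theorem T2.comp_neg {φ : ℝ → ℝ} {a b c : ℝ} (h : T2 φ a b c) :
    T2 (fun t => φ (-t)) a (-b) c := by
  have ht : Tendsto (fun t : ℝ => -t) (𝓝 0) (𝓝 0) := by
    have := (continuous_neg (G := ℝ)).tendsto 0
    simpa using this
  have h1 := Asymptotics.IsLittleO.comp_tendsto h ht
  refine (h1.congr_left fun t => ?_).congr_right fun t => ?_
  · simp only [Function.comp_apply]; ring
  · simp only [Function.comp_apply]; ring

/-- second-order expansion of unnormalised moments along the curve -/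
theorem T2_curveI {f l q ψ : (Fin m → ℝ) → ℝ} (hf : EB f) (hl : Measurable l)
    {L : ℝ} (hL0 : 0 ≤ L) (hL : ∀ x, |l x| ≤ L * (1 + ‖x‖)) (hq : PB q) (hq0 : ∀ x, 0 ≤ q x)
    (hψ : PB ψ) :
    T2 (curveI f l q ψ) (ex f ψ) (ex f (fun x => ψ x * l x))
      ((ex f (fun x => ψ x * l x * l x) - ex f (fun x => ψ x * q x)) / 2) := by
  obtain ⟨δ, hδ, H⟩ := exists_curve_deriv hf hl hL0 hL hq hq0
  have hlPB : PB l := ⟨hl, L, 1, hL0, fun x => by rw [pow_one]; exact hL x⟩
  have hev : ∀ᶠ t in 𝓝 (0 : ℝ), |t| < δ := by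
    rw [Metric.eventually_nhds_iff]
    exact ⟨δ, hδ, fun t ht => by rwa [Real.dist_eq, sub_zero] at ht⟩
  have h1 : ∀ᶠ t in 𝓝 (0 : ℝ), HasDerivAt (curveI f l q ψ)
      (curveI f l q (fun x => ψ x * l x) t - t * curveI f l q (fun x => ψ x * q x) t) t := by
    filter_upwards [hev] with t ht
    exact (H ψ hψ t ht).2
  have h2 : HasDerivAt (fun t => curveI f l q (fun x => ψ x * l x) t -
      t * curveI f l q (fun x => ψ x * q x) t)
      (ex f (fun x => ψ x * l x * l x) - ex f (fun x => ψ x * q x)) 0 := by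
    have e1 := (H _ (hψ.mul hlPB) 0 (by simpa using hδ)).2
    have e2 := (H _ (hψ.mul hq) 0 (by simpa using hδ)).2
    have e3 := e1.sub ((hasDerivAt_id (0 : ℝ)).mul e2)
    refine e3.congr_deriv ?_
    simp [curveI_zero, ex]
  have h3 := T2.of_hasDerivAt h1 h2
  refine h3.congr_coef ?_ ?_ rfl
  · rw [curveI_zero]; rfl
  · simp [curveI_zero, ex]

theorem cl_bound (f : (Fin m → ℝ) → ℝ) (u : Fin m → ℝ) :
    ∃ L, 0 ≤ L ∧ ∀ x, |cl f u x| ≤ L * (1 + ‖x‖) := by
  refine ⟨∑ i, |u i| * (1 + |densMean f i|), Finset.sum_nonneg fun i _ => by positivity,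
    fun x => ?_⟩
  unfold cl
  refine (Finset.abs_sum_le_sum_abs _ _).trans ?_
  rw [Finset.sum_mul]
  refine Finset.sum_le_sum fun i _ => ?_
  rw [abs_mul, mul_assoc]
  gcongr
  have h1 : |x i| ≤ ‖x‖ := by
    have := norm_le_pi_norm x i
    rwa [Real.norm_eq_abs] at this
  have h2 := norm_nonneg x
  calc |x i - densMean f i| ≤ |x i| + |densMean f i| := abs_sub _ _
    _ ≤ ‖x‖ + |densMean f i| := by gcongr
    _ ≤ (1 + |densMean f i|) * (1 + ‖x‖) := by nlinarith [abs_nonneg (densMean f i)]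

theorem ex_cl {f : (Fin m → ℝ) → ℝ} (hf : LCD f) (u : Fin m → ℝ) : ex f (cl f u) = 0 := by
  unfold cl
  rw [ex_sum _ hf.eb (fun i _ => PB.const_mul _ ((PB.coord i).sub (PB.const _)))]
  apply Finset.sum_eq_zero
  intro i _
  rw [ex_const_mul, ex_sub hf.eb (PB.coord i) (PB.const _), hf.ex_const, ← densMean_eq, sub_self,
    mul_zero]

theorem cl_sub (f : (Fin m → ℝ) → ℝ) (u x y : Fin m → ℝ) :
    cl f u x - cl f u y = u ⬝ᵥ (x - y) := by
  unfold cl
  rw [← Finset.sum_sub_distrib, dotProduct]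
  refine Finset.sum_congr rfl fun i _ => ?_
  simp only [Pi.sub_apply]; ring

/-- midpoint Prékopa–Leindler for states -/
theorem SLC.laplace_mul_le {f : (Fin m → ℝ) → ℝ} {G : Matrix (Fin m) (Fin m) ℝ} (hf : SLC f G)
    (v : Fin m → ℝ) (s : ℝ)
    (hi1 : Integrable (fun x => f x * Real.exp (s * cl f (G.mulVec v) x)))
    (hi2 : Integrable (fun x => f x * Real.exp (-s * cl f (G.mulVec v) x))) :
    (∫ x, f x * Real.exp (s * cl f (G.mulVec v) x)) *
      (∫ x, f x * Real.exp (-s * cl f (G.mulVec v) x)) ≤ Real.exp (s ^ 2 * qf G v) := by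
  set l := cl f (G.mulVec v) with hl
  have hlm : Measurable l := (PB.cl f _).meas
  have hPL := Lib.PrekopaLeindler.PL_pi m (1 / 2) (by norm_num) (by norm_num)
    (fun x => ENNReal.ofReal (f x * Real.exp (s * l x)))
    (fun x => ENNReal.ofReal (f x * Real.exp (-s * l x)))
    (fun x => ENNReal.ofReal (f x * Real.exp (s ^ 2 * qf G v / 2)))
    ((hf.meas.mul (Real.measurable_exp.comp (hlm.const_mul s))).ennreal_ofReal)
    ((hf.meas.mul (Real.measurable_exp.comp (hlm.const_mul (-s)))).ennreal_ofReal)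
    ((hf.meas.mul_const _).ennreal_ofReal) ?_
  · have n1 : ∀ x, 0 ≤ f x * Real.exp (s * l x) :=
      fun x => mul_nonneg (hf.nonneg x) (Real.exp_pos _).le
    have n2 : ∀ x, 0 ≤ f x * Real.exp (-s * l x) :=
      fun x => mul_nonneg (hf.nonneg x) (Real.exp_pos _).le
    have n3 : ∀ x, 0 ≤ f x * Real.exp (s ^ 2 * qf G v / 2) :=
      fun x => mul_nonneg (hf.nonneg x) (Real.exp_pos _).le
    rw [← ofReal_integral_eq_lintegral_ofReal hi1 (ae_of_all _ n1),
      ← ofReal_integral_eq_lintegral_ofReal hi2 (ae_of_all _ n2),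
      ← ofReal_integral_eq_lintegral_ofReal (hf.integrable.mul_const _) (ae_of_all _ n3),
      integral_mul_const, hf.int1, one_mul] at hPL
    set Z1 := ∫ x, f x * Real.exp (s * l x) with hZ1
    set Z2 := ∫ x, f x * Real.exp (-s * l x) with hZ2
    have z1 : 0 ≤ Z1 := integral_nonneg n1
    have z2 : 0 ≤ Z2 := integral_nonneg n2
    have e1 : (1 : ℝ) - 1 / 2 = 1 / 2 := by norm_num
    rw [e1, ENNReal.ofReal_rpow_of_nonneg z1 (by norm_num),
      ENNReal.ofReal_rpow_of_nonneg z2 (by norm_num),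
      ← ENNReal.ofReal_mul (Real.rpow_nonneg z1 _),
      ENNReal.ofReal_le_ofReal_iff (Real.exp_pos _).le, ← Real.mul_rpow z1 z2,
      ← Real.sqrt_eq_rpow] at hPL
    have h1 := pow_le_pow_left₀ (Real.sqrt_nonneg _) hPL 2
    rw [Real.sq_sqrt (mul_nonneg z1 z2), ← Real.exp_nat_mul] at h1
    refine h1.trans (le_of_eq ?_)
    congr 1; push_cast; ring
  · intro x y
    have e1 : (1 : ℝ) - 1 / 2 = 1 / 2 := by norm_num
    simp only [e1]
    have n1 : 0 ≤ f x * Real.exp (s * l x) := mul_nonneg (hf.nonneg x) (Real.exp_pos _).le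
    have n2 : 0 ≤ f y * Real.exp (-s * l y) := mul_nonneg (hf.nonneg y) (Real.exp_pos _).le
    rw [ENNReal.ofReal_rpow_of_nonneg n1 (by norm_num),
      ENNReal.ofReal_rpow_of_nonneg n2 (by norm_num),
      ← ENNReal.ofReal_mul (Real.rpow_nonneg n1 _)]
    apply ENNReal.ofReal_le_ofReal
    rw [← Real.sqrt_eq_rpow, ← Real.sqrt_eq_rpow, Real.sqrt_mul (hf.nonneg x),
      Real.sqrt_mul (hf.nonneg y), Real.sqrt_eq_rpow (Real.exp _), Real.sqrt_eq_rpow (Real.exp _),
      ← Real.exp_mul, ← Real.exp_mul]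
    have hmid := hf.midpoint x y
    have h2 : s * l x * (1 / 2) + -s * l y * (1 / 2) ≤ qf G (x - y) / 8 + s ^ 2 * qf G v / 2 := by
      have h3 : s * l x * (1 / 2) + -s * l y * (1 / 2) = s / 2 * (G.mulVec v ⬝ᵥ (x - y)) := by
        rw [← cl_sub f]; ring
      have h4 : 0 ≤ qf G ((x - y) + (-(2 * s)) • v) := qf_nonneg hf.psd _
      rw [qf_add hf.psd.isHermitian, qf_smul, mulVec_smul, dotProduct_smul, smul_eq_mul] at h4
      rw [h3, dotProduct_comm]
      nlinarith
    calc Real.sqrt (f x) * Real.exp (s * l x * (1 / 2)) *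
          (Real.sqrt (f y) * Real.exp (-s * l y * (1 / 2)))
        = Real.sqrt (f x) * Real.sqrt (f y) *
          Real.exp (s * l x * (1 / 2) + -s * l y * (1 / 2)) := by rw [Real.exp_add]; ring
      _ ≤ Real.sqrt (f x) * Real.sqrt (f y) *
          Real.exp (qf G (x - y) / 8 + s ^ 2 * qf G v / 2) := by
          gcongr
      _ = (Real.sqrt (f x) * Real.sqrt (f y) * Real.exp (qf G (x - y) / 8)) *
          Real.exp (s ^ 2 * qf G v / 2) := by rw [Real.exp_add]; ring
      _ ≤ _ := by gcongr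

/-- **Brascamp–Lieb for states**: `G A G ≤ G`. -/
theorem SLC.brascamp_lieb {f : (Fin m → ℝ) → ℝ} {G : Matrix (Fin m) (Fin m) ℝ} (hf : SLC f G)
    (v : Fin m → ℝ) : qf (densCov f) (G.mulVec v) ≤ qf G v := by
  set l := cl f (G.mulVec v) with hl
  obtain ⟨L, hL0, hL⟩ := cl_bound f (G.mulVec v)
  have hlm : Measurable l := (PB.cl f _).meas
  have hZ := T2_curveI hf.eb hlm hL0 hL (PB.const (m := m) 0) (fun _ => le_rfl)
    (PB.const (m := m) 1)
  have hc0 : ex f (fun _ => (1 : ℝ)) = 1 := hf.ex_const 1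
  have hc1 : ex f (fun x => 1 * l x) = 0 := by
    simp only [one_mul]; exact ex_cl hf.toLCD _
  have hc2 : ex f (fun x => 1 * l x * l x) = qf (densCov f) (G.mulVec v) := by
    simp only [one_mul]
    exact ex_cl_cl' hf.eb _ _
  have hc3 : ex f (fun _ => (1 : ℝ) * 0) = 0 := by simp [ex]
  rw [hc0, hc1, hc2, hc3, sub_zero] at hZ
  have hprod := hZ.mul hZ.comp_neg
  have hexp : T2 (fun s => Real.exp (s ^ 2 * qf G v)) 1 0 (qf G v) := by
    have h1 : T2 (fun s : ℝ => s ^ 2 * qf G v) 0 0 (qf G v) :=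
      (T2.id.pow_two.mul_const (qf G v)).congr_coef (by ring) (by ring) (by ring)
    exact h1.exp.congr_coef (by simp) (by simp) (by simp)
  obtain ⟨δ, hδ, H⟩ := exists_curve_deriv hf.eb hlm hL0 hL (PB.const (m := m) 0) (fun _ => le_rfl)
  have hle := T2.le_of_le (hprod.congr_coef (a' := 1) (b' := 0)
    (c' := qf (densCov f) (G.mulVec v)) (by ring) (by ring) (by ring)) hexp ?_
  · exact hle
  · rw [Metric.eventually_nhds_iff]
    refine ⟨δ, hδ, fun s hs => ?_⟩
    rw [Real.dist_eq, sub_zero] at hs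
    have h1 := (H _ (PB.const 1) s hs).1.integrable
    have h2 := (H _ (PB.const 1) (-s) (by rwa [abs_neg])).1.integrable
    simp only [mul_zero, sub_zero] at h1 h2
    have h3 := hf.laplace_mul_le v s h1 h2
    simp only [curveI, mul_zero, sub_zero, one_mul]
    exact h3

/-! ### the tilt curve -/

/-- partition function of the tilt curve -/
noncomputable def tlZ (f : (Fin m → ℝ) → ℝ) (u : Fin m → ℝ) (t : ℝ) : ℝ :=
  curveI f (cl f u) (fun x => cl f u x * cl f u x) (fun _ => 1) t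

/-- the tilt curve `f exp (t l - t² l² / 2) / Z`, `l = ⟨u, x - mean⟩` -/
noncomputable def tl (f : (Fin m → ℝ) → ℝ) (u : Fin m → ℝ) (t : ℝ) (x : Fin m → ℝ) : ℝ :=
  (tlZ f u t)⁻¹ * (f x * Real.exp (t * cl f u x - t ^ 2 / 2 * (cl f u x * cl f u x)))

/-- the `G` component of the tilt curve -/
def tlG (G : Matrix (Fin m) (Fin m) ℝ) (u : Fin m → ℝ) (t : ℝ) : Matrix (Fin m) (Fin m) ℝ :=
  G + t ^ 2 • vecMulVec u u

theorem T2_tl_curve {f : (Fin m → ℝ) → ℝ} {k : (Fin m → ℝ) → ℝ} (hk : EB k) (u : Fin m → ℝ)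
    {ψ : (Fin m → ℝ) → ℝ} (hψ : PB ψ) :
    T2 (curveI k (cl f u) (fun x => cl f u x * cl f u x) ψ) (ex k ψ)
      (ex k (fun x => ψ x * cl f u x)) 0 := by
  obtain ⟨L, hL0, hL⟩ := cl_bound f u
  have h := T2_curveI hk (PB.cl f u).meas hL0 hL ((PB.cl f u).mul (PB.cl f u))
    (fun x => mul_self_nonneg _) hψ
  refine h.congr_coef rfl rfl ?_
  have : (fun x => ψ x * cl f u x * cl f u x) = fun x => ψ x * (cl f u x * cl f u x) := by
    funext x; ring
  rw [this, sub_self, zero_div]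

theorem T2_tlZ {f : (Fin m → ℝ) → ℝ} (hf : LCD f) (u : Fin m → ℝ) : T2 (tlZ f u) 1 0 0 := by
  have h := T2_tl_curve (f := f) hf.eb u (PB.const (m := m) 1)
  refine h.congr_coef (hf.ex_const 1) ?_ rfl
  simp only [one_mul]; exact ex_cl hf u

/-- expansion of expectations along the tilt curve -/
theorem T2_ex_tl {f : (Fin m → ℝ) → ℝ} (hf : LCD f) (u : Fin m → ℝ)
    {ψ : (Fin m → ℝ) → ℝ} (hψ : PB ψ) :
    T2 (fun t => ex (tl f u t) ψ) (ex f ψ) (ex f (fun x => ψ x * cl f u x)) 0 := by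
  have h1 := (T2_tlZ hf u).inv_one
  have h2 := T2_tl_curve (f := f) hf.eb u hψ
  have h3 := h1.mul h2
  refine (h3.congr (Eventually.of_forall fun t => ?_)).congr_coef (by ring) (by ring) (by ring)
  simp only [ex, tl, curveI]
  rw [← integral_const_mul]
  congr 1; funext x; ring

/-- **the tilt curve stays in the class** -/
theorem SLC.tl {f : (Fin m → ℝ) → ℝ} {G : Matrix (Fin m) (Fin m) ℝ} (hf : SLC f G)
    (u : Fin m → ℝ) : ∀ᶠ t in 𝓝 (0 : ℝ), SLC (tl f u t) (tlG G u t) := by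
  obtain ⟨L, hL0, hL⟩ := cl_bound f u
  obtain ⟨δ, hδ, H⟩ := exists_curve_deriv hf.eb (PB.cl f u).meas hL0 hL
    ((PB.cl f u).mul (PB.cl f u)) (fun x => mul_self_nonneg _)
  have hev : ∀ᶠ t in 𝓝 (0 : ℝ), |t| < δ := by
    rw [Metric.eventually_nhds_iff]
    exact ⟨δ, hδ, fun t ht => by rwa [Real.dist_eq, sub_zero] at ht⟩
  have hZ : ∀ᶠ t in 𝓝 (0 : ℝ), 0 < tlZ f u t :=
    (T2_tlZ hf.toLCD u).tendsto.eventually (lt_mem_nhds one_pos)
  filter_upwards [hev, hZ] with t ht hZt
  have hEB := (H _ (PB.const 1) t ht).1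
  -- the linear part
  set Lu : (Fin m → ℝ) →ₗ[ℝ] ℝ := dotProductBilin ℝ ℝ u with hLu
  set c : ℝ := u ⬝ᵥ densMean f with hc
  have hcl : ∀ x, cl f u x = u ⬝ᵥ x - c := by
    intro x
    simp only [cl, hc, dotProduct, ← Finset.sum_sub_distrib]
    refine Finset.sum_congr rfl fun i _ => ?_
    ring
  have hlogc2 : LogC (fun x => (f x * Real.exp (qf G x / 2)) *
      Real.exp (((t + t ^ 2 * c) • Lu) x + (-(t * c) - t ^ 2 / 2 * c ^ 2))) := by
    apply LogC.mul _ _ hf.slc (LogC.exp_affine _ _)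
    · intro x; exact mul_nonneg (hf.nonneg x) (Real.exp_pos _).le
    · intro x; exact (Real.exp_pos _).le
  have hnn : ∀ x, 0 ≤ Cpt435.tl f u t x := fun x =>
    mul_nonneg (inv_nonneg.mpr hZt.le) (mul_nonneg (hf.nonneg x) (Real.exp_pos _).le)
  have hqfuu : ∀ x, qf (vecMulVec u u) x = (u ⬝ᵥ x) ^ 2 := by
    intro x
    simp only [qf, vecMulVec_mulVec, dotProduct_smul]
    rw [dotProduct_comm x u]
    simp [sq]
  have hqfG : ∀ x, qf (tlG G u t) x = qf G x + t ^ 2 * (u ⬝ᵥ x) ^ 2 := by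
    intro x
    rw [← hqfuu]
    simp only [qf, tlG, add_mulVec, smul_mulVec, dotProduct_add, dotProduct_smul, smul_eq_mul]
  have hpsd : (tlG G u t).PosSemidef := by
    refine Matrix.PosSemidef.of_dotProduct_mulVec_nonneg ?_ ?_
    · refine IsHermitian.add hf.psd.isHermitian ?_
      ext i j
      simp only [conjTranspose_apply, Matrix.smul_apply, vecMulVec_apply, star_trivial, smul_eq_mul]
      ring
    · intro x
      have h1 := hqfG x
      have h2 := qf_nonneg hf.psd x
      have h3 : star x ⬝ᵥ (tlG G u t).mulVec x = qf (tlG G u t) x := by simp [qf]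
      rw [h3, h1]; positivity
  refine ⟨⟨?_, hnn, ?_, ?_⟩, hpsd, ?_⟩
  · exact hEB.meas.const_mul _
  · -- log-concavity of tl
    have hsq : LogC (fun x : Fin m → ℝ => Real.exp (-(t ^ 2 / 2) * (cl f u x * cl f u x))) := by
      intro x y s r hs hr hsr
      simp only
      rw [← Real.exp_mul, ← Real.exp_mul, ← Real.exp_add]
      apply Real.exp_le_exp.mpr
      have h1 : cl f u (s • x + r • y) = s * cl f u x + r * cl f u y := by
        rw [hcl, hcl, hcl, dotProduct_add, dotProduct_smul, dotProduct_smul, smul_eq_mul,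
          smul_eq_mul]
        have : c = s * c + r * c := by rw [← add_mul, hsr, one_mul]
        linarith
      rw [h1]
      set p := cl f u x
      set q := cl f u y
      have hr' : r = 1 - s := by linarith
      have h2 : (s * p + r * q) * (s * p + r * q) ≤ s * (p * p) + r * (q * q) := by
        rw [hr']
        nlinarith [mul_nonneg (mul_nonneg hs.le hr.le) (sq_nonneg (p - q)), hr']
      nlinarith [sq_nonneg t]
    have hlin : LogC (fun x : Fin m → ℝ => Real.exp ((t • Lu) x + -(t * c))) :=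
      LogC.exp_affine _ _
    have h1 : LogC (fun x => (tlZ f u t)⁻¹ * ((f x *
        Real.exp (-(t ^ 2 / 2) * (cl f u x * cl f u x))) *
        Real.exp ((t • Lu) x + -(t * c)))) := by
      apply LogC.const_mul (inv_nonneg.mpr hZt.le)
      · intro x
        exact mul_nonneg (mul_nonneg (hf.nonneg x) (Real.exp_pos _).le) (Real.exp_pos _).le
      · apply LogC.mul _ _ (LogC.mul hf.nonneg _ hf.logc hsq) hlin
        · intro x; exact mul_nonneg (hf.nonneg x) (Real.exp_pos _).le
        · intro x; exact (Real.exp_pos _).le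
        · intro x; exact (Real.exp_pos _).le
    convert h1 using 2 with x
    simp only [Cpt435.tl]
    rw [mul_assoc (f x), ← Real.exp_add]
    congr 3
    simp only [LinearMap.smul_apply, hLu, dotProductBilin_apply_apply, smul_eq_mul]
    rw [hcl x]; ring
  · -- total mass
    have h1 : ∫ x, Cpt435.tl f u t x = (tlZ f u t)⁻¹ * tlZ f u t := by
      simp only [Cpt435.tl]
      rw [integral_const_mul]
      congr 1
      simp [tlZ, curveI]
    rw [h1, inv_mul_cancel₀ hZt.ne']
  · -- strong log-concavity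
    have h1 : LogC (fun x => (tlZ f u t)⁻¹ * ((f x * Real.exp (qf G x / 2)) *
        Real.exp (((t + t ^ 2 * c) • Lu) x + (-(t * c) - t ^ 2 / 2 * c ^ 2)))) := by
      apply LogC.const_mul (inv_nonneg.mpr hZt.le) _ hlogc2
      intro x
      exact mul_nonneg (mul_nonneg (hf.nonneg x) (Real.exp_pos _).le) (Real.exp_pos _).le
    convert h1 using 2 with x
    simp only [Cpt435.tl]
    rw [hqfG x, mul_assoc, mul_assoc, mul_assoc (f x), ← Real.exp_add, ← Real.exp_add]
    congr 3
    simp only [LinearMap.smul_apply, hLu, dotProductBilin_apply_apply, smul_eq_mul]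
    rw [hcl x]; ring

end Crest.Agent.R253.Cpt435
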