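import Crest.Agent.R253.CptG_435

/-!
# R253, part H (helper435)

Second-order expansions of mean, covariance, third central moment and entropy along the tilt
curve `tl f u t`:

* `densMean` : `m + t A u + 0`;
* `densCov`  : `A + t M(u) - t² (Au)(Au)ᵀ`;
* `densM3`   : `M + t K(u) - t² (Au ⊗ M(u) + perms)`;
* `diffEntropy` : `h - t E[l log f] - t² u·Au / 2`.
-/

set_option autoImplicit false
open MeasureTheory Set Filter Topology Matrix
open Crest.GeometryTopology.Isotropic
open scoped ENNReal NNReal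

namespace Crest.Agent.R253.Cpt435

variable {m : ℕ}

/-- `A u` in coordinates -/
noncomputable def Au (f : (Fin m → ℝ) → ℝ) (u : Fin m → ℝ) (i : Fin m) : ℝ :=
  (densCov f).mulVec u i

/-- `M(u)` in coordinates -/
noncomputable def Mu (f : (Fin m → ℝ) → ℝ) (u : Fin m → ℝ) (i j : Fin m) : ℝ :=
  ∑ a, u a * densM3 f i j a

/-- the fourth cumulant contracted with `u` -/
noncomputable def Ku (f : (Fin m → ℝ) → ℝ) (u : Fin m → ℝ) (i j k : Fin m) : ℝ :=
  ex f (fun x => (x i - densMean f i) * (x j - densMean f j) * (x k - densMean f k) * cl f u x)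
    - Au f u i * densCov f j k - Au f u j * densCov f i k - Au f u k * densCov f i j

theorem Mu_symm (f : (Fin m → ℝ) → ℝ) (u : Fin m → ℝ) (i j : Fin m) : Mu f u i j = Mu f u j i := by
  unfold Mu
  refine Finset.sum_congr rfl fun a _ => ?_
  congr 1
  unfold densM3
  congr 1; funext x; ring

theorem ex_coord_cl {f : (Fin m → ℝ) → ℝ} (hf : LCD f) (u : Fin m → ℝ) (i : Fin m) :
    ex f (fun x => x i * cl f u x) = Au f u i := by
  have h1 : (fun x => x i * cl f u x) = fun x => cl f (Pi.single i 1) x * cl f u x +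
      densMean f i * cl f u x := by
    funext x; rw [cl_single]; ring
  rw [h1, ex_add hf.eb ((PB.cl f _).mul (PB.cl f _)) ((PB.cl f _).const_mul _), ex_const_mul,
    ex_cl hf, mul_zero, add_zero, ex_cl_cl' hf.eb]
  simp [Au]

theorem ex_coord2_cl {f : (Fin m → ℝ) → ℝ} (hf : LCD f) (u : Fin m → ℝ) (i j : Fin m) :
    ex f (fun x => x i * x j * cl f u x) =
      Mu f u i j + densMean f i * Au f u j + densMean f j * Au f u i := by
  have h1 : (fun x => x i * x j * cl f u x) = fun x =>
      cl f (Pi.single i 1) x * cl f (Pi.single j 1) x * cl f u x +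
      (densMean f i * (x j * cl f u x) + (densMean f j * (x i * cl f u x) +
        (-(densMean f i * densMean f j)) * cl f u x)) := by
    funext x; rw [cl_single, cl_single]; ring
  have p1 : PB (fun x => cl f (Pi.single i 1) x * cl f (Pi.single j 1) x * cl f u x) :=
    ((PB.cl f _).mul (PB.cl f _)).mul (PB.cl f _)
  have p2 : PB (fun x => densMean f i * (x j * cl f u x)) :=
    ((PB.coord j).mul (PB.cl f u)).const_mul _
  have p3 : PB (fun x => densMean f j * (x i * cl f u x)) :=
    ((PB.coord i).mul (PB.cl f u)).const_mul _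
  have p4 : PB (fun x => (-(densMean f i * densMean f j)) * cl f u x) := (PB.cl f u).const_mul _
  rw [h1, ex_add hf.eb p1 (p2.add (p3.add p4)), ex_add hf.eb p2 (p3.add p4), ex_add hf.eb p3 p4,
    ex_const_mul, ex_const_mul, ex_const_mul, ex_cl hf, ex_coord_cl hf, ex_coord_cl hf,
    ex_cl3 hf.eb]
  have h2 : ∑ i', ∑ j', ∑ k, (Pi.single i (1 : ℝ) : Fin m → ℝ) i' *
      (Pi.single j (1 : ℝ) : Fin m → ℝ) j' * u k * densM3 f i' j' k = Mu f u i j := by
    rw [Finset.sum_eq_single i]
    · rw [Finset.sum_eq_single j]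
      · simp [Mu]
      · intro b _ hb; simp [Pi.single_eq_of_ne hb]
      · intro h; exact absurd (Finset.mem_univ j) h
    · intro b _ hb; simp [Pi.single_eq_of_ne hb]
    · intro h; exact absurd (Finset.mem_univ i) h
  rw [h2]; ring

theorem ex_coord3_cl {f : (Fin m → ℝ) → ℝ} (hf : LCD f) (u : Fin m → ℝ) (i j k : Fin m) :
    ex f (fun x => x i * x j * x k * cl f u x) =
      ex f (fun x => (x i - densMean f i) * (x j - densMean f j) * (x k - densMean f k) * cl f u x)
      + densMean f i * ex f (fun x => x j * x k * cl f u x)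
      + densMean f j * ex f (fun x => x i * x k * cl f u x)
      + densMean f k * ex f (fun x => x i * x j * cl f u x)
      - densMean f i * densMean f j * Au f u k
      - densMean f i * densMean f k * Au f u j
      - densMean f j * densMean f k * Au f u i := by
  set a := densMean f i with ha
  set b := densMean f j with hb
  set c := densMean f k with hc
  have hl := PB.cl f u
  have hi := PB.coord (m := m) i
  have hj := PB.coord (m := m) j
  have hk := PB.coord (m := m) k
  have h1 : (fun x => x i * x j * x k * cl f u x) = fun x =>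
      (x i - a) * (x j - b) * (x k - c) * cl f u x +
      (a * (x j * x k * cl f u x) + (b * (x i * x k * cl f u x) + (c * (x i * x j * cl f u x) +
      ((-(a * b)) * (x k * cl f u x) + ((-(a * c)) * (x j * cl f u x) +
      ((-(b * c)) * (x i * cl f u x) + (a * b * c) * cl f u x)))))) := by
    funext x; ring
  have p0 : PB (fun x => (x i - a) * (x j - b) * (x k - c) * cl f u x) :=
    (((hi.sub (PB.const _)).mul (hj.sub (PB.const _))).mul (hk.sub (PB.const _))).mul hl
  have p1 : PB (fun x => a * (x j * x k * cl f u x)) := ((hj.mul hk).mul hl).const_mul _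
  have p2 : PB (fun x => b * (x i * x k * cl f u x)) := ((hi.mul hk).mul hl).const_mul _
  have p3 : PB (fun x => c * (x i * x j * cl f u x)) := ((hi.mul hj).mul hl).const_mul _
  have p4 : PB (fun x => (-(a * b)) * (x k * cl f u x)) := (hk.mul hl).const_mul _
  have p5 : PB (fun x => (-(a * c)) * (x j * cl f u x)) := (hj.mul hl).const_mul _
  have p6 : PB (fun x => (-(b * c)) * (x i * cl f u x)) := (hi.mul hl).const_mul _
  have p7 : PB (fun x => (a * b * c) * cl f u x) := hl.const_mul _
  rw [h1, ex_add hf.eb p0 (p1.add (p2.add (p3.add (p4.add (p5.add (p6.add p7)))))),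
    ex_add hf.eb p1 (p2.add (p3.add (p4.add (p5.add (p6.add p7))))),
    ex_add hf.eb p2 (p3.add (p4.add (p5.add (p6.add p7)))),
    ex_add hf.eb p3 (p4.add (p5.add (p6.add p7))), ex_add hf.eb p4 (p5.add (p6.add p7)),
    ex_add hf.eb p5 (p6.add p7), ex_add hf.eb p6 p7]
  simp only [ex_const_mul]
  rw [ex_cl hf, ex_coord_cl hf, ex_coord_cl hf, ex_coord_cl hf]
  ring

/-! ### expansions -/

theorem T2_densMean_tl {f : (Fin m → ℝ) → ℝ} (hf : LCD f) (u : Fin m → ℝ) (i : Fin m) :
    T2 (fun t => densMean (tl f u t) i) (densMean f i) (Au f u i) 0 :=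
  (T2_ex_tl hf u (PB.coord i)).congr_coef rfl (ex_coord_cl hf u i) rfl

theorem T2_ex2_tl {f : (Fin m → ℝ) → ℝ} (hf : LCD f) (u : Fin m → ℝ) (i j : Fin m) :
    T2 (fun t => ex (tl f u t) (fun x => x i * x j)) (ex f (fun x => x i * x j))
      (Mu f u i j + densMean f i * Au f u j + densMean f j * Au f u i) 0 :=
  (T2_ex_tl hf u ((PB.coord i).mul (PB.coord j))).congr_coef rfl (ex_coord2_cl hf u i j) rfl

/-- expansion of the covariance -/
theorem T2_densCov_tl {f : (Fin m → ℝ) → ℝ} {G : Matrix (Fin m) (Fin m) ℝ} (hf : SLC f G)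
    (u : Fin m → ℝ) (i j : Fin m) :
    T2 (fun t => densCov (tl f u t) i j) (densCov f i j) (Mu f u i j)
      (-(Au f u i * Au f u j)) := by
  have h1 := (T2_ex2_tl hf.toLCD u i j).sub
    ((T2_densMean_tl hf.toLCD u i).mul (T2_densMean_tl hf.toLCD u j))
  have h2 : (fun t => ex (tl f u t) (fun x => x i * x j) -
      densMean (tl f u t) i * densMean (tl f u t) j) =ᶠ[𝓝 0] fun t => densCov (tl f u t) i j := by
    filter_upwards [hf.tl u] with t ht
    rw [densCov_raw ht.toLCD]
  refine (h1.congr h2).congr_coef ?_ ?_ ?_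
  · rw [densCov_raw hf.toLCD]
  · ring
  · ring

/-- expansion of the third central moment -/
theorem T2_densM3_tl {f : (Fin m → ℝ) → ℝ} {G : Matrix (Fin m) (Fin m) ℝ} (hf : SLC f G)
    (u : Fin m → ℝ) (i j k : Fin m) :
    T2 (fun t => densM3 (tl f u t) i j k) (densM3 f i j k) (Ku f u i j k)
      (-(Au f u i * Mu f u j k + Au f u j * Mu f u i k + Au f u k * Mu f u i j)) := by
  have e3 := T2_ex_tl hf.toLCD u (((PB.coord i).mul (PB.coord j)).mul (PB.coord k))
  have mi := T2_densMean_tl hf.toLCD u i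
  have mj := T2_densMean_tl hf.toLCD u j
  have mk := T2_densMean_tl hf.toLCD u k
  have eij := T2_ex2_tl hf.toLCD u i j
  have eik := T2_ex2_tl hf.toLCD u i k
  have ejk := T2_ex2_tl hf.toLCD u j k
  have h1 := (((e3.sub (mi.mul ejk)).sub (mj.mul eik)).sub (mk.mul eij)).add
    (((mi.const_mul 2).mul mj).mul mk)
  have h2 : (fun t => ex (tl f u t) (fun x => x i * x j * x k) -
      densMean (tl f u t) i * ex (tl f u t) (fun x => x j * x k) -
      densMean (tl f u t) j * ex (tl f u t) (fun x => x i * x k) -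
      densMean (tl f u t) k * ex (tl f u t) (fun x => x i * x j) +
      2 * densMean (tl f u t) i * densMean (tl f u t) j * densMean (tl f u t) k) =ᶠ[𝓝 0]
      fun t => densM3 (tl f u t) i j k := by
    filter_upwards [hf.tl u] with t ht
    rw [densM3_raw ht.toLCD]
  refine (h1.congr h2).congr_coef ?_ ?_ ?_
  · rw [densM3_raw hf.toLCD]
  · rw [ex_coord3_cl hf.toLCD, ex_coord2_cl hf.toLCD, ex_coord2_cl hf.toLCD,
      ex_coord2_cl hf.toLCD, Ku, densCov_raw hf.toLCD, densCov_raw hf.toLCD, densCov_raw hf.toLCD]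
    ring
  · ring

/-- expansion of the entropy -/
theorem T2_diffEntropy_tl {f : (Fin m → ℝ) → ℝ} {G : Matrix (Fin m) (Fin m) ℝ} (hf : SLC f G)
    (u : Fin m → ℝ) :
    T2 (fun t => diffEntropy (tl f u t)) (diffEntropy f)
      (-(∫ x, cl f u x * (f x * Real.log (f x)))) (-(u ⬝ᵥ (densCov f).mulVec u) / 2) := by
  set k : (Fin m → ℝ) → ℝ := fun x => f x * Real.log (f x) with hk
  have hkE : EB k := hf.eb.entropy hf.nonneg
  have hl := PB.cl f u
  have hq := hl.mul hl
  have e1 := T2_tl_curve (f := f) hkE u (PB.const (m := m) 1)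
  have e2 := T2_tl_curve (f := f) hf.eb u hl
  have e3 := T2_tl_curve (f := f) hf.eb u hq
  have eZ := T2_tlZ hf.toLCD u
  have hZi := eZ.inv_one
  have hlog := eZ.log one_ne_zero
  obtain ⟨L, hL0, hL⟩ := cl_bound f u
  obtain ⟨δ, hδ, H⟩ := exists_curve_deriv hf.eb hl.meas hL0 hL hq (fun x => mul_self_nonneg _)
  obtain ⟨δ', hδ', H'⟩ := exists_curve_deriv hkE hl.meas hL0 hL hq (fun x => mul_self_nonneg _)
  have hev : ∀ᶠ t in 𝓝 (0 : ℝ), |t| < min δ δ' := by
    rw [Metric.eventually_nhds_iff]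
    exact ⟨min δ δ', lt_min hδ hδ', fun t ht => by rwa [Real.dist_eq, sub_zero] at ht⟩
  have hZpos : ∀ᶠ t in 𝓝 (0 : ℝ), 0 < tlZ f u t := eZ.tendsto.eventually (lt_mem_nhds one_pos)
  -- the combination
  set Q : (Fin m → ℝ) → ℝ := fun x => cl f u x * cl f u x with hQ
  have hcomb := ((hZi.mul e1).add ((T2.id.mul hZi).mul e2)).sub
    (((T2.id.pow_two.mul hZi).mul e3).const_mul (1 / 2))
  have hfin := hlog.sub hcomb
  have hq2 : ex f Q = u ⬝ᵥ (densCov f).mulVec u := ex_cl_cl' hf.eb u u
  have hk1 : ex k (fun x => 1 * cl f u x) = ∫ x, cl f u x * (f x * Real.log (f x)) := by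
    simp [ex, hk]
  have hk0 : ex k (fun _ => (1 : ℝ)) = -diffEntropy f := by
    simp [ex, hk, diffEntropy]
  have hcl0 : ex f (cl f u) = 0 := ex_cl hf.toLCD u
  have hll : ex f (fun x => cl f u x * cl f u x) = u ⬝ᵥ (densCov f).mulVec u := hq2
  refine (hfin.congr ?_).congr_coef ?_ ?_ ?_
  · filter_upwards [hev, hZpos] with t ht hZt
    have i1 := (H' _ (PB.const 1) t (lt_of_lt_of_le ht (min_le_right _ _))).1
    have i2 := (H _ (PB.const 1) t (lt_of_lt_of_le ht (min_le_left _ _))).1
    unfold diffEntropy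
    have h1 : (fun x => Cpt435.tl f u t x * Real.log (Cpt435.tl f u t x)) = fun x =>
        (tlZ f u t)⁻¹ * (1 * (k x * Real.exp (t * cl f u x - t ^ 2 / 2 * Q x))) +
        ((t * (tlZ f u t)⁻¹) * (cl f u x * (f x * Real.exp (t * cl f u x - t ^ 2 / 2 * Q x))) -
        ((t ^ 2 * (tlZ f u t)⁻¹ / 2) * (Q x * (f x * Real.exp (t * cl f u x - t ^ 2 / 2 * Q x))) +
        (Real.log (tlZ f u t) * (tlZ f u t)⁻¹) *
          (1 * (f x * Real.exp (t * cl f u x - t ^ 2 / 2 * Q x))))) := by
      funext x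
      simp only [Cpt435.tl]
      rcases (hf.nonneg x).lt_or_eq with h | h
      · rw [Real.log_mul (inv_ne_zero hZt.ne') (mul_ne_zero h.ne' (Real.exp_pos _).ne'),
          Real.log_mul h.ne' (Real.exp_pos _).ne', Real.log_exp, Real.log_inv]
        simp only [hk, hQ]; ring
      · simp [hk, ← h]
    have j1 : Integrable (fun x => (tlZ f u t)⁻¹ *
        (1 * (k x * Real.exp (t * cl f u x - t ^ 2 / 2 * Q x)))) :=
      (i1.integrable_mul (PB.const 1)).const_mul _
    have j2 : Integrable (fun x => (t * (tlZ f u t)⁻¹) *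
        (cl f u x * (f x * Real.exp (t * cl f u x - t ^ 2 / 2 * Q x)))) :=
      (i2.integrable_mul hl).const_mul _
    have j3 : Integrable (fun x => (t ^ 2 * (tlZ f u t)⁻¹ / 2) *
        (Q x * (f x * Real.exp (t * cl f u x - t ^ 2 / 2 * Q x)))) :=
      (i2.integrable_mul hq).const_mul _
    have j4 : Integrable (fun x => (Real.log (tlZ f u t) * (tlZ f u t)⁻¹) *
        (1 * (f x * Real.exp (t * cl f u x - t ^ 2 / 2 * Q x)))) :=
      (i2.integrable_mul (PB.const 1)).const_mul _
    have hZdef : ∫ x, (1 : ℝ) * (f x * Real.exp (t * cl f u x - t ^ 2 / 2 * Q x)) = tlZ f u t := rfl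
    have a1 := integral_add j1 (j2.sub (j3.add j4))
    have a2 := integral_sub j2 (j3.add j4)
    have a3 := integral_add j3 j4
    simp only [Pi.add_apply, Pi.sub_apply] at a1 a2 a3
    have c1 := integral_const_mul (μ := (volume : Measure (Fin m → ℝ))) (tlZ f u t)⁻¹
      (fun x => 1 * (k x * Real.exp (t * cl f u x - t ^ 2 / 2 * Q x)))
    have c2 := integral_const_mul (μ := (volume : Measure (Fin m → ℝ))) (t * (tlZ f u t)⁻¹)
      (fun x => cl f u x * (f x * Real.exp (t * cl f u x - t ^ 2 / 2 * Q x)))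
    have c3 := integral_const_mul (μ := (volume : Measure (Fin m → ℝ))) (t ^ 2 * (tlZ f u t)⁻¹ / 2)
      (fun x => Q x * (f x * Real.exp (t * cl f u x - t ^ 2 / 2 * Q x)))
    have c4 := integral_const_mul (μ := (volume : Measure (Fin m → ℝ)))
      (Real.log (tlZ f u t) * (tlZ f u t)⁻¹)
      (fun x => 1 * (f x * Real.exp (t * cl f u x - t ^ 2 / 2 * Q x)))
    rw [h1, a1, a2, a3, c1, c2, c3, c4, hZdef]
    simp only [curveI]
    have hZne := hZt.ne'
    rw [mul_assoc (Real.log _), inv_mul_cancel₀ hZne]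
    ring
  · rw [hk0]; simp
  · simp only [hk0, hk1, hcl0, hll]; ring
  · simp only [hk0, hk1, hcl0, hll, hq2]; ring

end Crest.Agent.R253.Cpt435
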