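import Crest.Agent.R253.Hazard_930

set_option autoImplicit false

open MeasureTheory Set Filter Topology

namespace Crest.Agent.R253.Curve930

open Crest.Agent.R253.Mills930 Crest.Agent.R253.Hazard930

/-- inverse variance -/
noncomputable def u (z : ℝ) : ℝ := 1 / s z
/-- speed of `u` -/
noncomputable def g (z : ℝ) : ℝ := r z * K z / s z ^ 2
/-- `L = 2 l'(s)` -/
noncomputable def L (z : ℝ) : ℝ := 1 + 2 * (s z / K z) - 1 / s z

lemma g_pos (z : ℝ) : 0 < g z := by
  have h1 := r_pos z; have h2 := K_pos z; have h3 := s_pos z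
  unfold g; positivity

lemma u_deriv (z : ℝ) : HasDerivAt u (g z) z := by
  have h := (s_deriv z).inv (s_pos z).ne'
  have h2 : u = s⁻¹ := by funext y; simp [u]
  rw [h2]
  refine h.congr_deriv ?_
  unfold g
  ring

lemma u_gt (z : ℝ) : 1 < u z := by
  unfold u
  rw [lt_div_iff₀ (s_pos z)]
  linarith [s_lt_one z]

lemma u_lim : Tendsto u atTop atTop := by
  have h : Tendsto s atTop (𝓝[>] 0) := by
    apply tendsto_nhdsWithin_iff.mpr
    exact ⟨s_lim, Eventually.of_forall fun z => s_pos z⟩
  have := tendsto_inv_nhdsGT_zero.comp h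
  refine this.congr ?_
  intro z; simp [u]

lemma L_eq (z : ℝ) : L z = N z / (s z * K z) := by
  have h1 := (s_pos z).ne'
  have h2 := (K_pos z).ne'
  unfold L N
  field_simp
  ring

lemma L_pos (z : ℝ) : 0 < L z := by
  rw [L_eq]; exact div_pos (N_pos z) (mul_pos (s_pos z) (K_pos z))

lemma L_deriv1 (z : ℝ) : HasDerivAt L (2 * (m z * N z / K z ^ 2) - g z) z := by
  have h1 := (s_pos z).ne'
  have h2 := (K_pos z).ne'
  have ha := (s_deriv z).div (K_deriv z) h2
  have hb := (s_deriv z).inv h1
  have hc := ((ha.const_mul 2).const_add 1).sub hb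
  have hL : L = fun z => (1 + 2 * ((s / K) z)) - s⁻¹ z := by
    funext y; simp [L]
  rw [hL]
  refine hc.congr_deriv ?_
  have h3 : m z * (1 - s z) = r z * (K z + s z) := by rw [← rm_eq, ← msq_eq]; ring
  unfold N g
  field_simp
  linear_combination (2 * s z ^ 2 * K z) * h3

/-- the autonomous vector field -/
noncomputable def V (L u : ℝ) : ℝ := ((L + u)^2 - 1) * L / (2 * (u * (u - 1))) - 1

lemma P_eq (z : ℝ) : u z * (u z - 1) = (1 - s z) / s z ^ 2 := by
  have h1 := (s_pos z).ne'
  unfold u; field_simp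

lemma f_eq (z : ℝ) : (L z + u z)^2 - 1 = 4 * s z * m z ^ 2 / K z ^ 2 := by
  have h1 := (s_pos z).ne'
  have h2 := (K_pos z).ne'
  rw [msq_eq]
  unfold L u
  field_simp
  ring

lemma L_deriv (z : ℝ) : HasDerivAt L (V (L z) (u z) * g z) z := by
  refine (L_deriv1 z).congr_deriv ?_
  have h1 := (s_pos z).ne'
  have h2 := (K_pos z).ne'
  have h3 := (r_pos z).ne'
  have h4 := (m_pos z).ne'
  unfold V
  rw [f_eq, P_eq, L_eq, ← rm_eq]
  unfold g
  field_simp
  ring

lemma f_gt (z : ℝ) : u z < L z + u z := by linarith [L_pos z]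

/-- comparison tool: lower bound on `L` near infinity contradicts `K/s² → 2`. -/
lemma k_deriv' (z : ℝ) : HasDerivAt k (-((1 + k z) * L z / (1 - s z) * (r z * K z))) z := by
  refine (k_deriv z).congr_deriv ?_
  have h1 := (s_pos z).ne'
  have h2 := (K_pos z).ne'
  have h3 := (r_pos z).ne'
  have h4 := (m_pos z).ne'
  have h5 : m z ^ 2 = K z + s z := msq_eq z
  rw [L_eq, ← rm_eq]
  unfold k
  field_simp
  linear_combination (-N z) * h5

lemma ks_lim : Tendsto (fun z => k z / s z) atTop (𝓝 2) := by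
  refine Ks_lim.congr ?_
  intro z
  unfold k
  rw [div_div, pow_two]

lemma V_pos_of (L u : ℝ) (hL : 2 ≤ L) (hu : 1 < u) : 0 < V L u := by
  unfold V
  have hP : 0 < 2 * (u * (u - 1)) := by nlinarith
  rw [sub_pos, lt_div_iff₀ hP]
  nlinarith [mul_pos (sub_pos.mpr hu) (sub_pos.mpr hu), mul_nonneg (sub_nonneg.mpr hL) (sub_pos.mpr hu).le,
    sq_nonneg (L+u), mul_nonneg (sub_nonneg.mpr hL) (sq_nonneg (L+u))]

lemma L_lt_two (z : ℝ) : L z < 2 := by
  by_contra hcon
  push Not at hcon
  have hb : ∀ b, z < b → 2 - L b < 0 := by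
    intro b hb
    apply barrier (g := fun y => 2 - L y) (g' := fun y => -(V (L y) (u y) * g y)) (c := z)
      (fun y _ => (L_deriv y).const_sub 2) _ (le_refl z) hb (by linarith)
    intro y _ hy
    have h1 := V_pos_of (L y) (u y) (by linarith) (u_gt y)
    have h2 := mul_pos h1 (g_pos y)
    linarith
  -- choose z1 > z, L ≥ L z1 = 2 + δ after
  set z1 := z + 1 with hz1
  have hL1 : 2 < L z1 := by have := hb z1 (by linarith); linarith
  have hmono : ∀ y, z1 ≤ y → L z1 ≤ L y := by
    intro y hy
    have : MonotoneOn L (Ici z1) := by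
      apply monotoneOn_of_deriv_nonneg (convex_Ici z1)
      · intro x _; exact (L_deriv x).continuousAt.continuousWithinAt
      · intro x _; exact (L_deriv x).differentiableAt.differentiableWithinAt
      · intro x hx; rw [interior_Ici] at hx
        rw [(L_deriv x).deriv]
        have h1 := V_pos_of (L x) (u x) (by have := hb x (by simp only [mem_Ioi] at hx; linarith); linarith) (u_gt x)
        exact (mul_pos h1 (g_pos x)).le
    exact this (mem_Ici.mpr le_rfl) hy hy
  -- k - (L z1) s is nonincreasing with limit 0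
  have hh : ∀ y, z1 ≤ y → 0 ≤ k y - L z1 * s y := by
    intro y hy
    have hd : ∀ x, z1 ≤ x → HasDerivAt (fun x => -(k x - L z1 * s x))
        (-(-((1 + k x) * L x / (1 - s x) * (r x * K x)) - L z1 * (-(r x * K x)))) x := by
      intro x _
      exact ((k_deriv' x).sub ((s_deriv x).const_mul (L z1))).neg
    have hl : Tendsto (fun x => -(k x - L z1 * s x)) atTop (𝓝 0) := by
      have := (k_lim.sub (s_lim.const_mul (L z1))).neg
      simpa using this
    have := le_zero_of_mono hd (fun x hx => by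
      have h1 := hmono x hx.le
      have h2 := s_pos x
      have h3 := s_lt_one x
      have h4 := k_pos x
      have h5 : 0 < r x * K x := mul_pos (r_pos x) (K_pos x)
      have h6 : L z1 ≤ (1 + k x) * L x / (1 - s x) := by
        rw [le_div_iff₀ (by linarith)]
        nlinarith [mul_nonneg h4.le (L_pos x).le]
      nlinarith) hl hy
    linarith
  have hfin : L z1 ≤ 2 := by
    apply ge_of_tendsto ks_lim
    filter_upwards [eventually_ge_atTop z1] with y hy
    rw [le_div_iff₀ (s_pos y)]
    linarith [hh y hy]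
  linarith

/-- if `L ≤ c` on a half line then `2 ≤ c`. -/
lemma two_le_of {c z0 : ℝ} (h : ∀ z, z0 ≤ z → L z ≤ c) : 2 ≤ c := by
  by_contra hcon
  push Not at hcon
  have hc : 0 < c := lt_of_lt_of_le (L_pos z0) (h z0 le_rfl)
  -- (1+k) c/(1-s) → c < (c+2)/2
  have h1 : Tendsto (fun z => (1 + k z) * c / (1 - s z)) atTop (𝓝 ((1 + 0) * c / (1 - 0))) :=
    ((k_lim.const_add 1).mul_const c).div (s_lim.const_sub 1) (by norm_num)
  have h2 : ∀ᶠ z in atTop, (1 + k z) * c / (1 - s z) < (c + 2) / 2 :=
    h1.eventually_lt_const (by linarith)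
  obtain ⟨z1, hz1⟩ := (h2.and (eventually_ge_atTop z0)).exists_forall_of_atTop
  have hh : ∀ y, z1 ≤ y → k y - (c+2)/2 * s y ≤ 0 := by
    intro y hy
    have hd : ∀ x, z1 ≤ x → HasDerivAt (fun x => (k x - (c+2)/2 * s x))
        ((-((1 + k x) * L x / (1 - s x) * (r x * K x)) - (c+2)/2 * (-(r x * K x)))) x := by
      intro x _
      exact ((k_deriv' x).sub ((s_deriv x).const_mul ((c+2)/2)))
    have hl : Tendsto (fun x => (k x - (c+2)/2 * s x)) atTop (𝓝 0) := by
      have := (k_lim.sub (s_lim.const_mul ((c+2)/2)))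
      simpa using this
    refine le_zero_of_mono hd (fun x hx => ?_) hl hy
    have h3 := (hz1 x hx.le).1
    have h4 := h x (hz1 x hx.le).2
    have h5 : 0 < r x * K x := mul_pos (r_pos x) (K_pos x)
    have h6 : (1 + k x) * L x / (1 - s x) ≤ (1 + k x) * c / (1 - s x) := by
      have := s_lt_one x
      have := k_pos x
      gcongr
    nlinarith
  have hfin : 2 ≤ (c+2)/2 := by
    apply le_of_tendsto ks_lim
    filter_upwards [eventually_ge_atTop z1] with y hy
    rw [div_le_iff₀ (s_pos y)]
    linarith [hh y hy]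
  linarith

/-- `e = E - 2P` -/
noncomputable def e (L u : ℝ) : ℝ := ((L + u)^2 - 1) * L - 2 * (u * (u - 1))

lemma V_eq (L u : ℝ) (hu : 1 < u) : V L u = e L u / (2 * (u * (u - 1))) := by
  have hP : 2 * (u * (u - 1)) ≠ 0 := by
    have : 0 < 2 * (u * (u - 1)) := by nlinarith
    exact this.ne'
  unfold V e
  rw [eq_div_iff hP, sub_mul, div_mul_cancel₀ _ hP, one_mul]

lemma e_deriv (z : ℝ) : HasDerivAt (fun z => e (L z) (u z))
    ((2 * (L z + u z) * (V (L z) (u z) * g z + g z) * L z + ((L z + u z)^2 - 1) * (V (L z) (u z) * g z)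
      - 2 * (g z * (u z - 1) + u z * g z))) z := by
  have hL := L_deriv z
  have hu := u_deriv z
  have h := ((((hL.add hu).pow 2).sub_const 1).mul hL).sub
    ((hu.mul (hu.sub_const 1)).const_mul 2)
  refine h.congr_deriv ?_
  simp only [Pi.add_apply, Pi.pow_apply, Nat.cast_ofNat, Nat.add_one_sub_one, pow_one]

lemma e_pos (z : ℝ) : 0 < e (L z) (u z) := by
  by_contra hcon
  push Not at hcon
  have hb : ∀ b, z < b → e (L b) (u b) < 0 := by
    intro b hb
    refine barrier (g := fun y => e (L y) (u y)) (c := z)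
      (fun y _ => e_deriv y) ?_ (le_refl z) hb hcon
    intro y _ hy
    have hy' : e (L y) (u y) = 0 := hy
    have hV : V (L y) (u y) = 0 := by rw [V_eq _ _ (u_gt y), hy', zero_div]
    rw [hV]
    have hu := u_gt y
    have hL := L_pos y
    have hg := g_pos y
    -- (fL - (2u-1)) < 0
    have key : (L y + u y) * L y < 2 * u y - 1 := by
      unfold e at hy'
      set f := L y + u y with hf
      have hfu : u y < f := f_gt y
      have h1 : (f^2 - 1) * L y = 2 * (u y * (u y - 1)) := by linarith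
      have h2 : 0 < f^2 - 1 := by nlinarith
      have h3 : (f^2-1) * (f * L y) < (f^2-1) * (2 * u y - 1) := by
        have : (f^2-1) * (f * L y) = f * (2 * (u y * (u y - 1))) := by rw [← h1]; ring
        rw [this]
        -- (2u-1)(f^2-1) - 2u(u-1) f > 0
        nlinarith [mul_pos (sub_pos.mpr hfu) (sub_pos.mpr hu), mul_pos (sub_pos.mpr hu) (sub_pos.mpr hu),
          mul_pos (sub_pos.mpr hfu) (by linarith : 0 < u y), mul_pos (mul_pos (sub_pos.mpr hfu) (sub_pos.mpr hfu)) (by linarith : 0 < u y),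
          mul_pos (mul_pos (sub_pos.mpr hfu) (sub_pos.mpr hu)) (by linarith : 0 < u y), mul_pos (sub_pos.mpr hfu) (sub_pos.mpr hfu)]
      exact lt_of_mul_lt_mul_left h3 h2.le
    have : 2 * (L y + u y) * (0 * g y + g y) * L y + ((L y + u y)^2 - 1) * (0 * g y)
      - 2 * (g y * (u y - 1) + u y * g y) = 2 * g y * ((L y + u y) * L y - (2 * u y - 1)) := by ring
    rw [this]
    nlinarith
  -- L is antitone after z, hence bounded by L (z+1) < 2
  have h2 := two_le_of (c := L (z+1)) (z0 := z+1) (fun y hy => by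
    have : AntitoneOn L (Ici (z+1)) := by
      apply antitoneOn_of_deriv_nonpos (convex_Ici (z+1))
      · intro x _; exact (L_deriv x).continuousAt.continuousWithinAt
      · intro x _; exact (L_deriv x).differentiableAt.differentiableWithinAt
      · intro x hx; rw [interior_Ici] at hx
        rw [(L_deriv x).deriv, V_eq _ _ (u_gt x)]
        have h1 := hb x (by simp only [mem_Ioi] at hx; linarith)
        have h3 := u_gt x
        have hP : 0 < 2 * (u x * (u x - 1)) := by nlinarith
        exact mul_nonpos_of_nonpos_of_nonneg (div_nonpos_of_nonpos_of_nonneg h1.le hP.le) (g_pos x).le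
    exact this (mem_Ici.mpr le_rfl) hy hy)
  linarith [L_lt_two (z+1)]

lemma V_pos (z : ℝ) : 0 < V (L z) (u z) := by
  rw [V_eq _ _ (u_gt z)]
  have h3 := u_gt z
  have hP : 0 < 2 * (u z * (u z - 1)) := by nlinarith
  exact div_pos (e_pos z) hP

lemma L_strictMono : StrictMono L := by
  apply strictMono_of_deriv_pos
  intro z
  rw [(L_deriv z).deriv]
  exact mul_pos (V_pos z) (g_pos z)

lemma L_lim : Tendsto L atTop (𝓝 2) := by
  apply tendsto_atTop_isLUB L_strictMono.monotone
  constructor
  · rintro _ ⟨z, rfl⟩; exact (L_lt_two z).le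
  · intro c hc
    exact two_le_of (z0 := 0) (fun z _ => hc ⟨z, rfl⟩)

end Crest.Agent.R253.Curve930
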