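import Crest.Agent.R253.LimLam_140

/-!
# R253 (helper593): `L¹` convergence of log-concave densities implies `Cv` along a subsequence

`f k → g` in `L¹`, `f k`, `g` log-concave densities: eventually `f k ≥ δ/2` on a fixed ball, a
common upper bound, a common exponential majorant; with the a.e. subsequence this is `Cv` of
`LimLam_140`, hence convergence of means, covariances, entropies.
-/

set_option autoImplicit false
open MeasureTheory Set Filter Topology Metric
open scoped ENNReal NNReal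

namespace Crest.Agent.R253.CvL1

open Crest.Agent.R253.Cpt435 Crest.Agent.R253.Lim140

variable {m : ℕ}

/-- a convex set not containing the centre of a ball misses at least half of the ball -/
theorem half_ball {K : Set (Fin m → ℝ)} (hK : Convex ℝ K) (hKm : MeasurableSet K)
    {y : Fin m → ℝ} (hy : y ∉ K) (r : ℝ) :
    volume (ball y r) ≤ 2 * volume (ball y r \ K) := by
  have h1 : volume (ball y r ∩ K) ≤ volume (ball y r \ K) := by
    have h2 : volume ((fun x => (2 : ℝ) • y - x) ⁻¹' (ball y r ∩ K)) = volume (ball y r ∩ K) :=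
      (Measure.measurePreserving_sub_left (volume : Measure (Fin m → ℝ)) ((2 : ℝ) • y)).measure_preimage
        (measurableSet_ball.inter hKm).nullMeasurableSet
    rw [← h2]
    refine measure_mono fun x hx => ⟨?_, fun hxK => hy ?_⟩
    · have h3 := hx.1
      rw [mem_ball_iff_norm] at h3 ⊢
      have : (2 : ℝ) • y - x - y = -(x - y) := by rw [two_smul]; abel
      rwa [this, norm_neg] at h3
    · have h4 := hK hxK hx.2 (show (0 : ℝ) ≤ 1 / 2 by norm_num) (show (0 : ℝ) ≤ 1 / 2 by norm_num)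
        (by norm_num)
      have : (1 / 2 : ℝ) • x + (1 / 2 : ℝ) • ((2 : ℝ) • y - x) = y := by
        rw [smul_sub, smul_smul]; norm_num
      rwa [this] at h4
  calc volume (ball y r) = volume (ball y r ∩ K) + volume (ball y r \ K) :=
        (measure_inter_add_sdiff _ hKm).symm
    _ ≤ volume (ball y r \ K) + volume (ball y r \ K) := by gcongr
    _ = _ := by rw [two_mul]

/-- the volume of the half ball -/
noncomputable def vb (m : ℕ) (r : ℝ) : ℝ := (volume (ball (0 : Fin m → ℝ) (r / 2))).toReal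

theorem vb_pos {r : ℝ} (hr : 0 < r) : 0 < vb m r := by
  apply ENNReal.toReal_pos
  · exact (Metric.measure_ball_pos _ _ (by positivity)).ne'
  · exact measure_ball_lt_top.ne

theorem vb_center (y : Fin m → ℝ) (r : ℝ) : (volume (ball y (r / 2))).toReal = vb m r := by
  rw [Measure.addHaar_ball_center]; rfl

/-- `L¹` closeness gives a lower bound on the half ball -/
theorem lower_of_L1 {f g : (Fin m → ℝ) → ℝ} (hf : LCD f) (hg : LCD g) {z : Fin m → ℝ} {r δ : ℝ}
    (hδ : 0 < δ) (hb : ∀ x ∈ ball z r, δ ≤ g x)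
    (h : ∫ x, |f x - g x| < δ / 4 * vb m r) : ∀ y ∈ ball z (r / 2), δ / 2 ≤ f y := by
  intro y hy
  by_contra hcon
  push Not at hcon
  set K : Set (Fin m → ℝ) := {x | δ / 2 ≤ f x} with hKdef
  have hKc : Convex ℝ K := hf.logc.convex_superlevel (by positivity)
  have hKm : MeasurableSet K := measurableSet_le measurable_const hf.meas
  have hyK : y ∉ K := fun hh => absurd (show δ / 2 ≤ f y from hh) (not_le.mpr hcon)
  have h1 := half_ball hKc hKm hyK (r / 2)
  have hfin : volume (ball y (r / 2) \ K) < ∞ :=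
    lt_of_le_of_lt (measure_mono sdiff_subset) measure_ball_lt_top
  have hint : Integrable (fun x => |f x - g x|) := (hf.integrable.sub hg.integrable).abs
  have h2 : δ / 2 * (volume (ball y (r / 2) \ K)).toReal ≤ ∫ x, |f x - g x| := by
    calc δ / 2 * (volume (ball y (r / 2) \ K)).toReal = ∫ _x in ball y (r / 2) \ K, δ / 2 := by
          rw [setIntegral_const, smul_eq_mul, mul_comm]; rfl
      _ ≤ ∫ x in ball y (r / 2) \ K, |f x - g x| := by
          refine setIntegral_mono_on (integrableOn_const hfin.ne) hint.integrableOn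
            (measurableSet_ball.diff hKm) fun x hx => ?_
          have h3 : x ∈ ball z r := by
            rw [mem_ball] at hy
            have := hx.1
            rw [mem_ball] at this ⊢
            linarith [dist_triangle x y z]
          have h4 : f x < δ / 2 := not_le.mp hx.2
          have h5 := hb x h3
          rw [abs_sub_comm]
          exact le_trans (by linarith) (le_abs_self _)
      _ ≤ ∫ x, |f x - g x| := setIntegral_le_integral hint (ae_of_all _ fun x => abs_nonneg _)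
  have h3 : (volume (ball y (r / 2))).toReal ≤ 2 * (volume (ball y (r / 2) \ K)).toReal := by
    have h4 := ENNReal.toReal_mono (ENNReal.mul_ne_top (by norm_num) hfin.ne) h1
    rwa [ENNReal.toReal_mul, ENNReal.toReal_ofNat] at h4
  rw [vb_center] at h3
  nlinarith

/-- the half-way bound -/
theorem half_way {f : (Fin m → ℝ) → ℝ} (hf : LCD f) {z : Fin m → ℝ} {r δ : ℝ}
    (hδ : 0 < δ) (hb : ∀ x ∈ ball z r, δ ≤ f x) (x y : Fin m → ℝ)
    (hy : y ∈ ball ((1 / 2 : ℝ) • x + (1 / 2 : ℝ) • z) (r / 2)) :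
    Real.sqrt (f x) * Real.sqrt δ ≤ f y := by
  have h2 : y = (1 / 2 : ℝ) • x + (1 / 2 : ℝ) • ((2 : ℝ) • y - x) := by
    rw [smul_sub, smul_smul]; norm_num
  have h3 : (2 : ℝ) • y - x ∈ Metric.ball z r := by
    rw [mem_ball_iff_norm] at hy ⊢
    have : (2 : ℝ) • y - x - z = (2 : ℝ) • (y - ((1 / 2 : ℝ) • x + (1 / 2 : ℝ) • z)) := by
      rw [smul_sub, smul_add, smul_smul, smul_smul]; norm_num; abel
    rw [this, norm_smul, Real.norm_eq_abs, abs_two]
    linarith
  have h4 := hf.logc x ((2 : ℝ) • y - x) (1 / 2) (1 / 2) (by norm_num) (by norm_num) (by norm_num)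
  rw [← h2] at h4
  refine le_trans ?_ h4
  rw [Real.sqrt_eq_rpow, Real.sqrt_eq_rpow]
  apply mul_le_mul_of_nonneg_left _ (Real.rpow_nonneg (hf.nonneg x) _)
  exact Real.rpow_le_rpow hδ.le (hb _ h3) (by norm_num)

/-- the upper bound from a lower bound on a ball -/
theorem le_of_ball {f : (Fin m → ℝ) → ℝ} (hf : LCD f) {z : Fin m → ℝ} {r δ : ℝ} (hr : 0 < r)
    (hδ : 0 < δ) (hb : ∀ x ∈ ball z r, δ ≤ f x) (x : Fin m → ℝ) :
    f x ≤ 1 / (δ * vb m r ^ 2) := by
  have hv0 : 0 < vb m r := vb_pos hr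
  rcases (hf.nonneg x).lt_or_eq with hx | hx
  swap
  · rw [← hx]; positivity
  have h5 := hf.mul_measure_superlevel (c := Real.sqrt (f x) * Real.sqrt δ) (by positivity)
    measurableSet_ball (half_way hf hδ hb x)
  rw [vb_center] at h5
  have h6 : (Real.sqrt (f x) * Real.sqrt δ * vb m r) ^ 2 ≤ 1 := by
    apply pow_le_one₀ (by positivity) h5
  rw [mul_pow, mul_pow, Real.sq_sqrt hx.le, Real.sq_sqrt hδ.le] at h6
  rw [le_div_iff₀ (by positivity)]
  linarith

/-- `L¹` closeness gives smallness far away -/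
theorem tail_of_L1 {f g : (Fin m → ℝ) → ℝ} (hf : LCD f) (hg : LCD g) {z : Fin m → ℝ} {r δ : ℝ}
    (hr : 0 < r) (hδ : 0 < δ) (hb : ∀ x ∈ ball z r, δ ≤ f x) {R : ℝ}
    (hgR : ∀ x, R ≤ ‖x‖ → g x ≤ δ * Real.exp (-(1 / 2)) / 3)
    (h : ∫ x, |f x - g x| ≤ δ * Real.exp (-(1 / 2)) / 3 * vb m r) (x : Fin m → ℝ)
    (hx : 2 * R + r + ‖z‖ ≤ ‖x‖) : f x < δ * Real.exp (-1) := by
  by_contra hcon
  push Not at hcon
  have hv0 : 0 < vb m r := vb_pos hr
  have he : 0 < Real.exp (-(1 / 2)) := Real.exp_pos _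
  set w : Fin m → ℝ := (1 / 2 : ℝ) • x + (1 / 2 : ℝ) • z with hw
  have hint : Integrable (fun x => |f x - g x|) := (hf.integrable.sub hg.integrable).abs
  have hpt : ∀ y ∈ ball w (r / 2), δ * Real.exp (-(1 / 2)) * (2 / 3) ≤ |f y - g y| := by
    intro y hy
    have h1 := half_way hf hδ hb x y hy
    have h2 : Real.sqrt (δ * Real.exp (-1)) ≤ Real.sqrt (f x) := Real.sqrt_le_sqrt hcon
    have h3 : Real.sqrt (δ * Real.exp (-1)) * Real.sqrt δ = δ * Real.exp (-(1 / 2)) := by
      rw [Real.sqrt_mul hδ.le, mul_right_comm, Real.mul_self_sqrt hδ.le]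
      congr 1
      rw [Real.sqrt_eq_iff_mul_self_eq (Real.exp_pos _).le (Real.exp_pos _).le, ← Real.exp_add]
      norm_num
    have h4 : δ * Real.exp (-(1 / 2)) ≤ f y := by
      rw [← h3]
      exact (mul_le_mul_of_nonneg_right h2 (Real.sqrt_nonneg _)).trans h1
    have h5 : R ≤ ‖y‖ := by
      rw [mem_ball_iff_norm] at hy
      have h6 : ‖w‖ ≤ ‖y‖ + ‖y - w‖ := by
        calc ‖w‖ = ‖y - (y - w)‖ := by congr 1; abel
          _ ≤ _ := norm_sub_le _ _
      have h7 : (1 / 2) * ‖x‖ ≤ ‖w‖ + (1 / 2) * ‖z‖ := by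
        calc (1 / 2) * ‖x‖ = ‖(1 / 2 : ℝ) • x‖ := by
              rw [norm_smul, Real.norm_eq_abs, abs_of_pos (by norm_num : (0 : ℝ) < 1 / 2)]
          _ = ‖w - (1 / 2 : ℝ) • z‖ := by congr 1; rw [hw]; abel
          _ ≤ ‖w‖ + ‖(1 / 2 : ℝ) • z‖ := norm_sub_le _ _
          _ = _ := by
              rw [norm_smul, Real.norm_eq_abs, abs_of_pos (by norm_num : (0 : ℝ) < 1 / 2)]
      linarith
    have h6 := hgR y h5
    refine le_trans ?_ (le_abs_self _)
    linarith
  have h2 : δ * Real.exp (-(1 / 2)) * (2 / 3) * vb m r ≤ ∫ x, |f x - g x| := by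
    calc δ * Real.exp (-(1 / 2)) * (2 / 3) * vb m r
        = ∫ _x in ball w (r / 2), δ * Real.exp (-(1 / 2)) * (2 / 3) := by
          rw [setIntegral_const, smul_eq_mul, mul_comm, ← vb_center w]; rfl
      _ ≤ ∫ x in ball w (r / 2), |f x - g x| :=
          setIntegral_mono_on (integrableOn_const measure_ball_lt_top.ne) hint.integrableOn
            measurableSet_ball hpt
      _ ≤ ∫ x, |f x - g x| := setIntegral_le_integral hint (ae_of_all _ fun x => abs_nonneg _)
  have h3 : 0 < δ * Real.exp (-(1 / 2)) * vb m r := by positivity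
  nlinarith

theorem decay_scalar' {F0 Fu Fy δ τ : ℝ} (hδ : 0 < δ) (hτ : 0 < τ) (hτ1 : τ < 1)
    (h0 : δ ≤ F0) (hy : Fy < δ * Real.exp (-1)) (hu : 0 ≤ Fu)
    (h : F0 ^ (1 - τ) * Fu ^ τ ≤ Fy) : Fu ≤ δ * Real.exp (-(1 / τ)) := by
  rcases hu.lt_or_eq with hu | hu
  swap
  · rw [← hu]; positivity
  have hF0 : 0 < F0 := lt_of_lt_of_le hδ h0
  have h1 : 0 < F0 ^ (1 - τ) * Fu ^ τ := by positivity
  have h2 := Real.log_lt_log h1 (lt_of_le_of_lt h hy)
  have h3 := Real.log_le_log hδ h0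
  rw [Real.log_mul (by positivity) (by positivity), Real.log_rpow hF0, Real.log_rpow hu,
    Real.log_mul hδ.ne' (Real.exp_pos _).ne', Real.log_exp] at h2
  have h4 : (1 - τ) * Real.log δ ≤ (1 - τ) * Real.log F0 :=
    mul_le_mul_of_nonneg_left h3 (by linarith)
  have h5 : τ * (Real.log Fu - Real.log δ) ≤ -1 := by nlinarith
  have h6 : Real.log Fu - Real.log δ ≤ -(1 / τ) := by
    have : -(1 / τ) = -1 / τ := by ring
    rw [this, le_div_iff₀ hτ]
    linarith
  calc Fu = Real.exp (Real.log Fu) := (Real.exp_log hu).symm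
    _ ≤ Real.exp (Real.log δ + -(1 / τ)) := by
        apply Real.exp_le_exp.mpr; linarith
    _ = _ := by rw [Real.exp_add, Real.exp_log hδ]

/-- exponential decay with explicit constants -/
theorem decay_of_tail {f : (Fin m → ℝ) → ℝ} (hf : LCD f) {z : Fin m → ℝ} {δ R M : ℝ}
    (hδ : 0 < δ) (hz : δ ≤ f z) (hR : 0 ≤ R) (ht : ∀ x, R ≤ ‖x‖ → f x < δ * Real.exp (-1))
    (hM : ∀ x, f x ≤ M) (x : Fin m → ℝ) :
    f x ≤ (M + δ) * Real.exp 1 * Real.exp (‖z‖ / (R + ‖z‖ + 1)) *
      Real.exp (-(1 / (R + ‖z‖ + 1)) * ‖x‖) := by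
  set Q : ℝ := R + ‖z‖ + 1 with hQ
  have hQ0 : 0 < Q := by positivity
  have hM0 : 0 < M := lt_of_lt_of_le hδ (hz.trans (hM z))
  have key : f x ≤ (M + δ) * Real.exp 1 * Real.exp (-(‖x - z‖ / Q)) := by
    rcases le_or_gt ‖x - z‖ Q with hu | hu
    · have h1 : 1 ≤ Real.exp 1 * Real.exp (-(‖x - z‖ / Q)) := by
        rw [← Real.exp_add]
        apply Real.one_le_exp
        have : ‖x - z‖ / Q ≤ 1 := by rw [div_le_one hQ0]; exact hu
        linarith
      calc f x ≤ M + δ := (hM x).trans (by linarith)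
        _ ≤ (M + δ) * (Real.exp 1 * Real.exp (-(‖x - z‖ / Q))) :=
            le_mul_of_one_le_right (by linarith) h1
        _ = _ := by ring
    · set τ : ℝ := Q / ‖x - z‖ with hτ
      have hu0 : 0 < ‖x - z‖ := by linarith
      have hτ0 : 0 < τ := by positivity
      have hτ1 : τ < 1 := by rw [hτ, div_lt_one hu0]; exact hu
      have h1 := hf.logc z x (1 - τ) τ (by linarith) hτ0 (by ring)
      have h2 : R ≤ ‖(1 - τ) • z + τ • x‖ := by
        have e1 : (1 - τ) • z + τ • x = τ • (x - z) + z := by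
          rw [sub_smul, smul_sub, one_smul]; abel
        have e2 : ‖τ • (x - z)‖ = Q := by
          rw [norm_smul, Real.norm_eq_abs, abs_of_pos hτ0, hτ, div_mul_cancel₀ _ hu0.ne']
        have e3 : ‖τ • (x - z)‖ ≤ ‖τ • (x - z) + z‖ + ‖z‖ := by
          calc ‖τ • (x - z)‖ = ‖τ • (x - z) + z - z‖ := by congr 1; abel
            _ ≤ _ := norm_sub_le _ _
        rw [e1]
        rw [e2] at e3
        linarith
      have h3 := decay_scalar' hδ hτ0 hτ1 hz (ht _ h2) (hf.nonneg x) h1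
      have h4 : 1 / τ = ‖x - z‖ / Q := by rw [hτ, one_div_div]
      rw [h4] at h3
      refine h3.trans ?_
      gcongr
      have : 1 ≤ Real.exp 1 := Real.one_le_exp (by norm_num)
      nlinarith
  refine key.trans ?_
  rw [mul_assoc ((M + δ) * Real.exp 1), ← Real.exp_add]
  gcongr
  have h1 : ‖x‖ ≤ ‖x - z‖ + ‖z‖ := by
    calc ‖x‖ = ‖x - z + z‖ := by congr 1; abel
      _ ≤ _ := norm_add_le _ _
  have h2 : -(‖x - z‖ / Q) ≤ (‖z‖ - ‖x‖) / Q := by
    rw [← neg_div]
    gcongr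
    linarith
  refine h2.trans (le_of_eq ?_)
  ring

/-- an a.e. convergent subsequence -/
theorem exists_ae_sub {f : ℕ → (Fin m → ℝ) → ℝ} {g : (Fin m → ℝ) → ℝ} (hf : ∀ k, LCD (f k))
    (hg : LCD g) (h : Tendsto (fun k => ∫ x, |f k x - g x|) atTop (𝓝 0)) :
    ∃ φ : ℕ → ℕ, StrictMono φ ∧ ∀ᵐ x, Tendsto (fun k => f (φ k) x) atTop (𝓝 (g x)) := by
  have h1 : Tendsto (fun k => eLpNorm (f k - g) 1 volume) atTop (𝓝 0) := by
    have h2 : ∀ k, eLpNorm (f k - g) 1 volume = ENNReal.ofReal (∫ x, |f k x - g x|) := by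
      intro k
      have e0 : Integrable (fun x => |f k x - g x|) := ((hf k).integrable.sub hg.integrable).abs
      rw [eLpNorm_one_eq_lintegral_enorm, ofReal_integral_eq_lintegral_ofReal e0
        (ae_of_all _ fun x => abs_nonneg _)]
      refine lintegral_congr fun x => ?_
      rw [← ofReal_norm, Real.norm_eq_abs]; rfl
    simp only [h2]
    have := ENNReal.tendsto_ofReal h
    rwa [ENNReal.ofReal_zero] at this
  have h3 := tendstoInMeasure_of_tendsto_eLpNorm one_ne_zero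
    (fun k => (hf k).meas.aestronglyMeasurable) hg.meas.aestronglyMeasurable h1
  obtain ⟨φ, hφ, hlim⟩ := h3.exists_seq_tendsto_ae
  exact ⟨φ, hφ, hlim⟩

/-- **`L¹` convergence of log-concave densities implies `Cv` along a subsequence** -/
theorem cv_of_L1 {f : ℕ → (Fin m → ℝ) → ℝ} {g : (Fin m → ℝ) → ℝ} (hf : ∀ k, LCD (f k))
    (hg : LCD g) (h : Tendsto (fun k => ∫ x, |f k x - g x|) atTop (𝓝 0)) :
    ∃ φ : ℕ → ℕ, StrictMono φ ∧ Cv (fun k => f (φ k)) g := by
  obtain ⟨z, r, δ, hr, hδ, hb⟩ := hg.exists_ball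
  obtain ⟨φ, hφ, hae⟩ := exists_ae_sub hf hg h
  have hr2 : 0 < r / 2 := by positivity
  have hδ2 : 0 < δ / 2 := by positivity
  have hv : 0 < vb m r := vb_pos hr
  have hv2 : 0 < vb m (r / 2) := vb_pos hr2
  -- far away `g` is small
  obtain ⟨R, hR0, hR⟩ : ∃ R : ℝ, 0 ≤ R ∧
      ∀ x, R ≤ ‖x‖ → g x ≤ δ / 2 * Real.exp (-(1 / 2)) / 3 := by
    obtain ⟨C, c, hC, hc, hbd⟩ := hg.eb.bound
    have hη : 0 < δ / 2 * Real.exp (-(1 / 2)) / 3 := by positivity
    have h1 : Tendsto (fun R : ℝ => C * Real.exp (-c * R)) atTop (𝓝 0) := by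
      have h2 : Tendsto (fun R : ℝ => Real.exp (-c * R)) atTop (𝓝 0) := by
        refine Real.tendsto_exp_atBot.comp ?_
        have : Tendsto (fun R : ℝ => c * R) atTop atTop := tendsto_id.const_mul_atTop hc
        have := tendsto_neg_atTop_atBot.comp this
        refine this.congr fun R => ?_
        simp
      simpa using h2.const_mul C
    obtain ⟨R, hR1, hR2⟩ := ((h1.eventually (gt_mem_nhds hη)).and (eventually_ge_atTop 0)).exists
    refine ⟨R, hR2, fun x hx => ?_⟩
    calc g x ≤ |g x| := le_abs_self _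
      _ ≤ C * Real.exp (-c * ‖x‖) := hbd x
      _ ≤ C * Real.exp (-c * R) :=
          mul_le_mul_of_nonneg_left (Real.exp_le_exp.mpr (by nlinarith)) hC
      _ ≤ _ := hR1.le
  have e1 : ∀ᶠ k in atTop, (∫ x, |f k x - g x|) < δ / 4 * vb m r :=
    h.eventually (gt_mem_nhds (by positivity))
  have e2 : ∀ᶠ k in atTop, (∫ x, |f k x - g x|) <
      δ / 2 * Real.exp (-(1 / 2)) / 3 * vb m (r / 2) :=
    h.eventually (gt_mem_nhds (by positivity))
  obtain ⟨N, hN⟩ := eventually_atTop.mp (e1.and e2)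
  refine ⟨fun k => φ (k + N), fun a b hab => hφ (by omega), ?_⟩
  have hNφ : ∀ k, N ≤ φ (k + N) := fun k => (Nat.le_add_left _ _).trans (hφ.id_le _)
  set M : ℝ := 1 / (δ / 2 * vb m (r / 2) ^ 2) with hM
  set R' : ℝ := 2 * R + r / 2 + ‖z‖ with hR'
  have hR'0 : 0 ≤ R' := by positivity
  refine ⟨fun k => (hf _).meas, hg.meas, fun k x => (hf _).nonneg x, hg.nonneg,
    ⟨(M + δ / 2) * Real.exp 1 * Real.exp (‖z‖ / (R' + ‖z‖ + 1)), 1 / (R' + ‖z‖ + 1),
      by positivity, by positivity, fun k x => ?_⟩, ?_⟩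
  · obtain ⟨a1, a2⟩ := hN _ (hNφ k)
    have b1 : ∀ y ∈ ball z (r / 2), δ / 2 ≤ f (φ (k + N)) y := lower_of_L1 (hf _) hg hδ hb a1
    have b2 : ∀ y, f (φ (k + N)) y ≤ M := le_of_ball (hf _) hr2 hδ2 b1
    have b3 : ∀ y, R' ≤ ‖y‖ → f (φ (k + N)) y < δ / 2 * Real.exp (-1) :=
      tail_of_L1 (hf _) hg hr2 hδ2 b1 hR a2.le
    exact decay_of_tail (hf _) hδ2 (b1 z (mem_ball_self hr2)) hR'0 b3 b2 x
  · filter_upwards [hae] with x hx
    exact hx.comp (tendsto_add_atTop_nat N)

end Crest.Agent.R253.CvL1
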