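import Crest.Agent.R253.CptF_435

/-!
# R253: dense class, part A (helper970)

* `th` : smooth, monotone, convex, 1-Lipschitz, `0` on `(-∞,0]`, `s - 1 + th 1` on `[1,∞)`;
* regularised maximum of convex functions is convex;
* mollification of a Lipschitz convex function.
-/

set_option autoImplicit false
open MeasureTheory Set Filter Topology
open scoped ENNReal NNReal ContDiff Convolution

namespace Crest.Agent.R253.Dens970

/-! ### the smooth ramp -/

/-- smooth convex ramp -/
noncomputable def th (s : ℝ) : ℝ := ∫ t in (0 : ℝ)..s, Real.smoothTransition t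

theorem hasDerivAt_th (s : ℝ) : HasDerivAt th (Real.smoothTransition s) s := by
  unfold th
  exact intervalIntegral.integral_hasDerivAt_right
    (Real.smoothTransition.continuous.intervalIntegrable _ _)
    (Real.smoothTransition.continuous.stronglyMeasurableAtFilter _ _)
    Real.smoothTransition.continuousAt

theorem deriv_th : deriv th = Real.smoothTransition := funext fun s => (hasDerivAt_th s).deriv

theorem differentiable_th : Differentiable ℝ th := fun s => (hasDerivAt_th s).differentiableAt

theorem contDiff_th : ContDiff ℝ ∞ th := by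
  rw [contDiff_infty_iff_deriv]
  refine ⟨differentiable_th, ?_⟩
  rw [deriv_th]
  exact Real.smoothTransition.contDiff

theorem th_zero : th 0 = 0 := by simp [th]

theorem monotone_th : Monotone th := by
  apply monotone_of_deriv_nonneg differentiable_th
  intro x; rw [deriv_th]; exact Real.smoothTransition.nonneg x

theorem convexOn_th : ConvexOn ℝ univ th := by
  apply Monotone.convexOn_univ_of_deriv differentiable_th
  rw [deriv_th]; exact Real.smoothTransition.monotone

theorem th_sub_le {a b : ℝ} (h : a ≤ b) : th b - th a ≤ b - a := by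
  have hm : Monotone (fun s => s - th s) := by
    apply monotone_of_deriv_nonneg (differentiable_id.sub differentiable_th)
    intro x
    have h1 : HasDerivAt (fun s => s - th s) (1 - Real.smoothTransition x) x :=
      (hasDerivAt_id x).sub (hasDerivAt_th x)
    change 0 ≤ deriv (fun s => s - th s) x
    rw [h1.deriv]
    linarith [Real.smoothTransition.le_one x]
  have := hm h
  simp only at this
  linarith

theorem th_nonneg (s : ℝ) : 0 ≤ th s := by
  rcases le_total 0 s with h | h
  · rw [← th_zero]; exact monotone_th h
  · have h1 : th s = 0 := by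
      unfold th
      rw [intervalIntegral.integral_symm]
      have : ∫ t in s..(0:ℝ), Real.smoothTransition t = ∫ t in s..(0:ℝ), (0:ℝ) := by
        apply intervalIntegral.integral_congr
        intro t ht
        rw [uIcc_of_le h] at ht
        exact Real.smoothTransition.zero_of_nonpos ht.2
      rw [this]; simp
    rw [h1]

theorem th_of_nonpos {s : ℝ} (h : s ≤ 0) : th s = 0 := by
  unfold th
  rw [intervalIntegral.integral_symm]
  have : ∫ t in s..(0:ℝ), Real.smoothTransition t = ∫ t in s..(0:ℝ), (0:ℝ) := by
    apply intervalIntegral.integral_congr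
    intro t ht
    rw [uIcc_of_le h] at ht
    exact Real.smoothTransition.zero_of_nonpos ht.2
  rw [this]; simp

theorem th_of_one_le {s : ℝ} (h : 1 ≤ s) : th s = s - 1 + th 1 := by
  have h1 : th s - th 1 = ∫ t in (1:ℝ)..s, Real.smoothTransition t := by
    unfold th
    exact intervalIntegral.integral_interval_sub_left
      (Real.smoothTransition.continuous.intervalIntegrable _ _)
      (Real.smoothTransition.continuous.intervalIntegrable _ _)
  have h2 : ∫ t in (1:ℝ)..s, Real.smoothTransition t = ∫ t in (1:ℝ)..s, (1:ℝ) := by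
    apply intervalIntegral.integral_congr
    intro t ht
    rw [uIcc_of_le h] at ht
    exact Real.smoothTransition.one_of_one_le ht.1
  rw [h2] at h1
  simp at h1
  linarith

/-- regularised maximum -/
noncomputable def rmax (a b : ℝ) : ℝ := a + th (b - a)

theorem rmax_mono {a a' b b' : ℝ} (ha : a ≤ a') (hb : b ≤ b') : rmax a b ≤ rmax a' b' := by
  unfold rmax
  have h1 : th (b - a) ≤ th (b' - a) := monotone_th (by linarith)
  have h2 : th (b' - a) - th (b' - a') ≤ (b' - a) - (b' - a') := th_sub_le (by linarith)
  linarith

theorem rmax_add (a b c : ℝ) : rmax (a + c) (b + c) = rmax a b + c := by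
  unfold rmax
  have : b + c - (a + c) = b - a := by ring
  rw [this]; ring

theorem le_rmax (a b : ℝ) : a ≤ rmax a b := by
  unfold rmax; linarith [th_nonneg (b - a)]

theorem rmax_of_le {a b : ℝ} (h : b ≤ a) : rmax a b = a := by
  unfold rmax; rw [th_of_nonpos (by linarith), add_zero]

theorem rmax_of_ge {a b : ℝ} (h : a + 1 ≤ b) : rmax a b = b - 1 + th 1 := by
  unfold rmax; rw [th_of_one_le (by linarith)]; ring

theorem rmax_convex {a a' b b' s t : ℝ} (hs : 0 ≤ s) (ht : 0 ≤ t) (hst : s + t = 1) :
    rmax (s * a + t * a') (s * b + t * b') ≤ s * rmax a b + t * rmax a' b' := by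
  unfold rmax
  have h := convexOn_th.2 (mem_univ (b - a)) (mem_univ (b' - a')) hs ht hst
  simp only [smul_eq_mul] at h
  have h1 : s * b + t * b' - (s * a + t * a') = s * (b - a) + t * (b' - a') := by ring
  rw [h1]
  linarith

theorem ConvexOn.rmax {E : Type*} [AddCommGroup E] [Module ℝ E] {F G : E → ℝ}
    (hF : ConvexOn ℝ univ F) (hG : ConvexOn ℝ univ G) :
    ConvexOn ℝ univ (fun x => rmax (F x) (G x)) := by
  refine ⟨convex_univ, fun x _ y _ s t hs ht hst => ?_⟩
  have h1 := hF.2 (mem_univ x) (mem_univ y) hs ht hst
  have h2 := hG.2 (mem_univ x) (mem_univ y) hs ht hst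
  simp only [smul_eq_mul] at h1 h2 ⊢
  exact (rmax_mono h1 h2).trans (rmax_convex hs ht hst)

/-! ### mollification -/

variable {E : Type*} [NormedAddCommGroup E] [NormedSpace ℝ E] [FiniteDimensional ℝ E]
  [MeasurableSpace E] [BorelSpace E]

open ContinuousLinearMap in
/-- a Lipschitz convex function has smooth convex approximants at uniform distance `δ` -/
theorem exists_mollify [HasContDiffBump E] (μ : Measure E) [μ.IsAddHaarMeasure] {L : E → ℝ}
    {K δ : ℝ} (hK : 0 < K) (hδ : 0 < δ) (hLip : ∀ x y, |L x - L y| ≤ K * ‖x - y‖)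
    (hconv : ConvexOn ℝ univ L) :
    ∃ V : E → ℝ, ContDiff ℝ ∞ V ∧ ConvexOn ℝ univ V ∧ ∀ x, |V x - L x| ≤ δ := by
  have hcont : Continuous L := by
    have : LipschitzWith (Real.toNNReal K) L := by
      apply LipschitzWith.of_dist_le_mul
      intro x y
      rw [Real.dist_eq, dist_eq_norm, Real.coe_toNNReal _ hK.le]
      exact hLip x y
    exact this.continuous
  have hr : 0 < δ / K := div_pos hδ hK
  let φ : ContDiffBump (0 : E) := ⟨δ / K / 2, δ / K, half_pos hr, half_lt_self hr⟩
  refine ⟨(φ.normed μ) ⋆[lsmul ℝ ℝ, μ] L, ?_, ?_, ?_⟩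
  · exact φ.hasCompactSupport_normed.contDiff_convolution_left _ φ.contDiff_normed
      hcont.locallyIntegrable
  · have hint : ∀ x, Integrable (fun t => φ.normed μ t * L (x - t)) μ := by
      intro x
      have := (φ.hasCompactSupport_normed (μ := μ)).convolutionExists_left (lsmul ℝ ℝ)
        φ.continuous_normed (hcont.locallyIntegrable (μ := μ)) x
      simpa [ConvolutionExistsAt, lsmul_apply, smul_eq_mul] using this
    have hval : ∀ x, ((φ.normed μ) ⋆[lsmul ℝ ℝ, μ] L) x = ∫ t, φ.normed μ t * L (x - t) ∂μ := by
      intro x; simp [convolution_def, lsmul_apply, smul_eq_mul]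
    refine ⟨convex_univ, fun x _ y _ s t hs ht hst => ?_⟩
    rw [hval, hval, hval, smul_eq_mul, smul_eq_mul, ← integral_const_mul, ← integral_const_mul,
      ← integral_add ((hint x).const_mul s) ((hint y).const_mul t)]
    refine integral_mono (hint _) (((hint x).const_mul s).add ((hint y).const_mul t)) fun z => ?_
    have h1 : s • x + t • y - z = s • (x - z) + t • (y - z) := by
      have : z = s • z + t • z := by rw [← add_smul, hst, one_smul]
      conv_lhs => rw [this]
      rw [smul_sub, smul_sub]; abel
    have h2 := hconv.2 (mem_univ (x - z)) (mem_univ (y - z)) hs ht hst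
    simp only [smul_eq_mul] at h2
    have h3 := mul_le_mul_of_nonneg_left h2 (φ.nonneg_normed (μ := μ) z)
    simp only [h1]
    calc φ.normed μ z * L (s • (x - z) + t • (y - z))
        ≤ φ.normed μ z * (s * L (x - z) + t * L (y - z)) := h3
      _ = _ := by ring
  · intro x
    have h1 : ∀ y ∈ Metric.ball x φ.rOut, dist (L y) (L x) ≤ δ := by
      intro y hy
      rw [Metric.mem_ball] at hy
      rw [Real.dist_eq]
      have h2 := hLip y x
      rw [← dist_eq_norm] at h2
      have h3 : dist y x < δ / K := hy
      calc |L y - L x| ≤ K * dist y x := h2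
        _ ≤ K * (δ / K) := by gcongr
        _ = δ := by field_simp
    have h4 := φ.dist_normed_convolution_le (μ := μ) (x₀ := x)
      (hcont.aestronglyMeasurable) h1
    rwa [Real.dist_eq] at h4

end Crest.Agent.R253.Dens970
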