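import Crest.Agent.R253.DensA_970

/-!
# R253: dense class, part B (helper970)

The Lipschitz regularisation `Lf f N x = inf_y (- log f y + N ‖x - y‖)` of `- log f`, for a
log-concave density `f`: `N`-Lipschitz, convex, `exp (-Lf)` has the exponential majorant of `f`,
and `exp (-Lf f (N k)) → f` a.e. when `N k → ∞`.
-/

set_option autoImplicit false
open MeasureTheory Set Filter Topology
open scoped ENNReal NNReal ContDiff

namespace Crest.Agent.R253.Dens970

open Crest.Agent.R253.Cpt435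

variable {m : ℕ}

/-- Lipschitz regularisation of `- log f` -/
noncomputable def Lf (f : (Fin m → ℝ) → ℝ) (N : ℝ) (x : Fin m → ℝ) : ℝ :=
  ⨅ y : {y : Fin m → ℝ // 0 < f y}, (-Real.log (f y) + N * ‖x - y‖)

section

variable {f : (Fin m → ℝ) → ℝ} (hf : LCD f) {M N : ℝ}

include hf

theorem exists_pos : ∃ y, 0 < f y := by
  obtain ⟨z, r, δ, hr, hδ, hb⟩ := hf.exists_ball
  exact ⟨z, lt_of_lt_of_le hδ (hb z (Metric.mem_ball_self hr))⟩

theorem bddBelow_Lf (hM : ∀ x, f x ≤ M) (hN : 0 ≤ N) (x : Fin m → ℝ) :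
    BddBelow (range fun y : {y : Fin m → ℝ // 0 < f y} => -Real.log (f y) + N * ‖x - y‖) := by
  refine ⟨-Real.log M, ?_⟩
  rintro _ ⟨y, rfl⟩
  have h1 : Real.log (f y) ≤ Real.log M := Real.log_le_log y.2 (hM y)
  have h2 : 0 ≤ N * ‖x - y‖ := by positivity
  simp only
  linarith

theorem Lf_le (hM : ∀ x, f x ≤ M) (hN : 0 ≤ N) (x : Fin m → ℝ) {y : Fin m → ℝ} (hy : 0 < f y) :
    Lf f N x ≤ -Real.log (f y) + N * ‖x - y‖ :=
  ciInf_le (bddBelow_Lf hf hM hN x) (⟨y, hy⟩ : {y : Fin m → ℝ // 0 < f y})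

theorem le_Lf {a : ℝ} (x : Fin m → ℝ)
    (h : ∀ y, 0 < f y → a ≤ -Real.log (f y) + N * ‖x - y‖) : a ≤ Lf f N x := by
  obtain ⟨y0, hy0⟩ := exists_pos hf
  have : Nonempty {y : Fin m → ℝ // 0 < f y} := ⟨⟨y0, hy0⟩⟩
  exact le_ciInf fun y => h y y.2

theorem exists_lt_Lf {a : ℝ} (x : Fin m → ℝ) (h : Lf f N x < a) :
    ∃ y, 0 < f y ∧ -Real.log (f y) + N * ‖x - y‖ < a := by
  obtain ⟨y0, hy0⟩ := exists_pos hf
  have : Nonempty {y : Fin m → ℝ // 0 < f y} := ⟨⟨y0, hy0⟩⟩
  obtain ⟨y, hy⟩ := exists_lt_of_ciInf_lt h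
  exact ⟨y, y.2, hy⟩

theorem Lf_lip (hM : ∀ x, f x ≤ M) (hN : 0 ≤ N) (x x' : Fin m → ℝ) :
    |Lf f N x - Lf f N x'| ≤ N * ‖x - x'‖ := by
  have key : ∀ x x' : Fin m → ℝ, Lf f N x ≤ Lf f N x' + N * ‖x - x'‖ := by
    intro x x'
    rw [← sub_le_iff_le_add]
    refine le_Lf hf x' fun y hy => ?_
    have h1 := Lf_le hf hM hN x hy
    have h2 : ‖x - y‖ ≤ ‖x - x'‖ + ‖x' - y‖ := norm_sub_le_norm_sub_add_norm_sub _ _ _
    have h3 : N * ‖x - y‖ ≤ N * (‖x - x'‖ + ‖x' - y‖) := by gcongr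
    linarith [mul_add N ‖x - x'‖ ‖x' - y‖]
  rw [abs_le]
  have h1 := key x x'
  have h2 := key x' x
  rw [norm_sub_rev] at h2
  constructor <;> linarith

theorem Lf_convex (hM : ∀ x, f x ≤ M) (hN : 0 ≤ N) : ConvexOn ℝ univ (Lf f N) := by
  refine ⟨convex_univ, fun x _ x' _ s t hs ht hst => ?_⟩
  rcases hs.lt_or_eq with hs' | hs'
  swap
  · subst hs'
    simp only [zero_add] at hst
    subst hst
    simp
  rcases ht.lt_or_eq with ht' | ht'
  swap
  · subst ht'
    simp only [add_zero] at hst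
    subst hst
    simp
  simp only [smul_eq_mul]
  refine le_of_forall_pos_le_add fun e he => ?_
  obtain ⟨y, hy, h1⟩ := exists_lt_Lf hf x (a := Lf f N x + e) (N := N) (by linarith)
  obtain ⟨y', hy', h2⟩ := exists_lt_Lf hf x' (a := Lf f N x' + e) (N := N) (by linarith)
  have hpos : 0 < f (s • y + t • y') :=
    lt_of_lt_of_le (by positivity) (hf.logc y y' s t hs' ht' hst)
  have h3 := Lf_le hf hM hN (s • x + t • x') hpos
  have h4 : s * Real.log (f y) + t * Real.log (f y') ≤ Real.log (f (s • y + t • y')) := by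
    have h5 := Real.log_le_log (by positivity) (hf.logc y y' s t hs' ht' hst)
    rwa [Real.log_mul (by positivity) (by positivity), Real.log_rpow hy, Real.log_rpow hy'] at h5
  have h5 : ‖s • x + t • x' - (s • y + t • y')‖ ≤ s * ‖x - y‖ + t * ‖x' - y'‖ := by
    have : s • x + t • x' - (s • y + t • y') = s • (x - y) + t • (x' - y') := by
      rw [smul_sub, smul_sub]; abel
    rw [this]
    refine (norm_add_le _ _).trans ?_
    rw [norm_smul, norm_smul, Real.norm_of_nonneg hs, Real.norm_of_nonneg ht]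
  have h6 : N * ‖s • x + t • x' - (s • y + t • y')‖ ≤ N * (s * ‖x - y‖ + t * ‖x' - y'‖) := by
    gcongr
  have h7 : s * (-Real.log (f y) + N * ‖x - y‖) ≤ s * (Lf f N x + e) := by gcongr
  have h8 : t * (-Real.log (f y') + N * ‖x' - y'‖) ≤ t * (Lf f N x' + e) := by gcongr
  have h9 : s * e + t * e = e := by rw [← add_mul, hst, one_mul]
  nlinarith [h3, h4, h5, h6, h7, h8, h9]

theorem Lf_lower (hM : ∀ x, f x ≤ M) (hN : 0 ≤ N) (x : Fin m → ℝ) : -Real.log M ≤ Lf f N x := by
  refine le_Lf hf x fun y hy => ?_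
  have h1 : Real.log (f y) ≤ Real.log M := Real.log_le_log hy (hM y)
  have h2 : 0 ≤ N * ‖x - y‖ := by positivity
  linarith

/-- the exponential majorant is kept -/
theorem exp_Lf_le {C c : ℝ} (hC : 0 < C) (hc : 0 ≤ c)
    (hb : ∀ x, f x ≤ C * Real.exp (-c * ‖x‖)) (hN : c ≤ N) (x : Fin m → ℝ) :
    Real.exp (-Lf f N x) ≤ C * Real.exp (-c * ‖x‖) := by
  have h1 : -Real.log C + c * ‖x‖ ≤ Lf f N x := by
    refine le_Lf hf x fun y hy => ?_
    have h2 : Real.log (f y) ≤ Real.log C + -c * ‖y‖ := by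
      have h3 := Real.log_le_log hy (hb y)
      rwa [Real.log_mul hC.ne' (Real.exp_pos _).ne', Real.log_exp] at h3
    have h4 : ‖x‖ ≤ ‖x - y‖ + ‖y‖ := by
      have := norm_add_le (x - y) y; rwa [sub_add_cancel] at this
    have h5 : c * ‖x‖ ≤ c * (‖x - y‖ + ‖y‖) := by gcongr
    have h6 : c * ‖x - y‖ ≤ N * ‖x - y‖ := by gcongr
    nlinarith
  calc Real.exp (-Lf f N x) ≤ Real.exp (Real.log C + -c * ‖x‖) := by
        apply Real.exp_le_exp.mpr; linarith
    _ = C * Real.exp (-c * ‖x‖) := by rw [Real.exp_add, Real.exp_log hC]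

/-- `f` is continuous off the frontier of its support -/
theorem continuousAt_off_frontier {x : Fin m → ℝ} (hx : x ∉ frontier {x | 0 < f x}) :
    ContinuousAt f x := by
  have hconv := hf.logc.convex_pos
  by_cases h1 : x ∈ interior {x | 0 < f x}
  · have h2 := hf.logc.concaveOn_log
    have h3 : ContinuousOn (fun x => Real.log (f x)) (interior {x | 0 < f x}) :=
      h2.continuousOn_interior
    have h4 : ContinuousAt (fun x => Real.log (f x)) x := h3.continuousAt (isOpen_interior.mem_nhds h1)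
    have h5 : ContinuousAt (fun x => Real.exp (Real.log (f x))) x := Real.continuous_exp.continuousAt.comp h4
    refine h5.congr ?_
    filter_upwards [isOpen_interior.mem_nhds h1] with y hy
    have h9 : y ∈ {x | 0 < f x} := interior_subset hy
    exact Real.exp_log h9
  · have h2 : x ∉ closure {x | 0 < f x} := fun h => hx ⟨h, h1⟩
    have h3 : (closure {x | 0 < f x})ᶜ ∈ 𝓝 x := isClosed_closure.isOpen_compl.mem_nhds h2
    have h4 : f =ᶠ[𝓝 x] fun _ => 0 := by
      filter_upwards [h3] with y hy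
      have : ¬ (0 < f y) := fun h => hy (subset_closure h)
      exact le_antisymm (not_lt.mp this) (hf.nonneg y)
    exact (continuousAt_congr h4).mpr continuousAt_const

theorem tendsto_exp_Lf {Nk : ℕ → ℝ} (hNk : Tendsto Nk atTop atTop) (hN0 : ∀ k, 0 ≤ Nk k)
    {x : Fin m → ℝ} (hx : ContinuousAt f x) :
    Tendsto (fun k => Real.exp (-Lf f (Nk k) x)) atTop (𝓝 (f x)) := by
  obtain ⟨M, hM0, hM⟩ := hf.bddAbove
  rw [Metric.tendsto_atTop]
  intro e he
  -- lower bound: `f x ≤ exp (-Lf)`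
  have hlow : ∀ k, f x ≤ Real.exp (-Lf f (Nk k) x) := by
    intro k
    rcases (hf.nonneg x).lt_or_eq with h | h
    · have h1 := Lf_le hf hM (hN0 k) x h
      simp only [sub_self, norm_zero, mul_zero, add_zero] at h1
      calc f x = Real.exp (Real.log (f x)) := (Real.exp_log h).symm
        _ ≤ _ := Real.exp_le_exp.mpr (by linarith)
    · rw [← h]; exact (Real.exp_pos _).le
  -- upper bound
  rw [Metric.continuousAt_iff] at hx
  obtain ⟨r, hr, hb⟩ := hx (e / 2) (by positivity)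
  have hlog : 0 < f x + e / 2 := by have := hf.nonneg x; linarith
  have hev : ∀ᶠ k in atTop, Real.log M - Real.log (f x + e / 2) ≤ Nk k * r := by
    have : Tendsto (fun k => Nk k * r) atTop atTop := hNk.atTop_mul_const hr
    exact this.eventually_ge_atTop _
  obtain ⟨k0, hk0⟩ := eventually_atTop.mp hev
  refine ⟨k0, fun k hk => ?_⟩
  have h1 : -Real.log (f x + e / 2) ≤ Lf f (Nk k) x := by
    refine le_Lf hf x fun y hy => ?_
    by_cases hd : dist y x < r
    · have h2 := hb hd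
      rw [Real.dist_eq, abs_lt] at h2
      have h3 : Real.log (f y) ≤ Real.log (f x + e / 2) := Real.log_le_log hy (by linarith)
      have h4 : 0 ≤ Nk k * ‖x - y‖ := mul_nonneg (hN0 k) (norm_nonneg _)
      linarith
    · have h2 : r ≤ ‖x - y‖ := by
        rw [← dist_eq_norm, dist_comm]; exact not_lt.mp hd
      have h3 : Nk k * r ≤ Nk k * ‖x - y‖ := mul_le_mul_of_nonneg_left h2 (hN0 k)
      have h4 : Real.log (f y) ≤ Real.log M := Real.log_le_log hy (hM y)
      have h5 := hk0 k hk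
      linarith
  have h2 : Real.exp (-Lf f (Nk k) x) ≤ f x + e / 2 := by
    calc Real.exp (-Lf f (Nk k) x) ≤ Real.exp (Real.log (f x + e / 2)) :=
          Real.exp_le_exp.mpr (by linarith)
      _ = _ := Real.exp_log hlog
  rw [Real.dist_eq, abs_lt]
  have h3 := hlow k
  constructor <;> linarith

theorem ae_continuousAt : ∀ᵐ x, ContinuousAt f x := by
  have h1 : volume (frontier {x | 0 < f x}) = 0 := hf.logc.convex_pos.addHaar_frontier _
  have h2 : ∀ᵐ x, x ∉ frontier {x | 0 < f x} := by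
    rw [ae_iff]; simpa using h1
  filter_upwards [h2] with x hx
  exact continuousAt_off_frontier hf hx

end

end Crest.Agent.R253.Dens970
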