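import Crest.Agent.R253.DensB_970

/-!
# R253: dense class, part C (helper970)

The nice class `κ/2 |x|² + P`, `P ∈ C_c^∞`, with `D² ≥ ε`, is dense in the log-concave densities
(a.e. convergence with a common exponential majorant; convergence of the moments, of the
covariance and of the entropy).
-/

set_option autoImplicit false
open MeasureTheory Set Filter Topology
open Crest.GeometryTopology.Isotropic
open scoped ENNReal NNReal ContDiff

namespace Crest.Agent.R253.Dens970

open Crest.Agent.R253.Cpt435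

variable {m : ℕ}

/-- squared Euclidean norm -/
def sq (x : Fin m → ℝ) : ℝ := ∑ i, x i ^ 2

theorem sq_nonneg' (x : Fin m → ℝ) : 0 ≤ sq x := Finset.sum_nonneg fun i _ => sq_nonneg _

theorem contDiff_sq : ContDiff ℝ ∞ (sq : (Fin m → ℝ) → ℝ) := by
  unfold sq
  exact ContDiff.sum fun i _ => (contDiff_apply ℝ ℝ i).pow 2

theorem sq_le (x : Fin m → ℝ) : sq x ≤ m * ‖x‖ ^ 2 := by
  unfold sq
  calc ∑ i, x i ^ 2 ≤ ∑ _i : Fin m, ‖x‖ ^ 2 := by
        refine Finset.sum_le_sum fun i _ => ?_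
        rw [← sq_abs]
        have h := norm_le_pi_norm x i
        rw [Real.norm_eq_abs] at h
        exact pow_le_pow_left₀ (abs_nonneg _) h 2
    _ = m * ‖x‖ ^ 2 := by simp

theorem norm_sq_le (x : Fin m → ℝ) : ‖x‖ ^ 2 ≤ sq x := by
  have h1 : ‖x‖ ≤ Real.sqrt (sq x) := by
    rw [pi_norm_le_iff_of_nonneg (Real.sqrt_nonneg _)]
    intro i
    rw [Real.norm_eq_abs, ← Real.sqrt_sq_eq_abs]
    apply Real.sqrt_le_sqrt
    unfold sq
    exact Finset.single_le_sum (f := fun i => x i ^ 2) (fun i _ => sq_nonneg _) (Finset.mem_univ i)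
  calc ‖x‖ ^ 2 ≤ Real.sqrt (sq x) ^ 2 := pow_le_pow_left₀ (norm_nonneg _) h1 2
    _ = sq x := Real.sq_sqrt (sq_nonneg' x)

theorem convexOn_sq : ConvexOn ℝ univ (sq : (Fin m → ℝ) → ℝ) := by
  refine ⟨convex_univ, fun x _ y _ s t hs ht hst => ?_⟩
  simp only [sq, smul_eq_mul, Finset.mul_sum, ← Finset.sum_add_distrib]
  refine Finset.sum_le_sum fun i _ => ?_
  simp only [Pi.add_apply, Pi.smul_apply, smul_eq_mul]
  have ht1 : t = 1 - s := by linarith
  subst ht1
  nlinarith [mul_nonneg hs ht, sq_nonneg (x i - y i), mul_nonneg (mul_nonneg hs ht) (sq_nonneg (x i - y i))]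

theorem measurable_sq : Measurable (sq : (Fin m → ℝ) → ℝ) := contDiff_sq.continuous.measurable

/-- the nice class -/
structure Nice (κ ε : ℝ) (P : (Fin m → ℝ) → ℝ) : Prop where
  hκ : 0 < κ
  hε : 0 < ε
  smooth : ContDiff ℝ ∞ P
  cpt : HasCompactSupport P
  conv : ConvexOn ℝ univ (fun x => κ / 2 * sq x + P x - ε / 2 * sq x)

/-- unnormalised density -/
noncomputable def wt (κ : ℝ) (P : (Fin m → ℝ) → ℝ) (x : Fin m → ℝ) : ℝ :=
  Real.exp (-(κ / 2 * sq x + P x))

/-- the density of the potential `κ/2 |x|² + P` -/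
noncomputable def dens (κ : ℝ) (P : (Fin m → ℝ) → ℝ) (x : Fin m → ℝ) : ℝ :=
  wt κ P x / ∫ y, wt κ P y

/-! ### convergence lemma -/

/-- dominated convergence for a common exponential majorant -/
theorem tendsto_int_maj {g : ℕ → (Fin m → ℝ) → ℝ} {f : (Fin m → ℝ) → ℝ} {C c : ℝ} (hc : 0 < c)
    (hm : ∀ k, Measurable (g k)) (h0 : ∀ k x, 0 ≤ g k x)
    (hb : ∀ k x, g k x ≤ C * Real.exp (-c * ‖x‖))
    (hae : ∀ᵐ x, Tendsto (fun k => g k x) atTop (𝓝 (f x))) {ψ : (Fin m → ℝ) → ℝ} (hψ : PB ψ) :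
    Tendsto (fun k => ∫ x, ψ x * g k x) atTop (𝓝 (∫ x, ψ x * f x)) := by
  obtain ⟨K, hK0, hK⟩ := hψ.exp_bound (c := c / 2) (by positivity)
  refine tendsto_integral_of_dominated_convergence
    (fun x => K * C * Real.exp (-(c / 2) * ‖x‖)) ?_ ?_ ?_ ?_
  · intro k; exact (hψ.meas.mul (hm k)).aestronglyMeasurable
  · exact (integrable_exp_neg_norm (by positivity)).const_mul _
  · intro k
    refine ae_of_all _ fun x => ?_
    rw [Real.norm_eq_abs, abs_mul, abs_of_nonneg (h0 k x)]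
    have hK1 : 0 ≤ K * Real.exp (c / 2 * ‖x‖) := (abs_nonneg _).trans (hK x)
    calc |ψ x| * g k x ≤ (K * Real.exp (c / 2 * ‖x‖)) * (C * Real.exp (-c * ‖x‖)) :=
          mul_le_mul (hK x) (hb k x) (h0 k x) hK1
      _ = K * C * (Real.exp (c / 2 * ‖x‖) * Real.exp (-c * ‖x‖)) := by ring
      _ = _ := by rw [← Real.exp_add]; ring_nf
  · filter_upwards [hae] with x h1
    exact h1.const_mul _

/-- convergence of the entropy for a common exponential majorant -/
theorem tendsto_ent_maj {g : ℕ → (Fin m → ℝ) → ℝ} {f : (Fin m → ℝ) → ℝ} {C c : ℝ} (hC : 0 < C)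
    (hc : 0 < c) (hm : ∀ k, Measurable (g k)) (h0 : ∀ k x, 0 ≤ g k x)
    (hb : ∀ k x, g k x ≤ C * Real.exp (-c * ‖x‖))
    (hae : ∀ᵐ x, Tendsto (fun k => g k x) atTop (𝓝 (f x))) :
    Tendsto (fun k => diffEntropy (g k)) atTop (𝓝 (diffEntropy f)) := by
  unfold diffEntropy
  refine Tendsto.neg ?_
  refine tendsto_integral_of_dominated_convergence
    (fun x => 2 * (1 + C) * Real.sqrt C * Real.exp (-(c / 2) * ‖x‖)) ?_ ?_ ?_ ?_
  · intro k
    exact ((hm k).mul (Real.measurable_log.comp (hm k))).aestronglyMeasurable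
  · exact (integrable_exp_neg_norm (by positivity)).const_mul _
  · intro k
    refine ae_of_all _ fun x => ?_
    rw [Real.norm_eq_abs]
    have h1 := hb k x
    have h2 : g k x ≤ C := h1.trans (by
      have : Real.exp (-c * ‖x‖) ≤ 1 := by
        rw [Real.exp_le_one_iff]; have := norm_nonneg x; nlinarith
      nlinarith)
    refine (abs_mul_log_le (h0 k x) h2).trans ?_
    rw [mul_assoc (2 * (1 + C))]
    gcongr
    calc Real.sqrt (g k x) ≤ Real.sqrt (C * Real.exp (-c * ‖x‖)) := Real.sqrt_le_sqrt h1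
      _ = _ := by
        rw [Real.sqrt_mul hC.le, Real.sqrt_eq_rpow (Real.exp _), ← Real.exp_mul]; ring_nf
  · filter_upwards [hae] with x h1
    exact (Real.continuous_mul_log.tendsto (f x)).comp h1

/-- convergence of the covariance for a common exponential majorant -/
theorem tendsto_cov_maj {g : ℕ → (Fin m → ℝ) → ℝ} {f : (Fin m → ℝ) → ℝ} {C c : ℝ} (hc : 0 < c)
    (hg : ∀ k, LCD (g k)) (hf : LCD f)
    (hb : ∀ k x, g k x ≤ C * Real.exp (-c * ‖x‖))
    (hae : ∀ᵐ x, Tendsto (fun k => g k x) atTop (𝓝 (f x))) (i j : Fin m) :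
    Tendsto (fun k => densCov (g k) i j) atTop (𝓝 (densCov f i j)) := by
  rw [densCov_raw hf]
  simp only [fun k => densCov_raw (hg k) i j]
  have T : ∀ ψ : (Fin m → ℝ) → ℝ, PB ψ → Tendsto (fun k => ex (g k) ψ) atTop (𝓝 (ex f ψ)) :=
    fun ψ hψ => tendsto_int_maj hc (fun k => (hg k).meas) (fun k => (hg k).nonneg) hb hae hψ
  exact (T _ ((PB.coord i).mul (PB.coord j))).sub ((T _ (PB.coord i)).mul (T _ (PB.coord j)))

/-! ### one step of the approximation -/

/-- the quadratic completion of a smooth convex function of linear growth -/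
theorem exists_complete {V : (Fin m → ℝ) → ℝ} (hV : ContDiff ℝ ∞ V) (hVc : ConvexOn ℝ univ V)
    {D K r ρ : ℝ} (hr : 0 < r) (hρ : 0 ≤ ρ) (hK : 0 ≤ K) (hlow : ∀ x, -D ≤ V x)
    (hup : ∀ x, V x ≤ D + K * ‖x‖) :
    ∃ (P : (Fin m → ℝ) → ℝ) (W : (Fin m → ℝ) → ℝ) (a : ℝ), Nice (2 * r) r P ∧
      (∀ x, (2 * r) / 2 * sq x + P x = W x + a) ∧ (∀ x, V x + r / 2 * sq x ≤ W x) ∧
      (∀ x, ‖x‖ ≤ ρ → W x = V x + r / 2 * sq x) := by
  set c1 : ℝ := r / 2 * (m * ρ ^ 2) + |D| with hc1
  let A : (Fin m → ℝ) → ℝ := fun x => V x + r / 2 * sq x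
  let B : (Fin m → ℝ) → ℝ := fun x => r * sq x - c1
  let W : (Fin m → ℝ) → ℝ := fun x => rmax (A x) (B x)
  set a : ℝ := c1 + 1 - th 1 with ha
  let P : (Fin m → ℝ) → ℝ := fun x => W x + a - r * sq x
  have hAs : ContDiff ℝ ∞ A := hV.add (contDiff_const.mul contDiff_sq)
  have hBs : ContDiff ℝ ∞ B := (contDiff_const.mul contDiff_sq).sub contDiff_const
  have hWs : ContDiff ℝ ∞ W := by
    have : W = fun x => A x + th (B x - A x) := rfl
    rw [this]
    exact hAs.add (contDiff_th.comp (hBs.sub hAs))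
  have hPs : ContDiff ℝ ∞ P := (hWs.add contDiff_const).sub (contDiff_const.mul contDiff_sq)
  -- far away
  set K1 : ℝ := |D| + D + c1 + 1 with hK1
  have hD := le_abs_self D
  have hD' := neg_abs_le D
  have hc10 : 0 ≤ c1 := by positivity
  have hK10 : 0 ≤ K1 := by linarith
  set R : ℝ := 1 + 2 / r * (K + K1) with hR
  have hR1 : 1 ≤ R := by
    have : 0 ≤ 2 / r * (K + K1) := by positivity
    linarith
  have hfar : ∀ x : Fin m → ℝ, R ≤ ‖x‖ → P x = 0 := by
    intro x hx
    have h1 : A x + 1 ≤ B x := by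
      have h2 := hup x
      have h3 := norm_sq_le x
      have h4 : (K + K1) ≤ r / 2 * ‖x‖ := by
        have : r / 2 * (2 / r * (K + K1)) = K + K1 := by field_simp
        have h5 : 2 / r * (K + K1) ≤ ‖x‖ := by linarith
        calc K + K1 = r / 2 * (2 / r * (K + K1)) := this.symm
          _ ≤ r / 2 * ‖x‖ := by gcongr
      have h6 : 1 ≤ ‖x‖ := hR1.trans hx
      have h7 : (K + K1) * ‖x‖ ≤ r / 2 * ‖x‖ * ‖x‖ := by gcongr
      have h8 : K1 ≤ K1 * ‖x‖ := by nlinarith
      have h9 : r / 2 * ‖x‖ ^ 2 ≤ r / 2 * sq x := by gcongr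
      simp only [A, B]
      nlinarith
    have h2 : W x = B x - 1 + th 1 := rmax_of_ge h1
    simp only [P, h2, B, ha]
    ring
  have hcpt : HasCompactSupport P := by
    apply HasCompactSupport.of_support_subset_isCompact (isCompact_closedBall (0 : Fin m → ℝ) R)
    intro x hx
    rw [Metric.mem_closedBall, dist_zero_right]
    by_contra hcon
    exact hx (hfar x (not_le.mp hcon).le)
  have hconv : ConvexOn ℝ univ (fun x => (2 * r) / 2 * sq x + P x - r / 2 * sq x) := by
    have h1 : (fun x => (2 * r) / 2 * sq x + P x - r / 2 * sq x) =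
        fun x : Fin m → ℝ => rmax (V x) (r / 2 * sq x - c1) + a := by
      funext x
      have h2 : W x = rmax (V x) (r / 2 * sq x - c1) + r / 2 * sq x := by
        rw [← rmax_add]
        simp only [W, A, B]
        congr 1
        ring
      simp only [P, h2]
      ring
    rw [h1]
    have h3 : ConvexOn ℝ univ (fun x : Fin m → ℝ => r / 2 * sq x - c1) := by
      have h4 : ConvexOn ℝ univ (fun x : Fin m → ℝ => r / 2 * sq x) := by
        have := (convexOn_sq (m := m)).smul (c := r / 2) (by positivity)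
        simpa [smul_eq_mul] using this
      have := h4.add (convexOn_const (-c1) convex_univ)
      refine this.congr fun x _ => ?_
      simp [sub_eq_add_neg]
    exact (ConvexOn.rmax hVc h3).add (convexOn_const a convex_univ)
  refine ⟨P, W, a, ⟨by positivity, hr, hPs, hcpt, hconv⟩, fun x => ?_, fun x => le_rmax _ _,
    fun x hx => ?_⟩
  · simp only [P]; ring
  · have h1 : B x ≤ A x := by
      have h2 := hlow x
      have h3 : sq x ≤ m * ρ ^ 2 := (sq_le x).trans (by gcongr)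
      have h4 : r / 2 * sq x ≤ r / 2 * (m * ρ ^ 2) := by gcongr
      simp only [A, B, hc1]
      linarith
    exact rmax_of_le h1

end Crest.Agent.R253.Dens970
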