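import Crest.Agent.R253.DensC_970

/-!
# R253: dense class, part D (helper970) : the density theorem
-/

set_option autoImplicit false
open MeasureTheory Set Filter Topology
open Crest.GeometryTopology.Isotropic
open scoped ENNReal NNReal ContDiff

namespace Crest.Agent.R253.Dens970

open Crest.Agent.R253.Cpt435

variable {m : ℕ}

theorem Nice.convexOn {κ ε : ℝ} {P : (Fin m → ℝ) → ℝ} (h : Nice κ ε P) :
    ConvexOn ℝ univ (fun x => κ / 2 * sq x + P x) := by
  have h1 : ConvexOn ℝ univ (fun x : Fin m → ℝ => ε / 2 * sq x) := by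
    have := (convexOn_sq (m := m)).smul (c := ε / 2) (by have := h.hε; positivity)
    simpa [smul_eq_mul] using this
  refine (h.conv.add h1).congr fun x _ => ?_
  simp

theorem Nice.continuous_wt {κ ε : ℝ} {P : (Fin m → ℝ) → ℝ} (h : Nice κ ε P) :
    Continuous (wt κ P) := by
  unfold wt
  exact Real.continuous_exp.comp
    (((continuous_const.mul contDiff_sq.continuous).add h.smooth.continuous).neg)

theorem wt_pos (κ : ℝ) (P : (Fin m → ℝ) → ℝ) (x : Fin m → ℝ) : 0 < wt κ P x := Real.exp_pos _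

theorem Nice.logC_wt {κ ε : ℝ} {P : (Fin m → ℝ) → ℝ} (h : Nice κ ε P) : LogC (wt κ P) := by
  intro x y s t hs ht hst
  have h1 := h.convexOn.2 (mem_univ x) (mem_univ y) hs.le ht.le hst
  simp only [smul_eq_mul] at h1
  unfold wt
  rw [← Real.exp_mul, ← Real.exp_mul, ← Real.exp_add]
  apply Real.exp_le_exp.mpr
  linarith

theorem Nice.lcd {κ ε : ℝ} {P : (Fin m → ℝ) → ℝ} (h : Nice κ ε P)
    (hint : Integrable (wt κ P)) : LCD (dens κ P) := by
  have hZ : 0 < ∫ y, wt κ P y := integral_exp_pos hint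
  refine ⟨?_, fun x => ?_, ?_, ?_⟩
  · exact h.continuous_wt.measurable.div_const _
  · exact div_nonneg (wt_pos _ _ _).le hZ.le
  · have := h.logC_wt.const_mul (c := (∫ y, wt κ P y)⁻¹) (by positivity) (fun x => (wt_pos _ _ x).le)
    intro x y s t hs ht hst
    have h1 := this x y s t hs ht hst
    simp only [dens, div_eq_inv_mul]
    exact h1
  · unfold dens
    rw [integral_div, div_self hZ.ne']

/-- **DENSITY OF THE NICE CLASS** -/
theorem exists_nice_seq {f : (Fin m → ℝ) → ℝ} (hf : LCD f) :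
    ∃ (κ ε : ℕ → ℝ) (P : ℕ → (Fin m → ℝ) → ℝ) (C c : ℝ), 0 < C ∧ 0 < c ∧
      (∀ n, Nice (κ n) (ε n) (P n)) ∧
      (∀ n, Integrable (wt (κ n) (P n))) ∧
      (∀ n, LCD (dens (κ n) (P n))) ∧
      (∀ n x, dens (κ n) (P n) x ≤ C * Real.exp (-c * ‖x‖)) ∧
      (∀ᵐ x, Tendsto (fun n => dens (κ n) (P n) x) atTop (𝓝 (f x))) ∧
      (∀ ψ : (Fin m → ℝ) → ℝ, PB ψ →
        Tendsto (fun n => ∫ x, ψ x * dens (κ n) (P n) x) atTop (𝓝 (∫ x, ψ x * f x))) ∧
      Tendsto (fun n => diffEntropy (dens (κ n) (P n))) atTop (𝓝 (diffEntropy f)) ∧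
      (∀ i j, Tendsto (fun n => densCov (dens (κ n) (P n)) i j) atTop (𝓝 (densCov f i j))) ∧
      Tendsto (fun n => ∫ x, |dens (κ n) (P n) x - f x|) atTop (𝓝 0) := by
  obtain ⟨M, hM0, hM⟩ := hf.bddAbove
  obtain ⟨C0', c, hC0', hc, hb'⟩ := hf.eb.bound
  set C0 : ℝ := C0' + 1 with hC0
  have hC0p : 0 < C0 := by positivity
  have hb : ∀ x, f x ≤ C0 * Real.exp (-c * ‖x‖) := by
    intro x
    have h1 := (le_abs_self _).trans (hb' x)
    refine h1.trans ?_
    gcongr
    linarith
  -- the Lipschitz constants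
  let K : ℕ → ℝ := fun n => c + n + 1
  have hKpos : ∀ n, 0 < K n := fun n => by positivity
  have hKc : ∀ n, c ≤ K n := fun n => by
    have : (0 : ℝ) ≤ n := Nat.cast_nonneg n
    simp only [K]; linarith
  have hKt : Tendsto K atTop atTop := by
    have h1 : Tendsto (fun n : ℕ => (n : ℝ)) atTop atTop := tendsto_natCast_atTop_atTop
    have h2 : Tendsto (fun n : ℕ => (n : ℝ) + (c + 1)) atTop atTop :=
      tendsto_atTop_add_const_right _ _ h1
    refine h2.congr fun n => ?_
    simp only [K]; ring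
  let r : ℕ → ℝ := fun n => 1 / ((n : ℝ) + 1)
  have hr : ∀ n, 0 < r n := fun n => by positivity
  have hr1 : ∀ n, r n ≤ 1 := fun n => by
    simp only [r]
    rw [div_le_one (by positivity)]
    have : (0 : ℝ) ≤ n := Nat.cast_nonneg n
    linarith
  have hrt : Tendsto r atTop (𝓝 0) := tendsto_one_div_add_atTop_nhds_zero_nat
  -- mollification
  have hex1 : ∀ n, ∃ V : (Fin m → ℝ) → ℝ, ContDiff ℝ ∞ V ∧ ConvexOn ℝ univ V ∧
      ∀ x, |V x - Lf f (K n) x| ≤ r n := fun n =>
    exists_mollify volume (hKpos n) (hr n) (Lf_lip hf hM (hKpos n).le)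
      (Lf_convex hf hM (hKpos n).le)
  choose V hVs hVc hVd using hex1
  let D : ℕ → ℝ := fun n => |Real.log M| + 1 + |Lf f (K n) 0|
  have hlow : ∀ n x, -D n ≤ V n x := by
    intro n x
    have h1 := Lf_lower hf hM (hKpos n).le x
    have h2 := (abs_le.mp (hVd n x)).1
    have h3 := hr1 n
    have h4 := le_abs_self (Real.log M)
    have h5 := abs_nonneg (Lf f (K n) 0)
    simp only [D]
    linarith
  have hup : ∀ n x, V n x ≤ D n + K n * ‖x‖ := by
    intro n x
    have h1 := Lf_lip hf hM (hKpos n).le x 0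
    rw [sub_zero] at h1
    have h2 := (abs_le.mp (hVd n x)).2
    have h3 := hr1 n
    have h4 := (abs_le.mp h1).2
    have h5 := le_abs_self (Lf f (K n) 0)
    have h6 := abs_nonneg (Real.log M)
    simp only [D]
    linarith
  have hex2 : ∀ n, ∃ (P : (Fin m → ℝ) → ℝ) (W : (Fin m → ℝ) → ℝ) (a : ℝ),
      Nice (2 * r n) (r n) P ∧ (∀ x, (2 * r n) / 2 * sq x + P x = W x + a) ∧
      (∀ x, V n x + r n / 2 * sq x ≤ W x) ∧
      (∀ x, ‖x‖ ≤ (n : ℝ) → W x = V n x + r n / 2 * sq x) := fun n =>
    exists_complete (hVs n) (hVc n) (hr n) (Nat.cast_nonneg n) (hKpos n).le (hlow n) (hup n)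
  choose P W a hN hPW hWge hWeq using hex2
  -- the unnormalised densities
  let h : ℕ → (Fin m → ℝ) → ℝ := fun n x => Real.exp (-W n x)
  have hwt : ∀ n x, wt (2 * r n) (P n) x = Real.exp (-a n) * h n x := by
    intro n x
    simp only [wt, h]
    rw [hPW n x, ← Real.exp_add]
    congr 1; ring
  have hWcont : ∀ n, Continuous (W n) := by
    intro n
    have h1 : W n = fun x => (2 * r n) / 2 * sq x + P n x - a n := by
      funext x; rw [hPW n x]; ring
    rw [h1]
    exact ((continuous_const.mul contDiff_sq.continuous).add (hN n).smooth.continuous).sub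
      continuous_const
  have hmeas : ∀ n, Measurable (h n) := fun n =>
    (Real.continuous_exp.comp (hWcont n).neg).measurable
  have hpos : ∀ n x, 0 < h n x := fun n x => Real.exp_pos _
  have hmaj : ∀ n x, h n x ≤ Real.exp 1 * C0 * Real.exp (-c * ‖x‖) := by
    intro n x
    have h1 := hWge n x
    have h2 : 0 ≤ r n / 2 * sq x := mul_nonneg (by have := hr n; positivity) (sq_nonneg' x)
    have h3 := (abs_le.mp (hVd n x)).1
    have h4 := hr1 n
    have h5 := exp_Lf_le hf hC0p hc.le hb (hKc n) x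
    calc h n x ≤ Real.exp (1 + -Lf f (K n) x) := by
          apply Real.exp_le_exp.mpr; linarith
      _ = Real.exp 1 * Real.exp (-Lf f (K n) x) := Real.exp_add _ _
      _ ≤ Real.exp 1 * (C0 * Real.exp (-c * ‖x‖)) := by gcongr
      _ = _ := by ring
  have hae : ∀ᵐ x, Tendsto (fun n => h n x) atTop (𝓝 (f x)) := by
    filter_upwards [ae_continuousAt hf] with x hx
    have h1 := tendsto_exp_Lf hf hKt (fun n => (hKpos n).le) hx
    have h2 : Tendsto (fun n => Real.exp (-(V n x - Lf f (K n) x) - r n / 2 * sq x)) atTop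
        (𝓝 1) := by
      have h3 : Tendsto (fun n => V n x - Lf f (K n) x) atTop (𝓝 0) :=
        squeeze_zero_norm (fun n => by rw [Real.norm_eq_abs]; exact hVd n x) hrt
      have h4 : Tendsto (fun n => r n / 2 * sq x) atTop (𝓝 (0 / 2 * sq x)) :=
        (hrt.div_const 2).mul_const _
      have h5 := h3.neg.sub h4
      simp only [neg_zero, zero_div, zero_mul, sub_zero] at h5
      have h6 := (Real.continuous_exp.tendsto 0).comp h5
      rw [Real.exp_zero] at h6
      exact h6
    have h3 := h1.mul h2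
    rw [mul_one] at h3
    refine h3.congr' ?_
    have h4 : ∀ᶠ n : ℕ in atTop, ‖x‖ ≤ (n : ℝ) :=
      tendsto_natCast_atTop_atTop.eventually_ge_atTop _
    filter_upwards [h4] with n hn
    simp only [h]
    rw [hWeq n x hn, ← Real.exp_add]
    congr 1; ring
  have hC1 : 0 < Real.exp 1 * C0 := by positivity
  have hhint : ∀ n, Integrable (h n) := fun n =>
    ((integrable_exp_neg_norm hc).const_mul (Real.exp 1 * C0)).mono'
      (hmeas n).aestronglyMeasurable
      (ae_of_all _ fun x => by rw [Real.norm_of_nonneg (hpos n x).le]; exact hmaj n x)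
  let Z : ℕ → ℝ := fun n => ∫ x, h n x
  have hZpos : ∀ n, 0 < Z n := fun n => integral_exp_pos (hhint n)
  have hZt : Tendsto Z atTop (𝓝 1) := by
    have h1 := tendsto_int_maj hc hmeas (fun n x => (hpos n x).le) hmaj hae (PB.const 1)
    simp only [one_mul, hf.int1] at h1
    exact h1
  have hZi : Tendsto (fun n => (Z n)⁻¹) atTop (𝓝 1) := by
    have := hZt.inv₀ one_ne_zero
    rwa [inv_one] at this
  obtain ⟨B, hB⟩ := hZi.bddAbove_range
  have hB' : ∀ n, (Z n)⁻¹ ≤ B := fun n => hB ⟨n, rfl⟩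
  have hBpos : 0 < B := lt_of_lt_of_le (inv_pos.mpr (hZpos 0)) (hB' 0)
  have hdens : ∀ n x, dens (2 * r n) (P n) x = h n x * (Z n)⁻¹ := by
    intro n x
    have h1 : ∫ y, wt (2 * r n) (P n) y = Real.exp (-a n) * Z n := by
      rw [show wt (2 * r n) (P n) = fun y => Real.exp (-a n) * h n y from funext (hwt n),
        integral_const_mul]
    simp only [dens]
    rw [h1, hwt n x]
    have h2 := (hZpos n).ne'
    have h3 := (Real.exp_pos (-a n)).ne'
    field_simp
  have hwint : ∀ n, Integrable (wt (2 * r n) (P n)) := fun n => by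
    rw [show wt (2 * r n) (P n) = fun y => Real.exp (-a n) * h n y from funext (hwt n)]
    exact (hhint n).const_mul _
  have hlcd : ∀ n, LCD (dens (2 * r n) (P n)) := fun n => (hN n).lcd (hwint n)
  have hmajd : ∀ n x, dens (2 * r n) (P n) x ≤ (Real.exp 1 * C0 * B) * Real.exp (-c * ‖x‖) := by
    intro n x
    rw [hdens n x]
    calc h n x * (Z n)⁻¹ ≤ (Real.exp 1 * C0 * Real.exp (-c * ‖x‖)) * B :=
          mul_le_mul (hmaj n x) (hB' n) (inv_pos.mpr (hZpos n)).le (by positivity)
      _ = _ := by ring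
  have haed : ∀ᵐ x, Tendsto (fun n => dens (2 * r n) (P n) x) atTop (𝓝 (f x)) := by
    filter_upwards [hae] with x hx
    have := hx.mul hZi
    rw [mul_one] at this
    refine this.congr fun n => ?_
    rw [hdens n x]
  refine ⟨fun n => 2 * r n, r, P, Real.exp 1 * C0 * B, c, by positivity, hc, hN, hwint, hlcd,
    hmajd, haed, fun ψ hψ => ?_, ?_, fun i j => ?_, ?_⟩
  · exact tendsto_int_maj hc (fun n => (hlcd n).meas) (fun n => (hlcd n).nonneg) hmajd haed hψ
  · exact tendsto_ent_maj (by positivity) hc (fun n => (hlcd n).meas) (fun n => (hlcd n).nonneg)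
      hmajd haed
  · exact tendsto_cov_maj hc hlcd hf hmajd haed i j
  · have h0 : (0 : ℝ) = ∫ _x : Fin m → ℝ, (0 : ℝ) := by simp
    rw [h0]
    refine tendsto_integral_of_dominated_convergence
      (fun x => (Real.exp 1 * C0 * B + C0) * Real.exp (-c * ‖x‖)) ?_ ?_ ?_ ?_
    · intro n
      exact (((hlcd n).meas.sub hf.meas).abs).aestronglyMeasurable
    · exact (integrable_exp_neg_norm hc).const_mul _
    · intro n
      refine ae_of_all _ fun x => ?_
      rw [Real.norm_eq_abs, abs_abs]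
      have h1 := hmajd n x
      have h2 := (hlcd n).nonneg x
      have h3 := hb x
      have h4 := hf.nonneg x
      rw [abs_le]
      have h5 : 0 ≤ (Real.exp 1 * C0 * B) * Real.exp (-c * ‖x‖) := by positivity
      have h6 : 0 ≤ C0 * Real.exp (-c * ‖x‖) := by positivity
      constructor <;> linarith [add_mul (Real.exp 1 * C0 * B) C0 (Real.exp (-c * ‖x‖))]
    · filter_upwards [haed] with x hx
      have := (hx.sub_const (f x)).abs
      rwa [sub_self, abs_zero] at this

end Crest.Agent.R253.Dens970
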