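import Crest.Agent.R253.DensE_970

/-!
# R253 (helper970): the diagonal argument (D) of 505's architecture

`StepB Good m`: every `f0 = nrm (p1 Q)`, `PDatB Q`, is an `L¹` limit of `aff (g k) (A k) 0`,
`A k` positive definite, `g k` log-concave with `Good (g k)`, and `DD (g k) → DD f0`.
`diag`: the same for every log-concave density `f`.
-/

set_option autoImplicit false
open MeasureTheory Set Filter Topology
open Crest.GeometryTopology.Isotropic

namespace Crest.Agent.R253.Dens970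

open Crest.Agent.R253.Cpt435 Crest.Agent.R253.Lim140

variable {m : ℕ}

/-- output of step B for one `Q` -/
def StepB (Good : ((Fin m → ℝ) → ℝ) → Prop) : Prop :=
  ∀ Q : EuclideanSpace ℝ (Fin m) → ℝ, Br.PDatB Q → LCD (nrm (p1 Q)) →
    ∃ (A : ℕ → Matrix (Fin m) (Fin m) ℝ) (g : ℕ → (Fin m → ℝ) → ℝ),
      (∀ k, (A k).PosDef) ∧ (∀ k, LCD (g k)) ∧ (∀ k, Good (g k)) ∧
      Tendsto (fun k => ∫ x, |aff (g k) (A k) 0 x - nrm (p1 Q) x|) atTop (𝓝 0) ∧
      Tendsto (fun k => DD (g k)) atTop (𝓝 (DD (nrm (p1 Q))))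

theorem aff_aff_zero (g : (Fin m → ℝ) → ℝ) (A T : Matrix (Fin m) (Fin m) ℝ) :
    aff (aff g A 0) T 0 = aff g (A * T) 0 := by
  funext x
  simp only [aff, zero_add, Matrix.det_mul, abs_mul, Matrix.mulVec_mulVec]
  ring

/-- `aff` preserves the `L¹` distance -/
theorem L1_aff {f g : (Fin m → ℝ) → ℝ} (hf : Measurable f) (hg : Measurable g)
    {T : Matrix (Fin m) (Fin m) ℝ} (hT : T.det ≠ 0) :
    ∫ x, |aff f T 0 x - aff g T 0 x| = ∫ x, |f x - g x| := by
  rw [← integral_comp_affine (fun x => |f x - g x|) ((hf.sub hg).abs) T hT 0]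
  congr 1
  funext x
  simp only [aff]
  rw [← mul_sub, abs_mul, abs_abs]

theorem integrable_aff {f : (Fin m → ℝ) → ℝ} (hf : LCD f)
    {T : Matrix (Fin m) (Fin m) ℝ} (hT : T.det ≠ 0) : Integrable (aff f T 0) :=
  (hf.comp_affine T hT 0 : LCD (aff f T 0)).integrable

/-- **(D) the diagonal argument** -/
theorem diag {Good : ((Fin m → ℝ) → ℝ) → Prop} (hB : StepB Good) {f : (Fin m → ℝ) → ℝ}
    (hf : LCD f) :
    ∃ (A : ℕ → Matrix (Fin m) (Fin m) ℝ) (g : ℕ → (Fin m → ℝ) → ℝ),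
      (∀ k, (A k).PosDef) ∧ (∀ k, LCD (g k)) ∧ (∀ k, Good (g k)) ∧
      Tendsto (fun k => ∫ x, |aff (g k) (A k) 0 x - f x|) atTop (𝓝 0) ∧
      Tendsto (fun k => DD (g k)) atTop (𝓝 (DD f)) := by
  obtain ⟨κ, Q, hκ, hQ, hL, hL', -, hL1, hD⟩ := exists_seq1 hf
  have hr : ∀ n : ℕ, (0 : ℝ) < 1 / ((n : ℝ) + 1) := fun n => by positivity
  have key : ∀ n : ℕ, ∃ (A : Matrix (Fin m) (Fin m) ℝ) (g : (Fin m → ℝ) → ℝ),
      A.PosDef ∧ LCD g ∧ Good g ∧
      (∫ x, |aff g A 0 x - nrm (p1 (Q n)) x|) < 1 / ((n : ℝ) + 1) ∧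
      |DD g - DD (nrm (p1 (Q n)))| < 1 / ((n : ℝ) + 1) := by
    intro n
    obtain ⟨A, g, h1, h2, h3, h4, h5⟩ := hB (Q n) (hQ n) (hL n)
    have h6 : ∀ᶠ k in atTop, (∫ x, |aff (g k) (A k) 0 x - nrm (p1 (Q n)) x|) < 1 / ((n : ℝ) + 1) :=
      h4.eventually (gt_mem_nhds (hr n))
    have h7 : ∀ᶠ k in atTop, |DD (g k) - DD (nrm (p1 (Q n)))| < 1 / ((n : ℝ) + 1) := by
      have := (Metric.tendsto_nhds.mp h5) _ (hr n)
      filter_upwards [this] with k hk
      rwa [Real.dist_eq] at hk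
    obtain ⟨k, h8, h9⟩ := (h6.and h7).exists
    exact ⟨A k, g k, h1 k, h2 k, h3 k, h8, h9⟩
  choose A g hA hg hG hd1 hd2 using key
  have hdet : ∀ n, (κ n • (1 : Matrix (Fin m) (Fin m) ℝ)).det ≠ 0 := fun n => by
    have := hκ n
    rw [Matrix.det_smul, Matrix.det_one, mul_one, Fintype.card_fin]; positivity
  have hmul : ∀ n, A n * (κ n • (1 : Matrix (Fin m) (Fin m) ℝ)) = κ n • A n := fun n => by
    rw [Matrix.mul_smul, Matrix.mul_one]
  refine ⟨fun n => κ n • A n, g, fun n => (hA n).smul (hκ n), hg, hG, ?_, ?_⟩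
  · have hub : ∀ n, (∫ x, |aff (g n) (κ n • A n) 0 x - f x|) ≤ 1 / ((n : ℝ) + 1) +
        ∫ x, |aff (nrm (p1 (Q n))) (κ n • (1 : Matrix (Fin m) (Fin m) ℝ)) 0 x - f x| := by
      intro n
      have hAd : (A n).det ≠ 0 := (hA n).det_pos.ne'
      have e1 : aff (g n) (κ n • A n) 0 =
          aff (aff (g n) (A n) 0) (κ n • (1 : Matrix (Fin m) (Fin m) ℝ)) 0 := by
        rw [aff_aff_zero, hmul n]
      have hLg : LCD (aff (g n) (A n) 0) := (hg n).comp_affine (A n) hAd 0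
      have e2 : (∫ x, |aff (aff (g n) (A n) 0) (κ n • (1 : Matrix (Fin m) (Fin m) ℝ)) 0 x -
          aff (nrm (p1 (Q n))) (κ n • (1 : Matrix (Fin m) (Fin m) ℝ)) 0 x|) =
          ∫ x, |aff (g n) (A n) 0 x - nrm (p1 (Q n)) x| :=
        L1_aff hLg.meas (hL n).meas (hdet n)
      have i1 : Integrable (aff (aff (g n) (A n) 0) (κ n • (1 : Matrix (Fin m) (Fin m) ℝ)) 0) :=
        integrable_aff hLg (hdet n)
      have i2 := integrable_aff (hL n) (hdet n)
      rw [e1]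
      have e3 : (∫ x, |aff (aff (g n) (A n) 0) (κ n • (1 : Matrix (Fin m) (Fin m) ℝ)) 0 x - f x|) ≤
          (∫ x, |aff (aff (g n) (A n) 0) (κ n • (1 : Matrix (Fin m) (Fin m) ℝ)) 0 x -
            aff (nrm (p1 (Q n))) (κ n • (1 : Matrix (Fin m) (Fin m) ℝ)) 0 x|) +
          ∫ x, |aff (nrm (p1 (Q n))) (κ n • (1 : Matrix (Fin m) (Fin m) ℝ)) 0 x - f x| := by
        have j1 : Integrable (fun x =>
            |aff (aff (g n) (A n) 0) (κ n • (1 : Matrix (Fin m) (Fin m) ℝ)) 0 x -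
            aff (nrm (p1 (Q n))) (κ n • (1 : Matrix (Fin m) (Fin m) ℝ)) 0 x|) := (i1.sub i2).abs
        have j2 : Integrable (fun x =>
            |aff (nrm (p1 (Q n))) (κ n • (1 : Matrix (Fin m) (Fin m) ℝ)) 0 x - f x|) :=
          (i2.sub hf.integrable).abs
        rw [← integral_add j1 j2]
        refine integral_mono (i1.sub hf.integrable).abs (j1.add j2) fun x => ?_
        exact abs_sub_le _ _ _
      rw [e2] at e3
      linarith [hd1 n]
    have hlim : Tendsto (fun n : ℕ => 1 / ((n : ℝ) + 1) +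
        ∫ x, |aff (nrm (p1 (Q n))) (κ n • (1 : Matrix (Fin m) (Fin m) ℝ)) 0 x - f x|) atTop
        (𝓝 0) := by
      have := tendsto_one_div_add_atTop_nhds_zero_nat (𝕜 := ℝ) |>.add hL1
      simpa using this
    exact squeeze_zero (fun n => integral_nonneg fun x => abs_nonneg _) hub hlim
  · have h1 : Tendsto (fun n => DD (g n) - DD (nrm (p1 (Q n)))) atTop (𝓝 0) :=
      squeeze_zero_norm (fun n => by rw [Real.norm_eq_abs]; exact (hd2 n).le)
        tendsto_one_div_add_atTop_nhds_zero_nat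
    have h2 := h1.add hD
    simp only [sub_add_cancel, zero_add] at h2
    exact h2

/-- the inequality half of S0391 from step B and `0 ≤ DD g` on good `g` -/
theorem DD_nonneg_of_stepB {Good : ((Fin m → ℝ) → ℝ) → Prop} (hB : StepB Good)
    (hmain : ∀ g, LCD g → Good g → 0 ≤ DD g) {f : (Fin m → ℝ) → ℝ} (hf : LCD f) : 0 ≤ DD f := by
  obtain ⟨A, g, -, hg, hG, -, h⟩ := diag hB hf
  exact ge_of_tendsto' h fun k => hmain (g k) (hg k) (hG k)

/-- the input of the equality theorem from step B and a margin: if `DD f = 0`, then `f` is the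
`L¹` limit of `aff (g k) (A k) 0` with `margin (g k) → 0` -/
theorem exists_margin_seq {Good : ((Fin m → ℝ) → ℝ) → Prop} (hB : StepB Good)
    {margin : ((Fin m → ℝ) → ℝ) → ℝ} (h0 : ∀ g, LCD g → Good g → 0 ≤ margin g)
    (hmain : ∀ g, LCD g → Good g → margin g ≤ DD g) {f : (Fin m → ℝ) → ℝ} (hf : LCD f)
    (hD : DD f = 0) :
    ∃ (A : ℕ → Matrix (Fin m) (Fin m) ℝ) (g : ℕ → (Fin m → ℝ) → ℝ),
      (∀ k, (A k).PosDef) ∧ (∀ k, LCD (g k)) ∧ (∀ k, Good (g k)) ∧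
      Tendsto (fun k => ∫ x, |aff (g k) (A k) 0 x - f x|) atTop (𝓝 0) ∧
      Tendsto (fun k => margin (g k)) atTop (𝓝 0) := by
  obtain ⟨A, g, hA, hg, hG, hL, h⟩ := diag hB hf
  rw [hD] at h
  exact ⟨A, g, hA, hg, hG, hL,
    squeeze_zero (fun k => h0 _ (hg k) (hG k)) (fun k => hmain _ (hg k) (hG k)) h⟩

end Crest.Agent.R253.Dens970
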