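import Crest.Agent.R253.SpecField_321

/-!
# R253: the Jordan dual field (helper192)

Pure matrix algebra of the dual field `Y_k = sy (v'(ζ) T_k b)` (`sy X = (X + Xᵀ)/2`), with the two
kernels `KT` (trapezoid) and `KL` (left), Hilbert–Schmidt bounds and the field version.
-/

set_option autoImplicit false

open Matrix Set
open scoped ContDiff

noncomputable section

namespace Crest.Agent.R253.Jord192

open Crest.Agent.R253.SpecCalc999 Crest.Agent.R253.Meh74 Crest.Agent.R253.SpecField321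

variable {m n : ℕ}

/-! ### symmetric part -/

/-- symmetric part -/
def sy (X : Mat m) : Mat m := (1 / 2 : ℝ) • (X + Xᵀ)

lemma sy_apply (X : Mat m) (i j : Fin m) : sy X i j = (X i j + X j i) / 2 := by
  unfold sy
  rw [Matrix.smul_apply, Matrix.add_apply, Matrix.transpose_apply, smul_eq_mul]
  ring

lemma sy_add (X Y : Mat m) : sy (X + Y) = sy X + sy Y := by
  ext i j; simp only [Matrix.add_apply, sy_apply]; ring

lemma sy_sub (X Y : Mat m) : sy (X - Y) = sy X - sy Y := by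
  ext i j; simp only [Matrix.sub_apply, sy_apply]; ring

lemma sy_neg (X : Mat m) : sy (-X) = -sy X := by
  ext i j; simp only [Matrix.neg_apply, sy_apply]; ring

lemma sy_smul (c : ℝ) (X : Mat m) : sy (c • X) = c • sy X := by
  ext i j; simp only [Matrix.smul_apply, sy_apply, smul_eq_mul]; ring

lemma sy_zero : sy (0 : Mat m) = 0 := by
  ext i j; simp [sy_apply]

lemma sy_sum {ι : Type*} (t : Finset ι) (X : ι → Mat m) : sy (∑ i ∈ t, X i) = ∑ i ∈ t, sy (X i) := by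
  classical
  induction t using Finset.induction_on with
  | empty => simp [sy_zero]
  | insert a t ha ih => rw [Finset.sum_insert ha, Finset.sum_insert ha, sy_add, ih]

lemma sy_of_symm {X : Mat m} (h : Xᵀ = X) : sy X = X := by
  ext i j
  rw [sy_apply]
  have : X j i = X i j := by
    have := congrFun (congrFun h i) j
    rwa [Matrix.transpose_apply] at this
  rw [this]; ring

lemma sy_transpose (X : Mat m) : sy Xᵀ = sy X := by
  ext i j; simp only [sy_apply, Matrix.transpose_apply]; ring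

lemma transpose_sy (X : Mat m) : (sy X)ᵀ = sy X := by
  ext i j; simp only [sy_apply, Matrix.transpose_apply]; ring

lemma sy_conj {U : Mat m} (X : Mat m) : sy (Uᵀ * X * U) = Uᵀ * sy X * U := by
  unfold sy
  rw [Matrix.mul_smul, Matrix.smul_mul, Matrix.mul_add, Matrix.add_mul]
  congr 2
  rw [Matrix.transpose_mul, Matrix.transpose_mul, Matrix.transpose_transpose, Matrix.mul_assoc]

/-! ### Hilbert–Schmidt norm -/

lemma hs_transpose (X : Mat m) : hs Xᵀ = hs X := by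
  unfold hs
  rw [Finset.sum_comm]
  rfl

lemma hs_smul (c : ℝ) (X : Mat m) : hs (c • X) = c ^ 2 * hs X := by
  unfold hs
  simp only [Matrix.smul_apply, smul_eq_mul, mul_pow, Finset.mul_sum]

lemma hs_neg (X : Mat m) : hs (-X) = hs X := by
  unfold hs; simp only [Matrix.neg_apply, neg_sq]

lemma hs_zero : hs (0 : Mat m) = 0 := by
  unfold hs; simp

lemma hs_add_le {θ : ℝ} (hθ : 0 < θ) (X Y : Mat m) :
    hs (X + Y) ≤ (1 + θ) * hs X + (1 + θ⁻¹) * hs Y := by
  unfold hs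
  rw [Finset.mul_sum, Finset.mul_sum, ← Finset.sum_add_distrib]
  refine Finset.sum_le_sum fun i _ => ?_
  rw [Finset.mul_sum, Finset.mul_sum, ← Finset.sum_add_distrib]
  refine Finset.sum_le_sum fun j _ => ?_
  rw [Matrix.add_apply]
  have h1 : θ * θ⁻¹ = 1 := mul_inv_cancel₀ hθ.ne'
  have h2 : 0 < θ⁻¹ := inv_pos.2 hθ
  have h3 : 0 ≤ θ⁻¹ * (θ * X i j - Y i j) ^ 2 := mul_nonneg h2.le (sq_nonneg _)
  have h4 : θ⁻¹ * (θ * X i j - Y i j) ^ 2 =
      (θ * θ⁻¹) * θ * X i j ^ 2 - 2 * (θ * θ⁻¹) * (X i j * Y i j) + θ⁻¹ * Y i j ^ 2 := by ring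
  rw [h4, h1] at h3
  nlinarith

/-- weighted Cauchy–Schwarz -/
lemma hs_sum_le {ι : Type*} (t : Finset ι) (w : ι → ℝ) (hw : ∀ i ∈ t, 0 < w i) (X : ι → Mat m) :
    hs (∑ i ∈ t, X i) ≤ (∑ i ∈ t, w i) * ∑ i ∈ t, hs (X i) / w i := by
  have key : ∀ a b, (∑ i ∈ t, X i a b) ^ 2 ≤ (∑ i ∈ t, w i) * ∑ i ∈ t, X i a b ^ 2 / w i := by
    intro a b
    have h := Finset.sum_sq_le_sum_mul_sum_of_sq_le_mul t (r := fun i => X i a b) (f := w)
      (g := fun i => X i a b ^ 2 / w i) (fun i hi => (hw i hi).le)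
      (fun i hi => div_nonneg (sq_nonneg _) (hw i hi).le)
      (fun i hi => le_of_eq (by have := (hw i hi).ne'; field_simp))
    exact h
  unfold hs
  calc ∑ a, ∑ b, (∑ i ∈ t, X i) a b ^ 2
      ≤ ∑ a, ∑ b, (∑ i ∈ t, w i) * ∑ i ∈ t, X i a b ^ 2 / w i := by
        refine Finset.sum_le_sum fun a _ => Finset.sum_le_sum fun b _ => ?_
        rw [Matrix.sum_apply]
        exact key a b
    _ = (∑ i ∈ t, w i) * ∑ i ∈ t, (∑ a, ∑ b, X i a b ^ 2) / w i := by
        simp only [← Finset.mul_sum]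
        congr 1
        have e1 : ∀ a, ∑ b, ∑ i ∈ t, X i a b ^ 2 / w i = ∑ i ∈ t, ∑ b, X i a b ^ 2 / w i :=
          fun a => Finset.sum_comm
        simp only [e1]
        rw [Finset.sum_comm]
        refine Finset.sum_congr rfl fun i _ => ?_
        simp only [Finset.sum_div]

lemma hs_sy_le (X : Mat m) : hs (sy X) ≤ hs X := by
  have h : hs (sy X) ≤ (1 / 2) * (hs X + hs Xᵀ) := by
    unfold hs
    rw [← Finset.sum_add_distrib, Finset.mul_sum]
    refine Finset.sum_le_sum fun i _ => ?_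
    rw [← Finset.sum_add_distrib, Finset.mul_sum]
    refine Finset.sum_le_sum fun j _ => ?_
    rw [sy_apply, Matrix.transpose_apply]
    nlinarith [sq_nonneg (X i j - X j i)]
  rw [hs_transpose] at h
  linarith

lemma cfc_transpose {A : Mat m} (f : ℝ → ℝ) : (_root_.cfc f A)ᵀ = _root_.cfc f A := by
  have h : IsSelfAdjoint (_root_.cfc f A) := cfc_predicate f A
  have := h.star_eq
  rwa [Matrix.star_eq_conjTranspose, conjTranspose_eq_transpose_of_trivial] at this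

lemma conj_mul {U : Mat m} (h : U * Uᵀ = 1) (X Y : Mat m) :
    Uᵀ * (X * Y) * U = (Uᵀ * X * U) * (Uᵀ * Y * U) := by
  calc Uᵀ * (X * Y) * U = Uᵀ * (X * 1 * Y) * U := by rw [Matrix.mul_one]
    _ = Uᵀ * (X * (U * Uᵀ) * Y) * U := by rw [h]
    _ = _ := by simp only [Matrix.mul_assoc]

/-- `f(A) X` in a frame -/
lemma cfc_mul_frame {A U : Mat m} {s : Fin m → ℝ} (h : Fr A U s) (f : ℝ → ℝ) (X : Mat m)
    (i j : Fin m) :
    (Uᵀ * (_root_.cfc f A * X) * U) i j = f (s i) * (Uᵀ * X * U) i j := by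
  rw [conj_mul h.o', h.cfc, Matrix.diagonal_mul]

lemma mul_cfc_frame {A U : Mat m} {s : Fin m → ℝ} (h : Fr A U s) (f : ℝ → ℝ) (X : Mat m)
    (i j : Fin m) :
    (Uᵀ * (X * _root_.cfc f A) * U) i j = (Uᵀ * X * U) i j * f (s j) := by
  rw [conj_mul h.o', h.cfc, Matrix.mul_diagonal]

lemma hs_le_of_frame {A U : Mat m} {s : Fin m → ℝ} (h : Fr A U s) {X Y : Mat m} {C : ℝ}
    (hC : ∀ i j, |(Uᵀ * Y * U) i j| ≤ C * |(Uᵀ * X * U) i j|) : hs Y ≤ C ^ 2 * hs X := by
  rw [← hs_conj h.o' Y, ← hs_conj h.o' X]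
  unfold hs
  rw [Finset.mul_sum]
  refine Finset.sum_le_sum fun i _ => ?_
  rw [Finset.mul_sum]
  refine Finset.sum_le_sum fun j _ => ?_
  have := pow_le_pow_left₀ (abs_nonneg _) (hC i j) 2
  rwa [sq_abs, mul_pow, sq_abs] at this

lemma hs_cfc_mul_le {A : Mat m} (hA : A.IsHermitian) {f : ℝ → ℝ} {C : ℝ}
    (hC : ∀ a ∈ spectrum ℝ A, |f a| ≤ C) (X : Mat m) :
    hs (_root_.cfc f A * X) ≤ C ^ 2 * hs X := by
  obtain ⟨U, hU⟩ := exists_fr hA
  refine hs_le_of_frame hU fun i j => ?_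
  rw [cfc_mul_frame hU, abs_mul]
  exact mul_le_mul_of_nonneg_right (hC _ (hU.mem_spec i)) (abs_nonneg _)

lemma hs_mul_cfc_le {A : Mat m} (hA : A.IsHermitian) {f : ℝ → ℝ} {C : ℝ}
    (hC : ∀ a ∈ spectrum ℝ A, |f a| ≤ C) (X : Mat m) :
    hs (X * _root_.cfc f A) ≤ C ^ 2 * hs X := by
  obtain ⟨U, hU⟩ := exists_fr hA
  refine hs_le_of_frame hU fun i j => ?_
  rw [mul_cfc_frame hU, abs_mul, mul_comm]
  exact mul_le_mul_of_nonneg_right (hC _ (hU.mem_spec j)) (abs_nonneg _)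

/-- `sy (f(A) X)` for symmetric `X` is the Jordan product -/
lemma sy_cfc_mul {A X : Mat m} (hX : Xᵀ = X) (f : ℝ → ℝ) :
    sy (_root_.cfc f A * X) = (1 / 2 : ℝ) • (_root_.cfc f A * X + X * _root_.cfc f A) := by
  unfold sy
  rw [Matrix.transpose_mul, cfc_transpose, hX]

lemma hs_sy_cfc_le {A : Mat m} (hA : A.IsHermitian) {f : ℝ → ℝ} {C : ℝ}
    (hC : ∀ a ∈ spectrum ℝ A, |f a| ≤ C) (X : Mat m) :
    hs (sy (_root_.cfc f A * X)) ≤ C ^ 2 * hs X :=
  (hs_sy_le _).trans (hs_cfc_mul_le hA hC X)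

/-! ### row contraction -/

/-- `Σ_k |S_k w|² ≤ K |w|²` for all `w` -/
def RowC (S : Fin n → Mat m) (K : ℝ) : Prop :=
  ∀ w : Fin m → ℝ, ∑ k, ∑ a, (∑ j, S k a j * w j) ^ 2 ≤ K * ∑ j, w j ^ 2

lemma hs_sum_mul_le {S : Fin n → Mat m} {K : ℝ} (hK : 0 ≤ K) (hS : RowC S K) (B : Fin n → Mat m) :
    hs (∑ k, B k * S k) ≤ K * ∑ k, hs (B k) := by
  set Z : Mat m := ∑ k, B k * S k with hZ
  have key : ∀ i, ∑ j, Z i j ^ 2 ≤ K * ∑ k, ∑ a, B k i a ^ 2 := by
    intro i
    set Y : ℝ := ∑ j, Z i j ^ 2 with hY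
    set b2 : ℝ := ∑ k, ∑ a, B k i a ^ 2 with hb2
    have hY0 : 0 ≤ Y := Finset.sum_nonneg fun j _ => sq_nonneg _
    have hb0 : 0 ≤ b2 := Finset.sum_nonneg fun k _ => Finset.sum_nonneg fun a _ => sq_nonneg _
    have hZij : ∀ j, Z i j = ∑ k, ∑ a, B k i a * S k a j := by
      intro j
      rw [hZ, Matrix.sum_apply]
      exact Finset.sum_congr rfl fun k _ => Matrix.mul_apply
    have e1 : Y = ∑ k, ∑ a, B k i a * ∑ j, S k a j * Z i j := by
      have : Y = ∑ j, (∑ k, ∑ a, B k i a * S k a j) * Z i j := by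
        rw [hY]
        refine Finset.sum_congr rfl fun j _ => ?_
        rw [← hZij j, sq]
      rw [this]
      simp only [Finset.sum_mul, Finset.mul_sum]
      rw [Finset.sum_comm]
      refine Finset.sum_congr rfl fun k _ => ?_
      rw [Finset.sum_comm]
      refine Finset.sum_congr rfl fun a _ => Finset.sum_congr rfl fun j _ => by ring
    have e2 : Y ^ 2 ≤ b2 * (K * Y) := by
      have cs := Finset.sum_mul_sq_le_sq_mul_sq (Finset.univ : Finset (Fin n × Fin m))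
        (fun q => B q.1 i q.2) (fun q => ∑ j, S q.1 q.2 j * Z i j)
      rw [Fintype.sum_prod_type, Fintype.sum_prod_type, Fintype.sum_prod_type] at cs
      simp only at cs
      rw [← e1] at cs
      refine cs.trans ?_
      exact mul_le_mul_of_nonneg_left (hS (Z i)) hb0
    by_cases h : Y = 0
    · rw [h]; positivity
    · have hYp : 0 < Y := lt_of_le_of_ne hY0 (Ne.symm h)
      have : Y * Y ≤ (K * b2) * Y := by nlinarith
      exact le_of_mul_le_mul_right this hYp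
  calc hs Z ≤ ∑ i, K * ∑ k, ∑ a, B k i a ^ 2 := Finset.sum_le_sum fun i _ => key i
    _ = K * ∑ k, hs (B k) := by
      rw [← Finset.mul_sum, Finset.sum_comm]
      rfl

/-- quadratic form version of `RowC` for `S k = T k * b`, `T k` symmetric -/
lemma RowC.of_quad {T : Fin n → Mat m} {b : Mat m} {K : ℝ}
    (h : ∀ w : Fin m → ℝ, ∑ k, ((T k * b) *ᵥ w) ⬝ᵥ ((T k * b) *ᵥ w) ≤ K * (w ⬝ᵥ w)) :
    RowC (fun k => T k * b) K := by
  intro w
  refine le_trans (le_of_eq ?_) ((h w).trans (le_of_eq ?_))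
  · refine Finset.sum_congr rfl fun k _ => ?_
    simp only [dotProduct, Matrix.mulVec, sq]
  · simp only [dotProduct, sq]

/-! ### the two kernels -/

/-- trapezoid kernel: `Df(A)[X] − (1/2){f'(A), X}` -/
def KT (f f' : ℝ → ℝ) (A X : Mat m) : Mat m :=
  DK f f' A X - (1 / 2 : ℝ) • (_root_.cfc f' A * X + X * _root_.cfc f' A)

/-- left kernel: `Df(A)[X] − f'(A) X` -/
def KL (f f' : ℝ → ℝ) (A X : Mat m) : Mat m := DK f f' A X - _root_.cfc f' A * X

lemma KT_frame {A U : Mat m} {s : Fin m → ℝ} (h : Fr A U s) (f f' : ℝ → ℝ) (X : Mat m)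
    (i j : Fin m) :
    (Uᵀ * KT f f' A X * U) i j =
      (dd1 f f' (s i) (s j) - (f' (s i) + f' (s j)) / 2) * (Uᵀ * X * U) i j := by
  unfold KT
  rw [Matrix.mul_sub, Matrix.sub_mul, Matrix.sub_apply, DK_frame h, Matrix.mul_smul,
    Matrix.smul_mul, Matrix.smul_apply, Matrix.mul_add, Matrix.add_mul, Matrix.add_apply,
    cfc_mul_frame h, mul_cfc_frame h, smul_eq_mul]
  ring

lemma KL_frame {A U : Mat m} {s : Fin m → ℝ} (h : Fr A U s) (f f' : ℝ → ℝ) (X : Mat m)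
    (i j : Fin m) :
    (Uᵀ * KL f f' A X * U) i j = (dd1 f f' (s i) (s j) - f' (s i)) * (Uᵀ * X * U) i j := by
  unfold KL
  rw [Matrix.mul_sub, Matrix.sub_mul, Matrix.sub_apply, DK_frame h, cfc_mul_frame h]
  ring

lemma hs_KT {A U : Mat m} {s : Fin m → ℝ} (h : Fr A U s) (f f' : ℝ → ℝ) (X : Mat m) :
    hs (KT f f' A X) =
      ∑ i, ∑ j, (dd1 f f' (s i) (s j) - (f' (s i) + f' (s j)) / 2) ^ 2 * (Uᵀ * X * U) i j ^ 2 := by
  rw [← hs_conj h.o']
  unfold hs
  exact Finset.sum_congr rfl fun i _ => Finset.sum_congr rfl fun j _ => by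
    rw [KT_frame h, mul_pow]

lemma hs_KL {A U : Mat m} {s : Fin m → ℝ} (h : Fr A U s) (f f' : ℝ → ℝ) (X : Mat m) :
    hs (KL f f' A X) =
      ∑ i, ∑ j, (dd1 f f' (s i) (s j) - f' (s i)) ^ 2 * (Uᵀ * X * U) i j ^ 2 := by
  rw [← hs_conj h.o']
  unfold hs
  exact Finset.sum_congr rfl fun i _ => Finset.sum_congr rfl fun j _ => by
    rw [KL_frame h, mul_pow]

/-- the slack form of `X` in the frame of `A` : `Σ sl(s_i, s_j) X̃_ij²` -/
def slk (sl : ℝ → ℝ → ℝ) (U : Mat m) (s : Fin m → ℝ) (X : Mat m) : ℝ :=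
  ∑ i, ∑ j, sl (s i) (s j) * (Uᵀ * X * U) i j ^ 2

lemma hs_KT_le {A U : Mat m} {s : Fin m → ℝ} (h : Fr A U s) {f f' : ℝ → ℝ} {sl : ℝ → ℝ → ℝ} {C : ℝ}
    (hk : ∀ a ∈ spectrum ℝ A, ∀ b ∈ spectrum ℝ A,
      (dd1 f f' a b - (f' a + f' b) / 2) ^ 2 ≤ C * sl a b) (X : Mat m) :
    hs (KT f f' A X) ≤ C * slk sl U s X := by
  rw [hs_KT h]
  unfold slk
  rw [Finset.mul_sum]
  refine Finset.sum_le_sum fun i _ => ?_
  rw [Finset.mul_sum]
  refine Finset.sum_le_sum fun j _ => ?_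
  rw [← mul_assoc]
  exact mul_le_mul_of_nonneg_right (hk _ (h.mem_spec i) _ (h.mem_spec j)) (sq_nonneg _)

lemma hs_KL_le {A U : Mat m} {s : Fin m → ℝ} (h : Fr A U s) {f f' : ℝ → ℝ} {sl : ℝ → ℝ → ℝ} {C : ℝ}
    (hk : ∀ a ∈ spectrum ℝ A, ∀ b ∈ spectrum ℝ A, (dd1 f f' a b - f' a) ^ 2 ≤ C * sl a b)
    (X : Mat m) :
    hs (KL f f' A X) ≤ C * slk sl U s X := by
  rw [hs_KL h]
  unfold slk
  rw [Finset.mul_sum]
  refine Finset.sum_le_sum fun i _ => ?_
  rw [Finset.mul_sum]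
  refine Finset.sum_le_sum fun j _ => ?_
  rw [← mul_assoc]
  exact mul_le_mul_of_nonneg_right (hk _ (h.mem_spec i) _ (h.mem_spec j)) (sq_nonneg _)

/-- left kernel = trapezoid kernel + half commutator; commutator bound -/
lemma KL_eq (f f' : ℝ → ℝ) (A X : Mat m) :
    KL f f' A X = KT f f' A X + (1 / 2 : ℝ) • (X * _root_.cfc f' A - _root_.cfc f' A * X) := by
  unfold KL KT
  rw [smul_add, smul_sub]
  have : _root_.cfc f' A * X = (1 / 2 : ℝ) • (_root_.cfc f' A * X) + (1 / 2 : ℝ) • (_root_.cfc f' A * X) := by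
    rw [← add_smul]; norm_num
  nth_rw 1 [this]
  abel

/-! ### exact formulas -/

/-- **exact `P_k`** -/
theorem exact_P {A X T p b : Mat m} (f f' : ℝ → ℝ) (hp : pᵀ = p) (hT : Tᵀ = T)
    (hX : X = T + p) :
    DK f f' A X - sy (_root_.cfc f' A * T * b) =
      sy (_root_.cfc f' A * p) + KT f f' A X + sy (_root_.cfc f' A * T * (1 - b)) := by
  have h1 : (1 / 2 : ℝ) • (_root_.cfc f' A * X + X * _root_.cfc f' A) =
      sy (_root_.cfc f' A * T) + sy (_root_.cfc f' A * p) := by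
    rw [sy_cfc_mul hT, sy_cfc_mul hp, hX, ← smul_add, Matrix.mul_add, Matrix.add_mul]
    congr 1
    abel
  unfold KT
  rw [h1, Matrix.mul_sub, Matrix.mul_one, sy_sub]
  abel

/-- **exact `G`** (scalar identity `c = v + z v' − v''` as a matrix identity `hc`) -/
theorem exact_G {A C V η b : Mat m} {T p X : Fin n → Mat m} {t : Fin n → ℝ} (f' f'' : ℝ → ℝ)
    (hA : Aᵀ = A) (hAf : A * _root_.cfc f' A = _root_.cfc f' A * A)
    (hX : ∀ k, X k = T k + p k) (hL : A = (∑ k, t k • T k) + η)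
    (hc : C = V + A * _root_.cfc f' A - _root_.cfc f'' A) :
    C - V - ∑ k, (t k • sy (_root_.cfc f' A * T k * b) - sy (DK f' f'' A (X k) * T k * b)) =
      sy (_root_.cfc f' A * η) + sy (_root_.cfc f' A * (∑ k, t k • T k) * (1 - b))
      - sy (_root_.cfc f'' A * (1 - (∑ k, T k * T k) * b))
      + sy (_root_.cfc f'' A * (∑ k, p k * T k) * b) + sy (∑ k, KL f' f'' A (X k) * T k * b) := by
  have hF : _root_.cfc f' A * A = sy (_root_.cfc f' A * A) := by
    rw [sy_of_symm]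
    rw [Matrix.transpose_mul, hA, cfc_transpose, hAf]
  have hF2 : _root_.cfc f'' A = sy (_root_.cfc f'' A) := (sy_of_symm (cfc_transpose f'')).symm
  have e1 : C - V = sy (_root_.cfc f' A * A) - sy (_root_.cfc f'' A) := by
    rw [hc, hAf, ← hF, ← hF2]; abel
  have e2 : ∀ k, DK f' f'' A (X k) * T k * b =
      _root_.cfc f'' A * (T k * T k) * b + _root_.cfc f'' A * (p k * T k) * b
        + KL f' f'' A (X k) * T k * b := by
    intro k
    have : DK f' f'' A (X k) = _root_.cfc f'' A * (T k + p k) + KL f' f'' A (X k) := by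
      unfold KL; rw [← hX k]; abel
    rw [this]
    simp only [Matrix.mul_add, Matrix.add_mul, Matrix.mul_assoc]
  have e3 : ∑ k, (t k • sy (_root_.cfc f' A * T k * b) - sy (DK f' f'' A (X k) * T k * b)) =
      sy (_root_.cfc f' A * (∑ k, t k • T k) * b) - sy (_root_.cfc f'' A * (∑ k, T k * T k) * b)
        - sy (_root_.cfc f'' A * (∑ k, p k * T k) * b) - sy (∑ k, KL f' f'' A (X k) * T k * b) := by
    rw [Finset.sum_sub_distrib]
    have a1 : ∑ k, t k • sy (_root_.cfc f' A * T k * b) =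
        sy (_root_.cfc f' A * (∑ k, t k • T k) * b) := by
      rw [Matrix.mul_sum, Matrix.sum_mul, sy_sum]
      refine Finset.sum_congr rfl fun k _ => ?_
      rw [← sy_smul, Matrix.mul_smul, Matrix.smul_mul]
    have a2 : ∑ k, sy (DK f' f'' A (X k) * T k * b) =
        sy (_root_.cfc f'' A * (∑ k, T k * T k) * b) + sy (_root_.cfc f'' A * (∑ k, p k * T k) * b)
          + sy (∑ k, KL f' f'' A (X k) * T k * b) := by
      rw [← sy_sum, Finset.sum_congr rfl fun k _ => e2 k, Finset.sum_add_distrib,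
        Finset.sum_add_distrib, sy_add, sy_add, Matrix.mul_sum, Matrix.mul_sum, Matrix.sum_mul,
        Matrix.sum_mul]
    rw [a1, a2]
    abel
  rw [e1, e3]
  have e4 : sy (_root_.cfc f' A * A) =
      sy (_root_.cfc f' A * (∑ k, t k • T k)) + sy (_root_.cfc f' A * η) := by
    conv_lhs => rw [show _root_.cfc f' A * A = _root_.cfc f' A * ((∑ k, t k • T k) + η) by rw [← hL]]
    rw [Matrix.mul_add, sy_add]
  rw [e4, Matrix.mul_sub, Matrix.mul_one, sy_sub, Matrix.mul_sub, Matrix.mul_one, sy_sub,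
    Matrix.mul_assoc (_root_.cfc f'' A) (∑ k, T k * T k) b]
  abel

end Crest.Agent.R253.Jord192
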