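import Crest.Agent.R253.SpineW_973
import Crest.Agent.R253.Jord_192

/-!
# R253: the weighted dual bound with the one-sided field (helper973)

`Y_k = ¼ T_k + b T_k w(ζ) + ½ ∂_k R η`, constants on the left, functions of `ζ` on the right,
weight `P = CᵀC` on the left.
-/

set_option autoImplicit false

open MeasureTheory ProbabilityTheory Real Set Filter Topology Matrix
open scoped ContDiff

noncomputable section

namespace Crest.Agent.R253.DualP973

open Crest.Agent.R238.Gap Crest.Agent.R238.GapPoinc Crest.Agent.R238.GapPc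
open Crest.Agent.R253.SpecCalc999 Crest.Agent.R253.Meh74 Crest.Agent.R253.SpecField321
open Crest.Agent.R253.Jord192

variable {n : ℕ}

/-! ### matrix valued functions of polynomial growth -/

/-- entries continuous of polynomial growth -/
def CM (F : E n → Mat n) : Prop := ∀ i j, CG (fun x => F x i j)

lemma CM.add {F G : E n → Mat n} (hF : CM F) (hG : CM G) : CM (fun x => F x + G x) :=
  fun i j => (hF i j).add (hG i j)
lemma CM.sub {F G : E n → Mat n} (hF : CM F) (hG : CM G) : CM (fun x => F x - G x) :=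
  fun i j => (hF i j).sub (hG i j)
lemma CM.smul {F : E n → Mat n} (c : ℝ) (hF : CM F) : CM (fun x => c • F x) :=
  fun i j => (hF i j).smul c
lemma CM.fsmul {f : E n → ℝ} {F : E n → Mat n} (hf : CG f) (hF : CM F) :
    CM (fun x => f x • F x) := fun i j => hf.mul (hF i j)
lemma CM.const (A : Mat n) : CM (fun _ : E n => A) := fun i j => cg_const (A i j)
lemma CM.mul {F G : E n → Mat n} (hF : CM F) (hG : CM G) : CM (fun x => F x * G x) := by
  intro i j
  have : (fun x => (F x * G x) i j) = fun x => ∑ k, F x i k * G x k j := by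
    funext x; exact Matrix.mul_apply
  rw [this]
  exact CG.sum fun k _ => (hF i k).mul (hG k j)
lemma CM.cmul {F : E n → Mat n} (A : Mat n) (hF : CM F) : CM (fun x => A * F x) :=
  (CM.const A).mul hF
lemma CM.sum {ι : Type*} {s : Finset ι} {F : ι → E n → Mat n} (hF : ∀ i ∈ s, CM (F i)) :
    CM (fun x => ∑ i ∈ s, F i x) := by
  intro i j
  have : (fun x => (∑ k ∈ s, F k x) i j) = fun x => ∑ k ∈ s, F k x i j := by
    funext x; rw [Matrix.sum_apply]
  rw [this]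
  exact CG.sum fun k hk => hF k hk i j
lemma CM.hs {F : E n → Mat n} (hF : CM F) : CG (fun x => hs (F x)) :=
  CG.sum fun i _ => CG.sum fun j _ => (hF i j).sq
lemma CM.mx {A : Fld n} (hA : ∀ i j, CG (A i j)) : CM (fun x => Mx A x) := fun i j => hA i j

lemma hs2_eq (A : Fld n) (x : E n) : hs2 A x = hs (Mx A x) := rfl

lemma wip_eq (C : Mat n) (A : Fld n) (x : E n) :
    wip (ctc fun i j => C i j) A A x = hs (C * Mx A x) := by
  rw [← hs2_LM]
  unfold hs2 hs LM Mx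
  simp only [Matrix.mul_apply, Matrix.of_apply]

/-! ### the right kernel -/

/-- right kernel `Df(A)[X] − X f'(A)` -/
def KR (f f' : ℝ → ℝ) (A X : Mat n) : Mat n := DK f f' A X - X * _root_.cfc f' A

lemma KR_frame {A U : Mat n} {s : Fin n → ℝ} (h : Fr A U s) (f f' : ℝ → ℝ) (X : Mat n)
    (i j : Fin n) :
    (Uᵀ * KR f f' A X * U) i j = (dd1 f f' (s i) (s j) - f' (s j)) * (Uᵀ * X * U) i j := by
  unfold KR
  rw [Matrix.mul_sub, Matrix.sub_mul, Matrix.sub_apply, DK_frame h, mul_cfc_frame h]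
  ring

lemma hs_KR_le {A U : Mat n} {s : Fin n → ℝ} (h : Fr A U s) {f f' : ℝ → ℝ} {sl : ℝ → ℝ → ℝ} {C : ℝ}
    (hk : ∀ a ∈ spectrum ℝ A, ∀ b ∈ spectrum ℝ A, (dd1 f f' a b - f' b) ^ 2 ≤ C * sl a b)
    (X : Mat n) :
    hs (KR f f' A X) ≤ C * slk sl U s X := by
  rw [← hs_conj h.o']
  unfold hs slk
  rw [Finset.mul_sum]
  refine Finset.sum_le_sum fun i _ => ?_
  rw [Finset.mul_sum]
  refine Finset.sum_le_sum fun j _ => ?_
  rw [KR_frame h, mul_pow, ← mul_assoc]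
  exact mul_le_mul_of_nonneg_right (hk _ (h.mem_spec i) _ (h.mem_spec j)) (sq_nonneg _)

lemma cfc_add_const {A : Mat n} (hA : A.IsHermitian) (w : ℝ → ℝ) (c : ℝ) :
    _root_.cfc (fun t => w t + c) A = _root_.cfc w A + c • (1 : Mat n) := by
  obtain ⟨U, hU⟩ := exists_fr hA
  refine conj_inj hU.o' ?_
  rw [hU.cfc, Matrix.mul_add, Matrix.add_mul, hU.cfc, Matrix.mul_smul, Matrix.smul_mul,
    Matrix.mul_one, hU.o]
  ext i j
  by_cases h : i = j
  · subst h; simp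
  · simp [h]

/-! ### the exact formula for the defect -/

theorem exact_GR {A C V V2 W L η b MT : Mat n} {T p X D : Fin n → Mat n} {t : Fin n → ℝ}
    (hX : ∀ k, X k = T k + p k) (hL : L = ∑ k, t k • T k) (hA : A = L + η)
    (hMT : MT = ∑ k, T k * T k)
    (hc : C - V = A * (W + (1 / 4 : ℝ) • 1) - V2) :
    C - V + ∑ k, (b * T k * D k - t k • ((1 / 4 : ℝ) • T k + b * T k * W)) =
      (η * W + (1 / 4 : ℝ) • η) + b * (∑ k, T k * (D k - X k * V2)) + (1 - b) * L * W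
      - (1 - b * MT) * V2 + b * (∑ k, T k * p k) * V2 := by
  have e1 : ∑ k, (b * T k * D k - t k • ((1 / 4 : ℝ) • T k + b * T k * W)) =
      b * (∑ k, T k * (D k - X k * V2)) + b * MT * V2 + b * (∑ k, T k * p k) * V2 -
        ((1 / 4 : ℝ) • L + b * L * W) := by
    have a1 : ∀ k, b * T k * D k - t k • ((1 / 4 : ℝ) • T k + b * T k * W) =
        (b * (T k * (D k - X k * V2)) + b * (T k * T k) * V2 + b * (T k * p k) * V2) -
          ((1 / 4 : ℝ) • (t k • T k) + b * (t k • T k) * W) := fun k => by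
      rw [hX k, smul_add, smul_comm (t k) (1 / 4 : ℝ)]
      simp only [Matrix.mul_sub, Matrix.add_mul, Matrix.mul_add, Matrix.mul_smul,
        Matrix.smul_mul, Matrix.mul_assoc]
      abel
    rw [Finset.sum_congr rfl fun k _ => a1 k, Finset.sum_sub_distrib, Finset.sum_add_distrib,
      Finset.sum_add_distrib, Finset.sum_add_distrib, ← Finset.mul_sum, ← Finset.smul_sum, ← hL,
      ← Finset.sum_mul, ← Finset.mul_sum, ← hMT, ← Finset.sum_mul, ← Finset.mul_sum,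
      ← Finset.sum_mul, ← Finset.mul_sum, ← hL]
  rw [e1, hc, hA]
  simp only [Matrix.mul_add, Matrix.add_mul, Matrix.sub_mul, Matrix.one_mul, Matrix.mul_smul,
    Matrix.mul_one, smul_add, Matrix.mul_assoc]
  abel

/-! ### the field -/

section field

/-- `T_k = E ∂_k ζ` -/
def Tm (ζ : Fld n) (k : Fin n) : Mat n := Matrix.of fun i j => EE (pd k (ζ i j))
/-- `η = ζ - E ζ - Σ x_k T_k` -/
def ef (ζ : Fld n) : Fld n := fun i j => eta (ζ i j)
/-- `R η` -/
def Rf (A : Fld n) : Fld n := fun i j => Rs (A i j)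
/-- `L = Σ x_k T_k` -/
def Lx (ζ : Fld n) (x : E n) : Mat n := ∑ k, (x k) • Tm ζ k
/-- `M_T` -/
def MTm (ζ : Fld n) : Mat n := ∑ k, Tm ζ k * Tm ζ k

/-- the one-sided field without the resolvent part -/
def Y0 (ζ : Fld n) (w : ℝ → ℝ) (b : Mat n) (k : Fin n) : Fld n := fun i j x =>
  ((1 / 4 : ℝ) • Tm ζ k + b * Tm ζ k * _root_.cfc w (Mx ζ x)) i j

/-- the one-sided field -/
def Yf (ζ : Fld n) (w : ℝ → ℝ) (b : Mat n) (k : Fin n) : Fld n := fun i j x =>
  Y0 ζ w b k i j x + 1 / 2 * pd k (Rs (ef ζ i j)) x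

/-- the defect without the resolvent part -/
def G0 (ζ : Fld n) (w v2 : ℝ → ℝ) (b : Mat n) (x : E n) : Mat n :=
  (Mx (ef ζ) x * _root_.cfc w (Mx ζ x) + (1 / 4 : ℝ) • Mx (ef ζ) x) +
    b * (∑ k, Tm ζ k * (DK w v2 (Mx ζ x) (Mx (dk k ζ) x) - Mx (dk k ζ) x * _root_.cfc v2 (Mx ζ x))) +
    (1 - b) * Lx ζ x * _root_.cfc w (Mx ζ x) - (1 - b * MTm ζ) * _root_.cfc v2 (Mx ζ x) +
    b * (∑ k, Tm ζ k * Mx (dk k (ef ζ)) x) * _root_.cfc v2 (Mx ζ x)

/-- the defect -/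
def Gf (ζ : Fld n) (w v2 : ℝ → ℝ) (b : Mat n) : Fld n := fun i j x =>
  G0 ζ w v2 b x i j - 1 / 2 * (ef ζ i j x - Rs (ef ζ i j) x)

variable {ζ : Fld n} {lo hi : ℝ} {v w v2 : ℝ → ℝ}

lemma c1_ef (hζ : MF ζ lo hi) (i j : Fin n) : C1 (ef ζ i j) := c1_eta (hζ.c i j)

lemma c1_Y0 (hζ : MF ζ lo hi) (hw : ∀ x ∈ Icc lo hi, HasDerivAt w (v2 x) x)
    (cv2 : ContinuousOn v2 (Icc lo hi)) (b : Mat n) (k i j : Fin n) : C1 (Y0 ζ w b k i j) := by
  have e : Y0 ζ w b k i j = fun x => ((1 / 4 : ℝ) • Tm ζ k) i j +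
      ∑ q, (b * Tm ζ k) i q * _root_.cfc w (Mx ζ x) q j := by
    funext x
    unfold Y0
    rw [Matrix.add_apply, Matrix.mul_apply]
  rw [e]
  exact (c1_const _).add (C1.sum fun q _ => (_root_.Crest.Agent.R253.SpecField321.c1_cfc hζ hw cv2 q j).smul _)

lemma pd_Y0 (hζ : MF ζ lo hi) (hw : ∀ x ∈ Icc lo hi, HasDerivAt w (v2 x) x)
    (cv2 : ContinuousOn v2 (Icc lo hi)) (b : Mat n) (k i j : Fin n) (x : E n) :
    pd k (Y0 ζ w b k i j) x =
      (b * Tm ζ k * DK w v2 (Mx ζ x) (Mx (dk k ζ) x)) i j := by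
  have e : Y0 ζ w b k i j = fun x => ((1 / 4 : ℝ) • Tm ζ k) i j +
      ∑ q, (b * Tm ζ k) i q * _root_.cfc w (Mx ζ x) q j := by
    funext x
    unfold Y0
    rw [Matrix.add_apply, Matrix.mul_apply]
  have hc : ∀ q, C1 (fun x => (b * Tm ζ k) i q * _root_.cfc w (Mx ζ x) q j) := fun q =>
    (_root_.Crest.Agent.R253.SpecField321.c1_cfc hζ hw cv2 q j).smul _
  rw [e, (c1_const _).pd_add (C1.sum fun q _ => hc q), pd_const_c,
    pd_sum' (f := fun q x => (b * Tm ζ k) i q * _root_.cfc w (Mx ζ x) q j) fun q _ => hc q,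
    zero_add, Matrix.mul_apply]
  refine Finset.sum_congr rfl fun q _ => ?_
  rw [(c1_const _).pd_mul (_root_.Crest.Agent.R253.SpecField321.c1_cfc hζ hw cv2 q j), pd_const_c, _root_.Crest.Agent.R253.SpecField321.pd_cfc hζ hw x q j k]
  simp only [zero_mul, zero_add]
  rfl

lemma Mx_eq (h0 : ∀ i j, EE (ζ i j) = 0) (x : E n) : Mx ζ x = Lx ζ x + Mx (ef ζ) x := by
  ext i j
  unfold Lx
  rw [Matrix.add_apply, Matrix.sum_apply]
  simp only [Mx, ef, Matrix.of_apply, Matrix.smul_apply, smul_eq_mul, Tm]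
  have : eta (ζ i j) x = ζ i j x - EE (ζ i j) - ∑ k, EE (pd k (ζ i j)) * x k := rfl
  rw [this, h0 i j]
  have : ∑ k, x k * EE (pd k (ζ i j)) = ∑ k, EE (pd k (ζ i j)) * x k :=
    Finset.sum_congr rfl fun k _ => mul_comm _ _
  rw [this]; ring

lemma dk_eq (hζ : MF ζ lo hi) (k : Fin n) (x : E n) :
    Mx (dk k ζ) x = Tm ζ k + Mx (dk k (ef ζ)) x := by
  ext i j
  rw [Matrix.add_apply]
  simp only [Mx, ef, Matrix.of_apply, Tm, dk]
  rw [pd_eta (hζ.c i j)]
  unfold EE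
  ring

/-- **the weak identity** `M = U + D*Y + G` -/
theorem wkf {M U : Fld n} (hζ : MF ζ lo hi) (h0 : ∀ i j, EE (ζ i j) = 0)
    (hw : ∀ x ∈ Icc lo hi, HasDerivAt w (v2 x) x) (cv2 : ContinuousOn v2 (Icc lo hi))
    (hM : ∀ i j, CG (M i j)) (hU : ∀ i j, CG (U i j))
    (hMU : ∀ x, Mx M x - Mx U x = Mx ζ x * (_root_.cfc w (Mx ζ x) + (1 / 4 : ℝ) • 1) -
      _root_.cfc v2 (Mx ζ x)) (b : Mat n) :
    WkF M U (Yf ζ w b) (Gf ζ w v2 b) := by
  intro i j
  have c0 : ∀ k, C1 (Y0 ζ w b k i j) := fun k => c1_Y0 hζ hw cv2 b k i j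
  have h1 := Wk.of_c1 (hM i j).c0 (hU i j).c0 c0
  have hG0 : ∀ x, M i j x - U i j x + ∑ k, (pd k (Y0 ζ w b k i j) x - x k * Y0 ζ w b k i j x) =
      G0 ζ w v2 b x i j := by
    intro x
    have h2 := exact_GR (A := Mx ζ x) (C := Mx M x) (V := Mx U x)
      (V2 := _root_.cfc v2 (Mx ζ x)) (W := _root_.cfc w (Mx ζ x)) (L := Lx ζ x)
      (η := Mx (ef ζ) x) (b := b) (MT := MTm ζ) (T := Tm ζ) (p := fun k => Mx (dk k (ef ζ)) x)
      (X := fun k => Mx (dk k ζ) x) (D := fun k => DK w v2 (Mx ζ x) (Mx (dk k ζ) x))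
      (t := fun k => x k) (fun k => dk_eq hζ k x) rfl (Mx_eq h0 x) rfl (hMU x)
    have h3 := congrFun (congrFun h2 i) j
    unfold G0
    rw [← h3, Matrix.add_apply, Matrix.sub_apply, Matrix.sum_apply]
    congr 1
    refine Finset.sum_congr rfl fun k _ => ?_
    rw [pd_Y0 hζ hw cv2]
    rfl
  have e1 : (fun x => M i j x - U i j x + ∑ k, (pd k (Y0 ζ w b k i j) x -
      x k * Y0 ζ w b k i j x)) = fun x => G0 ζ w v2 b x i j := funext hG0
  rw [e1] at h1
  have cG0 : C0 (fun x => G0 ζ w v2 b x i j) := by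
    rw [← e1]
    exact (((hM i j).sub (hU i j)).add (CG.sum fun k _ => ((c0 k).cgp k).sub
      ((cg_coord k).mul (c0 k).cg))).c0
  exact h1.add_res (fun k => (c0 k).c0) cG0 (c1_ef hζ i j) (1 / 2)

end field

end Crest.Agent.R253.DualP973
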