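import Crest.Agent.R253.DualPB_973

/-!
# R253: the weighted dual bound, 230's form without cross terms (helper973)

`b = 1`: one-sided field `Y_k = ¼ T_k + T_k w(ζ) + ½ ∂_k R η`.
-/

set_option autoImplicit false

open MeasureTheory ProbabilityTheory Real Set Filter Topology Matrix
open scoped ContDiff

noncomputable section

namespace Crest.Agent.R253.DualP973

open Crest.Agent.R238.Gap Crest.Agent.R238.GapPoinc Crest.Agent.R238.GapPc
open Crest.Agent.R253.SpecCalc999 Crest.Agent.R253.Meh74 Crest.Agent.R253.SpecField321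
open Crest.Agent.R253.Jord192

variable {n : ℕ}

/-- **the centred device** (949) with an extra term (230) -/
theorem cen_le2 {ι : Type*} [Fintype ι] {f : ι → E n → ℝ} (hf : ∀ i, C1 (f i))
    (h0 : ∀ i, ∫ x, f i x ∂(gam n) = 0) (h1 : ∀ i k, ∫ x, pd k (f i) x ∂(gam n) = 0)
    {A : ι → Fin n → E n → ℝ} {B : ι → E n → ℝ} (cA : ∀ i k, C0 (A i k)) (cB : ∀ i, C0 (B i))
    (hA : ∀ k x, ∑ i, A i k x ^ 2 ≤ 1 / 16 * ∑ i, pd k (f i) x ^ 2)
    {R : E n → ℝ} (cR : C0 R)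
    (hB : ∀ x, ∑ i, B i x ^ 2 ≤ 1 / 16 * ∑ i, f i x ^ 2 + 1 / 16 * R x) :
    (∑ i, ∑ k, ∫ x, (A i k x + 1 / 4 * (pd k (f i) x - 2 * pd k (Rs (f i)) x)) ^ 2 ∂(gam n)) +
      ∑ i, ∫ x, (B i x - 1 / 4 * (f i x - 2 * Rs (f i) x)) ^ 2 ∂(gam n) ≤
    1 / 3 * ((∑ i, ∑ k, ∫ x, pd k (f i) x ^ 2 ∂(gam n)) - ∑ i, ∫ x, f i x ^ 2 ∂(gam n)) +
      1 / 12 * ∫ x, R x ∂(gam n) := by
  have cr : ∀ i, C1 (Rs (f i)) := fun i => c1_Rs (hf i)
  have cp : ∀ i k, C0 (fun x => pd k (f i) x - 2 * pd k (Rs (f i)) x) := fun i k =>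
    ((hf i).p0 k).sub (((cr i).p0 k).smul 2)
  have cq : ∀ i, C0 (fun x => f i x - 2 * Rs (f i) x) := fun i =>
    (hf i).c0.sub ((cr i).c0.smul 2)
  have a1 : ∀ i k, ∫ x, (A i k x + 1 / 4 * (pd k (f i) x - 2 * pd k (Rs (f i)) x)) ^ 2 ∂(gam n) ≤
      4 / 3 * (∫ x, A i k x ^ 2 ∂(gam n)) +
        1 / 4 * ∫ x, (pd k (f i) x - 2 * pd k (Rs (f i)) x) ^ 2 ∂(gam n) := fun i k => by
    have j1 : Integrable (fun x => 4 / 3 * A i k x ^ 2) (gam n) := ((cA i k).pow2.smul _).int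
    have j2 : Integrable (fun x => 1 / 4 * (pd k (f i) x - 2 * pd k (Rs (f i)) x) ^ 2) (gam n) :=
      ((cp i k).pow2.smul _).int
    rw [← integral_const_mul, ← integral_const_mul, ← integral_add j1 j2]
    refine integral_mono ((cA i k).add ((cp i k).smul _)).pow2.int (j1.add j2) fun x => ?_
    have := sq_add_le (A i k x) (1 / 4 * (pd k (f i) x - 2 * pd k (Rs (f i)) x))
    simp only
    linarith [this, mul_pow (1 / 4 : ℝ) (pd k (f i) x - 2 * pd k (Rs (f i)) x) 2]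
  have a2 : ∀ i, ∫ x, (B i x - 1 / 4 * (f i x - 2 * Rs (f i) x)) ^ 2 ∂(gam n) ≤
      4 / 3 * (∫ x, B i x ^ 2 ∂(gam n)) +
        1 / 4 * ∫ x, (f i x - 2 * Rs (f i) x) ^ 2 ∂(gam n) := fun i => by
    have j1 : Integrable (fun x => 4 / 3 * B i x ^ 2) (gam n) := ((cB i).pow2.smul _).int
    have j2 : Integrable (fun x => 1 / 4 * (f i x - 2 * Rs (f i) x) ^ 2) (gam n) :=
      ((cq i).pow2.smul _).int
    rw [← integral_const_mul, ← integral_const_mul, ← integral_add j1 j2]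
    refine integral_mono ((cB i).sub ((cq i).smul _)).pow2.int (j1.add j2) fun x => ?_
    have := sq_add_le (B i x) (-(1 / 4 * (f i x - 2 * Rs (f i) x)))
    simp only
    nlinarith [this]
  -- the pointwise bounds integrated
  have b1 : ∀ k, ∑ i, ∫ x, A i k x ^ 2 ∂(gam n) ≤ 1 / 16 * ∑ i, ∫ x, pd k (f i) x ^ 2 ∂(gam n) :=
    fun k => by
    rw [← integral_finsetSum _ fun i _ => (cA i k).pow2.int,
      ← integral_finsetSum _ fun i _ => ((hf i).p0 k).pow2.int, ← integral_const_mul]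
    refine integral_mono (C0.sum fun i _ => (cA i k).pow2).int
      ((C0.sum fun i _ => ((hf i).p0 k).pow2).smul _).int fun x => hA k x
  have b2 : ∑ i, ∫ x, B i x ^ 2 ∂(gam n) ≤ 1 / 16 * ∑ i, ∫ x, f i x ^ 2 ∂(gam n) +
      1 / 16 * ∫ x, R x ∂(gam n) := by
    rw [← integral_finsetSum _ fun i _ => (cB i).pow2.int,
      ← integral_finsetSum _ fun i _ => (hf i).c0.pow2.int, ← integral_const_mul,
      ← integral_const_mul, ← integral_add
        ((C0.sum fun i _ => (hf i).c0.pow2).smul _).int (cR.smul _).int]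
    refine integral_mono (C0.sum fun i _ => (cB i).pow2).int
      (((C0.sum fun i _ => (hf i).c0.pow2).smul _).add (cR.smul _)).int fun x => hB x
  have b1' : ∑ i, ∑ k, ∫ x, A i k x ^ 2 ∂(gam n) ≤
      1 / 16 * ∑ i, ∑ k, ∫ x, pd k (f i) x ^ 2 ∂(gam n) := by
    rw [Finset.sum_comm, Finset.sum_comm (f := fun i k => ∫ x, pd k (f i) x ^ 2 ∂(gam n)),
      Finset.mul_sum]
    exact Finset.sum_le_sum fun k _ => b1 k
  -- the resolvent part
  have c1 : (∑ i, ∑ k, ∫ x, (pd k (f i) x - 2 * pd k (Rs (f i)) x) ^ 2 ∂(gam n)) +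
      ∑ i, ∫ x, (f i x - 2 * Rs (f i) x) ^ 2 ∂(gam n) ≤
      (∑ i, ∑ k, ∫ x, pd k (f i) x ^ 2 ∂(gam n)) - 5 / 3 * ∑ i, ∫ x, f i x ^ 2 ∂(gam n) := by
    rw [← Finset.sum_add_distrib, Finset.mul_sum, ← Finset.sum_sub_distrib]
    exact Finset.sum_le_sum fun i _ => res_eta (hf i) (h0 i) (h1 i)
  have d1 : (∑ i, ∑ k, ∫ x, (A i k x + 1 / 4 * (pd k (f i) x - 2 * pd k (Rs (f i)) x)) ^ 2
      ∂(gam n)) ≤ 4 / 3 * (∑ i, ∑ k, ∫ x, A i k x ^ 2 ∂(gam n)) +
        1 / 4 * ∑ i, ∑ k, ∫ x, (pd k (f i) x - 2 * pd k (Rs (f i)) x) ^ 2 ∂(gam n) := by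
    rw [Finset.mul_sum, Finset.mul_sum, ← Finset.sum_add_distrib]
    refine Finset.sum_le_sum fun i _ => ?_
    rw [Finset.mul_sum, Finset.mul_sum, ← Finset.sum_add_distrib]
    exact Finset.sum_le_sum fun k _ => a1 i k
  have d2 : ∑ i, ∫ x, (B i x - 1 / 4 * (f i x - 2 * Rs (f i) x)) ^ 2 ∂(gam n) ≤
      4 / 3 * (∑ i, ∫ x, B i x ^ 2 ∂(gam n)) +
        1 / 4 * ∑ i, ∫ x, (f i x - 2 * Rs (f i) x) ^ 2 ∂(gam n) := by
    rw [Finset.mul_sum, Finset.mul_sum, ← Finset.sum_add_distrib]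
    exact Finset.sum_le_sum fun i _ => a2 i
  linarith


lemma pair_sq {x y f g lam c : ℝ} (hlam : 0 < lam) (h : g ^ 2 ≤ lam * (c - f ^ 2)) :
    (x * f + y * g) ^ 2 ≤ c * (x ^ 2 + lam * y ^ 2) := by
  have h1 : 0 ≤ lam * (c * (x ^ 2 + lam * y ^ 2) - (x * f + y * g) ^ 2) := by
    nlinarith [mul_nonneg (sq_nonneg x) (sub_nonneg.mpr h),
      mul_nonneg (mul_nonneg hlam.le (sq_nonneg y)) (sub_nonneg.mpr h),
      sq_nonneg (x * g - lam * y * f)]
  have h2 := (mul_nonneg_iff_of_pos_left hlam).mp h1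
  linarith

lemma hs_pair_le {A : Mat n} (hA : A.IsHermitian) {f g : ℝ → ℝ} {lam c : ℝ} (hlam : 0 < lam)
    (h : ∀ t ∈ spectrum ℝ A, g t ^ 2 ≤ lam * (c - f t ^ 2)) (X Y : Mat n) :
    hs (X * _root_.cfc f A + Y * _root_.cfc g A) ≤ c * (hs X + lam * hs Y) := by
  obtain ⟨U, hU⟩ := exists_fr hA
  rw [← hs_conj hU.o', ← hs_conj hU.o' X, ← hs_conj hU.o' Y]
  unfold hs
  rw [Finset.mul_sum, ← Finset.sum_add_distrib, Finset.mul_sum]
  refine Finset.sum_le_sum fun i _ => ?_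
  rw [Finset.mul_sum, ← Finset.sum_add_distrib, Finset.mul_sum]
  refine Finset.sum_le_sum fun j _ => ?_
  have e : (Uᵀ * (X * _root_.cfc f A + Y * _root_.cfc g A) * U) i j =
      (Uᵀ * X * U) i j * f (hA.eigenvalues j) + (Uᵀ * Y * U) i j * g (hA.eigenvalues j) := by
    rw [Matrix.mul_add, Matrix.add_mul, Matrix.add_apply, mul_cfc_frame hU, mul_cfc_frame hU]
  rw [e]
  exact pair_sq hlam (h _ (hU.mem_spec j))

section field

variable {ζ : Fld n} {lo hi : ℝ} {v w v2 : ℝ → ℝ}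

/-- **main part**: centred device with weights and the extra part (230) -/
theorem main_le2 (hζ : MF ζ lo hi) (h0 : ∀ i j, EE (ζ i j) = 0)
    (cw : ContinuousOn w (Icc lo hi)) (cv2 : ContinuousOn v2 (Icc lo hi))
    {lam : ℝ} (hlam : 0 < lam) (bw : ∀ x ∈ Icc lo hi, |w x| ≤ 1 / 4)
    (bwv : ∀ x ∈ Icc lo hi, v2 x ^ 2 ≤ lam * (1 / 16 - w x ^ 2)) (C : Mat n)
    {Γ : E n → Mat n} (cΓ : CM Γ) :
    EE (fun x => ∑ k, hs (C * (Mx (dk k (ef ζ)) x * _root_.cfc w (Mx ζ x)) +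
        (1 / 4 : ℝ) • (C * (Mx (dk k (ef ζ)) x - (2 : ℝ) • Mx (dk k (Rf (ef ζ))) x)))) +
      EE (fun x => hs (C * (Mx (ef ζ) x * _root_.cfc w (Mx ζ x)) +
        C * Γ x * _root_.cfc v2 (Mx ζ x) -
        (1 / 4 : ℝ) • (C * (Mx (ef ζ) x - (2 : ℝ) • Mx (Rf (ef ζ)) x)))) ≤
    1 / 3 * (EE (fun x => ∑ k, hs (C * Mx (dk k (ef ζ)) x)) -
      EE (fun x => hs (C * Mx (ef ζ) x))) + 1 / 12 * EE (fun x => lam * hs (C * Γ x)) := by
  have c1e : ∀ i j, C1 (ef ζ i j) := fun i j => c1_ef hζ i j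
  have c1r : ∀ i j, C1 (Rf (ef ζ) i j) := fun i j => c1_Rs (c1e i j)
  have cW : CM (fun x => _root_.cfc w (Mx ζ x)) := cg_cfc hζ cw
  have cp : ∀ k, CM (fun x => Mx (dk k (ef ζ)) x) := fun k => CM.mx fun i j => (c1e i j).cgp k
  have ce : CM (fun x => Mx (ef ζ) x) := CM.mx fun i j => (c1e i j).cg
  have crk : ∀ k, CM (fun x => Mx (dk k (Rf (ef ζ))) x) := fun k =>
    CM.mx fun i j => (c1r i j).cgp k
  have cr : CM (fun x => Mx (Rf (ef ζ)) x) := CM.mx fun i j => (c1r i j).cg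
  -- the scalar functions
  set f : Fin n × Fin n → E n → ℝ := fun q x => ∑ p, C q.1 p * ef ζ p q.2 x with hf
  have hf1 : ∀ q, C1 (f q) := fun q => C1.sum fun p _ => (c1e p q.2).smul _
  have hfm : ∀ q x, f q x = (C * Mx (ef ζ) x) q.1 q.2 := fun q x => by
    rw [Matrix.mul_apply]; rfl
  have hfd : ∀ q k x, pd k (f q) x = (C * Mx (dk k (ef ζ)) x) q.1 q.2 := fun q k x => by
    rw [hf, pd_sum' (f := fun p x => C q.1 p * ef ζ p q.2 x) fun p _ => (c1e p q.2).smul _,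
      Matrix.mul_apply]
    refine Finset.sum_congr rfl fun p _ => ?_
    rw [(c1_const _).pd_mul (c1e p q.2), pd_const_c]
    simp only [zero_mul, zero_add]
    rfl
  have hfR : ∀ q x, Rs (f q) x = (C * Mx (Rf (ef ζ)) x) q.1 q.2 := fun q x => by
    unfold Rs
    have h := Rw_sum Real.continuous_sin sin_b Finset.univ
      (g := fun p x => C q.1 p * ef ζ p q.2 x) (fun p _ => ((c1e p q.2).smul _).cont)
      (fun p _ => ((c1e p q.2).smul _).g) x
    rw [hf, h, Matrix.mul_apply]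
    exact Finset.sum_congr rfl fun p _ => Rw_smul _ _ _ _
  have hfRd : ∀ q k x, pd k (Rs (f q)) x = (C * Mx (dk k (Rf (ef ζ))) x) q.1 q.2 := fun q k x => by
    have e : Rs (f q) = fun x => ∑ p, C q.1 p * Rf (ef ζ) p q.2 x := by
      funext y; rw [hfR q y, Matrix.mul_apply]; rfl
    rw [e, pd_sum' (f := fun p x => C q.1 p * Rf (ef ζ) p q.2 x) fun p _ => (c1r p q.2).smul _,
      Matrix.mul_apply]
    refine Finset.sum_congr rfl fun p _ => ?_
    rw [(c1_const _).pd_mul (c1r p q.2), pd_const_c]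
    simp only [zero_mul, zero_add]
    rfl
  have i0 : ∀ q, ∫ x, f q x ∂(gam n) = 0 := fun q => by
    have : EE (f q) = ∑ p, EE (fun x => C q.1 p * ef ζ p q.2 x) :=
      EE_sum' _ fun p => ((c1e p q.2).smul _).cg
    refine this.trans (Finset.sum_eq_zero fun p _ => ?_)
    rw [EE_smul]
    have : EE (ef ζ p q.2) = 0 := integral_eta (hζ.c p q.2)
    rw [this, mul_zero]
  have i1 : ∀ q k, ∫ x, pd k (f q) x ∂(gam n) = 0 := fun q k => by
    have e : ∀ x, pd k (f q) x = ∑ p, C q.1 p * pd k (ef ζ p q.2) x := fun x => by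
      rw [hfd, Matrix.mul_apply]; rfl
    have : EE (pd k (f q)) = ∑ p, EE (fun x => C q.1 p * pd k (ef ζ p q.2) x) := by
      rw [EE_congr e]
      exact EE_sum' _ fun p => ((c1e p q.2).cgp k).smul _
    refine this.trans (Finset.sum_eq_zero fun p _ => ?_)
    rw [EE_smul]
    have : EE (pd k (ef ζ p q.2)) = 0 := integral_pd_eta (hζ.c p q.2) k
    rw [this, mul_zero]
  set A : Fin n × Fin n → Fin n → E n → ℝ := fun q k x =>
    (C * (Mx (dk k (ef ζ)) x * _root_.cfc w (Mx ζ x))) q.1 q.2 with hA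
  set B : Fin n × Fin n → E n → ℝ := fun q x =>
    (C * (Mx (ef ζ) x * _root_.cfc w (Mx ζ x)) + C * Γ x * _root_.cfc v2 (Mx ζ x)) q.1 q.2
    with hB
  have cV2 : CM (fun x => _root_.cfc v2 (Mx ζ x)) := cg_cfc hζ cv2
  have cBm : CM (fun x => C * (Mx (ef ζ) x * _root_.cfc w (Mx ζ x)) +
      C * Γ x * _root_.cfc v2 (Mx ζ x)) := ((ce.mul cW).cmul C).add ((cΓ.cmul C).mul cV2)
  have cA : ∀ q k, C0 (A q k) := fun q k => (((cp k).mul cW).cmul C q.1 q.2).c0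
  have cB : ∀ q, C0 (B q) := fun q => (cBm q.1 q.2).c0
  have sp : ∀ X : Mat n, ∑ q : Fin n × Fin n, X q.1 q.2 ^ 2 = hs X := fun X => by
    rw [Fintype.sum_prod_type]; rfl
  have hAl : ∀ k x, ∑ q, A q k x ^ 2 ≤ 1 / 16 * ∑ q, pd k (f q) x ^ 2 := fun k x => by
    have e1 : ∑ q, A q k x ^ 2 = hs ((C * Mx (dk k (ef ζ)) x) * _root_.cfc w (Mx ζ x)) := by
      rw [← sp]
      exact Finset.sum_congr rfl fun q _ => by rw [Matrix.mul_assoc]
    have e2 : ∑ q, pd k (f q) x ^ 2 = hs (C * Mx (dk k (ef ζ)) x) := by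
      rw [← sp]
      exact Finset.sum_congr rfl fun q _ => by rw [hfd]
    rw [e1, e2]
    have := hs_mulW hζ bw (C * Mx (dk k (ef ζ)) x) x
    have h16 : ((1 : ℝ) / 4) ^ 2 = 1 / 16 := by norm_num
    rwa [h16] at this
  have hBl : ∀ x, ∑ q, B q x ^ 2 ≤ 1 / 16 * ∑ q, f q x ^ 2 +
      1 / 16 * (lam * hs (C * Γ x)) := fun x => by
    have e1 : ∑ q, B q x ^ 2 = hs ((C * Mx (ef ζ) x) * _root_.cfc w (Mx ζ x) +
        C * Γ x * _root_.cfc v2 (Mx ζ x)) := by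
      rw [← sp]
      exact Finset.sum_congr rfl fun q _ => by rw [Matrix.mul_assoc C (Mx (ef ζ) x)]
    have e2 : ∑ q, f q x ^ 2 = hs (C * Mx (ef ζ) x) := by
      rw [← sp]
      exact Finset.sum_congr rfl fun q _ => by rw [hfm]
    rw [e1, e2]
    have := hs_pair_le (hζ.h x) hlam (c := 1 / 16) (f := w) (g := v2)
      (fun t ht => bwv t (hζ.s x ht)) (C * Mx (ef ζ) x) (C * Γ x)
    linarith
  have key := cen_le2 hf1 i0 i1 cA cB hAl ((cΓ.cmul C).hs.c0.smul lam) hBl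
  have F1 : ∀ k, CM (fun x => C * (Mx (dk k (ef ζ)) x * _root_.cfc w (Mx ζ x)) +
        (1 / 4 : ℝ) • (C * (Mx (dk k (ef ζ)) x - (2 : ℝ) • Mx (dk k (Rf (ef ζ))) x))) := fun k =>
    (((cp k).mul cW).cmul C).add ((((cp k).sub ((crk k).smul 2)).cmul C).smul _)
  have F2 : CM (fun x => C * (Mx (ef ζ) x * _root_.cfc w (Mx ζ x)) +
        C * Γ x * _root_.cfc v2 (Mx ζ x) -
        (1 / 4 : ℝ) • (C * (Mx (ef ζ) x - (2 : ℝ) • Mx (Rf (ef ζ)) x))) :=
    cBm.sub (((ce.sub (cr.smul 2)).cmul C).smul _)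
  have k1 := sum_pair_eq F1
  have k2 := sum_pair_eq1 F2
  have k3 := sum_pair_eq (fun k => (cp k).cmul C)
  have k4 := sum_pair_eq1 (ce.cmul C)
  rw [← k1, ← k2, ← k3, ← k4]
  refine le_trans (le_of_eq ?_) (key.trans (le_of_eq ?_))
  · congr 1
    · refine Finset.sum_congr rfl fun q _ => Finset.sum_congr rfl fun k _ => ?_
      refine EE_congr fun x => ?_
      rw [Matrix.add_apply, Matrix.smul_apply, Matrix.mul_sub, Matrix.sub_apply,
        Matrix.mul_smul, Matrix.smul_apply, hfd, hfRd]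
      rfl
    · refine Finset.sum_congr rfl fun q _ => ?_
      refine EE_congr fun x => ?_
      rw [Matrix.sub_apply, Matrix.smul_apply, Matrix.mul_sub, Matrix.sub_apply,
        Matrix.mul_smul, Matrix.smul_apply, hfm, hfR]
      rfl
  · have g1 : (∑ q, ∑ k, ∫ x, pd k (f q) x ^ 2 ∂(gam n)) =
        ∑ q : Fin n × Fin n, ∑ k, EE (fun x => (C * Mx (dk k (ef ζ)) x) q.1 q.2 ^ 2) :=
      Finset.sum_congr rfl fun q _ => Finset.sum_congr rfl fun k _ =>
        EE_congr fun x => by rw [hfd]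
    have g2 : (∑ q, ∫ x, f q x ^ 2 ∂(gam n)) =
        ∑ q : Fin n × Fin n, EE (fun x => (C * Mx (ef ζ) x) q.1 q.2 ^ 2) :=
      Finset.sum_congr rfl fun q _ => EE_congr fun x => by rw [hfm]
    rw [g1, g2]
    rfl

/-- `E |c + F|² = |c|² + E |F|²` for `E F = 0` -/
lemma EE_hs_const_add {F : E n → Mat n} (hF : CM F) (h0 : ∀ i j, EE (fun x => F x i j) = 0)
    (c : Mat n) : EE (fun x => hs (c + F x)) = hs c + EE (fun x => hs (F x)) := by
  have h1 : EE (fun x => hs (c + F x)) = ∑ i, ∑ j, EE (fun x => (c i j + F x i j) ^ 2) :=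
    EE_sum2 (f := fun i j x => (c i j + F x i j) ^ 2) fun i j => ((cg_const (c i j)).add (hF i j)).sq
  have h2 : EE (fun x => hs (F x)) = ∑ i, ∑ j, EE (fun x => F x i j ^ 2) :=
    EE_sum2 (f := fun i j x => F x i j ^ 2) fun i j => (hF i j).sq
  rw [h1, h2]
  unfold hs
  rw [← Finset.sum_add_distrib]
  refine Finset.sum_congr rfl fun i _ => ?_
  rw [← Finset.sum_add_distrib]
  refine Finset.sum_congr rfl fun j _ => ?_
  have e : ∀ x, (c i j + F x i j) ^ 2 = (c i j ^ 2 + 2 * c i j * F x i j) + F x i j ^ 2 :=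
    fun x => by ring
  rw [EE_congr e, EE_add ((cg_const (c i j ^ 2)).add ((hF i j).smul (2 * c i j))) (hF i j).sq,
    EE_add (cg_const (c i j ^ 2)) ((hF i j).smul (2 * c i j)), EE_smul, EE_const, h0 i j]
  ring

/-- **the weighted dual bound, 230's form**: no cross terms -/
theorem dualQ (hζ : MF ζ lo hi) (h0 : ∀ i j, EE (ζ i j) = 0)
    (hv : ∀ x ∈ Icc lo hi, HasDerivAt v (w x + 1 / 4) x)
    (hw : ∀ x ∈ Icc lo hi, HasDerivAt w (v2 x) x) (cw : ContinuousOn w (Icc lo hi))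
    (cv2 : ContinuousOn v2 (Icc lo hi)) {lam : ℝ} (hlam : 0 < lam)
    (bwv : ∀ x ∈ Icc lo hi, v2 x ^ 2 ≤ lam * (1 / 16 - w x ^ 2))
    {U : Fld n} (hU : ∀ i j x, U i j x = _root_.cfc v (Mx ζ x) i j) (C : Mat n)
    {Pn K1 : ℝ} (hPn : ∀ X : Mat n, hs (C * X) ≤ Pn * hs X) (hPn0 : 0 ≤ Pn) (hK0 : 0 ≤ K1)
    (hK1 : ∀ B : Fin n → Mat n, hs (∑ k, C * Tm ζ k * B k) ≤ K1 * ∑ k, hs (B k))
    {Sl : E n → ℝ} (cSl : CG Sl) {al be : ℝ}
    (hal : ∀ x, ∑ k, hs (KR v (fun t => w t + 1 / 4) (Mx ζ x) (Mx (dk k ζ) x)) ≤ al * Sl x)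
    (hbe : ∀ x, ∑ k, hs (KR w v2 (Mx ζ x) (Mx (dk k ζ) x)) ≤ be * Sl x)
    {q0 q1 : ℝ} (hq0 : 0 < q0) (hq1 : 0 < q1) (hq : q0 + q1 = 1) :
    EE (fun x => ∑ k, hs (C * (Mx (dk k U) x - Mx (Yf ζ w 1 k) x))) +
      EE (fun x => hs (C * Mx (Gf ζ w v2 1) x)) ≤
    1 / q0 * (1 / 3 * (EE (fun x => ∑ k, hs (C * Mx (dk k (ef ζ)) x)) -
        EE (fun x => hs (C * Mx (ef ζ) x))) +
        lam / 12 * hs (C * (1 - MTm ζ)) +
        lam / 12 * (K1 * EE (fun x => ∑ k, hs (Mx (dk k (ef ζ)) x)))) +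
      1 / q1 * ((Pn * al + K1 * be) * EE Sl) := by
  have bw : ∀ x ∈ Icc lo hi, |w x| ≤ 1 / 4 := fun x hx => by
    have h1 := bwv x hx
    have h2 : 0 ≤ lam * (1 / 16 - w x ^ 2) := (sq_nonneg _).trans h1
    have h3 : 0 ≤ 1 / 16 - w x ^ 2 := (mul_nonneg_iff_of_pos_left hlam).mp h2
    exact abs_le_of_sq_le_sq (by nlinarith) (by norm_num)
  have c1e : ∀ i j, C1 (ef ζ i j) := fun i j => c1_ef hζ i j
  have c1r : ∀ i j, C1 (Rf (ef ζ) i j) := fun i j => c1_Rs (c1e i j)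
  have cW : CM (fun x => _root_.cfc w (Mx ζ x)) := cg_cfc hζ cw
  have cV2 : CM (fun x => _root_.cfc v2 (Mx ζ x)) := cg_cfc hζ cv2
  have cp : ∀ k, CM (fun x => Mx (dk k (ef ζ)) x) := fun k => CM.mx fun i j => (c1e i j).cgp k
  have ce : CM (fun x => Mx (ef ζ) x) := CM.mx fun i j => (c1e i j).cg
  have crk : ∀ k, CM (fun x => Mx (dk k (Rf (ef ζ))) x) := fun k =>
    CM.mx fun i j => (c1r i j).cgp k
  have cr : CM (fun x => Mx (Rf (ef ζ)) x) := CM.mx fun i j => (c1r i j).cg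
  have cζk : ∀ k, CM (fun x => Mx (dk k ζ) x) := fun k => CM.mx fun i j => (hζ.c i j).cgp k
  have cv1 : ContinuousOn (fun t => w t + 1 / 4) (Icc lo hi) := cw.add continuousOn_const
  have c1U : ∀ i j, C1 (U i j) := fun i j => by
    have : U i j = fun x => _root_.cfc v (Mx ζ x) i j := funext (hU i j)
    rw [this]
    exact _root_.Crest.Agent.R253.SpecField321.c1_cfc hζ hv cv1 i j
  have cdU : ∀ k, CM (fun x => Mx (dk k U) x) := fun k => CM.mx fun i j => (c1U i j).cgp k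
  have cV1 : CM (fun x => _root_.cfc (fun t => w t + 1 / 4) (Mx ζ x)) := cg_cfc hζ cv1
  have cKR0 : ∀ k, CM (fun x => KR v (fun t => w t + 1 / 4) (Mx ζ x) (Mx (dk k ζ) x)) := by
    intro k
    have e : (fun x => KR v (fun t => w t + 1 / 4) (Mx ζ x) (Mx (dk k ζ) x)) =
        fun x => Mx (dk k U) x - Mx (dk k ζ) x * _root_.cfc (fun t => w t + 1 / 4) (Mx ζ x) := by
      funext x
      unfold KR
      congr 1
      ext i j
      have hUf : U i j = fun x => _root_.cfc v (Mx ζ x) i j := funext (hU i j)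
      simp only [Mx, Matrix.of_apply, dk]
      rw [hUf]
      exact (_root_.Crest.Agent.R253.SpecField321.pd_cfc hζ hv x i j k).symm
    rw [e]
    exact (cdU k).sub ((cζk k).mul cV1)
  have cKR1 : ∀ k, CM (fun x => KR w v2 (Mx ζ x) (Mx (dk k ζ) x)) := by
    intro k
    have e : (fun x => KR w v2 (Mx ζ x) (Mx (dk k ζ) x)) =
        fun x => Mx (dk k fun i j x => _root_.cfc w (Mx ζ x) i j) x -
          Mx (dk k ζ) x * _root_.cfc v2 (Mx ζ x) := by
      funext x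
      unfold KR
      congr 1
      ext i j
      simp only [Mx, Matrix.of_apply, dk]
      exact (_root_.Crest.Agent.R253.SpecField321.pd_cfc hζ hw x i j k).symm
    rw [e]
    exact (CM.mx fun i j => (_root_.Crest.Agent.R253.SpecField321.c1_cfc hζ hw cv2 i j).cgp k).sub
      ((cζk k).mul cV2)
  -- the pieces
  set P : E n → Mat n := fun x => ∑ k, C * Tm ζ k * Mx (dk k (ef ζ)) x with hP
  have cP : CM P := CM.sum fun k _ => (cp k).cmul _
  set Γ : E n → Mat n := fun x => ∑ k, Tm ζ k * Mx (dk k (ef ζ)) x - (1 - MTm ζ) with hΓ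
  have cΓ : CM Γ := (CM.sum fun k _ => (cp k).cmul _).sub (CM.const _)
  have hCΓ : ∀ x, C * Γ x = -(C * (1 - MTm ζ)) + P x := fun x => by
    rw [hΓ, hP]
    simp only [Matrix.mul_sub, Finset.mul_sum, Matrix.mul_assoc]
    abel
  set a1 : Fin n → E n → Mat n := fun k x => C * (Mx (dk k (ef ζ)) x * _root_.cfc w (Mx ζ x)) +
        (1 / 4 : ℝ) • (C * (Mx (dk k (ef ζ)) x - (2 : ℝ) • Mx (dk k (Rf (ef ζ))) x)) with ha1
  set a2 : Fin n → E n → Mat n := fun k x =>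
    C * KR v (fun t => w t + 1 / 4) (Mx ζ x) (Mx (dk k ζ) x) with ha2
  set g1 : E n → Mat n := fun x => C * (Mx (ef ζ) x * _root_.cfc w (Mx ζ x)) +
        C * Γ x * _root_.cfc v2 (Mx ζ x) -
        (1 / 4 : ℝ) • (C * (Mx (ef ζ) x - (2 : ℝ) • Mx (Rf (ef ζ)) x)) with hg1
  set g2 : E n → Mat n := fun x => ∑ k, C * Tm ζ k * KR w v2 (Mx ζ x) (Mx (dk k ζ) x) with hg2
  have m1 : ∀ k, CM (a1 k) := fun k =>
    (((cp k).mul cW).cmul C).add ((((cp k).sub ((crk k).smul 2)).cmul C).smul _)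
  have m2 : ∀ k, CM (a2 k) := fun k => (cKR0 k).cmul C
  have n1 : CM g1 := (((ce.mul cW).cmul C).add ((cΓ.cmul C).mul cV2)).sub
    (((ce.sub (cr.smul 2)).cmul C).smul _)
  have n2 : CM g2 := CM.sum fun k _ => (cKR1 k).cmul _
  -- the splits
  have sY : ∀ k x, C * (Mx (dk k U) x - Mx (Yf ζ w 1 k) x) = a1 k x + a2 k x := fun k x => by
    rw [split_Y hζ hv hU]
    simp only [sub_self, Matrix.zero_mul, Matrix.mul_zero, add_zero]
    rfl
  have sG : ∀ x, C * Mx (Gf ζ w v2 1) x = g1 x + g2 x := fun x => by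
    rw [split_G, hg1, hg2]
    simp only [sub_self, Matrix.zero_mul, Matrix.mul_zero, add_zero, Matrix.mul_one,
      Matrix.one_mul]
    rw [hCΓ, hP]
    simp only [Matrix.add_mul, Matrix.neg_mul]
    abel
  -- two-term inequality
  have two : ∀ X Y : Mat n, hs (X + Y) ≤ 1 / q0 * hs X + 1 / q1 * hs Y := fun X Y => by
    have h := hs_sum_le (Finset.univ : Finset (Fin 2)) ![q0, q1] (fun i _ => by
      fin_cases i <;> simp [hq0, hq1]) ![X, Y]
    simp only [Fin.sum_univ_two, Matrix.cons_val_zero, Matrix.cons_val_one, hq, one_mul] at h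
    refine h.trans (le_of_eq ?_)
    ring
  have cY : ∀ k, CM (fun x => Mx (Yf ζ w 1 k) x) := fun k => CM.mx fun i j =>
      (c1_Y0 hζ hw cv2 1 k i j).cg.add (((c1r i j).cgp k).smul _)
  have d1 : CG (fun x => ∑ k, hs (a1 k x)) := CG.sum fun k _ => (m1 k).hs
  have d2 : CG (fun x => ∑ k, hs (a2 k x)) := CG.sum fun k _ => (m2 k).hs
  have iY : EE (fun x => ∑ k, hs (C * (Mx (dk k U) x - Mx (Yf ζ w 1 k) x))) ≤
      1 / q0 * EE (fun x => ∑ k, hs (a1 k x)) + 1 / q1 * EE (fun x => ∑ k, hs (a2 k x)) := by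
    rw [← EE_smul, ← EE_smul, ← EE_add (d1.smul _) (d2.smul _)]
    refine EE_mono (CG.sum fun k _ => (((cdU k).sub (cY k)).cmul C).hs)
      ((d1.smul _).add (d2.smul _)) fun x => ?_
    rw [Finset.mul_sum, Finset.mul_sum, ← Finset.sum_add_distrib]
    refine Finset.sum_le_sum fun k _ => ?_
    rw [sY]
    exact two _ _
  have iG : EE (fun x => hs (C * Mx (Gf ζ w v2 1) x)) ≤ 1 / q0 * EE (fun x => hs (g1 x)) +
      1 / q1 * EE (fun x => hs (g2 x)) := by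
    have cG : CM (fun x => C * Mx (Gf ζ w v2 1) x) := by
      have : (fun x => C * Mx (Gf ζ w v2 1) x) = fun x => g1 x + g2 x := funext fun x => sG x
      rw [this]
      exact n1.add n2
    rw [← EE_smul, ← EE_smul, ← EE_add (n1.hs.smul _) (n2.hs.smul _)]
    refine EE_mono cG.hs ((n1.hs.smul _).add (n2.hs.smul _)) fun x => ?_
    rw [sG]
    exact two _ _
  -- the bounds
  have B1 := main_le2 hζ h0 cw cv2 hlam bw bwv C cΓ
  have B2a : EE (fun x => ∑ k, hs (a2 k x)) ≤ Pn * al * EE Sl := by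
    rw [← EE_smul]
    refine EE_mono (CG.sum fun k _ => (m2 k).hs) (cSl.smul _) fun x => ?_
    calc ∑ k, hs (a2 k x) ≤ ∑ k, Pn * hs (KR v (fun t => w t + 1 / 4) (Mx ζ x) (Mx (dk k ζ) x)) :=
          Finset.sum_le_sum fun k _ => hPn _
      _ = Pn * ∑ k, hs (KR v (fun t => w t + 1 / 4) (Mx ζ x) (Mx (dk k ζ) x)) := by
          rw [Finset.mul_sum]
      _ ≤ Pn * (al * Sl x) := mul_le_mul_of_nonneg_left (hal x) hPn0
      _ = Pn * al * Sl x := by ring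
  have B2b : EE (fun x => hs (g2 x)) ≤ K1 * be * EE Sl := by
    rw [← EE_smul]
    refine EE_mono n2.hs (cSl.smul _) fun x => ?_
    calc hs (g2 x) ≤ K1 * ∑ k, hs (KR w v2 (Mx ζ x) (Mx (dk k ζ) x)) := hK1 _
      _ ≤ K1 * (be * Sl x) := mul_le_mul_of_nonneg_left (hbe x) hK0
      _ = K1 * be * Sl x := by ring
  have B3 : EE (fun x => lam * hs (C * Γ x)) ≤ lam * (hs (C * (1 - MTm ζ)) +
      K1 * EE (fun x => ∑ k, hs (Mx (dk k (ef ζ)) x))) := by
    rw [EE_smul]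
    refine mul_le_mul_of_nonneg_left ?_ hlam.le
    have hP0 : ∀ i j, EE (fun x => P x i j) = 0 := fun i j => by
      have e : ∀ x, P x i j = ∑ k, ∑ q, (C * Tm ζ k) i q * pd k (ef ζ q j) x := fun x => by
        show (∑ k, C * Tm ζ k * Mx (dk k (ef ζ)) x) i j = _
        rw [Matrix.sum_apply]
        refine Finset.sum_congr rfl fun k _ => ?_
        rw [Matrix.mul_apply]
        rfl
      rw [EE_congr e, EE_sum' _ fun k => CG.sum fun q _ => ((c1e q j).cgp k).smul _]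
      refine Finset.sum_eq_zero fun k _ => ?_
      rw [EE_sum' _ fun q => ((c1e q j).cgp k).smul _]
      refine Finset.sum_eq_zero fun q _ => ?_
      rw [EE_smul]
      have : EE (pd k (ef ζ q j)) = 0 := integral_pd_eta (hζ.c q j) k
      rw [this, mul_zero]
    have e1 : EE (fun x => hs (C * Γ x)) = hs (C * (1 - MTm ζ)) + EE (fun x => hs (P x)) := by
      rw [EE_congr (fun x => by rw [hCΓ x] : ∀ x, hs (C * Γ x) = hs (-(C * (1 - MTm ζ)) + P x)),
        EE_hs_const_add cP hP0, hs_neg]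
    rw [e1, ← EE_smul]
    refine add_le_add le_rfl (EE_mono cP.hs ((CG.sum fun k _ => (cp k).hs).smul _) fun x => hK1 _)
  have q0' : 0 < 1 / q0 := one_div_pos.mpr hq0
  have q1' : 0 < 1 / q1 := one_div_pos.mpr hq1
  have C1' := mul_le_mul_of_nonneg_left B1 q0'.le
  have C2a := mul_le_mul_of_nonneg_left B2a q1'.le
  have C2b := mul_le_mul_of_nonneg_left B2b q1'.le
  have C3 := mul_le_mul_of_nonneg_left B3 q0'.le
  refine (add_le_add iY iG).trans ?_
  rw [mul_add] at C1'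
  nlinarith [C1', C2a, C2b, C3]

end field

end Crest.Agent.R253.DualP973
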