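import Crest.Agent.R253.DualQ_973

/-!
# R253: the weighted dual bound, 230's form with the truncated one-sided field (helper862)

`Y_k = ¼ T_k + b T_k w(ζ) + ½ ∂_k R η` with any constant matrix `b`; the truncation terms are put
inside the first Cauchy–Schwarz of 230's form, all mixed expectations vanish.
-/

set_option autoImplicit false

open MeasureTheory ProbabilityTheory Real Set Filter Topology Matrix
open scoped ContDiff

noncomputable section

namespace Crest.Agent.R253.DualR862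

open Crest.Agent.R238.Gap Crest.Agent.R238.GapPoinc Crest.Agent.R238.GapPc
open Crest.Agent.R253.SpecCalc999 Crest.Agent.R253.Meh74 Crest.Agent.R253.SpecField321
open Crest.Agent.R253.Jord192 Crest.Agent.R253.DualP973

variable {n : ℕ}

/-- **the centred device**, hypotheses in integrated form -/
theorem cen_le3 {ι : Type*} [Fintype ι] {f : ι → E n → ℝ} (hf : ∀ i, C1 (f i))
    (h0 : ∀ i, ∫ x, f i x ∂(gam n) = 0) (h1 : ∀ i k, ∫ x, pd k (f i) x ∂(gam n) = 0)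
    {A : ι → Fin n → E n → ℝ} {B : ι → E n → ℝ} (cA : ∀ i k, C0 (A i k)) (cB : ∀ i, C0 (B i))
    {Ra Rb : ℝ}
    (hA : ∑ i, ∑ k, ∫ x, A i k x ^ 2 ∂(gam n) ≤
      1 / 16 * (∑ i, ∑ k, ∫ x, pd k (f i) x ^ 2 ∂(gam n)) + 1 / 16 * Ra)
    (hB : ∑ i, ∫ x, B i x ^ 2 ∂(gam n) ≤
      1 / 16 * (∑ i, ∫ x, f i x ^ 2 ∂(gam n)) + 1 / 16 * Rb) :
    (∑ i, ∑ k, ∫ x, (A i k x + 1 / 4 * (pd k (f i) x - 2 * pd k (Rs (f i)) x)) ^ 2 ∂(gam n)) +
      ∑ i, ∫ x, (B i x - 1 / 4 * (f i x - 2 * Rs (f i) x)) ^ 2 ∂(gam n) ≤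
    1 / 3 * ((∑ i, ∑ k, ∫ x, pd k (f i) x ^ 2 ∂(gam n)) - ∑ i, ∫ x, f i x ^ 2 ∂(gam n)) +
      1 / 12 * (Ra + Rb) := by
  have cr : ∀ i, C1 (Rs (f i)) := fun i => c1_Rs (hf i)
  have cp : ∀ i k, C0 (fun x => pd k (f i) x - 2 * pd k (Rs (f i)) x) := fun i k =>
    ((hf i).p0 k).sub (((cr i).p0 k).smul 2)
  have cq : ∀ i, C0 (fun x => f i x - 2 * Rs (f i) x) := fun i =>
    (hf i).c0.sub ((cr i).c0.smul 2)
  have a1 : ∀ i k, ∫ x, (A i k x + 1 / 4 * (pd k (f i) x - 2 * pd k (Rs (f i)) x)) ^ 2 ∂(gam n) ≤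
      4 / 3 * (∫ x, A i k x ^ 2 ∂(gam n)) +
        1 / 4 * ∫ x, (pd k (f i) x - 2 * pd k (Rs (f i)) x) ^ 2 ∂(gam n) := fun i k => by
    have j1 : Integrable (fun x => 4 / 3 * A i k x ^ 2) (gam n) := ((cA i k).pow2.smul _).int
    have j2 : Integrable (fun x => 1 / 4 * (pd k (f i) x - 2 * pd k (Rs (f i)) x) ^ 2) (gam n) :=
      ((cp i k).pow2.smul _).int
    rw [← integral_const_mul, ← integral_const_mul, ← integral_add j1 j2]
    refine integral_mono ((cA i k).add ((cp i k).smul _)).pow2.int (j1.add j2) fun x => ?_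
    have := sq_add_le (A i k x) (1 / 4 * (pd k (f i) x - 2 * pd k (Rs (f i)) x))
    simp only
    linarith [this, mul_pow (1 / 4 : ℝ) (pd k (f i) x - 2 * pd k (Rs (f i)) x) 2]
  have a2 : ∀ i, ∫ x, (B i x - 1 / 4 * (f i x - 2 * Rs (f i) x)) ^ 2 ∂(gam n) ≤
      4 / 3 * (∫ x, B i x ^ 2 ∂(gam n)) +
        1 / 4 * ∫ x, (f i x - 2 * Rs (f i) x) ^ 2 ∂(gam n) := fun i => by
    have j1 : Integrable (fun x => 4 / 3 * B i x ^ 2) (gam n) := ((cB i).pow2.smul _).int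
    have j2 : Integrable (fun x => 1 / 4 * (f i x - 2 * Rs (f i) x) ^ 2) (gam n) :=
      ((cq i).pow2.smul _).int
    rw [← integral_const_mul, ← integral_const_mul, ← integral_add j1 j2]
    refine integral_mono ((cB i).sub ((cq i).smul _)).pow2.int (j1.add j2) fun x => ?_
    have := sq_add_le (B i x) (-(1 / 4 * (f i x - 2 * Rs (f i) x)))
    simp only
    nlinarith [this]
  -- the resolvent part
  have c1 : (∑ i, ∑ k, ∫ x, (pd k (f i) x - 2 * pd k (Rs (f i)) x) ^ 2 ∂(gam n)) +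
      ∑ i, ∫ x, (f i x - 2 * Rs (f i) x) ^ 2 ∂(gam n) ≤
      (∑ i, ∑ k, ∫ x, pd k (f i) x ^ 2 ∂(gam n)) - 5 / 3 * ∑ i, ∫ x, f i x ^ 2 ∂(gam n) := by
    rw [← Finset.sum_add_distrib, Finset.mul_sum, ← Finset.sum_sub_distrib]
    exact Finset.sum_le_sum fun i _ => res_eta (hf i) (h0 i) (h1 i)
  have d1 : (∑ i, ∑ k, ∫ x, (A i k x + 1 / 4 * (pd k (f i) x - 2 * pd k (Rs (f i)) x)) ^ 2
      ∂(gam n)) ≤ 4 / 3 * (∑ i, ∑ k, ∫ x, A i k x ^ 2 ∂(gam n)) +
        1 / 4 * ∑ i, ∑ k, ∫ x, (pd k (f i) x - 2 * pd k (Rs (f i)) x) ^ 2 ∂(gam n) := by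
    rw [Finset.mul_sum, Finset.mul_sum, ← Finset.sum_add_distrib]
    refine Finset.sum_le_sum fun i _ => ?_
    rw [Finset.mul_sum, Finset.mul_sum, ← Finset.sum_add_distrib]
    exact Finset.sum_le_sum fun k _ => a1 i k
  have d2 : ∑ i, ∫ x, (B i x - 1 / 4 * (f i x - 2 * Rs (f i) x)) ^ 2 ∂(gam n) ≤
      4 / 3 * (∑ i, ∫ x, B i x ^ 2 ∂(gam n)) +
        1 / 4 * ∑ i, ∫ x, (f i x - 2 * Rs (f i) x) ^ 2 ∂(gam n) := by
    rw [Finset.mul_sum, Finset.mul_sum, ← Finset.sum_add_distrib]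
    exact Finset.sum_le_sum fun i _ => a2 i
  linarith



section field

variable {ζ : Fld n} {lo hi : ℝ} {v w v2 : ℝ → ℝ}

lemma EE_coord_mul {f : E n → ℝ} (hf : C1 f) (k : Fin n) :
    EE (fun x => x k * f x) = EE (pd k f) := by
  have h := ibp_gam hf.c hf.g k (hf.p k)
  unfold EE
  rw [← h]
  exact integral_congr_ae (Eventually.of_forall fun x => mul_comm _ _)

/-- `E |F + Σ x_k A_k|² = E |F|² + Σ |A_k|²` for `E ∂_k F = 0` -/
lemma EE_hs_lin_add {F : Fin n → Fin n → E n → ℝ} (hF : ∀ i j, C1 (F i j))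
    (h1 : ∀ i j k, EE (pd k (F i j)) = 0) (A : Fin n → Mat n) :
    EE (fun x => hs (Matrix.of (fun i j => F i j x) + ∑ k, x k • A k)) =
      EE (fun x => hs (Matrix.of fun i j => F i j x)) + ∑ k, hs (A k) := by
  have cL : ∀ i j, CG (fun x : E n => ∑ k, x k * A k i j) := fun i j =>
    CG.sum fun k _ => (cg_coord k).mulc (A k i j)
  rw [← EE_hs_lin A]
  have e1 : EE (fun x => hs (Matrix.of (fun i j => F i j x) + ∑ k, x k • A k)) =
      ∑ i, ∑ j, EE (fun x => (F i j x + ∑ k, x k * A k i j) ^ 2) := by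
    have := EE_sum2 (f := fun i j (x : E n) => (F i j x + ∑ k, x k * A k i j) ^ 2) fun i j =>
      ((hF i j).cg.add (cL i j)).sq
    rw [← this]
    refine EE_congr fun x => ?_
    unfold hs
    refine Finset.sum_congr rfl fun i _ => Finset.sum_congr rfl fun j _ => ?_
    rw [Matrix.add_apply, Matrix.sum_apply]
    rfl
  have e2 : EE (fun x => hs (Matrix.of fun i j => F i j x)) =
      ∑ i, ∑ j, EE (fun x => F i j x ^ 2) :=
    EE_sum2 (f := fun i j x => F i j x ^ 2) fun i j => (hF i j).cg.sq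
  have e3 : EE (fun x : E n => hs (∑ k, x k • A k)) =
      ∑ i, ∑ j, EE (fun x : E n => (∑ k, x k * A k i j) ^ 2) := by
    have := EE_sum2 (f := fun i j (x : E n) => (∑ k, x k * A k i j) ^ 2) fun i j => (cL i j).sq
    rw [← this]
    refine EE_congr fun x => ?_
    unfold hs
    refine Finset.sum_congr rfl fun i _ => Finset.sum_congr rfl fun j _ => ?_
    rw [Matrix.sum_apply]
    rfl
  rw [e1, e2, e3, ← Finset.sum_add_distrib]
  refine Finset.sum_congr rfl fun i _ => ?_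
  rw [← Finset.sum_add_distrib]
  refine Finset.sum_congr rfl fun j _ => ?_
  have c : EE (fun x => F i j x * ∑ k, x k * A k i j) = 0 := by
    have e : ∀ x : E n, F i j x * ∑ k, x k * A k i j = ∑ k, A k i j * (x k * F i j x) :=
      fun x => by
      rw [Finset.mul_sum]
      exact Finset.sum_congr rfl fun k _ => by ring
    rw [EE_congr e, EE_sum' _ fun k => ((cg_coord k).mul (hF i j).cg).smul _]
    refine Finset.sum_eq_zero fun k _ => ?_
    rw [EE_smul, EE_coord_mul (hF i j) k, h1, mul_zero]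
  have e : ∀ x : E n, (F i j x + ∑ k, x k * A k i j) ^ 2 =
      (F i j x ^ 2 + 2 * (F i j x * ∑ k, x k * A k i j)) + (∑ k, x k * A k i j) ^ 2 :=
    fun x => by ring
  rw [EE_congr e, EE_add ((hF i j).cg.sq.add (((hF i j).cg.mul (cL i j)).smul 2)) (cL i j).sq,
    EE_add (hF i j).cg.sq (((hF i j).cg.mul (cL i j)).smul 2), EE_smul, c]
  ring

/-- **main part**: centred device with weights and truncation -/
theorem main_le3 (hζ : MF ζ lo hi) (h0 : ∀ i j, EE (ζ i j) = 0)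
    (cw : ContinuousOn w (Icc lo hi)) (cv2 : ContinuousOn v2 (Icc lo hi))
    {lam : ℝ} (hlam : 0 < lam) (bw : ∀ x ∈ Icc lo hi, |w x| ≤ 1 / 4)
    (bwv : ∀ x ∈ Icc lo hi, v2 x ^ 2 ≤ lam * (1 / 16 - w x ^ 2)) (C : Mat n)
    (S : Fin n → Mat n) {Γ : E n → Mat n} (cΓ : CM Γ) :
    EE (fun x => ∑ k, hs ((C * Mx (dk k (ef ζ)) x + S k) * _root_.cfc w (Mx ζ x) +
        (1 / 4 : ℝ) • (C * (Mx (dk k (ef ζ)) x - (2 : ℝ) • Mx (dk k (Rf (ef ζ))) x)))) +
      EE (fun x => hs ((C * Mx (ef ζ) x + ∑ k, x k • S k) * _root_.cfc w (Mx ζ x) +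
        Γ x * _root_.cfc v2 (Mx ζ x) -
        (1 / 4 : ℝ) • (C * (Mx (ef ζ) x - (2 : ℝ) • Mx (Rf (ef ζ)) x)))) ≤
    1 / 3 * (EE (fun x => ∑ k, hs (C * Mx (dk k (ef ζ)) x)) -
      EE (fun x => hs (C * Mx (ef ζ) x))) +
      1 / 12 * (2 * ∑ k, hs (S k) + lam * EE (fun x => hs (Γ x))) := by
  have c1e : ∀ i j, C1 (ef ζ i j) := fun i j => c1_ef hζ i j
  have c1r : ∀ i j, C1 (Rf (ef ζ) i j) := fun i j => c1_Rs (c1e i j)
  have cW : CM (fun x => _root_.cfc w (Mx ζ x)) := cg_cfc hζ cw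
  have cp : ∀ k, CM (fun x => Mx (dk k (ef ζ)) x) := fun k => CM.mx fun i j => (c1e i j).cgp k
  have ce : CM (fun x => Mx (ef ζ) x) := CM.mx fun i j => (c1e i j).cg
  have crk : ∀ k, CM (fun x => Mx (dk k (Rf (ef ζ))) x) := fun k =>
    CM.mx fun i j => (c1r i j).cgp k
  have cr : CM (fun x => Mx (Rf (ef ζ)) x) := CM.mx fun i j => (c1r i j).cg
  -- the scalar functions
  set f : Fin n × Fin n → E n → ℝ := fun q x => ∑ p, C q.1 p * ef ζ p q.2 x with hf
  have hf1 : ∀ q, C1 (f q) := fun q => C1.sum fun p _ => (c1e p q.2).smul _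
  have hfm : ∀ q x, f q x = (C * Mx (ef ζ) x) q.1 q.2 := fun q x => by
    rw [Matrix.mul_apply]; rfl
  have hfd : ∀ q k x, pd k (f q) x = (C * Mx (dk k (ef ζ)) x) q.1 q.2 := fun q k x => by
    rw [hf, pd_sum' (f := fun p x => C q.1 p * ef ζ p q.2 x) fun p _ => (c1e p q.2).smul _,
      Matrix.mul_apply]
    refine Finset.sum_congr rfl fun p _ => ?_
    rw [(c1_const _).pd_mul (c1e p q.2), pd_const_c]
    simp only [zero_mul, zero_add]
    rfl
  have hfR : ∀ q x, Rs (f q) x = (C * Mx (Rf (ef ζ)) x) q.1 q.2 := fun q x => by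
    unfold Rs
    have h := Rw_sum Real.continuous_sin sin_b Finset.univ
      (g := fun p x => C q.1 p * ef ζ p q.2 x) (fun p _ => ((c1e p q.2).smul _).cont)
      (fun p _ => ((c1e p q.2).smul _).g) x
    rw [hf, h, Matrix.mul_apply]
    exact Finset.sum_congr rfl fun p _ => Rw_smul _ _ _ _
  have hfRd : ∀ q k x, pd k (Rs (f q)) x = (C * Mx (dk k (Rf (ef ζ))) x) q.1 q.2 := fun q k x => by
    have e : Rs (f q) = fun x => ∑ p, C q.1 p * Rf (ef ζ) p q.2 x := by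
      funext y; rw [hfR q y, Matrix.mul_apply]; rfl
    rw [e, pd_sum' (f := fun p x => C q.1 p * Rf (ef ζ) p q.2 x) fun p _ => (c1r p q.2).smul _,
      Matrix.mul_apply]
    refine Finset.sum_congr rfl fun p _ => ?_
    rw [(c1_const _).pd_mul (c1r p q.2), pd_const_c]
    simp only [zero_mul, zero_add]
    rfl
  have i0 : ∀ q, ∫ x, f q x ∂(gam n) = 0 := fun q => by
    have : EE (f q) = ∑ p, EE (fun x => C q.1 p * ef ζ p q.2 x) :=
      EE_sum' _ fun p => ((c1e p q.2).smul _).cg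
    refine this.trans (Finset.sum_eq_zero fun p _ => ?_)
    rw [EE_smul]
    have : EE (ef ζ p q.2) = 0 := integral_eta (hζ.c p q.2)
    rw [this, mul_zero]
  have i1 : ∀ q k, ∫ x, pd k (f q) x ∂(gam n) = 0 := fun q k => by
    have e : ∀ x, pd k (f q) x = ∑ p, C q.1 p * pd k (ef ζ p q.2) x := fun x => by
      rw [hfd, Matrix.mul_apply]; rfl
    have : EE (pd k (f q)) = ∑ p, EE (fun x => C q.1 p * pd k (ef ζ p q.2) x) := by
      rw [EE_congr e]
      exact EE_sum' _ fun p => ((c1e p q.2).cgp k).smul _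
    refine this.trans (Finset.sum_eq_zero fun p _ => ?_)
    rw [EE_smul]
    have : EE (pd k (ef ζ p q.2)) = 0 := integral_pd_eta (hζ.c p q.2) k
    rw [this, mul_zero]
  have cL : CM (fun x : E n => ∑ k, x k • S k) := fun i j => by
    have e : (fun x : E n => (∑ k, x k • S k) i j) = fun x => ∑ k, x k * S k i j := by
      funext x; rw [Matrix.sum_apply]; rfl
    rw [e]
    exact CG.sum fun k _ => (cg_coord k).mulc (S k i j)
  set A : Fin n × Fin n → Fin n → E n → ℝ := fun q k x =>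
    ((C * Mx (dk k (ef ζ)) x + S k) * _root_.cfc w (Mx ζ x)) q.1 q.2 with hA
  set B : Fin n × Fin n → E n → ℝ := fun q x =>
    ((C * Mx (ef ζ) x + ∑ k, x k • S k) * _root_.cfc w (Mx ζ x) +
      Γ x * _root_.cfc v2 (Mx ζ x)) q.1 q.2 with hB
  have cV2 : CM (fun x => _root_.cfc v2 (Mx ζ x)) := cg_cfc hζ cv2
  have cAm : ∀ k, CM (fun x => (C * Mx (dk k (ef ζ)) x + S k) * _root_.cfc w (Mx ζ x)) :=
    fun k => ((((cp k).cmul C).add (CM.const (S k))).mul cW)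
  have cBm : CM (fun x => (C * Mx (ef ζ) x + ∑ k, x k • S k) * _root_.cfc w (Mx ζ x) +
      Γ x * _root_.cfc v2 (Mx ζ x)) := (((ce.cmul C).add cL).mul cW).add (cΓ.mul cV2)
  have cA : ∀ q k, C0 (A q k) := fun q k => (cAm k q.1 q.2).c0
  have cB : ∀ q, C0 (B q) := fun q => (cBm q.1 q.2).c0
  have h16 : ((1 : ℝ) / 4) ^ 2 = 1 / 16 := by norm_num
  have g1 : (∑ q, ∑ k, ∫ x, pd k (f q) x ^ 2 ∂(gam n)) =
      EE (fun x => ∑ k, hs (C * Mx (dk k (ef ζ)) x)) := by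
    rw [← sum_pair_eq (fun k => (cp k).cmul C)]
    exact Finset.sum_congr rfl fun q _ => Finset.sum_congr rfl fun k _ =>
      EE_congr fun x => by rw [hfd]
  have g2 : (∑ q, ∫ x, f q x ^ 2 ∂(gam n)) = EE (fun x => hs (C * Mx (ef ζ) x)) := by
    rw [← sum_pair_eq1 (ce.cmul C)]
    exact Finset.sum_congr rfl fun q _ => EE_congr fun x => by rw [hfm]
  have z1 : ∀ k i j, EE (fun x => (C * Mx (dk k (ef ζ)) x) i j) = 0 := fun k i j => by
    have := i1 (i, j) k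
    refine Eq.trans ?_ this
    exact EE_congr fun x => (hfd (i, j) k x).symm
  have hAl : ∑ q, ∑ k, ∫ x, A q k x ^ 2 ∂(gam n) ≤
      1 / 16 * (∑ q, ∑ k, ∫ x, pd k (f q) x ^ 2 ∂(gam n)) + 1 / 16 * ∑ k, hs (S k) := by
    have e1 : (∑ q, ∑ k, ∫ x, A q k x ^ 2 ∂(gam n)) =
        EE (fun x => ∑ k, hs ((C * Mx (dk k (ef ζ)) x + S k) * _root_.cfc w (Mx ζ x))) := by
      rw [← sum_pair_eq cAm]
      rfl
    have e2 : EE (fun x => ∑ k, hs (C * Mx (dk k (ef ζ)) x + S k)) =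
        EE (fun x => ∑ k, hs (C * Mx (dk k (ef ζ)) x)) + ∑ k, hs (S k) := by
      rw [EE_sum' _ fun k => (((cp k).cmul C).add (CM.const (S k))).hs,
        EE_sum' _ fun k => ((cp k).cmul C).hs, ← Finset.sum_add_distrib]
      refine Finset.sum_congr rfl fun k _ => ?_
      have := EE_hs_const_add ((cp k).cmul C) (z1 k) (S k)
      rw [← EE_congr (fun x => by rw [add_comm] :
        ∀ x, hs (S k + C * Mx (dk k (ef ζ)) x) = hs (C * Mx (dk k (ef ζ)) x + S k)), this]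
      ring
    rw [e1, g1, ← mul_add, ← e2, ← EE_smul]
    refine EE_mono (CG.sum fun k _ => (cAm k).hs)
      ((CG.sum fun k _ => (((cp k).cmul C).add (CM.const (S k))).hs).smul _) fun x => ?_
    rw [Finset.mul_sum]
    refine Finset.sum_le_sum fun k _ => ?_
    have := hs_mulW hζ bw (C * Mx (dk k (ef ζ)) x + S k) x
    rwa [h16] at this
  have hBl : ∑ q, ∫ x, B q x ^ 2 ∂(gam n) ≤ 1 / 16 * (∑ q, ∫ x, f q x ^ 2 ∂(gam n)) +
      1 / 16 * (∑ k, hs (S k) + lam * EE (fun x => hs (Γ x))) := by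
    have e1 : (∑ q, ∫ x, B q x ^ 2 ∂(gam n)) =
        EE (fun x => hs ((C * Mx (ef ζ) x + ∑ k, x k • S k) * _root_.cfc w (Mx ζ x) +
          Γ x * _root_.cfc v2 (Mx ζ x))) := by
      rw [← sum_pair_eq1 cBm]
      rfl
    have e2 : EE (fun x => hs (C * Mx (ef ζ) x + ∑ k, x k • S k)) =
        EE (fun x => hs (C * Mx (ef ζ) x)) + ∑ k, hs (S k) := by
      have h := EE_hs_lin_add (F := fun i j => f (i, j)) (fun i j => hf1 (i, j))
        (fun i j k => i1 (i, j) k) S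
      have e3 : ∀ x, (Matrix.of fun i j => f (i, j) x) = C * Mx (ef ζ) x := fun x => by
        ext i j
        rw [Matrix.of_apply, hfm]
      simp only [e3] at h
      exact h
    rw [e1, g2]
    have e4 : 1 / 16 * EE (fun x => hs (C * Mx (ef ζ) x)) +
        1 / 16 * (∑ k, hs (S k) + lam * EE (fun x => hs (Γ x))) =
        EE (fun x => 1 / 16 * hs (C * Mx (ef ζ) x + ∑ k, x k • S k)) +
          EE (fun x => 1 / 16 * lam * hs (Γ x)) := by
      rw [EE_smul, EE_smul, e2]; ring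
    have cS := (((ce.cmul C).add cL)).hs
    rw [e4, ← EE_add (cS.smul _) (cΓ.hs.smul _)]
    refine EE_mono cBm.hs ((cS.smul _).add (cΓ.hs.smul _)) fun x => ?_
    have := hs_pair_le (hζ.h x) hlam (c := 1 / 16) (f := w) (g := v2)
      (fun t ht => bwv t (hζ.s x ht)) (C * Mx (ef ζ) x + ∑ k, x k • S k) (Γ x)
    linarith
  have key := cen_le3 hf1 i0 i1 cA cB hAl hBl
  have F1 : ∀ k, CM (fun x => (C * Mx (dk k (ef ζ)) x + S k) * _root_.cfc w (Mx ζ x) +
        (1 / 4 : ℝ) • (C * (Mx (dk k (ef ζ)) x - (2 : ℝ) • Mx (dk k (Rf (ef ζ))) x))) := fun k =>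
    (cAm k).add ((((cp k).sub ((crk k).smul 2)).cmul C).smul _)
  have F2 : CM (fun x => (C * Mx (ef ζ) x + ∑ k, x k • S k) * _root_.cfc w (Mx ζ x) +
        Γ x * _root_.cfc v2 (Mx ζ x) -
        (1 / 4 : ℝ) • (C * (Mx (ef ζ) x - (2 : ℝ) • Mx (Rf (ef ζ)) x))) :=
    cBm.sub (((ce.sub (cr.smul 2)).cmul C).smul _)
  have k1 := sum_pair_eq F1
  have k2 := sum_pair_eq1 F2
  rw [← k1, ← k2, ← g1, ← g2]
  refine le_trans (le_of_eq ?_) (key.trans (le_of_eq (by ring)))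
  congr 1
  · refine Finset.sum_congr rfl fun q _ => Finset.sum_congr rfl fun k _ => ?_
    refine EE_congr fun x => ?_
    rw [Matrix.add_apply, Matrix.smul_apply, Matrix.mul_sub, Matrix.sub_apply,
      Matrix.mul_smul, Matrix.smul_apply, hfd, hfRd]
    rfl
  · refine Finset.sum_congr rfl fun q _ => ?_
    refine EE_congr fun x => ?_
    rw [Matrix.sub_apply, Matrix.smul_apply, Matrix.mul_sub, Matrix.sub_apply,
      Matrix.mul_smul, Matrix.smul_apply, hfm, hfR]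
    rfl

/-- **the weighted dual bound, 230's form with a truncated field**: no cross terms -/
theorem dualR (hζ : MF ζ lo hi) (h0 : ∀ i j, EE (ζ i j) = 0)
    (hv : ∀ x ∈ Icc lo hi, HasDerivAt v (w x + 1 / 4) x)
    (hw : ∀ x ∈ Icc lo hi, HasDerivAt w (v2 x) x) (cw : ContinuousOn w (Icc lo hi))
    (cv2 : ContinuousOn v2 (Icc lo hi)) {lam : ℝ} (hlam : 0 < lam)
    (bwv : ∀ x ∈ Icc lo hi, v2 x ^ 2 ≤ lam * (1 / 16 - w x ^ 2))
    {U : Fld n} (hU : ∀ i j x, U i j x = _root_.cfc v (Mx ζ x) i j) (C b : Mat n)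
    {Pn K1 : ℝ} (hPn : ∀ X : Mat n, hs (C * X) ≤ Pn * hs X) (hPn0 : 0 ≤ Pn) (hK0 : 0 ≤ K1)
    (hK1 : ∀ B : Fin n → Mat n, hs (∑ k, C * b * Tm ζ k * B k) ≤ K1 * ∑ k, hs (B k))
    {Sl : E n → ℝ} (cSl : CG Sl) {al be : ℝ}
    (hal : ∀ x, ∑ k, hs (KR v (fun t => w t + 1 / 4) (Mx ζ x) (Mx (dk k ζ) x)) ≤ al * Sl x)
    (hbe : ∀ x, ∑ k, hs (KR w v2 (Mx ζ x) (Mx (dk k ζ) x)) ≤ be * Sl x)
    {q0 q1 : ℝ} (hq0 : 0 < q0) (hq1 : 0 < q1) (hq : q0 + q1 = 1) :
    EE (fun x => ∑ k, hs (C * (Mx (dk k U) x - Mx (Yf ζ w b k) x))) +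
      EE (fun x => hs (C * Mx (Gf ζ w v2 b) x)) ≤
    1 / q0 * (1 / 3 * (EE (fun x => ∑ k, hs (C * Mx (dk k (ef ζ)) x)) -
        EE (fun x => hs (C * Mx (ef ζ) x))) +
        1 / 6 * ∑ k, hs (C * ((1 - b) * Tm ζ k)) +
        lam / 12 * hs (C * (1 - b * MTm ζ)) +
        lam / 12 * (K1 * EE (fun x => ∑ k, hs (Mx (dk k (ef ζ)) x)))) +
      1 / q1 * ((Pn * al + K1 * be) * EE Sl) := by
  have bw : ∀ x ∈ Icc lo hi, |w x| ≤ 1 / 4 := fun x hx => by
    have h1 := bwv x hx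
    have h2 : 0 ≤ lam * (1 / 16 - w x ^ 2) := (sq_nonneg _).trans h1
    have h3 : 0 ≤ 1 / 16 - w x ^ 2 := (mul_nonneg_iff_of_pos_left hlam).mp h2
    exact abs_le_of_sq_le_sq (by nlinarith) (by norm_num)
  have c1e : ∀ i j, C1 (ef ζ i j) := fun i j => c1_ef hζ i j
  have c1r : ∀ i j, C1 (Rf (ef ζ) i j) := fun i j => c1_Rs (c1e i j)
  have cW : CM (fun x => _root_.cfc w (Mx ζ x)) := cg_cfc hζ cw
  have cV2 : CM (fun x => _root_.cfc v2 (Mx ζ x)) := cg_cfc hζ cv2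
  have cp : ∀ k, CM (fun x => Mx (dk k (ef ζ)) x) := fun k => CM.mx fun i j => (c1e i j).cgp k
  have ce : CM (fun x => Mx (ef ζ) x) := CM.mx fun i j => (c1e i j).cg
  have crk : ∀ k, CM (fun x => Mx (dk k (Rf (ef ζ))) x) := fun k =>
    CM.mx fun i j => (c1r i j).cgp k
  have cr : CM (fun x => Mx (Rf (ef ζ)) x) := CM.mx fun i j => (c1r i j).cg
  have cζk : ∀ k, CM (fun x => Mx (dk k ζ) x) := fun k => CM.mx fun i j => (hζ.c i j).cgp k
  have cv1 : ContinuousOn (fun t => w t + 1 / 4) (Icc lo hi) := cw.add continuousOn_const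
  have c1U : ∀ i j, C1 (U i j) := fun i j => by
    have : U i j = fun x => _root_.cfc v (Mx ζ x) i j := funext (hU i j)
    rw [this]
    exact _root_.Crest.Agent.R253.SpecField321.c1_cfc hζ hv cv1 i j
  have cdU : ∀ k, CM (fun x => Mx (dk k U) x) := fun k => CM.mx fun i j => (c1U i j).cgp k
  have cV1 : CM (fun x => _root_.cfc (fun t => w t + 1 / 4) (Mx ζ x)) := cg_cfc hζ cv1
  have cKR0 : ∀ k, CM (fun x => KR v (fun t => w t + 1 / 4) (Mx ζ x) (Mx (dk k ζ) x)) := by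
    intro k
    have e : (fun x => KR v (fun t => w t + 1 / 4) (Mx ζ x) (Mx (dk k ζ) x)) =
        fun x => Mx (dk k U) x - Mx (dk k ζ) x * _root_.cfc (fun t => w t + 1 / 4) (Mx ζ x) := by
      funext x
      unfold KR
      congr 1
      ext i j
      have hUf : U i j = fun x => _root_.cfc v (Mx ζ x) i j := funext (hU i j)
      simp only [Mx, Matrix.of_apply, dk]
      rw [hUf]
      exact (_root_.Crest.Agent.R253.SpecField321.pd_cfc hζ hv x i j k).symm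
    rw [e]
    exact (cdU k).sub ((cζk k).mul cV1)
  have cKR1 : ∀ k, CM (fun x => KR w v2 (Mx ζ x) (Mx (dk k ζ) x)) := by
    intro k
    have e : (fun x => KR w v2 (Mx ζ x) (Mx (dk k ζ) x)) =
        fun x => Mx (dk k fun i j x => _root_.cfc w (Mx ζ x) i j) x -
          Mx (dk k ζ) x * _root_.cfc v2 (Mx ζ x) := by
      funext x
      unfold KR
      congr 1
      ext i j
      simp only [Mx, Matrix.of_apply, dk]
      exact (_root_.Crest.Agent.R253.SpecField321.pd_cfc hζ hw x i j k).symm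
    rw [e]
    exact (CM.mx fun i j => (_root_.Crest.Agent.R253.SpecField321.c1_cfc hζ hw cv2 i j).cgp k).sub
      ((cζk k).mul cV2)
  -- the pieces
  set P : E n → Mat n := fun x => ∑ k, C * b * Tm ζ k * Mx (dk k (ef ζ)) x with hP
  have cP : CM P := CM.sum fun k _ => (cp k).cmul _
  set S : Fin n → Mat n := fun k => C * ((1 - b) * Tm ζ k) with hS
  set Γ : E n → Mat n := fun x => -(C * (1 - b * MTm ζ)) + P x with hΓ
  have cΓ : CM Γ := (CM.const _).add cP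
  set a1 : Fin n → E n → Mat n := fun k x =>
    (C * Mx (dk k (ef ζ)) x + S k) * _root_.cfc w (Mx ζ x) +
        (1 / 4 : ℝ) • (C * (Mx (dk k (ef ζ)) x - (2 : ℝ) • Mx (dk k (Rf (ef ζ))) x)) with ha1
  set a2 : Fin n → E n → Mat n := fun k x =>
    C * KR v (fun t => w t + 1 / 4) (Mx ζ x) (Mx (dk k ζ) x) with ha2
  set g1 : E n → Mat n := fun x => (C * Mx (ef ζ) x + ∑ k, x k • S k) * _root_.cfc w (Mx ζ x) +
        Γ x * _root_.cfc v2 (Mx ζ x) -
        (1 / 4 : ℝ) • (C * (Mx (ef ζ) x - (2 : ℝ) • Mx (Rf (ef ζ)) x)) with hg1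
  set g2 : E n → Mat n := fun x => ∑ k, C * b * Tm ζ k * KR w v2 (Mx ζ x) (Mx (dk k ζ) x)
    with hg2
  have cL : CM (fun x : E n => ∑ k, x k • S k) := fun i j => by
    have e : (fun x : E n => (∑ k, x k • S k) i j) = fun x => ∑ k, x k * S k i j := by
      funext x; rw [Matrix.sum_apply]; rfl
    rw [e]
    exact CG.sum fun k _ => (cg_coord k).mulc (S k i j)
  have m1 : ∀ k, CM (a1 k) := fun k =>
    (((cp k).cmul C).add (CM.const (S k))).mul cW |>.add
      ((((cp k).sub ((crk k).smul 2)).cmul C).smul _)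
  have m2 : ∀ k, CM (a2 k) := fun k => (cKR0 k).cmul C
  have n1 : CM g1 := ((((ce.cmul C).add cL).mul cW).add (cΓ.mul cV2)).sub
    (((ce.sub (cr.smul 2)).cmul C).smul _)
  have n2 : CM g2 := CM.sum fun k _ => (cKR1 k).cmul _
  -- the splits
  have sL : ∀ x : E n, ∑ k, x k • S k = C * ((1 - b) * Lx ζ x) := fun x => by
    unfold Lx
    rw [Finset.mul_sum, Finset.mul_sum]
    exact Finset.sum_congr rfl fun k _ => by rw [Matrix.mul_smul, Matrix.mul_smul]
  have sY : ∀ k x, C * (Mx (dk k U) x - Mx (Yf ζ w b k) x) = a1 k x + a2 k x := fun k x => by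
    rw [split_Y hζ hv hU, ha1, ha2, hS]
    simp only [Matrix.add_mul, Matrix.mul_assoc]
    abel
  have sG : ∀ x, C * Mx (Gf ζ w v2 b) x = g1 x + g2 x := fun x => by
    rw [split_G, hg1, hg2]
    simp only [sL]
    rw [hΓ, hP]
    simp only [Matrix.add_mul, Matrix.neg_mul, Matrix.mul_assoc]
    abel
  -- two-term inequality
  have two : ∀ X Y : Mat n, hs (X + Y) ≤ 1 / q0 * hs X + 1 / q1 * hs Y := fun X Y => by
    have h := hs_sum_le (Finset.univ : Finset (Fin 2)) ![q0, q1] (fun i _ => by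
      fin_cases i <;> simp [hq0, hq1]) ![X, Y]
    simp only [Fin.sum_univ_two, Matrix.cons_val_zero, Matrix.cons_val_one, hq, one_mul] at h
    refine h.trans (le_of_eq ?_)
    ring
  have cY : ∀ k, CM (fun x => Mx (Yf ζ w b k) x) := fun k => CM.mx fun i j =>
      (c1_Y0 hζ hw cv2 b k i j).cg.add (((c1r i j).cgp k).smul _)
  have d1 : CG (fun x => ∑ k, hs (a1 k x)) := CG.sum fun k _ => (m1 k).hs
  have d2 : CG (fun x => ∑ k, hs (a2 k x)) := CG.sum fun k _ => (m2 k).hs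
  have iY : EE (fun x => ∑ k, hs (C * (Mx (dk k U) x - Mx (Yf ζ w b k) x))) ≤
      1 / q0 * EE (fun x => ∑ k, hs (a1 k x)) + 1 / q1 * EE (fun x => ∑ k, hs (a2 k x)) := by
    rw [← EE_smul, ← EE_smul, ← EE_add (d1.smul _) (d2.smul _)]
    refine EE_mono (CG.sum fun k _ => (((cdU k).sub (cY k)).cmul C).hs)
      ((d1.smul _).add (d2.smul _)) fun x => ?_
    rw [Finset.mul_sum, Finset.mul_sum, ← Finset.sum_add_distrib]
    refine Finset.sum_le_sum fun k _ => ?_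
    rw [sY]
    exact two _ _
  have iG : EE (fun x => hs (C * Mx (Gf ζ w v2 b) x)) ≤ 1 / q0 * EE (fun x => hs (g1 x)) +
      1 / q1 * EE (fun x => hs (g2 x)) := by
    have cG : CM (fun x => C * Mx (Gf ζ w v2 b) x) := by
      have : (fun x => C * Mx (Gf ζ w v2 b) x) = fun x => g1 x + g2 x := funext fun x => sG x
      rw [this]
      exact n1.add n2
    rw [← EE_smul, ← EE_smul, ← EE_add (n1.hs.smul _) (n2.hs.smul _)]
    refine EE_mono cG.hs ((n1.hs.smul _).add (n2.hs.smul _)) fun x => ?_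
    rw [sG]
    exact two _ _
  -- the bounds
  have B1 : EE (fun x => ∑ k, hs (a1 k x)) + EE (fun x => hs (g1 x)) ≤ _ :=
    main_le3 hζ h0 cw cv2 hlam bw bwv C S cΓ
  have B2a : EE (fun x => ∑ k, hs (a2 k x)) ≤ Pn * al * EE Sl := by
    rw [← EE_smul]
    refine EE_mono (CG.sum fun k _ => (m2 k).hs) (cSl.smul _) fun x => ?_
    calc ∑ k, hs (a2 k x) ≤ ∑ k, Pn * hs (KR v (fun t => w t + 1 / 4) (Mx ζ x) (Mx (dk k ζ) x)) :=
          Finset.sum_le_sum fun k _ => hPn _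
      _ = Pn * ∑ k, hs (KR v (fun t => w t + 1 / 4) (Mx ζ x) (Mx (dk k ζ) x)) := by
          rw [Finset.mul_sum]
      _ ≤ Pn * (al * Sl x) := mul_le_mul_of_nonneg_left (hal x) hPn0
      _ = Pn * al * Sl x := by ring
  have B2b : EE (fun x => hs (g2 x)) ≤ K1 * be * EE Sl := by
    rw [← EE_smul]
    refine EE_mono n2.hs (cSl.smul _) fun x => ?_
    calc hs (g2 x) ≤ K1 * ∑ k, hs (KR w v2 (Mx ζ x) (Mx (dk k ζ) x)) := hK1 _
      _ ≤ K1 * (be * Sl x) := mul_le_mul_of_nonneg_left (hbe x) hK0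
      _ = K1 * be * Sl x := by ring
  have B3 : lam * EE (fun x => hs (Γ x)) ≤ lam * (hs (C * (1 - b * MTm ζ)) +
      K1 * EE (fun x => ∑ k, hs (Mx (dk k (ef ζ)) x))) := by
    refine mul_le_mul_of_nonneg_left ?_ hlam.le
    have hP0 : ∀ i j, EE (fun x => P x i j) = 0 := fun i j => by
      have e : ∀ x, P x i j = ∑ k, ∑ q, (C * b * Tm ζ k) i q * pd k (ef ζ q j) x := fun x => by
        show (∑ k, C * b * Tm ζ k * Mx (dk k (ef ζ)) x) i j = _
        rw [Matrix.sum_apply]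
        refine Finset.sum_congr rfl fun k _ => ?_
        rw [Matrix.mul_apply]
        rfl
      rw [EE_congr e, EE_sum' _ fun k => CG.sum fun q _ => ((c1e q j).cgp k).smul _]
      refine Finset.sum_eq_zero fun k _ => ?_
      rw [EE_sum' _ fun q => ((c1e q j).cgp k).smul _]
      refine Finset.sum_eq_zero fun q _ => ?_
      rw [EE_smul]
      have : EE (pd k (ef ζ q j)) = 0 := integral_pd_eta (hζ.c q j) k
      rw [this, mul_zero]
    have e1 : EE (fun x => hs (Γ x)) = hs (C * (1 - b * MTm ζ)) + EE (fun x => hs (P x)) := by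
      rw [EE_hs_const_add cP hP0, hs_neg]
    rw [e1, ← EE_smul]
    refine add_le_add le_rfl (EE_mono cP.hs ((CG.sum fun k _ => (cp k).hs).smul _) fun x => hK1 _)
  have q0' : 0 < 1 / q0 := one_div_pos.mpr hq0
  have q1' : 0 < 1 / q1 := one_div_pos.mpr hq1
  have C2a := mul_le_mul_of_nonneg_left B2a q1'.le
  have C2b := mul_le_mul_of_nonneg_left B2b q1'.le
  have B1' : EE (fun x => ∑ k, hs (a1 k x)) + EE (fun x => hs (g1 x)) ≤
      1 / 3 * (EE (fun x => ∑ k, hs (C * Mx (dk k (ef ζ)) x)) -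
        EE (fun x => hs (C * Mx (ef ζ) x))) +
        1 / 6 * ∑ k, hs (C * ((1 - b) * Tm ζ k)) +
        lam / 12 * hs (C * (1 - b * MTm ζ)) +
        lam / 12 * (K1 * EE (fun x => ∑ k, hs (Mx (dk k (ef ζ)) x))) := by
    refine B1.trans ?_
    linarith
  have C1' := mul_le_mul_of_nonneg_left B1' q0'.le
  refine (add_le_add iY iG).trans ?_
  rw [mul_add (1 / q0) (EE _) (EE _)] at C1'
  linarith [C1', C2a, C2b]

end field

end Crest.Agent.R253.DualR862
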