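import Crest.Agent.R253.Jord_192
import Crest.Agent.R253.ResEta_74

/-!
# R253: the complete dual bound (helper192)

For the field `Y_k = (1/4) T_k + sy ((v'(ζ) - 1/4) T_k b) + (1/2) ∂_k R η` (helper949).
-/

set_option autoImplicit false

open Matrix Set MeasureTheory
open scoped ContDiff

noncomputable section

namespace Crest.Agent.R253.Dual192

open Crest.Agent.R253.SpecCalc999 Crest.Agent.R253.Meh74 Crest.Agent.R253.SpecField321
  Crest.Agent.R253.Jord192 Crest.Agent.R238.Gap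

variable {m n : ℕ}

/-! ### matrix fields of class `C0` -/

/-- entries in `C0` -/
def M0 (X : E n → Mat m) : Prop := ∀ i j, C0 fun x => X x i j

lemma M0.const (X : Mat m) : M0 (fun _ : E n => X) := fun _ _ => C0.const _
lemma M0.add {X Y : E n → Mat m} (hX : M0 X) (hY : M0 Y) : M0 (fun x => X x + Y x) :=
  fun i j => (hX i j).add (hY i j)
lemma M0.sub {X Y : E n → Mat m} (hX : M0 X) (hY : M0 Y) : M0 (fun x => X x - Y x) :=
  fun i j => (hX i j).sub (hY i j)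
lemma M0.smul {X : E n → Mat m} (c : ℝ) (hX : M0 X) : M0 (fun x => c • X x) :=
  fun i j => (hX i j).smul c
lemma M0.fsmul {X : E n → Mat m} {c : E n → ℝ} (hc : C0 c) (hX : M0 X) : M0 (fun x => c x • X x) :=
  fun i j => hc.mul (hX i j)
lemma M0.mul {X Y : E n → Mat m} (hX : M0 X) (hY : M0 Y) : M0 (fun x => X x * Y x) := by
  intro i j
  simp only [Matrix.mul_apply]
  exact C0.sum fun k _ => (hX i k).mul (hY k j)
lemma M0.transpose {X : E n → Mat m} (hX : M0 X) : M0 (fun x => (X x)ᵀ) := fun i j => hX j i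
lemma M0.csy {X : E n → Mat m} (hX : M0 X) : M0 (fun x => sy (X x)) :=
  (hX.add hX.transpose).smul _
lemma M0.sum {ι : Type*} {s : Finset ι} {X : ι → E n → Mat m} (hX : ∀ i ∈ s, M0 (X i)) :
    M0 (fun x => ∑ i ∈ s, X i x) := by
  intro i j
  simp only [Matrix.sum_apply]
  exact C0.sum fun k hk => hX k hk i j
lemma M0.chs {X : E n → Mat m} (hX : M0 X) : C0 (fun x => hs (X x)) :=
  C0.sum fun i _ => C0.sum fun j _ => (hX i j).pow2

lemma M0.int_hs {X : E n → Mat m} (hX : M0 X) :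
    ∫ x, hs (X x) ∂(gam n) = ∑ i, ∑ j, ∫ x, X x i j ^ 2 ∂(gam n) := by
  unfold SpecField321.hs
  rw [integral_finsetSum _ fun i _ => (C0.sum fun j _ => (hX i j).pow2).int]
  refine Finset.sum_congr rfl fun i _ => ?_
  rw [integral_finsetSum _ fun j _ => (hX i j).pow2.int]

/-! ### shifts of the kernels -/

lemma KT_shift {A : Mat m} (hA : A.IsHermitian) (f f' : ℝ → ℝ) (a : ℝ) (X : Mat m) :
    KT (fun z => f z - a * z) (fun z => f' z - a) A X = KT f f' A X := by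
  obtain ⟨U, hU⟩ := exists_fr hA
  apply conj_inj hU.o'
  ext i j
  rw [KT_frame hU, KT_frame hU]
  congr 1
  unfold dd1
  split_ifs with h
  · ring
  · have : hA.eigenvalues i - hA.eigenvalues j ≠ 0 := sub_ne_zero.2 h
    field_simp
    ring

lemma KL_shift {A : Mat m} (hA : A.IsHermitian) (f f' : ℝ → ℝ) (a : ℝ) (X : Mat m) :
    KL (fun z => f z - a) f' A X = KL f f' A X := by
  obtain ⟨U, hU⟩ := exists_fr hA
  apply conj_inj hU.o'
  ext i j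
  rw [KL_frame hU, KL_frame hU]
  congr 2
  unfold dd1
  split_ifs with h
  · rfl
  · congr 1; ring

/-! ### the data -/

/-- `T_k = E ∂_k ζ` -/
def Tk (ζ : Fin m → Fin m → E n → ℝ) (k : Fin n) : Mat m :=
  Matrix.of fun i j => ∫ y, pd k (ζ i j) y ∂(gam n)

/-- `η` -/
def Em (ζ : Fin m → Fin m → E n → ℝ) : E n → Mat m := Mx fun i j => eta (ζ i j)

/-- `p_k = ∂_k η` -/
def Pm (ζ : Fin m → Fin m → E n → ℝ) (k : Fin n) : E n → Mat m :=
  Mx fun i j => pd k (eta (ζ i j))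

/-- `ζ_k = ∂_k ζ` -/
def Xm (ζ : Fin m → Fin m → E n → ℝ) (k : Fin n) : E n → Mat m := Mx fun i j => pd k (ζ i j)

/-- `R η` -/
def Re (ζ : Fin m → Fin m → E n → ℝ) : E n → Mat m := Mx fun i j => Rs (eta (ζ i j))

/-- `∂_k R η` -/
def Rp (ζ : Fin m → Fin m → E n → ℝ) (k : Fin n) : E n → Mat m :=
  Mx fun i j => pd k (Rs (eta (ζ i j)))

/-- the data of the dual field -/
structure Dat (ζ : Fin m → Fin m → E n → ℝ) (lo hi : ℝ) (f f' f'' : ℝ → ℝ) : Prop where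
  mf : MF ζ lo hi
  z0 : ∀ i j, ∫ x, ζ i j x ∂(gam n) = 0
  d0 : ∀ x ∈ Icc lo hi, HasDerivAt f (f' x) x
  d1 : ∀ x ∈ Icc lo hi, HasDerivAt f' (f'' x) x
  cc : ContinuousOn f'' (Icc lo hi)

section

variable {ζ : Fin m → Fin m → E n → ℝ} {lo hi : ℝ} {f f' f'' : ℝ → ℝ}

lemma symm_of (h : ∀ x, (Mx ζ x).IsHermitian) (i j : Fin m) : ζ i j = ζ j i := by
  funext x
  have := (h x).apply j i
  simpa [Mx] using this

lemma Mx_symm {F : Fin m → Fin m → E n → ℝ} (h : ∀ i j, F i j = F j i) (x : E n) :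
    (Mx F x)ᵀ = Mx F x := by
  ext i j
  simp [Mx, h i j]

lemma Tk_symm (h : Dat ζ lo hi f f' f'') (k : Fin n) : (Tk ζ k)ᵀ = Tk ζ k := by
  ext i j
  simp [Tk, symm_of h.mf.h i j]

lemma Pm_symm (h : Dat ζ lo hi f f' f'') (k : Fin n) (x : E n) : (Pm ζ k x)ᵀ = Pm ζ k x :=
  Mx_symm (fun i j => by rw [symm_of h.mf.h i j]) x

lemma Em_symm (h : Dat ζ lo hi f f' f'') (x : E n) : (Em ζ x)ᵀ = Em ζ x :=
  Mx_symm (fun i j => by rw [symm_of h.mf.h i j]) x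

lemma Z_symm (h : Dat ζ lo hi f f' f'') (x : E n) : (Mx ζ x)ᵀ = Mx ζ x :=
  Mx_symm (fun i j => symm_of h.mf.h i j) x

lemma Xm_eq (h : Dat ζ lo hi f f' f'') (k : Fin n) (x : E n) :
    Xm ζ k x = Tk ζ k + Pm ζ k x := by
  ext i j
  simp only [Xm, Tk, Pm, Mx, Matrix.of_apply, Matrix.add_apply]
  rw [pd_eta (h.mf.c i j)]
  ring

lemma Z_eq (h : Dat ζ lo hi f f' f'') (x : E n) :
    Mx ζ x = (∑ k, x k • Tk ζ k) + Em ζ x := by
  ext i j
  simp only [Tk, Em, Mx, Matrix.of_apply, Matrix.add_apply, Matrix.sum_apply, Matrix.smul_apply,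
    smul_eq_mul, eta, h.z0 i j]
  have : ∑ k, x k * ∫ y, pd k (ζ i j) y ∂(gam n) = ∑ k, (∫ y, pd k (ζ i j) y ∂(gam n)) * x k :=
    Finset.sum_congr rfl fun k _ => mul_comm _ _
  rw [this]
  ring

lemma m0_Z (h : Dat ζ lo hi f f' f'') : M0 (Mx ζ) := fun i j => (h.mf.c i j).c0
lemma m0_Em (h : Dat ζ lo hi f f' f'') : M0 (Em ζ) := fun i j => (c1_eta (h.mf.c i j)).c0
lemma m0_Pm (h : Dat ζ lo hi f f' f'') (k : Fin n) : M0 (Pm ζ k) :=
  fun i j => (c1_eta (h.mf.c i j)).p0 k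
lemma m0_Xm (h : Dat ζ lo hi f f' f'') (k : Fin n) : M0 (Xm ζ k) := fun i j => (h.mf.c i j).p0 k
lemma m0_Re (h : Dat ζ lo hi f f' f'') : M0 (Re ζ) := fun i j => (c1_Rs (c1_eta (h.mf.c i j))).c0
lemma m0_Rp (h : Dat ζ lo hi f f' f'') (k : Fin n) : M0 (Rp ζ k) :=
  fun i j => (c1_Rs (c1_eta (h.mf.c i j))).p0 k

/-- `w' = f' - 1/4` -/
def w1 (f' : ℝ → ℝ) : ℝ → ℝ := fun z => f' z - 1 / 4

lemma c1_U (h : Dat ζ lo hi f f' f'') (i j : Fin m) :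
    C1 (fun x => _root_.cfc f (Mx ζ x) i j) :=
  c1_cfc h.mf h.d0 (fun x hx => (h.d1 x hx).continuousAt.continuousWithinAt) i j

lemma w1_d (h : Dat ζ lo hi f f' f'') : ∀ x ∈ Icc lo hi, HasDerivAt (w1 f') (f'' x) x :=
  fun x hx => (h.d1 x hx).sub_const _

lemma c1_W (h : Dat ζ lo hi f f' f'') (i j : Fin m) :
    C1 (fun x => _root_.cfc (w1 f') (Mx ζ x) i j) :=
  c1_cfc h.mf (w1_d h) h.cc i j

lemma m0_W (h : Dat ζ lo hi f f' f'') : M0 (fun x => _root_.cfc (w1 f') (Mx ζ x)) :=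
  fun i j => (c1_W h i j).c0

/-! ### the smooth part of the field -/

/-- the `C¹` part of the field -/
def Ys (f' : ℝ → ℝ) (b : Mat m) (ζ : Fin m → Fin m → E n → ℝ) (k : Fin n) (i j : Fin m) (x : E n) :
    ℝ :=
  (sy (_root_.cfc (w1 f') (Mx ζ x) * Tk ζ k * b) + (1 / 4 : ℝ) • Tk ζ k) i j

/-- entries of `X * C` with `C` constant -/
lemma c1_mul_const {X : Fin m → Fin m → E n → ℝ} (hX : ∀ i j, C1 (X i j)) (C : Mat m)
    (i j : Fin m) : C1 (fun x => (Mx X x * C) i j) := by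
  simp only [Matrix.mul_apply, Mx, Matrix.of_apply]
  exact C1.sum fun k _ => (hX i k).mul (c1_const _)

lemma pd_mul_const {X : Fin m → Fin m → E n → ℝ} (hX : ∀ i j, C1 (X i j)) (C : Mat m)
    (i j : Fin m) (k : Fin n) (x : E n) :
    pd k (fun x => (Mx X x * C) i j) x = (Mx (fun a c => pd k (X a c)) x * C) i j := by
  simp only [Matrix.mul_apply, Mx, Matrix.of_apply]
  rw [pd_sum' fun a _ => (hX i a).mul (c1_const (C a j))]
  refine Finset.sum_congr rfl fun a _ => ?_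
  rw [(hX i a).pd_mul (c1_const _), pd_const_c]
  ring

lemma pd_smul_c {f : E n → ℝ} (hf : C1 f) (c : ℝ) (k : Fin n) (x : E n) :
    pd k (fun x => c * f x) x = c * pd k f x := by
  rw [(c1_const c).pd_mul hf, pd_const_c]; ring

lemma Ys_eq (k : Fin n) (b : Mat m) (i j : Fin m) (x : E n) : Ys f' b ζ k i j x =
    1 / 2 * ((Mx (fun a c x => _root_.cfc (w1 f') (Mx ζ x) a c) x * (Tk ζ k * b)) i j +
      (Mx (fun a c x => _root_.cfc (w1 f') (Mx ζ x) a c) x * (Tk ζ k * b)) j i) +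
      1 / 4 * Tk ζ k i j := by
  have e : Mx (fun a c x => _root_.cfc (w1 f') (Mx ζ x) a c) x = _root_.cfc (w1 f') (Mx ζ x) := by
    ext a c; rfl
  unfold Ys
  rw [Matrix.add_apply, sy_apply, Matrix.smul_apply, smul_eq_mul, e, Matrix.mul_assoc]
  ring

lemma c1_Ys (h : Dat ζ lo hi f f' f'') (b : Mat m) (k : Fin n) (i j : Fin m) :
    C1 (Ys f' b ζ k i j) := by
  have e : Ys f' b ζ k i j = fun x =>
    1 / 2 * ((Mx (fun a c x => _root_.cfc (w1 f') (Mx ζ x) a c) x * (Tk ζ k * b)) i j +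
      (Mx (fun a c x => _root_.cfc (w1 f') (Mx ζ x) a c) x * (Tk ζ k * b)) j i) +
      1 / 4 * Tk ζ k i j := by funext x; exact Ys_eq k b i j x
  rw [e]
  exact (((c1_mul_const (fun a c => c1_W h a c) _ i j).add
    (c1_mul_const (fun a c => c1_W h a c) _ j i)).smul _).add (c1_const _)

lemma pd_Ys (h : Dat ζ lo hi f f' f'') (b : Mat m) (k : Fin n) (i j : Fin m) (x : E n) :
    pd k (Ys f' b ζ k i j) x = sy (DK (w1 f') f'' (Mx ζ x) (Xm ζ k x) * Tk ζ k * b) i j := by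
  have e : Ys f' b ζ k i j = fun x =>
    1 / 2 * ((Mx (fun a c x => _root_.cfc (w1 f') (Mx ζ x) a c) x * (Tk ζ k * b)) i j +
      (Mx (fun a c x => _root_.cfc (w1 f') (Mx ζ x) a c) x * (Tk ζ k * b)) j i) +
      1 / 4 * Tk ζ k i j := by funext x; exact Ys_eq k b i j x
  have c1 := c1_mul_const (fun a c => c1_W h a c) (Tk ζ k * b) i j
  have c2 := c1_mul_const (fun a c => c1_W h a c) (Tk ζ k * b) j i
  have ed : Mx (fun a c => pd k (fun x => _root_.cfc (w1 f') (Mx ζ x) a c)) x =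
      DK (w1 f') f'' (Mx ζ x) (Xm ζ k x) := by
    ext a c
    exact pd_cfc h.mf (w1_d h) x a c k
  rw [e, ((c1.add c2).smul _).pd_add (c1_const _), pd_smul_c (c1.add c2), c1.pd_add c2,
    pd_mul_const (fun a c => c1_W h a c), pd_mul_const (fun a c => c1_W h a c), pd_const_c, ed,
    sy_apply, Matrix.mul_assoc]
  ring

/-! ### exact formulas for the fields -/

/-- `L = Σ x_k T_k` -/
def Lm (ζ : Fin m → Fin m → E n → ℝ) (x : E n) : Mat m := ∑ k, x k • Tk ζ k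

/-- `M_T = Σ T_k²` -/
def MT (ζ : Fin m → Fin m → E n → ℝ) : Mat m := ∑ k, Tk ζ k * Tk ζ k

/-- `P_k` -/
def PP (f f' : ℝ → ℝ) (b : Mat m) (ζ : Fin m → Fin m → E n → ℝ) (k : Fin n) (x : E n) : Mat m :=
  Mx (fun i j x => pd k (fun x => _root_.cfc f (Mx ζ x) i j) x -
    (Ys f' b ζ k i j x + 1 / 2 * pd k (Rs (eta (ζ i j))) x)) x

/-- `G` -/
def GG (f f' f'' : ℝ → ℝ) (b : Mat m) (ζ : Fin m → Fin m → E n → ℝ) (x : E n) : Mat m :=
  Mx (fun i j x => ((_root_.cfc (fun z => f z + z * f' z - f'' z) (Mx ζ x) i j -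
      _root_.cfc f (Mx ζ x) i j) + ∑ k, (pd k (Ys f' b ζ k i j) x - x k * Ys f' b ζ k i j x)) -
    1 / 2 * (eta (ζ i j) x - Rs (eta (ζ i j)) x)) x

theorem PP_eq (h : Dat ζ lo hi f f' f'') (b : Mat m) (k : Fin n) (x : E n) :
    PP f f' b ζ k x = (sy (_root_.cfc (w1 f') (Mx ζ x) * Pm ζ k x) +
      (1 / 4 : ℝ) • (Pm ζ k x - (2 : ℝ) • Rp ζ k x)) + KT f f' (Mx ζ x) (Xm ζ k x) +
      sy (_root_.cfc (w1 f') (Mx ζ x) * Tk ζ k * (1 - b)) := by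
  have hA := h.mf.h x
  have e1 : PP f f' b ζ k x = DK f f' (Mx ζ x) (Xm ζ k x) -
      (sy (_root_.cfc (w1 f') (Mx ζ x) * Tk ζ k * b) + (1 / 4 : ℝ) • Tk ζ k +
        (1 / 2 : ℝ) • Rp ζ k x) := by
    ext i j
    have := pd_cfc h.mf h.d0 x i j k
    simp only [PP, Mx, Matrix.of_apply, Matrix.sub_apply, Matrix.add_apply, Matrix.smul_apply,
      smul_eq_mul, Ys, Rp] at this ⊢
    rw [this]
    rfl
  have e2 : DK f f' (Mx ζ x) (Xm ζ k x) =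
      DK (fun z => f z - 1 / 4 * z) (w1 f') (Mx ζ x) (Xm ζ k x) + (1 / 4 : ℝ) • Xm ζ k x := by
    have a1 := DK_fsub f f' (fun z => 1 / 4 * z) (fun _ => 1 / 4 * 1) (Mx ζ x) (Xm ζ k x)
    have a2 := DK_cmul (fun z => z) (fun _ => 1) (1 / 4) (Mx ζ x) (Xm ζ k x)
    rw [DK_id hA] at a2
    rw [a2] at a1
    have a3 : (fun t => f' t - 1 / 4 * 1) = w1 f' := by funext t; unfold w1; ring
    rw [a3] at a1
    rw [a1]; abel
  have e3 := exact_P (A := Mx ζ x) (b := b) (fun z => f z - 1 / 4 * z) (w1 f') (Pm_symm h k x)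
    (Tk_symm h k) (Xm_eq h k x)
  have e4 : KT (fun z => f z - 1 / 4 * z) (w1 f') (Mx ζ x) (Xm ζ k x) =
      KT f f' (Mx ζ x) (Xm ζ k x) := KT_shift hA f f' (1 / 4) _
  rw [e4] at e3
  have e5 : (1 / 4 : ℝ) • Xm ζ k x = (1 / 4 : ℝ) • Tk ζ k + (1 / 4 : ℝ) • Pm ζ k x := by
    rw [Xm_eq h k x, smul_add]
  have e6 : (1 / 4 : ℝ) • (Pm ζ k x - (2 : ℝ) • Rp ζ k x) =
      (1 / 4 : ℝ) • Pm ζ k x - (1 / 2 : ℝ) • Rp ζ k x := by
    rw [smul_sub, smul_smul]; norm_num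
  rw [e1, e2, e5, e6]
  have e7 : DK (fun z => f z - 1 / 4 * z) (w1 f') (Mx ζ x) (Xm ζ k x) =
      sy (_root_.cfc (w1 f') (Mx ζ x) * Tk ζ k * b) + (sy (_root_.cfc (w1 f') (Mx ζ x) * Pm ζ k x) +
        KT f f' (Mx ζ x) (Xm ζ k x) + sy (_root_.cfc (w1 f') (Mx ζ x) * Tk ζ k * (1 - b))) := by
    rw [← e3]; abel
  rw [e7]
  abel

lemma cfc_comm_self {A : Mat m} (hA : A.IsHermitian) (g : ℝ → ℝ) :
    A * _root_.cfc g A = _root_.cfc g A * A := by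
  obtain ⟨U, hU⟩ := exists_fr hA
  apply conj_inj hU.o'
  rw [conj_mul hU.o', conj_mul hU.o', hU.cfc, hU.d, Matrix.diagonal_mul_diagonal,
    Matrix.diagonal_mul_diagonal]
  congr 1
  funext i; ring

lemma cfc_c {A : Mat m} (hA : A.IsHermitian) (f f' f'' : ℝ → ℝ) :
    _root_.cfc (fun z => f z + z * f' z - f'' z) A =
      _root_.cfc f A + A * _root_.cfc (w1 f') A - _root_.cfc f'' A + (1 / 4 : ℝ) • A := by
  obtain ⟨U, hU⟩ := exists_fr hA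
  apply conj_inj hU.o'
  rw [hU.cfc, Matrix.mul_add, Matrix.add_mul, Matrix.mul_sub, Matrix.sub_mul, Matrix.mul_add,
    Matrix.add_mul, conj_mul hU.o', hU.cfc, hU.cfc, hU.cfc, hU.d, Matrix.mul_smul, Matrix.smul_mul,
    hU.d, Matrix.diagonal_mul_diagonal, Matrix.diagonal_add, Matrix.diagonal_sub,
    ← Matrix.diagonal_smul, Matrix.diagonal_add]
  congr 1
  funext i
  simp only [Pi.smul_apply, smul_eq_mul, w1]
  ring

theorem GG_eq (h : Dat ζ lo hi f f' f'') (b : Mat m) (x : E n) :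
    GG f f' f'' b ζ x = (sy (_root_.cfc (w1 f') (Mx ζ x) * Em ζ x) -
      (1 / 4 : ℝ) • (Em ζ x - (2 : ℝ) • Re ζ x)) +
      sy (∑ k, KL f' f'' (Mx ζ x) (Xm ζ k x) * Tk ζ k * b) +
      sy (_root_.cfc (w1 f') (Mx ζ x) * Lm ζ x * (1 - b)) -
      sy (_root_.cfc f'' (Mx ζ x) * (1 - MT ζ * b)) +
      sy (_root_.cfc f'' (Mx ζ x) * (∑ k, Pm ζ k x * Tk ζ k) * b) := by
  have hA := h.mf.h x
  have e1 : GG f f' f'' b ζ x = (_root_.cfc (fun z => f z + z * f' z - f'' z) (Mx ζ x) -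
      _root_.cfc f (Mx ζ x)) - ∑ k, (x k • (sy (_root_.cfc (w1 f') (Mx ζ x) * Tk ζ k * b) +
        (1 / 4 : ℝ) • Tk ζ k) - sy (DK (w1 f') f'' (Mx ζ x) (Xm ζ k x) * Tk ζ k * b)) -
      (1 / 2 : ℝ) • (Em ζ x - Re ζ x) := by
    ext i j
    simp only [GG, Mx, Matrix.of_apply, Matrix.sub_apply, Matrix.add_apply, Matrix.smul_apply,
      Matrix.sum_apply, smul_eq_mul, Em, Re]
    have : ∀ k, pd k (Ys f' b ζ k i j) x - x k * Ys f' b ζ k i j x =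
        -(x k * (sy (_root_.cfc (w1 f') (Mx ζ x) * Tk ζ k * b) i j + 1 / 4 * Tk ζ k i j) -
          sy (DK (w1 f') f'' (Mx ζ x) (Xm ζ k x) * Tk ζ k * b) i j) := fun k => by
      rw [pd_Ys h]
      unfold Ys
      rw [Matrix.add_apply, Matrix.smul_apply, smul_eq_mul]
      ring
    simp_rw [this]
    rw [Finset.sum_neg_distrib]
    simp only [Mx]
    ring
  have e2 := exact_G (A := Mx ζ x) (C := _root_.cfc f (Mx ζ x) + Mx ζ x * _root_.cfc (w1 f') (Mx ζ x)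
    - _root_.cfc f'' (Mx ζ x)) (V := _root_.cfc f (Mx ζ x)) (η := Em ζ x) (b := b) (T := Tk ζ)
    (p := fun k => Pm ζ k x) (X := fun k => Xm ζ k x) (t := fun k => x k) (w1 f') f''
    (Z_symm h x) (cfc_comm_self hA _) (fun k => Xm_eq h k x) (Z_eq h x) rfl
  have e3 : ∀ k, KL (w1 f') f'' (Mx ζ x) (Xm ζ k x) = KL f' f'' (Mx ζ x) (Xm ζ k x) := fun k =>
    KL_shift hA f' f'' (1 / 4) _
  simp only [e3] at e2
  have e4 : ∑ k, (x k • (sy (_root_.cfc (w1 f') (Mx ζ x) * Tk ζ k * b) +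
        (1 / 4 : ℝ) • Tk ζ k) - sy (DK (w1 f') f'' (Mx ζ x) (Xm ζ k x) * Tk ζ k * b)) =
      ∑ k, (x k • sy (_root_.cfc (w1 f') (Mx ζ x) * Tk ζ k * b) -
        sy (DK (w1 f') f'' (Mx ζ x) (Xm ζ k x) * Tk ζ k * b)) + (1 / 4 : ℝ) • ∑ k, x k • Tk ζ k := by
    rw [Finset.smul_sum, ← Finset.sum_add_distrib]
    refine Finset.sum_congr rfl fun k _ => ?_
    rw [smul_add, smul_comm (x k) (1 / 4 : ℝ)]
    abel
  rw [e1, cfc_c hA, e4]
  have e5 : (1 / 4 : ℝ) • (Em ζ x - (2 : ℝ) • Re ζ x) =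
      (1 / 4 : ℝ) • Em ζ x - (1 / 2 : ℝ) • Re ζ x := by
    rw [smul_sub, smul_smul]; norm_num
  have e6 : (1 / 4 : ℝ) • Mx ζ x = (1 / 4 : ℝ) • (∑ k, x k • Tk ζ k) + (1 / 4 : ℝ) • Em ζ x := by
    conv_lhs => rw [Z_eq h x]
    rw [smul_add]
  have e7 : (1 / 2 : ℝ) • (Em ζ x - Re ζ x) =
      (1 / 4 : ℝ) • Em ζ x + (1 / 4 : ℝ) • Em ζ x - (1 / 2 : ℝ) • Re ζ x := by
    rw [smul_sub, ← add_smul]; norm_num
  have e8 : _root_.cfc f (Mx ζ x) + Mx ζ x * _root_.cfc (w1 f') (Mx ζ x)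
    - _root_.cfc f'' (Mx ζ x) + (1 / 4 : ℝ) • Mx ζ x - _root_.cfc f (Mx ζ x) =
    (_root_.cfc f (Mx ζ x) + Mx ζ x * _root_.cfc (w1 f') (Mx ζ x)
    - _root_.cfc f'' (Mx ζ x) - _root_.cfc f (Mx ζ x)) + (1 / 4 : ℝ) • Mx ζ x := by abel
  rw [e8, e5, e6, e7]
  have e9 : (_root_.cfc f (Mx ζ x) + Mx ζ x * _root_.cfc (w1 f') (Mx ζ x)
    - _root_.cfc f'' (Mx ζ x) - _root_.cfc f (Mx ζ x)) =
    (sy (_root_.cfc (w1 f') (Mx ζ x) * Em ζ x) +
      sy (_root_.cfc (w1 f') (Mx ζ x) * (∑ k, x k • Tk ζ k) * (1 - b))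
      - sy (_root_.cfc f'' (Mx ζ x) * (1 - (∑ k, Tk ζ k * Tk ζ k) * b))
      + sy (_root_.cfc f'' (Mx ζ x) * (∑ k, Pm ζ k x * Tk ζ k) * b)
      + sy (∑ k, KL f' f'' (Mx ζ x) (Xm ζ k x) * Tk ζ k * b)) +
    ∑ k, (x k • sy (_root_.cfc (w1 f') (Mx ζ x) * Tk ζ k * b) -
        sy (DK (w1 f') f'' (Mx ζ x) (Xm ζ k x) * Tk ζ k * b)) := by
    rw [← e2]; abel
  rw [e9]
  unfold Lm MT
  abel

/-! ### the five parts -/

/-- centred part, first component -/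
def V1P (f' : ℝ → ℝ) (ζ : Fin m → Fin m → E n → ℝ) (k : Fin n) (x : E n) : Mat m :=
  sy (_root_.cfc (w1 f') (Mx ζ x) * Pm ζ k x) + (1 / 4 : ℝ) • (Pm ζ k x - (2 : ℝ) • Rp ζ k x)

/-- centred part, second component -/
def V1G (f' : ℝ → ℝ) (ζ : Fin m → Fin m → E n → ℝ) (x : E n) : Mat m :=
  sy (_root_.cfc (w1 f') (Mx ζ x) * Em ζ x) - (1 / 4 : ℝ) • (Em ζ x - (2 : ℝ) • Re ζ x)

/-- `E |p|²` -/
def p2 (ζ : Fin m → Fin m → E n → ℝ) : ℝ := ∑ k, ∫ x, hs (Pm ζ k x) ∂(gam n)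

/-- `E |η|²` -/
def e2 (ζ : Fin m → Fin m → E n → ℝ) : ℝ := ∫ x, hs (Em ζ x) ∂(gam n)

/-- `|M_T^{1/2} (1 - b)|²` -/
def xi2 (b : Mat m) (ζ : Fin m → Fin m → E n → ℝ) : ℝ := ∑ k, hs (Tk ζ k * (1 - b))

lemma p2_eq (h : Dat ζ lo hi f f' f'') :
    p2 ζ = ∑ k, ∑ i, ∑ j, ∫ x, pd k (eta (ζ i j)) x ^ 2 ∂(gam n) := by
  unfold p2
  exact Finset.sum_congr rfl fun k _ => (m0_Pm h k).int_hs

lemma e2_eq (h : Dat ζ lo hi f f' f'') :
    e2 ζ = ∑ i, ∑ j, ∫ x, eta (ζ i j) x ^ 2 ∂(gam n) := (m0_Em h).int_hs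

lemma p2_nonneg : 0 ≤ p2 ζ := Finset.sum_nonneg fun _ _ => integral_nonneg fun _ => hs_nonneg _

lemma m0_V1P (h : Dat ζ lo hi f f' f'') (k : Fin n) : M0 (V1P f' ζ k) :=
  ((m0_W h).mul (m0_Pm h k)).csy.add (((m0_Pm h k).sub ((m0_Rp h k).smul 2)).smul _)

lemma m0_V1G (h : Dat ζ lo hi f f' f'') : M0 (V1G f' ζ) :=
  ((m0_W h).mul (m0_Em h)).csy.sub (((m0_Em h).sub ((m0_Re h).smul 2)).smul _)

lemma cW (h : Dat ζ lo hi f f' f'') (hw : ∀ z ∈ Icc lo hi, |f' z - 1 / 4| ≤ 1 / 4) (x : E n)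
    (X : Mat m) : hs (sy (_root_.cfc (w1 f') (Mx ζ x) * X)) ≤ 1 / 16 * hs X := by
  have := hs_sy_cfc_le (h.mf.h x) (f := w1 f') (C := 1 / 4)
    (fun a ha => hw a (h.mf.s x ha)) X
  norm_num at this ⊢
  linarith

/-- **the centred part** (74's `cen_le`) -/
theorem V1_le (h : Dat ζ lo hi f f' f'') (hw : ∀ z ∈ Icc lo hi, |f' z - 1 / 4| ≤ 1 / 4) :
    (∑ k, ∫ x, hs (V1P f' ζ k x) ∂(gam n)) + ∫ x, hs (V1G f' ζ x) ∂(gam n) ≤
      1 / 3 * (p2 ζ - e2 ζ) := by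
  have key := cen_le (n := n) (ι := Fin m × Fin m) (f := fun q => eta (ζ q.1 q.2))
    (fun q => c1_eta (h.mf.c q.1 q.2)) (fun q => integral_eta (h.mf.c q.1 q.2))
    (fun q k => integral_pd_eta (h.mf.c q.1 q.2) k)
    (A := fun q k x => sy (_root_.cfc (w1 f') (Mx ζ x) * Pm ζ k x) q.1 q.2)
    (B := fun q x => sy (_root_.cfc (w1 f') (Mx ζ x) * Em ζ x) q.1 q.2)
    (fun q k => ((m0_W h).mul (m0_Pm h k)).csy q.1 q.2)
    (fun q => ((m0_W h).mul (m0_Em h)).csy q.1 q.2)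
    (fun k x => by
      rw [Fintype.sum_prod_type, Fintype.sum_prod_type]
      exact cW h hw x (Pm ζ k x))
    (fun x => by
      rw [Fintype.sum_prod_type, Fintype.sum_prod_type]
      exact cW h hw x (Em ζ x))
  rw [Fintype.sum_prod_type, Fintype.sum_prod_type, Fintype.sum_prod_type,
    Fintype.sum_prod_type] at key
  rw [p2_eq h, e2_eq h, (m0_V1G h).int_hs]
  have a1 : ∑ k, ∫ x, hs (V1P f' ζ k x) ∂(gam n) =
      ∑ k, ∑ i, ∑ j, ∫ x, V1P f' ζ k x i j ^ 2 ∂(gam n) :=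
    Finset.sum_congr rfl fun k _ => (m0_V1P h k).int_hs
  rw [a1]
  have sw : ∀ F : Fin n → Fin m → Fin m → ℝ,
      ∑ k, ∑ i, ∑ j, F k i j = ∑ i, ∑ j, ∑ k, F k i j := fun F => by
    rw [Finset.sum_comm]
    refine Finset.sum_congr rfl fun i _ => ?_
    rw [Finset.sum_comm]
  rw [sw, sw]
  refine le_trans (le_of_eq ?_) key
  congr 1

lemma int_lin_sq (c : Fin n → ℝ) :
    ∫ x : E n, (∑ k, c k * x k) ^ 2 ∂(gam n) = ∑ k, c k ^ 2 := by
  have cl : C1 fun x : E n => ∑ k, c k * x k := C1.sum fun k _ => (c1_coord k).smul _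
  have h0 : ∫ x : E n, ∑ k, c k * x k ∂(gam n) = 0 := by
    rw [integral_finsetSum _ fun k _ => ((c1_coord k).c0.smul (c k)).int]
    simp_rw [integral_const_mul, integral_coord]
    simp
  have h := sq_split cl
  have he : ∀ x, eta (fun x : E n => ∑ k, c k * x k) x = 0 := fun x => by
    unfold eta
    rw [h0]
    simp_rw [pd_lin]
    simp
  simp_rw [he, h0, pd_lin] at h
  simpa using h

/-- `L (1 - b)` -/
lemma int_Lm (b : Mat m) : ∫ x, hs (Lm ζ x * (1 - b)) ∂(gam n) = xi2 b ζ := by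
  have hL : M0 (fun x : E n => Lm ζ x * (1 - b)) :=
    (M0.sum fun k _ => (M0.const (Tk ζ k)).fsmul (c1_coord k).c0).mul (M0.const _)
  rw [hL.int_hs]
  unfold xi2 SpecField321.hs
  have e : ∀ i j, ∫ x, (Lm ζ x * (1 - b)) i j ^ 2 ∂(gam n) =
      ∑ k, (Tk ζ k * (1 - b)) i j ^ 2 := fun i j => by
    rw [← int_lin_sq]
    refine integral_congr_ae (Filter.Eventually.of_forall fun x => ?_)
    simp only
    congr 1
    unfold Lm
    rw [Finset.sum_mul, Matrix.sum_apply]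
    refine Finset.sum_congr rfl fun k _ => ?_
    rw [Matrix.smul_mul, Matrix.smul_apply, smul_eq_mul, mul_comm]
  simp_rw [e]
  rw [Finset.sum_comm' (t' := Finset.univ) (s' := fun _ => Finset.univ) (by simp)]
  have : ∀ F : Fin m → Fin m → Fin n → ℝ,
      ∑ i, ∑ j, ∑ k, F i j k = ∑ k, ∑ i, ∑ j, F i j k := fun F => by
    have : ∀ i, ∑ j, ∑ k, F i j k = ∑ k, ∑ j, F i j k := fun i => Finset.sum_comm
    simp_rw [this]
    rw [Finset.sum_comm]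
  rw [Finset.sum_comm, this]

/-- three-term weighted bound -/
lemma hs3 {a1 a2 a3 : ℝ} (h1 : 0 < a1) (h2 : 0 < a2) (h3 : 0 < a3) (hs1 : a1 + a2 + a3 ≤ 1)
    (X Y Z : Mat m) : hs (X + Y + Z) ≤ hs X / a1 + hs Y / a2 + hs Z / a3 := by
  have h := hs_sum_le (m := m) Finset.univ ![a1, a2, a3]
    (by intro i _; fin_cases i <;> simp [h1, h2, h3]) ![X, Y, Z]
  simp only [Fin.sum_univ_three, Matrix.cons_val_zero, Matrix.cons_val_one,
    Matrix.cons_val_two, Matrix.head_cons, Matrix.tail_cons] at h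
  refine h.trans ?_
  have hn : 0 ≤ hs X / a1 + hs Y / a2 + hs Z / a3 := by
    have := hs_nonneg X; have := hs_nonneg Y; have := hs_nonneg Z
    positivity
  calc (a1 + a2 + a3) * (hs X / a1 + hs Y / a2 + hs Z / a3)
      ≤ 1 * (hs X / a1 + hs Y / a2 + hs Z / a3) := mul_le_mul_of_nonneg_right hs1 hn
    _ = _ := one_mul _

lemma hs5 {a1 a2 a3 a4 a5 : ℝ} (h1 : 0 < a1) (h2 : 0 < a2) (h3 : 0 < a3) (h4 : 0 < a4)
    (h5 : 0 < a5) (hs1 : a1 + a2 + a3 + a4 + a5 ≤ 1) (X Y Z V W : Mat m) :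
    hs (X + Y + Z - V + W) ≤ hs X / a1 + hs Y / a2 + hs Z / a3 + hs V / a4 + hs W / a5 := by
  have h := hs_sum_le (m := m) Finset.univ ![a1, a2, a3, a4, a5]
    (by intro i _; fin_cases i <;> simp [h1, h2, h3, h4, h5]) ![X, Y, Z, -V, W]
  simp only [Fin.sum_univ_five, Matrix.cons_val_zero, Matrix.cons_val_one,
    Matrix.cons_val_two, Matrix.head_cons, Matrix.tail_cons, Matrix.cons_val, hs_neg] at h
  rw [← sub_eq_add_neg] at h
  refine h.trans ?_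
  have hn : 0 ≤ hs X / a1 + hs Y / a2 + hs Z / a3 + hs V / a4 + hs W / a5 := by
    have := hs_nonneg X; have := hs_nonneg Y; have := hs_nonneg Z
    have := hs_nonneg V; have := hs_nonneg W
    positivity
  calc _ ≤ 1 * (hs X / a1 + hs Y / a2 + hs Z / a3 + hs V / a4 + hs W / a5) :=
        mul_le_mul_of_nonneg_right hs1 hn
    _ = _ := one_mul _

/-- hypotheses of the bound -/
structure Bd (ζ : Fin m → Fin m → E n → ℝ) (lo hi : ℝ) (f f' f'' : ℝ → ℝ) (b : Mat m)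
    (K0 a2 al be : ℝ) (Sl : E n → ℝ) : Prop where
  d : Dat ζ lo hi f f' f''
  K0n : 0 ≤ K0
  row : RowC (fun k => Tk ζ k * b) K0
  hw : ∀ z ∈ Icc lo hi, |f' z - 1 / 4| ≤ 1 / 4
  ha : ∀ z ∈ Icc lo hi, |f'' z| ≤ a2
  sl : C0 Sl
  kt : ∀ x, ∑ k, hs (KT f f' (Mx ζ x) (Xm ζ k x)) ≤ al * Sl x
  kl : ∀ x, ∑ k, hs (KL f' f'' (Mx ζ x) (Xm ζ k x)) ≤ be * Sl x

variable {b : Mat m} {K0 a2 al be : ℝ} {Sl : E n → ℝ}

/-- pointwise bound of `P` -/
theorem PP_le (h : Bd ζ lo hi f f' f'' b K0 a2 al be Sl) {w1' w2 w3 : ℝ} (h1 : 0 < w1')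
    (h2 : 0 < w2) (h3 : 0 < w3) (hs1 : w1' + w2 + w3 ≤ 1) (x : E n) :
    ∑ k, hs (PP f f' b ζ k x) ≤ (∑ k, hs (V1P f' ζ k x)) / w1' + al * Sl x / w2 +
      (1 / 16 * xi2 b ζ) / w3 := by
  have a1 : ∀ k, hs (PP f f' b ζ k x) ≤ hs (V1P f' ζ k x) / w1' +
      hs (KT f f' (Mx ζ x) (Xm ζ k x)) / w2 + (1 / 16 * hs (Tk ζ k * (1 - b))) / w3 := fun k => by
    rw [PP_eq h.d]
    refine (hs3 h1 h2 h3 hs1 _ _ _).trans ?_
    have := cW h.d h.hw x (Tk ζ k * (1 - b))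
    rw [← Matrix.mul_assoc] at this
    have := div_le_div_of_nonneg_right this h3.le
    unfold V1P
    linarith
  refine (Finset.sum_le_sum fun k _ => a1 k).trans ?_
  rw [Finset.sum_add_distrib, Finset.sum_add_distrib, ← Finset.sum_div, ← Finset.sum_div,
    ← Finset.sum_div, ← Finset.mul_sum]
  have := div_le_div_of_nonneg_right (h.kt x) h2.le
  unfold xi2
  linarith

/-- pointwise bound of `G` -/
theorem GG_le (h : Bd ζ lo hi f f' f'' b K0 a2 al be Sl) {w1' w2 w3 w4 w5 : ℝ} (h1 : 0 < w1')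
    (h2 : 0 < w2) (h3 : 0 < w3) (h4 : 0 < w4) (h5 : 0 < w5) (hs1 : w1' + w2 + w3 + w4 + w5 ≤ 1)
    (x : E n) :
    hs (GG f f' f'' b ζ x) ≤ hs (V1G f' ζ x) / w1' + K0 * (be * Sl x) / w2 +
      (1 / 16 * hs (Lm ζ x * (1 - b))) / w3 + (a2 ^ 2 * hs (1 - MT ζ * b)) / w4 +
      (a2 ^ 2 * (K0 * ∑ k, hs (Pm ζ k x))) / w5 := by
  have hA := h.d.mf.h x
  rw [GG_eq h.d]
  refine (hs5 h1 h2 h3 h4 h5 hs1 _ _ _ _ _).trans ?_
  have b2 : hs (sy (∑ k, KL f' f'' (Mx ζ x) (Xm ζ k x) * Tk ζ k * b)) ≤ K0 * (be * Sl x) := by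
    refine (hs_sy_le _).trans ?_
    have := hs_sum_mul_le h.K0n h.row (fun k => KL f' f'' (Mx ζ x) (Xm ζ k x))
    simp only [← Matrix.mul_assoc] at this
    exact this.trans (mul_le_mul_of_nonneg_left (h.kl x) h.K0n)
  have b3 := cW h.d h.hw x (Lm ζ x * (1 - b))
  rw [← Matrix.mul_assoc] at b3
  have hf2 : ∀ a ∈ spectrum ℝ (Mx ζ x), |f'' a| ≤ a2 := fun a ha => h.ha a (h.d.mf.s x ha)
  have b4 := hs_sy_cfc_le hA hf2 (1 - MT ζ * b)
  have b5 : hs (sy (_root_.cfc f'' (Mx ζ x) * (∑ k, Pm ζ k x * Tk ζ k) * b)) ≤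
      a2 ^ 2 * (K0 * ∑ k, hs (Pm ζ k x)) := by
    rw [Matrix.mul_assoc]
    refine (hs_sy_cfc_le hA hf2 _).trans (mul_le_mul_of_nonneg_left ?_ (sq_nonneg _))
    rw [Finset.sum_mul]
    have := hs_sum_mul_le h.K0n h.row (fun k => Pm ζ k x)
    simpa only [← Matrix.mul_assoc] using this
  have c2 := div_le_div_of_nonneg_right b2 h2.le
  have c3 := div_le_div_of_nonneg_right b3 h3.le
  have c4 := div_le_div_of_nonneg_right b4 h4.le
  have c5 := div_le_div_of_nonneg_right b5 h5.le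
  unfold V1G
  linarith

/-! ### the final bound -/

/-- the full field `Y_k` -/
def YY (f' : ℝ → ℝ) (b : Mat m) (ζ : Fin m → Fin m → E n → ℝ) (i j : Fin m) (k : Fin n) (x : E n) :
    ℝ := Ys f' b ζ k i j x + 1 / 2 * pd k (Rs (eta (ζ i j))) x

/-- the field `U = f(ζ)` -/
def UU (f : ℝ → ℝ) (ζ : Fin m → Fin m → E n → ℝ) (i j : Fin m) (x : E n) : ℝ :=
  _root_.cfc f (Mx ζ x) i j

lemma c0_YY (h : Dat ζ lo hi f f' f'') (b : Mat m) (i j : Fin m) (k : Fin n) :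
    C0 (YY f' b ζ i j k) :=
  (c1_Ys h b k i j).c0.add (((c1_Rs (c1_eta (h.mf.c i j))).p0 k).smul _)

lemma c1_UU (h : Dat ζ lo hi f f' f'') (i j : Fin m) : C1 (UU f ζ i j) := c1_U h i j

lemma PP_apply (b : Mat m) (k : Fin n) (x : E n) (i j : Fin m) :
    PP f f' b ζ k x i j = pd k (UU f ζ i j) x - YY f' b ζ i j k x := rfl

lemma m0_PP (h : Dat ζ lo hi f f' f'') (b : Mat m) (k : Fin n) : M0 (PP f f' b ζ k) := by
  intro i j
  exact ((c1_UU h i j).p0 k).sub (c0_YY h b i j k)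

/-- `M = c(ζ)` -/
structure Mc (ζ M : Fin m → Fin m → E n → ℝ) (f f' f'' : ℝ → ℝ) : Prop where
  c : ∀ i j, C1 (M i j)
  e : ∀ i j x, M i j x = _root_.cfc (fun z => f z + z * f' z - f'' z) (Mx ζ x) i j

/-- the remainder field -/
def GF (f' : ℝ → ℝ) (f : ℝ → ℝ) (b : Mat m) (ζ M : Fin m → Fin m → E n → ℝ) (i j : Fin m)
    (x : E n) : ℝ :=
  (M i j x - UU f ζ i j x + ∑ k, (pd k (Ys f' b ζ k i j) x - x k * Ys f' b ζ k i j x)) -
    1 / 2 * (eta (ζ i j) x - Rs (eta (ζ i j)) x)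

variable {M : Fin m → Fin m → E n → ℝ}

lemma GF_eq (hM : Mc ζ M f f' f'') (b : Mat m) (i j : Fin m) (x : E n) :
    GF f' f b ζ M i j x = GG f f' f'' b ζ x i j := by
  simp only [GF, GG, Mx, Matrix.of_apply, hM.e i j x]
  rfl

lemma c0_GS (h : Dat ζ lo hi f f' f'') (hM : Mc ζ M f f' f'') (b : Mat m) (i j : Fin m) :
    C0 (fun x => M i j x - UU f ζ i j x + ∑ k, (pd k (Ys f' b ζ k i j) x -
      x k * Ys f' b ζ k i j x)) :=
  ((hM.c i j).c0.sub (c1_UU h i j).c0).add (C0.sum fun k _ =>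
    ((c1_Ys h b k i j).p0 k).sub ((c1_coord k).c0.mul (c1_Ys h b k i j).c0))

lemma c0_GF (h : Dat ζ lo hi f f' f'') (hM : Mc ζ M f f' f'') (b : Mat m) (i j : Fin m) :
    C0 (GF f' f b ζ M i j) :=
  (c0_GS h hM b i j).sub (((c1_eta (h.mf.c i j)).c0.sub
    (c1_Rs (c1_eta (h.mf.c i j))).c0).smul _)

/-- **(D3)** the weak identity `M = U + D*Y + G` -/
theorem wk (h : Dat ζ lo hi f f' f'') (hM : Mc ζ M f f' f'') (b : Mat m) (i j : Fin m) :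
    Wk (M i j) (UU f ζ i j) (YY f' b ζ i j) (GF f' f b ζ M i j) :=
  Wk.add_res (fun k => (c1_Ys h b k i j).c0) (c0_GS h hM b i j)
    (Wk.of_c1 (hM.c i j).c0 (c1_UU h i j).c0 fun k => c1_Ys h b k i j) (c1_eta (h.mf.c i j)) (1 / 2)

lemma m0_GG (h : Dat ζ lo hi f f' f'') (hM : Mc ζ M f f' f'') (b : Mat m) :
    M0 (GG f f' f'' b ζ) := by
  intro i j
  have := c0_GF h hM b i j
  have e : (fun x => GG f f' f'' b ζ x i j) = GF f' f b ζ M i j := by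
    funext x; exact (GF_eq hM b i j x).symm
  rw [e]
  exact this

/-- the right side of the dual bound -/
def RHS (ζ : Fin m → Fin m → E n → ℝ) (b : Mat m) (K0 a2 al be : ℝ) (Sl : E n → ℝ)
    (w1' w2 w3 w4 w5 : ℝ) : ℝ :=
  1 / 3 * (p2 ζ - e2 ζ) / w1' + (al + K0 * be) * (∫ x, Sl x ∂(gam n)) / w2 + 1 / 8 * xi2 b ζ / w3 +
    a2 ^ 2 * hs (1 - MT ζ * b) / w4 + a2 ^ 2 * K0 * p2 ζ / w5

theorem D1m (h : Bd ζ lo hi f f' f'' b K0 a2 al be Sl) (hM : Mc ζ M f f' f'')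
    {w1' w2 w3 w4 w5 : ℝ} (h1 : 0 < w1')
    (h2 : 0 < w2) (h3 : 0 < w3) (h4 : 0 < w4) (h5 : 0 < w5) (hs1 : w1' + w2 + w3 + w4 + w5 ≤ 1) :
    (∑ k, ∫ x, hs (PP f f' b ζ k x) ∂(gam n)) + ∫ x, hs (GG f f' f'' b ζ x) ∂(gam n) ≤
      RHS ζ b K0 a2 al be Sl w1' w2 w3 w4 w5 := by
  have cV : ∀ k, C0 fun x => hs (V1P f' ζ k x) := fun k => (m0_V1P h.d k).chs
  have cVG : C0 fun x => hs (V1G f' ζ x) := (m0_V1G h.d).chs
  have cL : C0 fun x : E n => hs (Lm ζ x * (1 - b)) :=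
    M0.chs ((M0.sum fun k _ => (M0.const (Tk ζ k)).fsmul (c1_coord k).c0).mul (M0.const _))
  have cp : ∀ k, C0 fun x => hs (Pm ζ k x) := fun k => (m0_Pm h.d k).chs
  -- P
  have i1 : Integrable (fun x => (∑ k, hs (V1P f' ζ k x)) * w1'⁻¹ + Sl x * (al / w2) +
      (1 / 16 * xi2 b ζ) / w3) (gam n) := by
    refine C0.int ?_
    exact (((C0.sum fun k _ => cV k).mul (C0.const _)).add (h.sl.mul (C0.const _))).add (C0.const _)
  have I1 : ∑ k, ∫ x, hs (PP f f' b ζ k x) ∂(gam n) ≤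
      (∑ k, ∫ x, hs (V1P f' ζ k x) ∂(gam n)) / w1' + al * (∫ x, Sl x ∂(gam n)) / w2 +
        (1 / 16 * xi2 b ζ) / w3 := by
    rw [← integral_finsetSum _ fun k _ => (m0_PP h.d b k).chs.int]
    have hm := integral_mono (C0.sum fun k _ => (m0_PP h.d b k).chs).int i1 fun x => by
      have := PP_le h h1 h2 h3 (by linarith) x
      simp only
      calc _ ≤ _ := this
        _ = _ := by ring
    refine hm.trans (le_of_eq ?_)
    have j1 : Integrable (fun x => (∑ k, hs (V1P f' ζ k x)) * w1'⁻¹) (gam n) :=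
      ((C0.sum fun k _ => cV k).mul (C0.const _)).int
    have j2 : Integrable (fun x => Sl x * (al / w2)) (gam n) := (h.sl.mul (C0.const _)).int
    have j12 : Integrable (fun x => (∑ k, hs (V1P f' ζ k x)) * w1'⁻¹ + Sl x * (al / w2)) (gam n) :=
      j1.add j2
    rw [integral_add j12 (integrable_const _), integral_add j1 j2, integral_mul_const,
      integral_mul_const, integral_finsetSum _ fun k _ => (cV k).int, integral_const]
    simp only [probReal_univ, one_smul]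
    ring
  -- G
  have i2 : Integrable (fun x => hs (V1G f' ζ x) * w1'⁻¹ + Sl x * (K0 * be / w2) +
      hs (Lm ζ x * (1 - b)) * (1 / 16 / w3) + (∑ k, hs (Pm ζ k x)) * (a2 ^ 2 * K0 / w5) +
      (a2 ^ 2 * hs (1 - MT ζ * b)) / w4) (gam n) := by
    refine C0.int ?_
    exact ((((cVG.mul (C0.const _)).add (h.sl.mul (C0.const _))).add (cL.mul (C0.const _))).add
      ((C0.sum fun k _ => cp k).mul (C0.const _))).add (C0.const _)
  have I2 : ∫ x, hs (GG f f' f'' b ζ x) ∂(gam n) ≤ (∫ x, hs (V1G f' ζ x) ∂(gam n)) / w1' +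
      K0 * be * (∫ x, Sl x ∂(gam n)) / w2 + (1 / 16 * xi2 b ζ) / w3 +
      (a2 ^ 2 * hs (1 - MT ζ * b)) / w4 + a2 ^ 2 * K0 * p2 ζ / w5 := by
    have hm := integral_mono (m0_GG h.d hM b).chs.int i2 fun x => by
      have := GG_le h h1 h2 h3 h4 h5 hs1 x
      simp only
      calc _ ≤ _ := this
        _ = _ := by ring
    refine hm.trans (le_of_eq ?_)
    have j1 : Integrable (fun x => hs (V1G f' ζ x) * w1'⁻¹) (gam n) := (cVG.mul (C0.const _)).int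
    have j2 : Integrable (fun x => Sl x * (K0 * be / w2)) (gam n) := (h.sl.mul (C0.const _)).int
    have j3 : Integrable (fun x => hs (Lm ζ x * (1 - b)) * (1 / 16 / w3)) (gam n) :=
      (cL.mul (C0.const _)).int
    have j4 : Integrable (fun x => (∑ k, hs (Pm ζ k x)) * (a2 ^ 2 * K0 / w5)) (gam n) :=
      ((C0.sum fun k _ => cp k).mul (C0.const _)).int
    have j12 : Integrable (fun x => hs (V1G f' ζ x) * w1'⁻¹ + Sl x * (K0 * be / w2)) (gam n) :=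
      j1.add j2
    have j123 : Integrable (fun x => hs (V1G f' ζ x) * w1'⁻¹ + Sl x * (K0 * be / w2) +
      hs (Lm ζ x * (1 - b)) * (1 / 16 / w3)) (gam n) := j12.add j3
    have j1234 : Integrable (fun x => hs (V1G f' ζ x) * w1'⁻¹ + Sl x * (K0 * be / w2) +
      hs (Lm ζ x * (1 - b)) * (1 / 16 / w3) + (∑ k, hs (Pm ζ k x)) * (a2 ^ 2 * K0 / w5)) (gam n) :=
      j123.add j4
    rw [integral_add j1234 (integrable_const _), integral_add j123 j4, integral_add j12 j3,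
      integral_add j1 j2, integral_mul_const, integral_mul_const, integral_mul_const,
      integral_mul_const, int_Lm, integral_finsetSum _ fun k _ => (cp k).int, integral_const]
    simp only [probReal_univ, one_smul]
    unfold p2
    ring
  have I3 := V1_le h.d h.hw
  have I4 : ((∑ k, ∫ x, hs (V1P f' ζ k x) ∂(gam n)) + ∫ x, hs (V1G f' ζ x) ∂(gam n)) / w1' ≤
      1 / 3 * (p2 ζ - e2 ζ) / w1' := div_le_div_of_nonneg_right I3 h1.le
  have e1 : ((∑ k, ∫ x, hs (V1P f' ζ k x) ∂(gam n)) + ∫ x, hs (V1G f' ζ x) ∂(gam n)) / w1' =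
      (∑ k, ∫ x, hs (V1P f' ζ k x) ∂(gam n)) / w1' + (∫ x, hs (V1G f' ζ x) ∂(gam n)) / w1' :=
    add_div _ _ _
  have e2' : (al + K0 * be) * (∫ x, Sl x ∂(gam n)) / w2 = al * (∫ x, Sl x ∂(gam n)) / w2 +
      K0 * be * (∫ x, Sl x ∂(gam n)) / w2 := by ring
  have e3 : 1 / 8 * xi2 b ζ / w3 = (1 / 16 * xi2 b ζ) / w3 + (1 / 16 * xi2 b ζ) / w3 := by ring
  unfold RHS
  rw [e2', e3]
  linarith

/-- **(D1)** in entries -/
theorem D1 (h : Bd ζ lo hi f f' f'' b K0 a2 al be Sl) (hM : Mc ζ M f f' f'')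
    {w1' w2 w3 w4 w5 : ℝ} (h1 : 0 < w1')
    (h2 : 0 < w2) (h3 : 0 < w3) (h4 : 0 < w4) (h5 : 0 < w5) (hs1 : w1' + w2 + w3 + w4 + w5 ≤ 1) :
    (∑ i, ∑ j, ∑ k, ∫ x, (pd k (UU f ζ i j) x - YY f' b ζ i j k x) ^ 2 ∂(gam n)) +
      ∑ i, ∑ j, ∫ x, GF f' f b ζ M i j x ^ 2 ∂(gam n) ≤
      RHS ζ b K0 a2 al be Sl w1' w2 w3 w4 w5 := by
  refine le_trans (le_of_eq ?_) (D1m h hM h1 h2 h3 h4 h5 hs1)
  rw [(m0_GG h.d hM b).int_hs]
  have a1 : ∑ k, ∫ x, hs (PP f f' b ζ k x) ∂(gam n) =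
      ∑ k, ∑ i, ∑ j, ∫ x, PP f f' b ζ k x i j ^ 2 ∂(gam n) :=
    Finset.sum_congr rfl fun k _ => (m0_PP h.d b k).int_hs
  rw [a1]
  congr 1
  · rw [Finset.sum_comm (s := (Finset.univ : Finset (Fin n)))]
    refine Finset.sum_congr rfl fun i _ => ?_
    rw [Finset.sum_comm (s := (Finset.univ : Finset (Fin n)))]
    rfl
  · refine Finset.sum_congr rfl fun i _ => Finset.sum_congr rfl fun j _ => ?_
    refine integral_congr_ae (Filter.Eventually.of_forall fun x => ?_)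
    simp only
    rw [GF_eq hM]

/-- **(D2)** the bound of `⟨M, R M⟩` -/
theorem D2 (h : Bd ζ lo hi f f' f'' b K0 a2 al be Sl) (hM : Mc ζ M f f' f'')
    {w1' w2 w3 w4 w5 : ℝ} (h1 : 0 < w1')
    (h2 : 0 < w2) (h3 : 0 < w3) (h4 : 0 < w4) (h5 : 0 < w5) (hs1 : w1' + w2 + w3 + w4 + w5 ≤ 1) :
    ∑ i, ∑ j, ∫ x, M i j x * Rs (M i j) x ∂(gam n) ≤
      2 * (∑ i, ∑ j, ∫ x, UU f ζ i j x * M i j x ∂(gam n)) -
      (∑ i, ∑ j, ∫ x, UU f ζ i j x ^ 2 ∂(gam n)) -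
      (∑ i, ∑ j, ∑ k, ∫ x, pd k (UU f ζ i j) x ^ 2 ∂(gam n)) +
      RHS ζ b K0 a2 al be Sl w1' w2 w3 w4 w5 := by
  have key : ∀ i j, _ := fun i j => res_le_weak (hM.c i j) (c1_UU h.d i j)
    (fun k => c0_YY h.d b i j k) (c0_GF h.d hM b i j) (wk h.d hM b i j)
  have hsum := Finset.sum_le_sum fun i (_ : i ∈ Finset.univ) =>
    Finset.sum_le_sum fun j (_ : j ∈ Finset.univ) => key i j
  simp only [Finset.sum_add_distrib, Finset.sum_sub_distrib, ← Finset.mul_sum] at hsum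
  have := D1 h hM h1 h2 h3 h4 h5 hs1
  linarith

end

end Crest.Agent.R253.Dual192
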