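import Crest.Agent.R253.S3_649
import Crest.Agent.R253.Jord_192
import Crest.Agent.R253.Chaos_74

/-!
# R253: three facts for the large eigenvalues of `M_T` (helper427)

* `hs_cfc_lip`: spectral functions are Lipschitz in the Hilbert–Schmidt norm;
* `EE_even`, `EE_cfc_neg`, `EE_pos_Z1`: evenness of `Z₁ = Σ x_k T_k`;
* `pos_lower`: `E hs (C ζ₊) ≥ (1-s) (1/2) Σ hs (C T_k) - (1/s - 1) E hs (ζ - Z₁)`.
-/

set_option autoImplicit false

open MeasureTheory ProbabilityTheory Set Filter Topology Matrix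
open scoped ContDiff

noncomputable section

namespace Crest.Agent.R253.EvenHS427

open Crest.Agent.R238.Gap Crest.Agent.R253.Meh74 Crest.Agent.R253.SpecCalc999
  Crest.Agent.R253.SpecField321 Crest.Agent.R253.S3 Crest.Agent.R253.Jord192

variable {m n : ℕ}

/-! ### Hilbert–Schmidt Lipschitz -/

lemma hs_conj2 {U W : Mat m} (hU : U * Uᵀ = 1) (hW : W * Wᵀ = 1) (X : Mat m) :
    hs (Uᵀ * X * W) = hs X := by
  rw [hs_eq, hs_eq, Matrix.transpose_mul, Matrix.transpose_mul, Matrix.transpose_transpose]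
  calc (Wᵀ * (Xᵀ * U) * (Uᵀ * X * W)).trace = (Wᵀ * (Xᵀ * (U * Uᵀ) * X * W)).trace := by
        simp only [Matrix.mul_assoc]
    _ = (Wᵀ * (Xᵀ * X * W)).trace := by rw [hU, Matrix.mul_one]
    _ = (Xᵀ * X).trace := by rw [Matrix.trace_mul_comm, Matrix.mul_assoc, hW, Matrix.mul_one]

lemma conj2_left {A U W : Mat m} {s : Fin m → ℝ} (h : Fr A U s) (f : ℝ → ℝ) :
    Uᵀ * _root_.cfc f A * W = Matrix.diagonal (fun i => f (s i)) * (Uᵀ * W) := by
  rw [← h.cfc f]
  calc Uᵀ * _root_.cfc f A * W = Uᵀ * _root_.cfc f A * (1 * W) := by rw [Matrix.one_mul]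
    _ = Uᵀ * _root_.cfc f A * ((U * Uᵀ) * W) := by rw [h.o']
    _ = _ := by simp only [Matrix.mul_assoc]

lemma conj2_right {B U W : Mat m} {t : Fin m → ℝ} (h : Fr B W t) (f : ℝ → ℝ) :
    Uᵀ * _root_.cfc f B * W = (Uᵀ * W) * Matrix.diagonal (fun i => f (t i)) := by
  rw [← h.cfc f]
  calc Uᵀ * _root_.cfc f B * W = Uᵀ * (1 * _root_.cfc f B) * W := by rw [Matrix.one_mul]
    _ = Uᵀ * ((W * Wᵀ) * _root_.cfc f B) * W := by rw [h.o']
    _ = _ := by simp only [Matrix.mul_assoc]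

lemma conj2_sub {A B U W : Mat m} {s t : Fin m → ℝ} (hA : Fr A U s) (hB : Fr B W t)
    (f : ℝ → ℝ) (i j : Fin m) :
    (Uᵀ * (_root_.cfc f A - _root_.cfc f B) * W) i j = (f (s i) - f (t j)) * (Uᵀ * W) i j := by
  rw [Matrix.mul_sub, Matrix.sub_mul, conj2_left hA, conj2_right hB, Matrix.sub_apply,
    Matrix.diagonal_mul, Matrix.mul_diagonal]
  ring

/-- spectral functions are Lipschitz in the Hilbert–Schmidt norm (only on the spectra) -/
theorem hs_cfc_lip_on {A B : Mat m} (hA : A.IsHermitian) (hB : B.IsHermitian) {f : ℝ → ℝ} {L : ℝ}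
    (hf : ∀ x ∈ spectrum ℝ A, ∀ y ∈ spectrum ℝ B, |f x - f y| ≤ L * |x - y|) :
    hs (_root_.cfc f A - _root_.cfc f B) ≤ L ^ 2 * hs (A - B) := by
  obtain ⟨U, hU⟩ := exists_fr hA
  obtain ⟨W, hW⟩ := exists_fr hB
  have eA : A - B = _root_.cfc (fun t : ℝ => t) A - _root_.cfc (fun t : ℝ => t) B := by
    rw [cfc_id'' hA, cfc_id'' hB]
  rw [eA, ← hs_conj2 hU.o' hW.o' (_root_.cfc f A - _root_.cfc f B),
    ← hs_conj2 hU.o' hW.o' (_root_.cfc (fun t : ℝ => t) A - _root_.cfc (fun t : ℝ => t) B)]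
  unfold hs
  rw [Finset.mul_sum]
  refine Finset.sum_le_sum fun i _ => ?_
  rw [Finset.mul_sum]
  refine Finset.sum_le_sum fun j _ => ?_
  rw [conj2_sub hU hW, conj2_sub hU hW, mul_pow, mul_pow, ← mul_assoc]
  refine mul_le_mul_of_nonneg_right ?_ (sq_nonneg _)
  have h := hf _ (hU.mem_spec i) _ (hW.mem_spec j)
  have h2 := pow_le_pow_left₀ (abs_nonneg _) h 2
  rwa [mul_pow, sq_abs, sq_abs] at h2

theorem hs_cfc_lip {A B : Mat m} (hA : A.IsHermitian) (hB : B.IsHermitian) {f : ℝ → ℝ} {L : ℝ}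
    (hf : ∀ x y, |f x - f y| ≤ L * |x - y|) :
    hs (_root_.cfc f A - _root_.cfc f B) ≤ L ^ 2 * hs (A - B) :=
  hs_cfc_lip_on hA hB fun x _ y _ => hf x y

lemma pos_lip (x y : ℝ) : |max x 0 - max y 0| ≤ 1 * |x - y| := by
  rw [one_mul]
  exact abs_max_sub_max_le_abs x y 0

/-- `A ↦ A₊` is 1-Lipschitz in the Hilbert–Schmidt norm -/
theorem hs_pos_lip {A B : Mat m} (hA : A.IsHermitian) (hB : B.IsHermitian) :
    hs (_root_.cfc (fun t : ℝ => max t 0) A - _root_.cfc (fun t : ℝ => max t 0) B)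
      ≤ hs (A - B) := by
  have h := hs_cfc_lip hA hB (f := fun t : ℝ => max t 0) (L := 1) pos_lip
  rwa [one_pow, one_mul] at h

/-! ### regularity of `cfc f F` -/

lemma herm_zero : (0 : Mat m).IsHermitian := by
  unfold Matrix.IsHermitian
  rw [Matrix.conjTranspose_zero]

lemma cgm_cfc_lip {F : E n → Mat n} (hF : CGm F) (hH : ∀ x, (F x).IsHermitian) {f : ℝ → ℝ}
    {L : ℝ} (hf : ∀ x y, |f x - f y| ≤ L * |x - y|) : CGm fun x => _root_.cfc f (F x) := by
  intro i j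
  constructor
  · rw [continuous_iff_continuousAt]
    intro x0
    have hc : Continuous fun x => hs (F x - F x0) :=
      (cg_hs (hF.sub (cgm_const (F x0)))).c
    have ht : Tendsto (fun x => L ^ 2 * hs (F x - F x0)) (𝓝 x0) (𝓝 0) := by
      have h1 : Tendsto (fun x => L ^ 2 * hs (F x - F x0)) (𝓝 x0) (𝓝 (L ^ 2 * hs (F x0 - F x0))) :=
        (hc.const_mul (L ^ 2)).continuousAt
      rwa [sub_self, hs_zero, mul_zero] at h1
    rw [ContinuousAt, tendsto_iff_dist_tendsto_zero]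
    have h2 : Tendsto (fun x => √(L ^ 2 * hs (F x - F x0))) (𝓝 x0) (𝓝 0) := by
      have := (Real.continuous_sqrt.tendsto 0).comp ht
      rwa [Real.sqrt_zero] at this
    refine squeeze_zero (fun _ => dist_nonneg) (fun x => ?_) h2
    rw [Real.dist_eq]
    refine Real.abs_le_sqrt ?_
    have h3 := sq_le_hs (_root_.cfc f (F x) - _root_.cfc f (F x0)) i j
    rw [Matrix.sub_apply] at h3
    exact h3.trans (hs_cfc_lip (hH x) (hH x0) hf)
  · have hg : CG fun x => 1 + (2 * L ^ 2 * hs (F x - 0) + 2 * hs (_root_.cfc f (0 : Mat n))) :=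
      (cg_const 1).add (((cg_hs (hF.sub (cgm_const 0))).smul (2 * L ^ 2)).add (cg_const _))
    obtain ⟨K, k, hK⟩ := hg.g
    refine ⟨K, k, fun x => le_trans ?_ (hK x)⟩
    refine le_trans ?_ (le_abs_self _)
    have h1 := hs_cfc_lip (hH x) (herm_zero (m := n)) hf
    have h2 := hs_add_le (θ := 1) one_pos (_root_.cfc f (F x) - _root_.cfc f (0 : Mat n))
      (_root_.cfc f (0 : Mat n))
    rw [sub_add_cancel] at h2
    have h3 := sq_le_hs (_root_.cfc f (F x)) i j
    have h4 : |_root_.cfc f (F x) i j| ≤ 1 + _root_.cfc f (F x) i j ^ 2 := by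
      have := sq_abs (_root_.cfc f (F x) i j)
      nlinarith [sq_nonneg (|_root_.cfc f (F x) i j| - 1), abs_nonneg (_root_.cfc f (F x) i j)]
    have h5 : (1 : ℝ) + 1⁻¹ = 2 := by norm_num
    have h6 : (1 : ℝ) + 1 = 2 := by norm_num
    rw [h5, h6] at h2
    show |_root_.cfc f (F x) i j| ≤
      1 + (2 * L ^ 2 * hs (F x - 0) + 2 * hs (_root_.cfc f (0 : Mat n)))
    linarith

/-! ### evenness -/

lemma integral_neg_gam (g : E n → ℝ) : ∫ x, g (-x) ∂(gam n) = ∫ x, g x ∂(gam n) := by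
  have h := stdGaussian_map (LinearIsometryEquiv.neg ℝ (E := E n))
  have h1 : (gam n).map (fun x : E n => -x) = gam n := h
  have h2 : MeasurePreserving (MeasurableEquiv.neg (E n)) (gam n) (gam n) :=
    ⟨(MeasurableEquiv.neg (E n)).measurable, h1⟩
  exact h2.integral_comp' g

/-- `E g(-x) = E g(x)` -/
lemma EE_even (g : E n → ℝ) : EE (fun x => g (-x)) = EE g := integral_neg_gam g

/-- `Z₁ = Σ x_k T_k` -/
def Z1 (T : Fin n → Mat n) (x : E n) : Mat n := ∑ k, x k • T k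

lemma Z1_neg (T : Fin n → Mat n) (x : E n) : Z1 T (-x) = -Z1 T x := by
  unfold Z1
  rw [← Finset.sum_neg_distrib]
  refine Finset.sum_congr rfl fun k _ => ?_
  rw [PiLp.neg_apply, neg_smul]

lemma cgm_Z1 (T : Fin n → Mat n) : CGm (Z1 T) := cgm_lin T

lemma herm_Z1 {T : Fin n → Mat n} (hT : ∀ k, (T k).IsHermitian) (x : E n) :
    (Z1 T x).IsHermitian := by
  unfold Z1 Matrix.IsHermitian
  rw [Matrix.conjTranspose_sum]
  refine Finset.sum_congr rfl fun k _ => ?_
  rw [Matrix.conjTranspose_smul, hT k]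
  simp

lemma cfc_neg_arg {A : Mat m} (hA : A.IsHermitian) (f : ℝ → ℝ) :
    _root_.cfc f (-A) = _root_.cfc (fun t => f (-t)) A := by
  obtain ⟨U, hU⟩ := exists_fr hA
  have hN : Fr (-A) U (fun i => -hA.eigenvalues i) := by
    refine ⟨hU.o, ?_⟩
    rw [Matrix.mul_neg, Matrix.neg_mul, hU.d, ← Matrix.diagonal_neg]
  exact conj_inj hU.o' (by rw [hN.cfc, hU.cfc])

/-- `E Φ(f(Z₁)) = E Φ(f(-Z₁))` for every function `Φ` of the matrix -/
theorem EE_cfc_neg {T : Fin n → Mat n} (hT : ∀ k, (T k).IsHermitian) (f : ℝ → ℝ)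
    (Φ : Mat n → ℝ) :
    EE (fun x => Φ (_root_.cfc f (Z1 T x))) =
      EE (fun x => Φ (_root_.cfc (fun t => f (-t)) (Z1 T x))) := by
  rw [← EE_even]
  refine EE_congr fun x => ?_
  rw [Z1_neg, cfc_neg_arg (herm_Z1 hT x)]

/-- Pythagoras for a constant row factor: `f² + g² = h²` on the spectrum -/
lemma hs_row_add {A : Mat m} (hA : A.IsHermitian) {f g h : ℝ → ℝ}
    (hfg : ∀ x ∈ spectrum ℝ A, f x ^ 2 + g x ^ 2 = h x ^ 2) (C : Mat m) :
    hs (C * _root_.cfc f A) + hs (C * _root_.cfc g A) = hs (C * _root_.cfc h A) := by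
  obtain ⟨U, hU⟩ := exists_fr hA
  have key : ∀ g : ℝ → ℝ, hs (C * _root_.cfc g A) =
      ∑ i, ∑ j, g (hA.eigenvalues j) ^ 2 * (C * U) i j ^ 2 := by
    intro g
    have h1 : (1 : Mat m) * (1 : Mat m)ᵀ = 1 := by rw [Matrix.transpose_one, Matrix.mul_one]
    rw [← hs_conj2 h1 hU.o' (C * _root_.cfc g A)]
    have h2 : (1 : Mat m)ᵀ * (C * _root_.cfc g A) * U =
        (C * U) * Matrix.diagonal fun i => g (hA.eigenvalues i) := by
      rw [Matrix.transpose_one, Matrix.one_mul, ← hU.cfc g]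
      calc C * _root_.cfc g A * U = C * (1 * _root_.cfc g A) * U := by rw [Matrix.one_mul]
        _ = C * ((U * Uᵀ) * _root_.cfc g A) * U := by rw [hU.o']
        _ = _ := by simp only [Matrix.mul_assoc]
    rw [h2]
    unfold hs
    refine Finset.sum_congr rfl fun i _ => Finset.sum_congr rfl fun j _ => ?_
    rw [Matrix.mul_diagonal]
    ring
  rw [key, key, key, ← Finset.sum_add_distrib]
  refine Finset.sum_congr rfl fun i _ => ?_
  rw [← Finset.sum_add_distrib]
  refine Finset.sum_congr rfl fun j _ => ?_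
  rw [← hfg _ (hU.mem_spec j)]
  ring

lemma cgm_mul_const {F : E n → Mat n} (C : Mat n) (hF : CGm F) : CGm fun x => C * F x :=
  (cgm_const C).mul hF

/-- `E hs (C Z₁) = Σ hs (C T_k)` -/
theorem EE_hs_Z1 (T : Fin n → Mat n) (C : Mat n) :
    EE (fun x => hs (C * Z1 T x)) = ∑ k, hs (C * T k) := by
  have e : ∀ x : E n, hs (C * Z1 T x) =
      ∑ i, ∑ j, ∑ k, ∑ l, ((C * T k) i j * (C * T l) i j) * (x k * x l) := by
    intro x
    unfold hs
    refine Finset.sum_congr rfl fun i _ => Finset.sum_congr rfl fun j _ => ?_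
    have h1 : (C * Z1 T x) i j = ∑ k, x k * (C * T k) i j := by
      unfold Z1
      rw [Matrix.mul_sum, Matrix.sum_apply]
      refine Finset.sum_congr rfl fun k _ => ?_
      rw [Matrix.mul_smul, Matrix.smul_apply, smul_eq_mul]
    rw [h1, sq, Finset.sum_mul_sum]
    refine Finset.sum_congr rfl fun k _ => Finset.sum_congr rfl fun l _ => ?_
    ring
  have ckl : ∀ k l : Fin n, CG fun x : E n => x k * x l := fun k l =>
    (cg_coord k).mul (cg_coord l)
  have hkl : ∀ k l : Fin n, EE (fun x : E n => x k * x l) = if k = l then 1 else 0 := by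
    intro k l
    have h := ibp_gam (n := n) (c1_coord k).c (c1_coord k).g l ((c1_coord k).p l)
    have h2 : ∀ x : E n, pd l (fun x : E n => x k) x = if k = l then 1 else 0 := by
      intro x
      exact pd_coord l k x
    unfold EE
    rw [h]
    simp only [h2]
    simp
  rw [EE_congr e]
  rw [EE_sum fun i _ => CG.sum fun j _ => CG.sum fun k _ => CG.sum fun l _ => (ckl k l).smul _]
  have e2 : ∀ i : Fin n, EE (fun x : E n => ∑ j, ∑ k, ∑ l,
      ((C * T k) i j * (C * T l) i j) * (x k * x l)) = ∑ j, ∑ k, (C * T k) i j ^ 2 := by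
    intro i
    rw [EE_sum fun j _ => CG.sum fun k _ => CG.sum fun l _ => (ckl k l).smul _]
    refine Finset.sum_congr rfl fun j _ => ?_
    rw [EE_sum fun k _ => CG.sum fun l _ => (ckl k l).smul _]
    refine Finset.sum_congr rfl fun k _ => ?_
    rw [EE_sum fun l _ => (ckl k l).smul _]
    simp only [EE_smul, hkl]
    rw [Finset.sum_eq_single k]
    · simp [sq]
    · intro l _ hl
      simp [Ne.symm hl]
    · intro h
      exact absurd (Finset.mem_univ k) h
  simp only [e2]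
  unfold hs
  have e3 : ∀ i : Fin n, ∑ j, ∑ k, (C * T k) i j ^ 2 = ∑ k, ∑ j, (C * T k) i j ^ 2 :=
    fun i => Finset.sum_comm
  simp only [e3]
  rw [Finset.sum_comm]

lemma cgm_pos_Z1 {T : Fin n → Mat n} (hT : ∀ k, (T k).IsHermitian) :
    CGm fun x => _root_.cfc (fun t : ℝ => max t 0) (Z1 T x) :=
  cgm_cfc_lip (cgm_Z1 T) (herm_Z1 hT) pos_lip

/-- `E hs (C (Z₁)₊) = (1/2) Σ hs (C T_k)` -/
theorem EE_pos_Z1 {T : Fin n → Mat n} (hT : ∀ k, (T k).IsHermitian) (C : Mat n) :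
    EE (fun x => hs (C * _root_.cfc (fun t : ℝ => max t 0) (Z1 T x))) =
      (1 / 2) * ∑ k, hs (C * T k) := by
  have h1 := EE_cfc_neg hT (fun t : ℝ => max t 0) (fun X => hs (C * X))
  have cN : CGm fun x => _root_.cfc (fun t : ℝ => max (-t) 0) (Z1 T x) :=
    cgm_cfc_lip (L := 1) (cgm_Z1 T) (herm_Z1 hT) fun x y => by
      rw [one_mul]
      refine (abs_max_sub_max_le_abs (-x) (-y) 0).trans (le_of_eq ?_)
      rw [← abs_neg]
      congr 1
      ring
  have c1 := cg_hs (cgm_mul_const C (cgm_pos_Z1 hT))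
  have c2 := cg_hs (cgm_mul_const C cN)
  have h2 : EE (fun x => hs (C * _root_.cfc (fun t : ℝ => max t 0) (Z1 T x))) +
      EE (fun x => hs (C * _root_.cfc (fun t : ℝ => max (-t) 0) (Z1 T x))) =
      EE (fun x => hs (C * Z1 T x)) := by
    rw [← EE_add c1 c2]
    refine EE_congr fun x => ?_
    have h3 := hs_row_add (herm_Z1 hT x) (f := fun t : ℝ => max t 0)
      (g := fun t : ℝ => max (-t) 0) (h := fun t : ℝ => t) (fun t _ => by
        rcases le_total 0 t with h | h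
        · simp only [max_eq_left h, max_eq_right (neg_nonpos.2 h)]
          ring
        · simp only [max_eq_right h, max_eq_left (neg_nonneg.2 h)]
          ring) C
    rw [h3, cfc_id'' (herm_Z1 hT x)]
  rw [EE_hs_Z1] at h2
  linarith

/-! ### the lower bound -/

/-- `E hs (C ζ₊) ≥ (1-s) (1/2) Σ hs (C T_k) - (1/s - 1) E hs (ζ - Z₁)` -/
theorem pos_lower {F : E n → Mat n} (hF : CGm F) (hH : ∀ x, (F x).IsHermitian)
    {T : Fin n → Mat n} (hT : ∀ k, (T k).IsHermitian) {C : Mat n} (hC : ∀ X, hs (C * X) ≤ hs X)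
    {s : ℝ} (hs0 : 0 < s) (hs1 : s < 1) :
    (1 - s) * ((1 / 2) * ∑ k, hs (C * T k)) - (1 / s - 1) * EE (fun x => hs (F x - Z1 T x)) ≤
      EE (fun x => hs (C * _root_.cfc (fun t : ℝ => max t 0) (F x))) := by
  set θ : ℝ := s / (1 - s) with hθ
  have h1s : 0 < 1 - s := by linarith
  have hθ0 : 0 < θ := div_pos hs0 h1s
  have e1 : (1 - s) * (1 + θ) = 1 := by rw [hθ]; field_simp; ring
  have e2 : (1 - s) * (1 + θ⁻¹) = 1 / s - 1 := by
    rw [hθ]; field_simp; ring
  have cF : CGm fun x => _root_.cfc (fun t : ℝ => max t 0) (F x) := cgm_cfc_lip hF hH pos_lip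
  have pt : ∀ x, (1 - s) * hs (C * _root_.cfc (fun t : ℝ => max t 0) (Z1 T x)) ≤
      hs (C * _root_.cfc (fun t : ℝ => max t 0) (F x)) + (1 / s - 1) * hs (F x - Z1 T x) := by
    intro x
    have h1 := hs_add_le hθ0 (C * _root_.cfc (fun t : ℝ => max t 0) (F x))
      (C * (_root_.cfc (fun t : ℝ => max t 0) (Z1 T x) -
        _root_.cfc (fun t : ℝ => max t 0) (F x)))
    rw [← Matrix.mul_add, add_sub_cancel] at h1
    have h2 := (hC (_root_.cfc (fun t : ℝ => max t 0) (Z1 T x) -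
      _root_.cfc (fun t : ℝ => max t 0) (F x))).trans (hs_pos_lip (herm_Z1 hT x) (hH x))
    have h3 : hs (Z1 T x - F x) = hs (F x - Z1 T x) := by
      rw [← neg_sub, hs_neg]
    rw [h3] at h2
    have hi : 0 < 1 + θ⁻¹ := by positivity
    have h4 := mul_le_mul_of_nonneg_left h1 h1s.le
    have h5 := mul_le_mul_of_nonneg_left h2 (mul_pos h1s hi).le
    calc (1 - s) * hs (C * _root_.cfc (fun t : ℝ => max t 0) (Z1 T x))
        ≤ (1 - s) * ((1 + θ) * hs (C * _root_.cfc (fun t : ℝ => max t 0) (F x)) + (1 + θ⁻¹) *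
          hs (C * (_root_.cfc (fun t : ℝ => max t 0) (Z1 T x) -
            _root_.cfc (fun t : ℝ => max t 0) (F x)))) := h4
      _ = ((1 - s) * (1 + θ)) * hs (C * _root_.cfc (fun t : ℝ => max t 0) (F x)) +
          ((1 - s) * (1 + θ⁻¹)) * hs (C * (_root_.cfc (fun t : ℝ => max t 0) (Z1 T x) -
            _root_.cfc (fun t : ℝ => max t 0) (F x))) := by ring
      _ ≤ _ := by
        rw [e1, one_mul]
        refine add_le_add le_rfl ?_
        rw [← e2]
        exact h5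
  have cZ := cg_hs (cgm_mul_const C (cgm_pos_Z1 hT))
  have cP := cg_hs (cgm_mul_const C cF)
  have cE := cg_hs (hF.sub (cgm_Z1 T))
  have h6 := EE_mono (cZ.smul (1 - s)) (cP.add (cE.smul (1 / s - 1))) pt
  rw [EE_smul, EE_add cP (cE.smul _), EE_smul, EE_pos_Z1 hT C] at h6
  linarith

end Crest.Agent.R253.EvenHS427
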