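import Crest.Agent.R253.ErrT_378
import Crest.Agent.R253.EvenHS_427

/-!
# R253: the even/odd lower bound of `Λ(b)` for a PSD constant matrix `b` (helper629)

`Λ(b) = E tr b (2k(ζ) - U² - Σ U_k²)`, `U = v(ζ) = ζ/4 + W`, `ζ = Z₁ + η`, `Z₁ = Σ x_k T_k`.
* `q_young`: the form `Σ ⟨∂f, ∂g⟩ - 2 ⟨f, g⟩` is nonnegative off the chaoses 0, 1; hence
  `Σ E ∂_kη ∂_kg - 3 E η g ≤ θ/2 (Σ E (∂_kη)² - 3/2 E η²) + 1/(2θ) Σ E (∂_kg)²`;
* `lam_eo`: the exact identity;
* `eo_ge`: the lower bound, all constants parameters.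
-/

set_option autoImplicit false

open MeasureTheory ProbabilityTheory Set Filter Topology Matrix

noncomputable section

namespace Crest.Agent.R253.EO629

open Crest.Agent.R238.Gap Crest.Agent.R253.SpecCalc999 Crest.Agent.R253.Meh74
  Crest.Agent.R253.SpecField321 Crest.Agent.R253.S3 Crest.Agent.R253.Stein378
  Crest.Agent.R253.LamB301 Crest.Agent.R253.ErrT378 Crest.Agent.R253.EvenHS427

variable {n : ℕ}

/-! ### the form `⟨∂f, ∂g⟩ - 2 ⟨f, g⟩` -/

lemma EE_eta {f : E n → ℝ} (hf : C1 f) : EE (eta f) = 0 := integral_eta hf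

lemma EE_pd_eta {f : E n → ℝ} (hf : C1 f) (i : Fin n) : EE (pd i (eta f)) = 0 :=
  integral_pd_eta hf i

/-- `E ηf · ηg = E ηf · g` -/
lemma EE_eta_mul {f g : E n → ℝ} (hf : C1 f) (hg : C1 g) :
    EE (fun x => eta f x * eta g x) = EE (fun x => eta f x * g x) := by
  have cF := c1_eta hf
  set m : ℝ := ∫ y, g y ∂(gam n) with hm
  set c : Fin n → ℝ := fun k => ∫ y, pd k g y ∂(gam n) with hc
  have e : ∀ x, eta f x * eta g x = eta f x * g x -
      (m * eta f x + ∑ k, c k * (x k * eta f x)) := by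
    intro x
    have h1 : eta g x = g x - m - ∑ k, c k * x k := rfl
    rw [h1, mul_sub, mul_sub, Finset.mul_sum]
    have h2 : ∑ k, eta f x * (c k * x k) = ∑ k, c k * (x k * eta f x) :=
      Finset.sum_congr rfl fun k _ => by ring
    rw [h2]
    ring
  have c1 : CG (fun x => eta f x * g x) := cF.cg.mul hg.cg
  have c2 : CG (fun x => m * eta f x) := cF.cg.smul m
  have c3 : ∀ k, CG (fun x : E n => c k * (x k * eta f x)) := fun k =>
    ((cg_coord k).mul cF.cg).smul _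
  have z : ∀ k, EE (fun x : E n => c k * (x k * eta f x)) = 0 := fun k => by
    rw [EE_smul, EE_coord cF k, EE_pd_eta hf, mul_zero]
  rw [EE_congr e, EE_sub c1 (c2.add (CG.sum fun k _ => c3 k)), EE_add c2 (CG.sum fun k _ => c3 k),
    EE_smul, EE_eta hf, EE_sum fun k _ => c3 k]
  simp only [z, Finset.sum_const_zero]
  ring

lemma EE_pd_eta_mul {f g : E n → ℝ} (hf : C1 f) (hg : C1 g) (i : Fin n) :
    EE (fun x => pd i (eta f) x * pd i (eta g) x) = EE (fun x => pd i (eta f) x * pd i g x) := by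
  have cF := c1_eta hf
  set c : ℝ := ∫ y, pd i g y ∂(gam n) with hc
  have e : ∀ x, pd i (eta f) x * pd i (eta g) x =
      pd i (eta f) x * pd i g x - c * pd i (eta f) x := by
    intro x
    rw [pd_eta hg]
    ring
  rw [EE_congr e, EE_sub ((cF.cgp i).mul (hg.cgp i)) ((cF.cgp i).smul c), EE_smul,
    EE_pd_eta hf, mul_zero, sub_zero]

lemma EE_pd_eta_sq {g : E n → ℝ} (hg : C1 g) (i : Fin n) :
    EE (fun x => pd i (eta g) x ^ 2) ≤ EE (fun x => pd i g x ^ 2) := by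
  have h := pd_sq_split hg i
  have h2 := sq_nonneg (∫ y, pd i g y ∂(gam n))
  unfold EE
  rw [h]
  linarith

/-- **the key Young inequality off the chaoses 0 and 1** -/
theorem q_young {f g : E n → ℝ} (hf : C1 f) (hg : C1 g) {θ : ℝ} (hθ : 0 < θ) :
    (∑ k, EE (fun x => pd k (eta f) x * pd k g x)) - 3 * EE (fun x => eta f x * g x) ≤
      θ / 2 * ((∑ k, EE (fun x => pd k (eta f) x ^ 2)) - 3 / 2 * EE (fun x => eta f x ^ 2)) +
      1 / (2 * θ) * ∑ k, EE (fun x => pd k g x ^ 2) := by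
  have cF := c1_eta hf
  have cG := c1_eta hg
  set F := eta f with hF
  set G := eta g with hG
  have ch : C1 (fun x => θ * F x - G x) := (cF.smul θ).sub cG
  have hpd : ∀ i x, pd i (fun x => θ * F x - G x) x = θ * pd i F x - pd i G x := by
    intro i x
    have e : (fun x => θ * F x - G x) = fun x => θ * F x + (-1) * G x := by
      funext y; ring
    rw [e, (cF.smul θ).pd_add (cG.smul (-1)), (c1_const θ).pd_mul cF, (c1_const (-1)).pd_mul cG,
      pd_const_c, pd_const_c]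
    ring
  have h0 : ∫ x, (θ * F x - G x) ∂(gam n) = 0 := by
    have h := EE_sub (cF.cg.smul θ) cG.cg
    rw [EE_smul, EE_eta hf, EE_eta hg] at h
    have h' : EE (fun x => θ * F x - G x) = 0 := by rw [h]; ring
    exact h'
  have h1 : ∀ i, ∫ x, pd i (fun x => θ * F x - G x) x ∂(gam n) = 0 := by
    intro i
    have h := EE_sub ((cF.cgp i).smul θ) (cG.cgp i)
    rw [EE_smul, EE_pd_eta hf, EE_pd_eta hg] at h
    have h' : EE (fun x => θ * pd i F x - pd i G x) = 0 := by rw [h]; ring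
    simp only [hpd]
    exact h'
  have hp := poincare2 ch h0 h1
  simp only [hpd] at hp
  change 2 * EE (fun x => (θ * F x - G x) ^ 2) ≤
    ∑ i, EE (fun x => (θ * pd i F x - pd i G x) ^ 2) at hp
  have x1 : EE (fun x => (θ * F x - G x) ^ 2) = θ ^ 2 * EE (fun x => F x ^ 2) -
      2 * θ * EE (fun x => F x * G x) + EE (fun x => G x ^ 2) := by
    have c1 : CG (fun x => θ ^ 2 * F x ^ 2) := cF.cg.sq.smul _
    have c2 : CG (fun x => 2 * θ * (F x * G x)) := (cF.cg.mul cG.cg).smul _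
    rw [← EE_smul, ← EE_smul, ← EE_sub c1 c2, ← EE_add (c1.sub c2) cG.cg.sq]
    exact EE_congr fun x => by ring
  have x2 : ∀ i, EE (fun x => (θ * pd i F x - pd i G x) ^ 2) =
      θ ^ 2 * EE (fun x => pd i F x ^ 2) -
      2 * θ * EE (fun x => pd i F x * pd i G x) + EE (fun x => pd i G x ^ 2) := by
    intro i
    have c1 : CG (fun x => θ ^ 2 * pd i F x ^ 2) := (cF.cgp i).sq.smul _
    have c2 : CG (fun x => 2 * θ * (pd i F x * pd i G x)) := ((cF.cgp i).mul (cG.cgp i)).smul _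
    rw [← EE_smul, ← EE_smul, ← EE_sub c1 c2, ← EE_add (c1.sub c2) (cG.cgp i).sq]
    exact EE_congr fun x => by ring
  have x3 : 0 ≤ θ ^ 2 / 4 * EE (fun x => F x ^ 2) + θ * EE (fun x => F x * G x) +
      EE (fun x => G x ^ 2) := by
    have h : 0 ≤ EE (fun x => (θ / 2 * F x + G x) ^ 2) := EE_nonneg fun x => sq_nonneg _
    have c1 : CG (fun x => θ ^ 2 / 4 * F x ^ 2) := cF.cg.sq.smul _
    have c2 : CG (fun x => θ * (F x * G x)) := (cF.cg.mul cG.cg).smul _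
    have e : EE (fun x => (θ / 2 * F x + G x) ^ 2) = θ ^ 2 / 4 * EE (fun x => F x ^ 2) +
        θ * EE (fun x => F x * G x) + EE (fun x => G x ^ 2) := by
      rw [← EE_smul, ← EE_smul, ← EE_add c1 c2, ← EE_add (c1.add c2) cG.cg.sq]
      exact EE_congr fun x => by ring
    rwa [e] at h
  rw [x1] at hp
  simp only [x2, Finset.sum_add_distrib, Finset.sum_sub_distrib, ← Finset.mul_sum] at hp
  have y1 : EE (fun x => F x * G x) = EE (fun x => F x * g x) := EE_eta_mul hf hg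
  have y2 : ∑ i, EE (fun x => pd i F x * pd i G x) = ∑ i, EE (fun x => pd i F x * pd i g x) :=
    Finset.sum_congr rfl fun i _ => EE_pd_eta_mul hf hg i
  have y3 : ∑ i, EE (fun x => pd i G x ^ 2) ≤ ∑ i, EE (fun x => pd i g x ^ 2) :=
    Finset.sum_le_sum fun i _ => EE_pd_eta_sq hg i
  rw [y1] at hp x3
  rw [y2] at hp
  generalize EE (fun x => F x ^ 2) = H at hp x3 ⊢
  generalize EE (fun x => G x ^ 2) = G2 at hp x3 ⊢
  generalize EE (fun x => F x * g x) = Y at hp x3 ⊢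
  generalize ∑ i, EE (fun x => pd i F x * pd i g x) = Q at hp ⊢
  generalize ∑ i, EE (fun x => pd i F x ^ 2) = P at hp ⊢
  generalize ∑ i, EE (fun x => pd i G x ^ 2) = D2 at hp y3 ⊢
  generalize ∑ i, EE (fun x => pd i g x ^ 2) = D at y3 ⊢
  have hi : 0 < 1 / (2 * θ) := by positivity
  have key : 2 * θ * (Q - 3 * Y) ≤ θ ^ 2 * P - 3 / 2 * θ ^ 2 * H + D := by nlinarith
  have k2 := mul_le_mul_of_nonneg_left key hi.le
  have e1 : 1 / (2 * θ) * (2 * θ * (Q - 3 * Y)) = Q - 3 * Y := by field_simp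
  have e2 : 1 / (2 * θ) * (θ ^ 2 * P - 3 / 2 * θ ^ 2 * H + D) =
      θ / 2 * (P - 3 / 2 * H) + 1 / (2 * θ) * D := by field_simp
  rw [e1, e2] at k2
  exact k2

/-! ### the field `W = v(ζ) - ζ/4` -/

section field

variable {Z : Fld n} {lo hi : ℝ} {v v1 : ℝ → ℝ}

/-- `W = v(ζ) - ζ/4` -/
def Wf (v : ℝ → ℝ) (Z : Fld n) (x : E n) : Mat n := sf v Z x - (1 / 4 : ℝ) • Mx Z x

/-- `W_k = ∂_k W` -/
def Wd (v v1 : ℝ → ℝ) (Z : Fld n) (k : Fin n) (x : E n) : Mat n :=
  DK v v1 (Mx Z x) (S3.dZ Z k x) - (1 / 4 : ℝ) • S3.dZ Z k x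

lemma c1m_W (hZ : MF Z lo hi) (hv : ∀ z ∈ Icc lo hi, HasDerivAt v (v1 z) z)
    (hv1 : ContinuousOn v1 (Icc lo hi)) : C1m (Wf v Z) := by
  intro i j
  exact (c1m_sf hZ hv hv1 i j).sub ((hZ.c i j).smul (1 / 4))

lemma dM_W (hZ : MF Z lo hi) (hv : ∀ z ∈ Icc lo hi, HasDerivAt v (v1 z) z)
    (hv1 : ContinuousOn v1 (Icc lo hi)) (k : Fin n) (x : E n) :
    S3.dM k (Wf v Z) x = Wd v v1 Z k x := by
  ext i j
  have h1 := congrFun (congrFun (dM_sf hZ hv k x) i) j
  change pd k (fun y => sf v Z y i j) x = DK v v1 (Mx Z x) (S3.dZ Z k x) i j at h1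
  change pd k (fun y => Wf v Z y i j) x =
    DK v v1 (Mx Z x) (S3.dZ Z k x) i j - 1 / 4 * pd k (Z i j) x
  have e : (fun y => Wf v Z y i j) = fun y => sf v Z y i j + (-(1 / 4)) * Z i j y := by
    funext y
    change sf v Z y i j - 1 / 4 * Z i j y = _
    ring
  rw [e, (c1m_sf hZ hv hv1 i j).pd_add ((hZ.c i j).smul _), (c1_const _).pd_mul (hZ.c i j),
    pd_const_c, h1]
  ring

lemma cgm_W (hZ : MF Z lo hi) (hv : ∀ z ∈ Icc lo hi, HasDerivAt v (v1 z) z)
    (hv1 : ContinuousOn v1 (Icc lo hi)) : CGm (Wf v Z) := (c1m_W hZ hv hv1).cg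

lemma cgm_Wd (hZ : MF Z lo hi) (hv : ∀ z ∈ Icc lo hi, HasDerivAt v (v1 z) z)
    (hv1 : ContinuousOn v1 (Icc lo hi)) (k : Fin n) : CGm (Wd v v1 Z k) :=
  (cgm_DK hZ hv hv1 k).sub ((cgm_dZ hZ k).smulc _)

lemma W_t (hZ : MF Z lo hi) (x : E n) : (Wf v Z x)ᵀ = Wf v Z x := by
  unfold Wf
  rw [Matrix.transpose_sub, Matrix.transpose_smul, sf_t, Mx_t hZ]

lemma Wd_t (hZ : MF Z lo hi) (k : Fin n) (x : E n) : (Wd v v1 Z k x)ᵀ = Wd v v1 Z k x := by
  unfold Wd
  rw [Matrix.transpose_sub, Matrix.transpose_smul, DK_t _ _ _ _ (dZ_t hZ k x), dZ_t hZ]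

lemma Wd_eq (hZ : MF Z lo hi) (k : Fin n) (x : E n) :
    Wd v v1 Z k x = S3.dZ Z k x * sf (fun z => v1 z - 1 / 4) Z x +
      KR v v1 (Mx Z x) (S3.dZ Z k x) := by
  unfold Wd KR
  rw [sf_sub_const hZ, Matrix.mul_sub, Matrix.mul_smul, Matrix.mul_one]
  unfold sf
  abel

lemma sf_w (hZ : MF Z lo hi) (x : E n) : sf (fun z => v z - 1 / 4 * z) Z x = Wf v Z x := by
  obtain ⟨U, hU⟩ := exists_fr (hZ.h x)
  apply conj_inj hU.o'
  unfold Wf sf
  rw [hU.cfc, Matrix.mul_sub, Matrix.sub_mul, hU.cfc, Matrix.mul_smul, Matrix.smul_mul, hU.d,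
    ← Matrix.diagonal_smul, Matrix.diagonal_sub]
  congr 1

lemma sf_F2 (hZ : MF Z lo hi) (F : ℝ → ℝ) (x : E n) :
    sf F Z x = sf (fun z => F z - 3 / 2 * (z * v z)) Z x +
      (3 / 2 : ℝ) • (Mx Z x * sf v Z x) := by
  obtain ⟨U, hU⟩ := exists_fr (hZ.h x)
  apply conj_inj hU.o'
  unfold sf
  rw [hU.cfc, Matrix.mul_add, Matrix.add_mul, hU.cfc, Matrix.mul_smul, Matrix.smul_mul,
    Jord192.conj_mul hU.o', hU.d, hU.cfc, Matrix.diagonal_mul_diagonal, ← Matrix.diagonal_smul,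
    Matrix.diagonal_add]
  congr 1
  funext i
  simp only [Pi.smul_apply, smul_eq_mul]
  ring

/-! ### the exact identity -/

/-- **the exact even/odd identity** -/
theorem lam_eo (hZ : MF Z lo hi) {F : ℝ → ℝ} (hFc : ContinuousOn F (Icc lo hi))
    (hv : ∀ z ∈ Icc lo hi, HasDerivAt v (v1 z) z) (hv1 : ContinuousOn v1 (Icc lo hi))
    {b : Mat n} (hb : bᵀ = b) {T : Fin n → Mat n} (hTs : ∀ k, (T k)ᵀ = T k)
    (hT : ∀ k, EM (S3.dZ Z k) = T k) :
    Lam F v v1 Z b =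
      TE (fun x => b * sf (fun z => F z - 3 / 2 * (z * v z)) Z x) +
      5 / 16 * (b * ∑ k, T k * T k).trace +
      3 / 8 * TE (fun x => b * (eta0 Z T x * eta0 Z T x)) -
      1 / 16 * ∑ k, TE (fun x => b * (pk Z T k x * pk Z T k x)) +
      TE (fun x => b * (Z1 T x * Wf v Z x)) +
      1 / 2 * (3 * TE (fun x => b * (eta0 Z T x * Wf v Z x)) -
        ∑ k, TE (fun x => b * (pk Z T k x * Wd v v1 Z k x))) -
      ∑ k, TE (fun x => b * (Wd v v1 Z k x * Wd v v1 Z k x)) := by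
  have cb := cgm_const (n := n) b
  have cM := cgm_Mx hZ
  have cW := cgm_W hZ hv hv1
  have cWd := fun k => cgm_Wd hZ hv hv1 k
  have cd := fun k => cgm_dZ hZ k
  have cp := fun k => cgm_pk hZ T k
  have cη := cgm_eta0 hZ T
  have cT := fun k => cgm_const (n := n) (T k)
  have hvc : ContinuousOn v (Icc lo hi) := contOn_of_deriv hv
  have cL : CGm (Z1 T) := cgm_Z1 T
  -- the first term
  have a1 : TE (fun x => b * sf F Z x) =
      TE (fun x => b * sf (fun z => F z - 3 / 2 * (z * v z)) Z x) +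
      3 / 8 * TE (fun x => b * (Mx Z x * Mx Z x)) +
      3 / 2 * TE (fun x => b * (Z1 T x * Wf v Z x)) +
      3 / 2 * TE (fun x => b * (eta0 Z T x * Wf v Z x)) := by
    have e : ∀ x, b * sf F Z x = b * sf (fun z => F z - 3 / 2 * (z * v z)) Z x +
        (3 / 8 : ℝ) • (b * (Mx Z x * Mx Z x)) + (3 / 2 : ℝ) • (b * (Z1 T x * Wf v Z x)) +
        (3 / 2 : ℝ) • (b * (eta0 Z T x * Wf v Z x)) := by
      intro x
      have h1 : Mx Z x = Z1 T x + eta0 Z T x := by unfold Z1 eta0; abel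
      have h2 : sf v Z x = Wf v Z x + (1 / 4 : ℝ) • Mx Z x := by unfold Wf; abel
      have h3 : Mx Z x * sf v Z x = Z1 T x * Wf v Z x + eta0 Z T x * Wf v Z x +
          (1 / 4 : ℝ) • (Mx Z x * Mx Z x) := by
        rw [h2, Matrix.mul_add, Matrix.mul_smul]
        congr 1
        rw [← Matrix.add_mul, ← h1]
      rw [sf_F2 (v := v) hZ F x, h3]
      simp only [Matrix.mul_add, Matrix.mul_smul, smul_add, smul_smul]
      have h4 : (3 / 2 * (1 / 4) : ℝ) = 3 / 8 := by norm_num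
      rw [h4]
      abel
    have c0 : CGm (fun x => b * sf (fun z => F z - 3 / 2 * (z * v z)) Z x) :=
      cb.mul (cgm_cfc hZ (hFc.sub (continuousOn_const.mul (continuousOn_id.mul hvc))))
    have c1 : CGm (fun x => (3 / 8 : ℝ) • (b * (Mx Z x * Mx Z x))) := (cb.mul (cM.mul cM)).smulc _
    have c2 : CGm (fun x => (3 / 2 : ℝ) • (b * (Z1 T x * Wf v Z x))) :=
      (cb.mul (cL.mul cW)).smulc _
    have c3 : CGm (fun x => (3 / 2 : ℝ) • (b * (eta0 Z T x * Wf v Z x))) :=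
      (cb.mul (cη.mul cW)).smulc _
    rw [TE_congr e, TE_add ((c0.add c1).add c2) c3, TE_add (c0.add c1) c2, TE_add c0 c1, TE_smul,
      TE_smul, TE_smul]
  -- the Gaussian integration by parts
  have a2 : TE (fun x => b * (Z1 T x * Wf v Z x)) =
      ∑ k, TE (fun x => b * (T k * Wd v v1 Z k x)) := by
    have h := stein0 hZ (c1m_W hZ hv hv1) b T
    have e : ∀ x, b * (Mx Z x * Wf v Z x) = b * (Z1 T x * Wf v Z x) +
        b * (eta0 Z T x * Wf v Z x) := by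
      intro x
      have h1 : Mx Z x = Z1 T x + eta0 Z T x := by unfold Z1 eta0; abel
      rw [← Matrix.mul_add, ← Matrix.add_mul, ← h1]
    rw [TE_congr e, TE_add (cb.mul (cL.mul cW)) (cb.mul (cη.mul cW))] at h
    have e2 : ∀ k, TE (fun x => b * (T k * S3.dM k (Wf v Z) x)) =
        TE (fun x => b * (T k * Wd v v1 Z k x)) := fun k =>
      TE_congr fun x => by rw [dM_W hZ hv hv1]
    simp only [e2] at h
    linarith
  -- the squares
  have a3 : ∀ k, TE (fun x => b * (DK v v1 (Mx Z x) (S3.dZ Z k x) *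
      DK v v1 (Mx Z x) (S3.dZ Z k x))) =
      TE (fun x => b * (Wd v v1 Z k x * Wd v v1 Z k x)) +
      1 / 2 * (TE (fun x => b * (T k * Wd v v1 Z k x)) +
        TE (fun x => b * (pk Z T k x * Wd v v1 Z k x))) +
      1 / 16 * ((b * (T k * T k)).trace + TE (fun x => b * (pk Z T k x * pk Z T k x))) := by
    intro k
    have e : ∀ x, (b * (DK v v1 (Mx Z x) (S3.dZ Z k x) *
        DK v v1 (Mx Z x) (S3.dZ Z k x))).trace =
        (b * (Wd v v1 Z k x * Wd v v1 Z k x)).trace +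
        1 / 2 * ((b * (T k * Wd v v1 Z k x)).trace + (b * (pk Z T k x * Wd v v1 Z k x)).trace) +
        1 / 16 * ((b * (T k * T k)).trace + 2 * (b * T k * pk Z T k x * 1).trace +
          (b * (pk Z T k x * pk Z T k x)).trace) := by
      intro x
      have hW := Wd_t (v := v) (v1 := v1) hZ k x
      have hpt : (pk Z T k x)ᵀ = pk Z T k x := by
        unfold pk; rw [Matrix.transpose_sub, dZ_t hZ, hTs]
      have h1 : DK v v1 (Mx Z x) (S3.dZ Z k x) =
          Wd v v1 Z k x + (1 / 4 : ℝ) • (T k + pk Z T k x) := by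
        unfold Wd pk; rw [add_sub_cancel]; abel
      have h2 : (b * (Wd v v1 Z k x * (T k + pk Z T k x))).trace =
          (b * ((T k + pk Z T k x) * Wd v v1 Z k x)).trace := by
        rw [← tr_t hb (Wd v v1 Z k x * (T k + pk Z T k x)), Matrix.transpose_mul, hW,
          Matrix.transpose_add, hTs, hpt]
      have h3 : (b * (pk Z T k x * T k)).trace = (b * (T k * pk Z T k x)).trace := by
        rw [← tr_t hb (pk Z T k x * T k), Matrix.transpose_mul, hTs, hpt]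
      rw [h1]
      generalize Wd v v1 Z k x = W at h2 ⊢
      generalize pk Z T k x = p at h2 h3 ⊢
      simp only [Matrix.mul_add, Matrix.add_mul, Matrix.mul_smul, Matrix.smul_mul, smul_smul,
        smul_add, Matrix.trace_add, Matrix.trace_smul, smul_eq_mul, Matrix.mul_one,
        Matrix.mul_assoc] at h2 h3 ⊢
      linarith
    have c1 : CG (fun x => (b * (Wd v v1 Z k x * Wd v v1 Z k x)).trace) :=
      (cb.mul ((cWd k).mul (cWd k))).trace
    have c2 : CG (fun x => (b * (T k * Wd v v1 Z k x)).trace) :=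
      (cb.mul ((cT k).mul (cWd k))).trace
    have c3 : CG (fun x => (b * (pk Z T k x * Wd v v1 Z k x)).trace) :=
      (cb.mul ((cp k).mul (cWd k))).trace
    have c4 : CG (fun _ : E n => (b * (T k * T k)).trace) := cg_const _
    have c5 : CG (fun x => (b * T k * pk Z T k x * 1).trace) :=
      (((cgm_const (b * T k)).mul (cp k)).mul (cgm_const 1)).trace
    have c6 : CG (fun x => (b * (pk Z T k x * pk Z T k x)).trace) :=
      (cb.mul ((cp k).mul (cp k))).trace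
    have z : EE (fun x => (b * T k * pk Z T k x * 1).trace) = 0 :=
      EM_zero_tr (cp k) (EM_pk hZ hT k) (b * T k) 1
    have h := EE_congr e
    rw [EE_add (c1.add ((c2.add c3).smul _)) (((c4.add (c5.smul 2)).add c6).smul _),
      EE_add c1 ((c2.add c3).smul _), EE_smul, EE_smul, EE_add c2 c3,
      EE_add (c4.add (c5.smul 2)) c6, EE_add c4 (c5.smul 2), EE_smul, EE_const, z, mul_zero,
      add_zero] at h
    exact h
  have a4 : (b * ∑ k, T k * T k).trace = ∑ k, (b * (T k * T k)).trace := by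
    rw [Matrix.mul_sum, Matrix.trace_sum]
  have a5 := TE_ZZ hZ hT b
  unfold Lam
  rw [a1, a5, Finset.sum_congr rfl fun k _ => a3 k]
  simp only [Finset.sum_add_distrib, ← Finset.mul_sum]
  rw [← a2, ← a4]
  ring

/-! ### the squares `Σ tr Q W_k²` -/

/-- pointwise: `tr Q W_k² ≤ (1+ε) κ² tr Q (∂_kζ)² + (1+1/ε) tr Q K K^T` -/
lemma wd_point (hZ : MF Z lo hi) {κ ε : ℝ} (hε : 0 < ε)
    (hκ : ∀ z ∈ Icc lo hi, |v1 z - 1 / 4| ≤ κ) {Q : Mat n} (hQ : Q.PosSemidef) (k : Fin n)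
    (x : E n) :
    (Q * (Wd v v1 Z k x * Wd v v1 Z k x)).trace ≤
      (1 + ε) * κ ^ 2 * (Q * (S3.dZ Z k x * S3.dZ Z k x)).trace +
      (1 + 1 / ε) * (Q * (KR v v1 (Mx Z x) (S3.dZ Z k x) *
        (KR v v1 (Mx Z x) (S3.dZ Z k x))ᵀ)).trace := by
  set A := S3.dZ Z k x with hA
  set w : Mat n := sf (fun z => v1 z - 1 / 4) Z x with hw
  set K := KR v v1 (Mx Z x) A with hK
  have hAt : Aᵀ = A := dZ_t hZ k x
  have hwt : wᵀ = w := sf_t _ _
  have e0 : Wd v v1 Z k x = A * w + K := Wd_eq hZ k x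
  have e1 : Wd v v1 Z k x * Wd v v1 Z k x = (A * w + K) * (A * w + K)ᵀ := by
    rw [← e0, Wd_t hZ]
  have h1 := tr_psd_mul_transpose hQ (ε • (A * w) - K)
  have h2 : (Q * (A * w * (A * w)ᵀ)).trace ≤ κ ^ 2 * (Q * (A * A)).trace := by
    have h := tr_pWp_le (A := Mx Z x) (hZ.h x) (w := fun z => v1 z - 1 / 4) (κ := κ)
      (fun a ha => hκ a (hZ.s x ha)) (B := -Q) (Q := Q) (p := A) hQ
      (by rw [add_neg_cancel]; exact Matrix.PosSemidef.zero) hAt
    rw [Matrix.neg_mul, Matrix.trace_neg, neg_neg] at h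
    have e : A * w * (A * w)ᵀ = A * (_root_.cfc (fun z => v1 z - 1 / 4) (Mx Z x) *
        _root_.cfc (fun z => v1 z - 1 / 4) (Mx Z x)) * A := by
      rw [Matrix.transpose_mul, hwt, hAt, hw]
      unfold sf
      simp only [Matrix.mul_assoc]
    rw [e]
    exact h
  have h3 : (Q * (K * (A * w)ᵀ)).trace = (Q * (A * w * Kᵀ)).trace := by
    have hQt : Qᵀ = Q := by
      have := hQ.isHermitian
      rwa [Matrix.IsHermitian, conjTranspose_eq_transpose_of_trivial] at this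
    rw [← tr_t hQt (K * (A * w)ᵀ), Matrix.transpose_mul, Matrix.transpose_transpose]
  rw [e1]
  generalize A * w = D at h1 h2 h3 ⊢
  generalize (Q * (A * A)).trace = a at h2 ⊢
  simp only [Matrix.transpose_add, Matrix.transpose_sub, Matrix.transpose_smul, Matrix.mul_add,
    Matrix.add_mul, Matrix.mul_sub, Matrix.sub_mul, Matrix.mul_smul, Matrix.smul_mul,
    Matrix.trace_add, Matrix.trace_sub, Matrix.trace_smul, smul_eq_mul] at h1 h2 h3 ⊢
  rw [h3] at h1 ⊢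
  generalize (Q * (D * Dᵀ)).trace = dd at h1 h2 ⊢
  generalize (Q * (D * Kᵀ)).trace = dk at h1 ⊢
  generalize (Q * (K * Kᵀ)).trace = kk at h1 ⊢
  have hi : 0 < 1 / ε := by positivity
  have h4 := mul_le_mul_of_nonneg_left h1 hi.le
  have e4 : 1 / ε * (ε * ε * dd - ε * dk - (ε * dk - kk)) =
      ε * dd - 2 * dk + 1 / ε * kk := by
    field_simp
    ring
  rw [mul_zero] at h4
  have h5 : 0 ≤ ε * dd - 2 * dk + 1 / ε * kk := by
    rw [← e4]
    refine le_of_le_of_eq h4 ?_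
    ring
  have h6 := mul_le_mul_of_nonneg_left h2 (show (0 : ℝ) ≤ 1 + ε by positivity)
  have e6 : (1 + ε) * (κ ^ 2 * a) = (1 + ε) * κ ^ 2 * a := by ring
  rw [e6] at h6
  linarith

/-- second moments of `∂_kζ` -/
lemma TE_dd (hZ : MF Z lo hi) {T : Fin n → Mat n} (hTs : ∀ k, (T k)ᵀ = T k)
    (hT : ∀ k, EM (S3.dZ Z k) = T k) {Q : Mat n} (hQ : Qᵀ = Q) (k : Fin n) :
    TE (fun x => Q * (S3.dZ Z k x * S3.dZ Z k x)) =
      (Q * (T k * T k)).trace + TE (fun x => Q * (pk Z T k x * pk Z T k x)) := by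
  have cQ := cgm_const (n := n) Q
  have cp := cgm_pk hZ T k
  have e : ∀ x, (Q * (S3.dZ Z k x * S3.dZ Z k x)).trace =
      (Q * (T k * T k)).trace + 2 * (Q * T k * pk Z T k x * 1).trace +
        (Q * (pk Z T k x * pk Z T k x)).trace := by
    intro x
    have hpt : (pk Z T k x)ᵀ = pk Z T k x := by
      unfold pk; rw [Matrix.transpose_sub, dZ_t hZ, hTs]
    have h1 : S3.dZ Z k x = T k + pk Z T k x := by unfold pk; abel
    have h3 : (Q * (pk Z T k x * T k)).trace = (Q * (T k * pk Z T k x)).trace := by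
      rw [← tr_t hQ (pk Z T k x * T k), Matrix.transpose_mul, hTs, hpt]
    rw [h1]
    generalize pk Z T k x = p at h3 ⊢
    simp only [Matrix.mul_add, Matrix.add_mul, Matrix.trace_add, Matrix.mul_one,
      Matrix.mul_assoc] at h3 ⊢
    linarith
  have c4 : CG (fun _ : E n => (Q * (T k * T k)).trace) := cg_const _
  have c5 : CG (fun x => (Q * T k * pk Z T k x * 1).trace) :=
    (((cgm_const (Q * T k)).mul cp).mul (cgm_const 1)).trace
  have c6 : CG (fun x => (Q * (pk Z T k x * pk Z T k x)).trace) := (cQ.mul (cp.mul cp)).trace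
  have z : EE (fun x => (Q * T k * pk Z T k x * 1).trace) = 0 :=
    EM_zero_tr cp (EM_pk hZ hT k) (Q * T k) 1
  have h := EE_congr e
  rw [EE_add (c4.add (c5.smul 2)) c6, EE_add c4 (c5.smul 2), EE_smul, EE_const, z, mul_zero,
    add_zero] at h
  exact h

/-- **`Σ E tr Q W_k²`** -/
theorem wd_le (hZ : MF Z lo hi) (hv : ∀ z ∈ Icc lo hi, HasDerivAt v (v1 z) z)
    (hv1 : ContinuousOn v1 (Icc lo hi)) {T : Fin n → Mat n} (hTs : ∀ k, (T k)ᵀ = T k)
    (hT : ∀ k, EM (S3.dZ Z k) = T k) {sl : ℝ → ℝ → ℝ} {Sl : E n → ℝ} (cSl : CG Sl)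
    (hSl : ∀ x, ∃ U s, Fr (Mx Z x) U s ∧ ∑ k, Jord192.slk sl U s (S3.dZ Z k x) ≤ Sl x)
    {Ce κ ε c : ℝ} (hε : 0 < ε) (hc : 0 ≤ c) (hC : 0 ≤ Ce)
    (he : ∀ a ∈ Icc lo hi, ∀ d ∈ Icc lo hi, (dd1 v v1 a d - v1 d) ^ 2 ≤ Ce * sl a d)
    (hκ : ∀ z ∈ Icc lo hi, |v1 z - 1 / 4| ≤ κ) {Q : Mat n} (hQ : Q.PosSemidef)
    (hQc : ∀ X : Mat n, (Q * (X * Xᵀ)).trace ≤ c * hs X) :
    ∑ k, TE (fun x => Q * (Wd v v1 Z k x * Wd v v1 Z k x)) ≤
      (1 + ε) * κ ^ 2 * ((Q * ∑ k, T k * T k).trace +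
        ∑ k, TE (fun x => Q * (pk Z T k x * pk Z T k x))) +
      (1 + 1 / ε) * (c * Ce) * EE Sl := by
  have cQ := cgm_const (n := n) Q
  have cWd := fun k => cgm_Wd hZ hv hv1 k
  have cd := fun k => cgm_dZ hZ k
  have hQt : Qᵀ = Q := by
    have := hQ.isHermitian
    rwa [Matrix.IsHermitian, conjTranspose_eq_transpose_of_trivial] at this
  have hpt : ∀ x, ∑ k, (Q * (Wd v v1 Z k x * Wd v v1 Z k x)).trace ≤
      (1 + ε) * κ ^ 2 * ∑ k, (Q * (S3.dZ Z k x * S3.dZ Z k x)).trace +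
      (1 + 1 / ε) * (c * Ce) * Sl x := by
    intro x
    obtain ⟨U, s, hU, hs1⟩ := hSl x
    have hsp : ∀ a ∈ spectrum ℝ (Mx Z x), a ∈ Icc lo hi := fun a ha => hZ.s x ha
    have h1 : ∀ k, (Q * (Wd v v1 Z k x * Wd v v1 Z k x)).trace ≤
        (1 + ε) * κ ^ 2 * (Q * (S3.dZ Z k x * S3.dZ Z k x)).trace +
        (1 + 1 / ε) * (c * Ce) * Jord192.slk sl U s (S3.dZ Z k x) := by
      intro k
      have a := wd_point (v := v) (v1 := v1) hZ hε hκ hQ k x
      have b1 := hQc (KR v v1 (Mx Z x) (S3.dZ Z k x))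
      have b2 := hs_KR_le hU (f := v) (f' := v1) (sl := sl) (C := Ce)
        (fun a ha d hd => he a (hsp a ha) d (hsp d hd)) (S3.dZ Z k x)
      have b3 := b1.trans (mul_le_mul_of_nonneg_left b2 hc)
      have b4 := mul_le_mul_of_nonneg_left b3 (show (0 : ℝ) ≤ 1 + 1 / ε by positivity)
      have e4 : (1 + 1 / ε) * (c * (Ce * Jord192.slk sl U s (S3.dZ Z k x))) =
          (1 + 1 / ε) * (c * Ce) * Jord192.slk sl U s (S3.dZ Z k x) := by ring
      rw [e4] at b4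
      linarith
    refine (Finset.sum_le_sum fun k _ => h1 k).trans ?_
    rw [Finset.sum_add_distrib, ← Finset.mul_sum, ← Finset.mul_sum]
    have h2 : (1 + 1 / ε) * (c * Ce) * ∑ k, Jord192.slk sl U s (S3.dZ Z k x) ≤
        (1 + 1 / ε) * (c * Ce) * Sl x :=
      mul_le_mul_of_nonneg_left hs1 (by positivity)
    linarith
  have c1 : ∀ k, CG (fun x => (Q * (Wd v v1 Z k x * Wd v v1 Z k x)).trace) := fun k =>
    (cQ.mul ((cWd k).mul (cWd k))).trace
  have c2 : ∀ k, CG (fun x => (Q * (S3.dZ Z k x * S3.dZ Z k x)).trace) := fun k =>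
    (cQ.mul ((cd k).mul (cd k))).trace
  have h := EE_mono (CG.sum fun k _ => c1 k)
    (((CG.sum fun k _ => c2 k).smul _).add (cSl.smul _)) hpt
  rw [EE_add ((CG.sum fun k _ => c2 k).smul _) (cSl.smul _), EE_smul, EE_smul,
    EE_sum fun k _ => c1 k, EE_sum fun k _ => c2 k] at h
  have e1 : ∑ k, EE (fun x => (Q * (S3.dZ Z k x * S3.dZ Z k x)).trace) =
      (Q * ∑ k, T k * T k).trace + ∑ k, TE (fun x => Q * (pk Z T k x * pk Z T k x)) := by
    rw [Matrix.mul_sum, Matrix.trace_sum, ← Finset.sum_add_distrib]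
    exact Finset.sum_congr rfl fun k _ => TE_dd hZ hTs hT hQt k
  rw [e1] at h
  exact h

/-! ### the term `Σ E tr b p_k W_k - 3 E tr b η W` -/

lemma tr_entries {b Y : Mat n} (hb : bᵀ = b) (hY : Yᵀ = Y) (X : Mat n) :
    (b * (X * Y)).trace = ∑ i, ∑ j, X i j * (b * Y) i j := by
  have h1 : (b * (X * Y)).trace = (X * (Y * b)).trace := by
    rw [Matrix.trace_mul_comm, Matrix.mul_assoc]
  have h2 : Y * b = (b * Y)ᵀ := by rw [Matrix.transpose_mul, hb, hY]
  rw [h1, h2]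
  simp only [Matrix.trace, Matrix.diag_apply, Matrix.mul_apply (M := X), Matrix.transpose_apply]

lemma eta_entry (hZ : MF Z lo hi) {T : Fin n → Mat n} (hT : ∀ k, EM (S3.dZ Z k) = T k)
    (h0 : EM (Mx Z) = 0) (i j : Fin n) (x : E n) : eta (Z i j) x = eta0 Z T x i j := by
  have h1 : ∫ y, Z i j y ∂(gam n) = 0 := by
    have := congrFun (congrFun h0 i) j
    exact this
  have h2 : ∀ k, ∫ y, pd k (Z i j) y ∂(gam n) = T k i j := fun k => by
    have := congrFun (congrFun (hT k) i) j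
    exact this
  have e : eta0 Z T x i j = Z i j x - (∑ k, x k • T k) i j := rfl
  rw [e, Matrix.sum_apply]
  unfold eta
  simp only [h1, h2, sub_zero, Matrix.smul_apply, smul_eq_mul]
  congr 1
  exact Finset.sum_congr rfl fun k _ => mul_comm _ _

lemma pd_eta_entry (hZ : MF Z lo hi) {T : Fin n → Mat n} (hT : ∀ k, EM (S3.dZ Z k) = T k)
    (i j k : Fin n) (x : E n) : pd k (eta (Z i j)) x = pk Z T k x i j := by
  have h2 : ∫ y, pd k (Z i j) y ∂(gam n) = T k i j := by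
    have := congrFun (congrFun (hT k) i) j
    exact this
  rw [pd_eta (hZ.c i j), h2]
  rfl

/-- **the `(η, W)` block** -/
theorem block_le (hZ : MF Z lo hi) (hv : ∀ z ∈ Icc lo hi, HasDerivAt v (v1 z) z)
    (hv1 : ContinuousOn v1 (Icc lo hi)) {b : Mat n} (hb : bᵀ = b) {T : Fin n → Mat n}
    (hT : ∀ k, EM (S3.dZ Z k) = T k) (h0 : EM (Mx Z) = 0) {θ : ℝ} (hθ : 0 < θ) :
    (∑ k, TE (fun x => b * (pk Z T k x * Wd v v1 Z k x))) -
        3 * TE (fun x => b * (eta0 Z T x * Wf v Z x)) ≤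
      θ / 2 * ((∑ k, EE (fun x => hs (pk Z T k x))) - 3 / 2 * EE (fun x => hs (eta0 Z T x))) +
      1 / (2 * θ) * ∑ k, TE (fun x => b * b * (Wd v v1 Z k x * Wd v v1 Z k x)) := by
  have cη := cgm_eta0 hZ T
  have cp := fun k => cgm_pk hZ T k
  have cW := c1m_W hZ hv hv1
  have cWd := fun k => cgm_Wd hZ hv hv1 k
  have cb := cgm_const (n := n) b
  set g : Fin n → Fin n → E n → ℝ := fun i j x => (b * Wf v Z x) i j with hg
  have cg1 : ∀ i j, C1 (g i j) := fun i j => (C1m.mul (c1m_const b) cW) i j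
  have hpg : ∀ i j k x, pd k (g i j) x = (b * Wd v v1 Z k x) i j := by
    intro i j k x
    have e : g i j = fun y => ∑ l, b i l * Wf v Z y l j := by
      funext y; simp only [hg, Matrix.mul_apply]
    rw [e, pd_sum' fun l _ => (cW l j).smul _, Matrix.mul_apply]
    refine Finset.sum_congr rfl fun l _ => ?_
    rw [(c1_const _).pd_mul (cW l j), pd_const_c, zero_mul, zero_add, ← dM_W hZ hv hv1]
    rfl
  have key : ∀ i j, (∑ k, EE (fun x => pk Z T k x i j * (b * Wd v v1 Z k x) i j)) -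
      3 * EE (fun x => eta0 Z T x i j * (b * Wf v Z x) i j) ≤
      θ / 2 * ((∑ k, EE (fun x => pk Z T k x i j ^ 2)) -
        3 / 2 * EE (fun x => eta0 Z T x i j ^ 2)) +
      1 / (2 * θ) * ∑ k, EE (fun x => (b * Wd v v1 Z k x) i j ^ 2) := by
    intro i j
    have h := q_young (hZ.c i j) (cg1 i j) hθ
    simp only [eta_entry hZ hT h0, pd_eta_entry hZ hT, hpg] at h
    exact h
  have hsum := Finset.sum_le_sum fun i (_ : i ∈ Finset.univ) =>
    Finset.sum_le_sum fun j (_ : j ∈ Finset.univ) => key i j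
  simp only [Finset.sum_add_distrib, Finset.sum_sub_distrib, ← Finset.mul_sum] at hsum
  -- reassemble
  have r1 : ∑ k, TE (fun x => b * (pk Z T k x * Wd v v1 Z k x)) =
      ∑ i, ∑ j, ∑ k, EE (fun x => pk Z T k x i j * (b * Wd v v1 Z k x) i j) := by
    have h1 : ∀ k, TE (fun x => b * (pk Z T k x * Wd v v1 Z k x)) =
        ∑ i, ∑ j, EE (fun x => pk Z T k x i j * (b * Wd v v1 Z k x) i j) := by
      intro k
      rw [← EE_sum2 fun i j => ((cp k) i j).mul ((cb.mul (cWd k)) i j)]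
      exact EE_congr fun x => tr_entries hb (Wd_t hZ k x) _
    simp only [h1]
    rw [Finset.sum_comm]
    exact Finset.sum_congr rfl fun i _ => Finset.sum_comm
  have r2 : TE (fun x => b * (eta0 Z T x * Wf v Z x)) =
      ∑ i, ∑ j, EE (fun x => eta0 Z T x i j * (b * Wf v Z x) i j) := by
    rw [← EE_sum2 fun i j => (cη i j).mul ((cb.mul cW.cg) i j)]
    exact EE_congr fun x => tr_entries hb (W_t hZ x) _
  have r3 : ∑ k, EE (fun x => hs (pk Z T k x)) =
      ∑ i, ∑ j, ∑ k, EE (fun x => pk Z T k x i j ^ 2) := by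
    have h1 : ∀ k, EE (fun x => hs (pk Z T k x)) =
        ∑ i, ∑ j, EE (fun x => pk Z T k x i j ^ 2) := by
      intro k
      rw [← EE_sum2 fun i j => ((cp k) i j).sq]
      rfl
    simp only [h1]
    rw [Finset.sum_comm]
    exact Finset.sum_congr rfl fun i _ => Finset.sum_comm
  have r4 : EE (fun x => hs (eta0 Z T x)) = ∑ i, ∑ j, EE (fun x => eta0 Z T x i j ^ 2) := by
    rw [← EE_sum2 fun i j => (cη i j).sq]
    rfl
  have r5 : ∑ k, TE (fun x => b * b * (Wd v v1 Z k x * Wd v v1 Z k x)) =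
      ∑ i, ∑ j, ∑ k, EE (fun x => (b * Wd v v1 Z k x) i j ^ 2) := by
    have h1 : ∀ k, TE (fun x => b * b * (Wd v v1 Z k x * Wd v v1 Z k x)) =
        ∑ i, ∑ j, EE (fun x => (b * Wd v v1 Z k x) i j ^ 2) := by
      intro k
      rw [← EE_sum2 fun i j => ((cb.mul (cWd k)) i j).sq]
      refine EE_congr fun x => ?_
      have hW := Wd_t (v := v) (v1 := v1) hZ k x
      change _ = hs (b * Wd v v1 Z k x)
      rw [hs_eq, Matrix.transpose_mul, hb, hW]
      calc (b * b * (Wd v v1 Z k x * Wd v v1 Z k x)).trace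
          = ((b * b * Wd v v1 Z k x) * Wd v v1 Z k x).trace := by simp only [Matrix.mul_assoc]
        _ = (Wd v v1 Z k x * (b * b * Wd v v1 Z k x)).trace := Matrix.trace_mul_comm _ _
        _ = _ := by simp only [Matrix.mul_assoc]
    simp only [h1]
    rw [Finset.sum_comm]
    exact Finset.sum_congr rfl fun i _ => Finset.sum_comm
  rw [r1, r2, r3, r4, r5]
  exact hsum

/-! ### the term `E tr b Z₁ W` -/

lemma herm_of_t {A : Mat n} (h : Aᵀ = A) : A.IsHermitian := by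
  rw [Matrix.IsHermitian, conjTranspose_eq_transpose_of_trivial, h]

lemma mul_cfc_self {A : Mat n} (hA : A.IsHermitian) (w : ℝ → ℝ) :
    _root_.cfc (fun t => t * w t) A = A * _root_.cfc w A := by
  obtain ⟨U, hU⟩ := exists_fr hA
  apply conj_inj hU.o'
  rw [hU.cfc, Jord192.conj_mul hU.o', hU.d, hU.cfc, Matrix.diagonal_mul_diagonal]

lemma mul_cfc_self_neg {A : Mat n} (hA : A.IsHermitian) (w : ℝ → ℝ) :
    _root_.cfc (fun t => -t * w (-t)) A = -(A * _root_.cfc (fun t => w (-t)) A) := by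
  obtain ⟨U, hU⟩ := exists_fr hA
  apply conj_inj hU.o'
  rw [hU.cfc, Matrix.mul_neg, Matrix.neg_mul, Jord192.conj_mul hU.o', hU.d, hU.cfc,
    Matrix.diagonal_mul_diagonal]
  ext i j
  by_cases hij : i = j
  · subst hij
    simp
  · simp [Matrix.diagonal_apply_ne _ hij]

/-- evenness: `E tr b Z₁ w(Z₁) ≥ 0` if `z (w(z) - w(-z)) ≥ 0` -/
theorem even_nonneg {T : Fin n → Mat n} (hTs : ∀ k, (T k)ᵀ = T k) {w : ℝ → ℝ} {L : ℝ}
    (hL : ∀ x y, |w x - w y| ≤ L * |x - y|) (ho : ∀ z, 0 ≤ z * (w z - w (-z)))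
    {b : Mat n} (hb : b.PosSemidef) :
    0 ≤ TE (fun x => b * (Z1 T x * _root_.cfc w (Z1 T x))) := by
  have hTh : ∀ k, (T k).IsHermitian := fun k => herm_of_t (hTs k)
  have cL : CGm (Z1 T) := cgm_Z1 T
  have cw : CGm (fun x => _root_.cfc w (Z1 T x)) := cgm_cfc_lip cL (herm_Z1 hTh) hL
  have cw' : CGm (fun x => _root_.cfc (fun t => w (-t)) (Z1 T x)) :=
    cgm_cfc_lip (L := L) cL (herm_Z1 hTh) fun x y => by
      have h := hL (-x) (-y)
      have e : |-x - -y| = |x - y| := by rw [← abs_neg]; congr 1; ring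
      rwa [e] at h
  have h := EE_cfc_neg hTh (fun t => t * w t) (fun X => (b * X).trace)
  simp only [mul_cfc_self (herm_Z1 hTh _), mul_cfc_self_neg (herm_Z1 hTh _)] at h
  have c1 : CG (fun x => (b * (Z1 T x * _root_.cfc w (Z1 T x))).trace) :=
    ((cgm_const b).mul (cL.mul cw)).trace
  have c2 : CG (fun x => (b * -(Z1 T x * _root_.cfc (fun t => w (-t)) (Z1 T x))).trace) :=
    ((cgm_const b).mul (CGm.neg (cL.mul cw'))).trace
  have h2 : 0 ≤ EE (fun x => (b * (Z1 T x * _root_.cfc w (Z1 T x))).trace +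
      (b * -(Z1 T x * _root_.cfc (fun t => w (-t)) (Z1 T x))).trace) := by
    refine EE_nonneg fun x => ?_
    rw [← mul_cfc_self (herm_Z1 hTh x), ← mul_cfc_self_neg (herm_Z1 hTh x)]
    obtain ⟨U, hU⟩ := exists_fr (herm_Z1 hTh x)
    rw [Matrix.trace_mul_comm b, Matrix.trace_mul_comm b, tr_frame hU, tr_frame hU,
      ← Finset.sum_add_distrib]
    refine Finset.sum_nonneg fun i _ => ?_
    rw [← add_mul]
    refine mul_nonneg ?_ (conj_diag_nonneg hb U i)
    have := ho ((herm_Z1 hTh x).eigenvalues i)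
    linarith
  rw [EE_add c1 c2, ← h] at h2
  unfold TE
  linarith

/-- **the `Z₁ W` term** -/
theorem z1w_ge (hZ : MF Z lo hi) (hv : ∀ z ∈ Icc lo hi, HasDerivAt v (v1 z) z)
    (hv1 : ContinuousOn v1 (Icc lo hi)) {T : Fin n → Mat n} (hTs : ∀ k, (T k)ᵀ = T k)
    {κ θ : ℝ} (hθ : 0 < θ)
    (hL : ∀ x y, |(v x - 1 / 4 * x) - (v y - 1 / 4 * y)| ≤ κ * |x - y|)
    (ho : ∀ z, 0 ≤ z * (v z - v (-z)) - z ^ 2 / 2) {b : Mat n} (hb : b.PosSemidef) :
    -(θ / 2 * (b * b * ∑ k, T k * T k).trace +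
      κ ^ 2 / (2 * θ) * EE (fun x => hs (eta0 Z T x))) ≤
      TE (fun x => b * (Z1 T x * Wf v Z x)) := by
  have hTh : ∀ k, (T k).IsHermitian := fun k => herm_of_t (hTs k)
  have hbt : bᵀ = b := by
    have := hb.isHermitian
    rwa [Matrix.IsHermitian, conjTranspose_eq_transpose_of_trivial] at this
  have cL : CGm (Z1 T) := cgm_Z1 T
  have cW := cgm_W hZ hv hv1
  have cη := cgm_eta0 hZ T
  have cw : CGm (fun x => _root_.cfc (fun z => v z - 1 / 4 * z) (Z1 T x)) :=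
    cgm_cfc_lip cL (herm_Z1 hTh) hL
  have h1 := even_nonneg hTs hL (fun z => by have := ho z; nlinarith) hb
  have c1 : CGm (fun x => b * (Z1 T x * Wf v Z x)) := (cgm_const b).mul (cL.mul cW)
  have c2 : CGm (fun x => b * (Z1 T x * _root_.cfc (fun z => v z - 1 / 4 * z) (Z1 T x))) :=
    (cgm_const b).mul (cL.mul cw)
  have hpt : ∀ x, -(b * (Z1 T x * Wf v Z x)).trace +
      (b * (Z1 T x * _root_.cfc (fun z => v z - 1 / 4 * z) (Z1 T x))).trace ≤
      θ / 2 * hs (b * Z1 T x) + κ ^ 2 / (2 * θ) * hs (eta0 Z T x) := by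
    intro x
    have a := tr_young hθ (-(b * Z1 T x))
      (Wf v Z x - _root_.cfc (fun z => v z - 1 / 4 * z) (Z1 T x))
    rw [Jord192.hs_neg] at a
    have a2 : hs (Wf v Z x - _root_.cfc (fun z => v z - 1 / 4 * z) (Z1 T x)) ≤
        κ ^ 2 * hs (eta0 Z T x) := by
      have h := hs_cfc_lip (hZ.h x) (herm_Z1 hTh x) hL
      have e1 : _root_.cfc (fun z => v z - 1 / 4 * z) (Mx Z x) = Wf v Z x := sf_w hZ x
      have e2 : Mx Z x - Z1 T x = eta0 Z T x := rfl
      rwa [e1, e2] at h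
    have a3 := mul_le_mul_of_nonneg_left a2 (show (0 : ℝ) ≤ 1 / (2 * θ) by positivity)
    have e3 : 1 / (2 * θ) * (κ ^ 2 * hs (eta0 Z T x)) = κ ^ 2 / (2 * θ) * hs (eta0 Z T x) := by
      ring
    have e4 : (-(b * Z1 T x) * (Wf v Z x -
        _root_.cfc (fun z => v z - 1 / 4 * z) (Z1 T x))).trace =
        -(b * (Z1 T x * Wf v Z x)).trace +
        (b * (Z1 T x * _root_.cfc (fun z => v z - 1 / 4 * z) (Z1 T x))).trace := by
      rw [Matrix.neg_mul, Matrix.mul_sub, Matrix.trace_neg, Matrix.trace_sub, Matrix.mul_assoc,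
        Matrix.mul_assoc]
      ring
    rw [e4] at a
    rw [e3] at a3
    linarith
  have cbL : CG (fun x => hs (b * Z1 T x)) := cg_hs ((cgm_const b).mul cL)
  have h := EE_mono (c1.trace.neg.add c2.trace)
    ((cbL.smul (θ / 2)).add ((cg_hs cη).smul (κ ^ 2 / (2 * θ)))) hpt
  rw [EE_add c1.trace.neg c2.trace, EE_neg, EE_add (cbL.smul _) ((cg_hs cη).smul _), EE_smul,
    EE_smul, EE_hs_Z1, sum_hs_mul b hbt hTs] at h
  unfold TE at h1 ⊢
  linarith

/-! ### the lower bound -/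

/-- **(EO)**: lower bound of `Λ(b)` for `b ≥ 0`, all constants parameters. -/
theorem eo_ge (hZ : MF Z lo hi) {F : ℝ → ℝ} (hFc : ContinuousOn F (Icc lo hi))
    (hv : ∀ z ∈ Icc lo hi, HasDerivAt v (v1 z) z) (hv1 : ContinuousOn v1 (Icc lo hi))
    {T : Fin n → Mat n} (hTs : ∀ k, (T k)ᵀ = T k) (hT : ∀ k, EM (S3.dZ Z k) = T k)
    (h0 : EM (Mx Z) = 0)
    {sl : ℝ → ℝ → ℝ} {Sl : E n → ℝ} (cSl : CG Sl)
    (hSl : ∀ x, ∃ U s, Fr (Mx Z x) U s ∧ ∑ k, Jord192.slk sl U s (S3.dZ Z k x) ≤ Sl x)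
    {Ce κ ε a c e bo bn θ θ1 : ℝ}
    (he : ∀ p ∈ Icc lo hi, ∀ q ∈ Icc lo hi, (dd1 v v1 p q - v1 q) ^ 2 ≤ Ce * sl p q)
    (hκ : ∀ z ∈ Icc lo hi, |v1 z - 1 / 4| ≤ κ)
    (hL : ∀ x y, |(v x - 1 / 4 * x) - (v y - 1 / 4 * y)| ≤ κ * |x - y|)
    (ho : ∀ z, 0 ≤ z * (v z - v (-z)) - z ^ 2 / 2)
    (hF2 : ∀ z ∈ Icc lo hi, a + c * z - e * z ^ 2 ≤ F z - 3 / 2 * (z * v z))
    (hC : 0 ≤ Ce) (hε : 0 < ε) (hθ : 0 < θ) (hθ1 : 0 < θ1) {b : Mat n} (hb : b.PosSemidef)
    (hbo : ∀ X : Mat n, hs (b * X) ≤ bo ^ 2 * hs X)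
    (hbn : ∀ X : Mat n, (b * (X * Xᵀ)).trace ≤ bn * hs X) (hbn0 : 0 ≤ bn) :
    a * b.trace + (5 / 16 - e - (1 + ε) * κ ^ 2) * (b * ∑ k, T k * T k).trace +
      (3 / 8 - e) * TE (fun x => b * (eta0 Z T x * eta0 Z T x)) -
      (1 / 16 + (1 + ε) * κ ^ 2) * ∑ k, TE (fun x => b * (pk Z T k x * pk Z T k x)) -
      (θ1 / 2 * (b * b * ∑ k, T k * T k).trace +
        κ ^ 2 / (2 * θ1) * EE (fun x => hs (eta0 Z T x))) -
      θ / 4 * ((∑ k, EE (fun x => hs (pk Z T k x))) - 3 / 2 * EE (fun x => hs (eta0 Z T x))) -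
      (1 + ε) * κ ^ 2 / (4 * θ) * ((b * b * ∑ k, T k * T k).trace +
        ∑ k, TE (fun x => b * b * (pk Z T k x * pk Z T k x))) -
      (1 + 1 / ε) * Ce * (bn + bo ^ 2 / (4 * θ)) * EE Sl ≤ Lam F v v1 Z b := by
  have hbt : bᵀ = b := by
    have := hb.isHermitian
    rwa [Matrix.IsHermitian, conjTranspose_eq_transpose_of_trivial] at this
  have hbb : (b * b).PosSemidef := by
    have := Matrix.posSemidef_self_mul_conjTranspose b
    rwa [conjTranspose_eq_transpose_of_trivial, hbt] at this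
  have hbbX : ∀ X : Mat n, (b * b * (X * Xᵀ)).trace ≤ bo ^ 2 * hs X := by
    intro X
    refine le_trans (le_of_eq ?_) (hbo X)
    rw [hs_eq, Matrix.transpose_mul, hbt]
    calc (b * b * (X * Xᵀ)).trace = ((b * b * X) * Xᵀ).trace := by simp only [Matrix.mul_assoc]
      _ = (Xᵀ * (b * b * X)).trace := Matrix.trace_mul_comm _ _
      _ = _ := by simp only [Matrix.mul_assoc]
  have hvc : ContinuousOn v (Icc lo hi) := contOn_of_deriv hv
  have h1 := lam_eo hZ hFc hv hv1 hbt hTs hT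
  have h2 := TE_quad_ge hZ hT h0 (f := fun z => F z - 3 / 2 * (z * v z))
    (hFc.sub (continuousOn_const.mul (continuousOn_id.mul hvc))) hF2 hb
  have h3 := wd_le hZ hv hv1 hTs hT cSl hSl hε hbn0 hC he hκ hb hbn
  have h4 := wd_le hZ hv hv1 hTs hT cSl hSl hε (sq_nonneg bo) hC he hκ hbb hbbX
  have h5 := block_le hZ hv hv1 hbt hT h0 hθ
  have h6 := z1w_ge hZ hv hv1 hTs hθ1 hL ho hb
  rw [h1]
  have h7 := mul_le_mul_of_nonneg_left h4 (show (0 : ℝ) ≤ 1 / (4 * θ) by positivity)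
  have e5 : 1 / 2 * (1 / (2 * θ)) = 1 / (4 * θ) := by field_simp; ring
  have h8 : 1 / 2 * ((∑ k, TE (fun x => b * (pk Z T k x * Wd v v1 Z k x))) -
        3 * TE (fun x => b * (eta0 Z T x * Wf v Z x))) ≤
      θ / 4 * ((∑ k, EE (fun x => hs (pk Z T k x))) - 3 / 2 * EE (fun x => hs (eta0 Z T x))) +
      1 / (4 * θ) * ∑ k, TE (fun x => b * b * (Wd v v1 Z k x * Wd v v1 Z k x)) := by
    have := mul_le_mul_of_nonneg_left h5 (show (0 : ℝ) ≤ 1 / 2 by norm_num)
    rw [mul_add, ← mul_assoc (1 / 2) (1 / (2 * θ)), e5] at this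
    linarith
  have e7 : 1 / (4 * θ) * ((1 + ε) * κ ^ 2 * ((b * b * ∑ k, T k * T k).trace +
        ∑ k, TE (fun x => b * b * (pk Z T k x * pk Z T k x))) +
      (1 + 1 / ε) * (bo ^ 2 * Ce) * EE Sl) =
      (1 + ε) * κ ^ 2 / (4 * θ) * ((b * b * ∑ k, T k * T k).trace +
        ∑ k, TE (fun x => b * b * (pk Z T k x * pk Z T k x))) +
      (1 + 1 / ε) * Ce * (bo ^ 2 / (4 * θ)) * EE Sl := by ring
  rw [e7] at h7
  have e8 : (1 + 1 / ε) * Ce * (bn + bo ^ 2 / (4 * θ)) * EE Sl =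
      (1 + 1 / ε) * (bn * Ce) * EE Sl + (1 + 1 / ε) * Ce * (bo ^ 2 / (4 * θ)) * EE Sl := by ring
  rw [e8]
  linarith

end field

end Crest.Agent.R253.EO629
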