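import Crest.Agent.R253.MAI_74

/-!
# Row 253, E-route, part 1 (helper358): the lower bound of the entropy deficit by a test field

* `er1`  : `2 E u m - E m Rm ≥ E u² + E|Du|² - E|Du - F|² - E r²`, `r = m - u - D*F`.
* `er1M` : the same for matrix fields.
-/

set_option autoImplicit false

open MeasureTheory ProbabilityTheory Real Set Filter Topology
open scoped ContDiff

noncomputable section

namespace Crest.Agent.R253.ER358

open Crest.Agent.R238.Gap Crest.Agent.R238.GapPoinc Crest.Agent.R238.GapPc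
open Crest.Agent.R253.Meh74

variable {n : ℕ}

/-- residual of the test field -/
def res (m u : E n → ℝ) (F : Fin n → E n → ℝ) (x : E n) : ℝ :=
  m x - u x + ∑ k, (pd k (F k) x - x k * F k x)

lemma integrable_C1 {f : E n → ℝ} (hf : C1 f) : Integrable f (gam n) :=
  integrable_of_PG hf.cont hf.g

lemma integrable_C1mul {f g : E n → ℝ} (hf : C1 f) (hg : C1 g) :
    Integrable (fun x => f x * g x) (gam n) := integrable_C1 (hf.mul hg)

/-- **ER1, scalar** -/
theorem er1 {m u : E n → ℝ} (hm : C1 m) (hu : C1 u) {F : Fin n → E n → ℝ} (hF : ∀ k, C1 (F k)) :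
    (∫ x, u x ^ 2 ∂(gam n)) + (∑ k, ∫ x, pd k u x ^ 2 ∂(gam n)) -
        (∑ k, ∫ x, (pd k u x - F k x) ^ 2 ∂(gam n)) - ∫ x, res m u F x ^ 2 ∂(gam n) ≤
      2 * (∫ x, u x * m x ∂(gam n)) - ∫ x, m x * Rs m x ∂(gam n) := by
  have hR := res_le hm hF
  set d : Fin n → E n → ℝ := fun k x => pd k (F k) x - x k * F k x with hd
  have hdc : ∀ k, Continuous (d k) := fun k =>
    ((hF k).contp k).sub ((c1_coord k).cont.mul (hF k).cont)
  have hdg : ∀ k, PG (d k) := fun k => ((hF k).p k).sub ((pg_coord k).mul (hF k).g)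
  set r : E n → ℝ := res m u F with hr
  have hrx : ∀ x, r x = m x - u x + ∑ k, d k x := fun x => rfl
  have hrc : Continuous r := by
    have : Continuous fun x => m x - u x + ∑ k, d k x :=
      (hm.cont.sub hu.cont).add (continuous_finsetSum _ fun k _ => hdc k)
    exact this
  have hrg : PG r := by
    have : PG fun x => m x - u x + ∑ k, d k x := (hm.g.sub hu.g).add (PG.sum _ fun k _ => hdg k)
    exact this
  have iuu : Integrable (fun x => u x ^ 2) (gam n) := integrable_of_PG (hu.cont.pow 2) (PG_sq hu.g)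
  have irr : Integrable (fun x => r x ^ 2) (gam n) := integrable_of_PG (hrc.pow 2) (PG_sq hrg)
  have iur : Integrable (fun x => u x * r x) (gam n) :=
    integrable_of_PG (hu.cont.mul hrc) (hu.g.mul hrg)
  have ium : Integrable (fun x => u x * m x) (gam n) := integrable_C1mul hu hm
  have iud : ∀ k, Integrable (fun x => u x * d k x) (gam n) := fun k =>
    integrable_of_PG (hu.cont.mul (hdc k)) (hu.g.mul (hdg k))
  have iFF : ∀ k, Integrable (fun x => F k x ^ 2) (gam n) := fun k =>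
    integrable_of_PG ((hF k).cont.pow 2) (PG_sq (hF k).g)
  have iFu : ∀ k, Integrable (fun x => F k x * pd k u x) (gam n) := fun k =>
    integrable_of_PG ((hF k).cont.mul (hu.contp k)) ((hF k).g.mul (hu.p k))
  have ipp : ∀ k, Integrable (fun x => pd k u x ^ 2) (gam n) := fun k =>
    integrable_of_PG ((hu.contp k).pow 2) (PG_sq (hu.p k))
  -- the square in `res_le`
  have e1 : ∫ x, (m x + ∑ k, (pd k (F k) x - x k * F k x)) ^ 2 ∂(gam n) =
      (∫ x, r x ^ 2 ∂(gam n)) + 2 * (∫ x, u x * r x ∂(gam n)) + ∫ x, u x ^ 2 ∂(gam n) := by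
    have : ∀ x, (m x + ∑ k, (pd k (F k) x - x k * F k x)) ^ 2 =
        (r x ^ 2 + 2 * (u x * r x)) + u x ^ 2 := fun x => by
      have h1 : m x + ∑ k, (pd k (F k) x - x k * F k x) = r x + u x := by
        rw [hrx x]; simp only [hd]; ring
      rw [h1]; ring
    simp_rw [this]
    have i1 : Integrable (fun x => r x ^ 2 + 2 * (u x * r x)) (gam n) := irr.add (iur.const_mul 2)
    rw [integral_add i1 iuu, integral_add irr (iur.const_mul 2), integral_const_mul]
  have e2 : ∫ x, u x * r x ∂(gam n) = (∫ x, u x * m x ∂(gam n)) - (∫ x, u x ^ 2 ∂(gam n)) -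
      ∑ k, ∫ x, F k x * pd k u x ∂(gam n) := by
    have : ∀ x, u x * r x = (u x * m x - u x ^ 2) + ∑ k, u x * d k x := fun x => by
      rw [hrx x, mul_add, Finset.mul_sum]; ring
    simp_rw [this]
    have i1 : Integrable (fun x => u x * m x - u x ^ 2) (gam n) := ium.sub iuu
    have i2 : Integrable (fun x => ∑ k, u x * d k x) (gam n) :=
      integrable_finsetSum _ fun k _ => iud k
    rw [integral_add i1 i2, integral_sub ium iuu, integral_finsetSum _ fun k _ => iud k]
    have h2 : ∀ k, ∫ x, u x * d k x ∂(gam n) = -∫ x, F k x * pd k u x ∂(gam n) := fun k => by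
      have := ibp_prod hu (hF k) k
      simp only [hd]
      rw [this]
      congr 1
      refine integral_congr_ae (ae_of_all _ fun x => ?_)
      simp only; ring
    simp_rw [h2]
    rw [Finset.sum_neg_distrib]; ring
  have e3 : ∀ k, ∫ x, (pd k u x - F k x) ^ 2 ∂(gam n) = (∫ x, pd k u x ^ 2 ∂(gam n)) -
      2 * (∫ x, F k x * pd k u x ∂(gam n)) + ∫ x, F k x ^ 2 ∂(gam n) := fun k => by
    have : ∀ x, (pd k u x - F k x) ^ 2 = pd k u x ^ 2 - 2 * (F k x * pd k u x) + F k x ^ 2 :=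
      fun x => by ring
    simp_rw [this]
    exact int_expand (ipp k) (iFu k) (iFF k)
  have e4 : ∑ k, ∫ x, (pd k u x - F k x) ^ 2 ∂(gam n) = (∑ k, ∫ x, pd k u x ^ 2 ∂(gam n)) -
      2 * (∑ k, ∫ x, F k x * pd k u x ∂(gam n)) + ∑ k, ∫ x, F k x ^ 2 ∂(gam n) := by
    simp_rw [e3]
    rw [Finset.sum_add_distrib, Finset.sum_sub_distrib, ← Finset.mul_sum]
  rw [e1, e2] at hR
  rw [e4]
  linarith

/-- **ER1, matrix fields** -/
theorem er1M {M U : Fin n → Fin n → E n → ℝ} (hM : ∀ i j, C1 (M i j)) (hU : ∀ i j, C1 (U i j))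
    {F : Fin n → Fin n → Fin n → E n → ℝ} (hF : ∀ i j k, C1 (F i j k)) :
    (∑ i, ∑ j, ∫ x, U i j x ^ 2 ∂(gam n)) + (∑ i, ∑ j, ∑ k, ∫ x, pd k (U i j) x ^ 2 ∂(gam n)) -
        (∑ i, ∑ j, ∑ k, ∫ x, (pd k (U i j) x - F i j k x) ^ 2 ∂(gam n)) -
        (∑ i, ∑ j, ∫ x, res (M i j) (U i j) (F i j) x ^ 2 ∂(gam n)) ≤
      2 * (∑ i, ∑ j, ∫ x, U i j x * M i j x ∂(gam n)) -
        ∑ i, ∑ j, ∫ x, M i j x * Rs (M i j) x ∂(gam n) := by
  have h := Finset.sum_le_sum fun i (_ : i ∈ (Finset.univ : Finset (Fin n))) =>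
    Finset.sum_le_sum fun j (_ : j ∈ (Finset.univ : Finset (Fin n))) =>
      er1 (hM i j) (hU i j) (hF i j)
  simp only [Finset.sum_sub_distrib, Finset.sum_add_distrib] at h
  simp only [Finset.mul_sum]
  simpa [Finset.sum_sub_distrib, Finset.sum_add_distrib, Finset.mul_sum] using h

end Crest.Agent.R253.ER358
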