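import Mathlib
import Crest.Prelude.Def_Isotropic

/-!
Row 253: reduction of `S0390` (strong slicing for convex bodies, with equality case) to `S0391`
(sharp entropy inequality, with equality case), through the cone density
`f(t,x) = e^{-t} 1[t>0, x ∈ tK] / (n! vol K)` on `ℝ^{n+1}`.
-/

set_option autoImplicit false
open MeasureTheory Crest.GeometryTopology.Isotropic

namespace Crest.Agent.R253.Red505

/-- statement S0391, as a hypothesis -/
def Hyp391 : Prop := ∀ (m : ℕ) (_hm : 1 ≤ m)
    (f : (Fin m → ℝ) → ℝ) (_hf : Measurable f) (_hf0 : ∀ x, 0 ≤ f x) (_hf1 : ∫ x, f x = 1)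
    (_hfc : Convex ℝ {x | 0 < f x}) (_hfl : ConcaveOn ℝ {x | 0 < f x} (fun x => Real.log (f x))),
    (m : ℝ) + Real.log (densCov f).det / 2 ≤ diffEntropy f ∧
      (diffEntropy f = (m : ℝ) + Real.log (densCov f).det / 2 ↔
        ∃ (M : Matrix (Fin m) (Fin m) ℝ) (b : Fin m → ℝ), M.det ≠ 0 ∧
          f =ᵐ[volume] fun x => |M.det|⁻¹ *
            Set.indicator {y : Fin m → ℝ | ∀ i, 0 ≤ (M⁻¹.mulVec (y - b)) i}
              (fun y => Real.exp (- ∑ i, (M⁻¹.mulVec (y - b)) i)) x)

variable {n : ℕ}

/-- the point of `K` under `y = (t, t z)` -/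
noncomputable def proj (y : Fin (n + 1) → ℝ) : Fin n → ℝ := fun i => (y 0)⁻¹ * y i.succ

lemma measurable_proj : Measurable (proj : (Fin (n + 1) → ℝ) → Fin n → ℝ) := by
  unfold proj
  fun_prop

/-- the open-at-apex cone over `K` -/
def cone (K : Set (Fin n → ℝ)) : Set (Fin (n + 1) → ℝ) := {y | 0 < y 0 ∧ proj y ∈ K}

lemma measurableSet_cone {K : Set (Fin n → ℝ)} (hK : MeasurableSet K) :
    MeasurableSet (cone K) := by
  apply MeasurableSet.inter
  · exact measurableSet_lt measurable_const (measurable_pi_apply 0)
  · exact measurable_proj hK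

/-- polar-type integration on the cone -/
lemma integral_cone {K : Set (Fin n → ℝ)} (hK : MeasurableSet K) {φ : ℝ → ℝ}
    {ψ : (Fin n → ℝ) → ℝ} (hφm : Measurable φ) (hψm : Measurable ψ)
    (hφ : IntegrableOn (fun t => φ t * t ^ n) (Set.Ioi 0)) (hψ : IntegrableOn ψ K) :
    Integrable (fun y => (cone K).indicator (fun y => φ (y 0) * ψ (proj y)) y) ∧
    ∫ y, (cone K).indicator (fun y => φ (y 0) * ψ (proj y)) y
      = (∫ t in Set.Ioi (0:ℝ), φ t * t ^ n) * ∫ z in K, ψ z := by
  classical
  set e := MeasurableEquiv.piFinSuccAbove (fun _ : Fin (n + 1) => ℝ) 0 with he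
  have hmp : MeasurePreserving e := volume_preserving_piFinSuccAbove (fun _ => ℝ) 0
  -- the function on the product
  set F : ℝ × (Fin n → ℝ) → ℝ := fun p =>
    (Set.Ioi (0:ℝ)).indicator φ p.1 * K.indicator ψ (p.1⁻¹ • p.2) with hF
  have hFe : ∀ y, (cone K).indicator (fun y => φ (y 0) * ψ (proj y)) y = F (e y) := by
    intro y
    have h1 : (e y).1 = y 0 := rfl
    have h2 : (e y).2 = fun i => y i.succ := by
      ext i
      simp [he, MeasurableEquiv.piFinSuccAbove, Fin.insertNthEquiv, Fin.tail]
    have h3 : (e y).1⁻¹ • (e y).2 = proj y := by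
      rw [h1, h2]; rfl
    simp only [hF]
    rw [h3, h1]
    by_cases hy0 : 0 < y 0
    · by_cases hyK : proj y ∈ K
      · rw [Set.indicator_of_mem (show y ∈ cone K from ⟨hy0, hyK⟩),
          Set.indicator_of_mem (show y 0 ∈ Set.Ioi (0:ℝ) from hy0), Set.indicator_of_mem hyK]
      · rw [Set.indicator_of_notMem (fun h : y ∈ cone K => hyK h.2),
          Set.indicator_of_notMem hyK, mul_zero]
    · rw [Set.indicator_of_notMem (fun h : y ∈ cone K => hy0 h.1),
        Set.indicator_of_notMem (show y 0 ∉ Set.Ioi (0:ℝ) from hy0), zero_mul]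
  have hFm : Measurable F := by
    simp only [hF]
    apply Measurable.mul
    · exact (hφm.indicator measurableSet_Ioi).comp measurable_fst
    · refine (hψm.indicator hK).comp ?_
      fun_prop
  have hψ' : Integrable (K.indicator ψ) := (integrable_indicator_iff hK).2 hψ
  have hsec : ∀ t : ℝ, Integrable (fun x => F (t, x)) := by
    intro t
    simp only [hF]
    by_cases ht : 0 < t
    · exact (hψ'.comp_smul (inv_ne_zero ht.ne')).const_mul _
    · have : t ∉ Set.Ioi (0:ℝ) := ht
      simp only [Set.indicator_of_notMem this, zero_mul]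
      exact integrable_zero _ _ _
  have hnorm : ∀ t : ℝ, ∫ x, ‖F (t, x)‖ =
      (Set.Ioi (0:ℝ)).indicator (fun t => ‖φ t * t ^ n‖) t * ∫ z, ‖K.indicator ψ z‖ := by
    intro t
    simp only [hF]
    by_cases ht : 0 < t
    · have htm : t ∈ Set.Ioi (0:ℝ) := ht
      simp only [Set.indicator_of_mem htm, norm_mul]
      rw [integral_const_mul]
      rw [Measure.integral_comp_inv_smul volume (fun z => ‖K.indicator ψ z‖) t]
      simp only [Module.finrank_fintype_fun_eq_card, Fintype.card_fin, smul_eq_mul, abs_pow,
        norm_pow, Real.norm_eq_abs]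
      ring
    · have : t ∉ Set.Ioi (0:ℝ) := ht
      simp [Set.indicator_of_notMem this]
  have hval : ∀ t : ℝ, ∫ x, F (t, x) =
      (Set.Ioi (0:ℝ)).indicator (fun t => φ t * t ^ n) t * ∫ z, K.indicator ψ z := by
    intro t
    simp only [hF]
    by_cases ht : 0 < t
    · have htm : t ∈ Set.Ioi (0:ℝ) := ht
      simp only [Set.indicator_of_mem htm]
      rw [integral_const_mul]
      rw [Measure.integral_comp_inv_smul volume (fun z => K.indicator ψ z) t]
      simp only [Module.finrank_fintype_fun_eq_card, Fintype.card_fin, smul_eq_mul, abs_pow,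
        abs_of_pos ht]
      ring
    · have : t ∉ Set.Ioi (0:ℝ) := ht
      simp [Set.indicator_of_notMem this]
  have hFint : Integrable F (volume : Measure (ℝ × (Fin n → ℝ))) := by
    rw [show (volume : Measure (ℝ × (Fin n → ℝ))) = (volume : Measure ℝ).prod volume from rfl]
    rw [integrable_prod_iff hFm.aestronglyMeasurable]
    refine ⟨Filter.Eventually.of_forall hsec, ?_⟩
    simp_rw [hnorm]
    apply Integrable.mul_const
    rw [integrable_indicator_iff measurableSet_Ioi]
    exact hφ.norm
  constructor
  · have := hmp.integrable_comp_of_integrable hFint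
    refine this.congr (Filter.Eventually.of_forall fun y => ?_)
    exact (hFe y).symm
  · simp_rw [hFe]
    rw [hmp.integral_comp']
    rw [show (volume : Measure (ℝ × (Fin n → ℝ))) = (volume : Measure ℝ).prod volume from rfl]
    rw [integral_prod F hFint]
    simp_rw [hval]
    rw [integral_mul_const, integral_indicator measurableSet_Ioi, integral_indicator hK]

/-- Gamma integrals -/
lemma gamma_int (k : ℕ) : IntegrableOn (fun t : ℝ => Real.exp (-t) * t ^ k) (Set.Ioi 0) ∧
    ∫ t in Set.Ioi (0:ℝ), Real.exp (-t) * t ^ k = (k.factorial : ℝ) := by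
  have h := Real.GammaIntegral_convergent (s := (k:ℝ) + 1) (by positivity)
  have h2 : ∀ t ∈ Set.Ioi (0:ℝ), Real.exp (-t) * t ^ ((k:ℝ) + 1 - 1) = Real.exp (-t) * t ^ k := by
    intro t ht
    rw [show (k:ℝ) + 1 - 1 = (k:ℝ) by ring, Real.rpow_natCast]
  refine ⟨h.congr_fun h2 measurableSet_Ioi, ?_⟩
  rw [← Real.Gamma_nat_eq_factorial, Real.Gamma_eq_integral (by positivity)]
  exact setIntegral_congr_fun measurableSet_Ioi fun t ht => (h2 t ht).symm

/-- normalising constant `n! vol K` -/
noncomputable def cst (K : Set (Fin n → ℝ)) : ℝ := (n.factorial : ℝ) * (volume K).toReal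

/-- the cone density -/
noncomputable def dens (K : Set (Fin n → ℝ)) : (Fin (n + 1) → ℝ) → ℝ :=
  (cone K).indicator (fun y => Real.exp (-(y 0)) / cst K)

/-- homogeneous coordinates of a point of `K` -/
noncomputable def lft (a : Fin (n + 1)) (z : Fin n → ℝ) : ℝ := Fin.cases 1 z a

@[simp] lemma lft_zero (z : Fin n → ℝ) : lft 0 z = 1 := rfl
@[simp] lemma lft_succ (i : Fin n) (z : Fin n → ℝ) : lft i.succ z = z i := rfl

lemma continuous_lft (a : Fin (n + 1)) : Continuous (lft a : (Fin n → ℝ) → ℝ) := by
  refine Fin.cases ?_ (fun i => ?_) a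
  · exact continuous_const
  · exact continuous_apply i

lemma coord_eq {y : Fin (n + 1) → ℝ} (hy : y 0 ≠ 0) (a : Fin (n + 1)) :
    y a = y 0 * lft a (proj y) := by
  refine Fin.cases ?_ (fun i => ?_) a
  · simp
  · simp only [lft_succ, proj]
    field_simp

section moments

variable {K : Set (Fin n → ℝ)}

lemma moment (hK : MeasurableSet K) (hV : 0 < (volume K).toReal) (k : ℕ)
    {ψ : (Fin n → ℝ) → ℝ} (hψm : Measurable ψ) (hψ : IntegrableOn ψ K) :
    Integrable (fun y => (y 0) ^ k * ψ (proj y) * dens K y) ∧
    ∫ y, (y 0) ^ k * ψ (proj y) * dens K y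
      = (((n + k).factorial : ℝ) / (n.factorial : ℝ)) * ((∫ z in K, ψ z) / (volume K).toReal) := by
  have hg := gamma_int (n + k)
  have hφ : IntegrableOn (fun t : ℝ => (t ^ k * (Real.exp (-t) / cst K)) * t ^ n) (Set.Ioi 0) := by
    have := hg.1.div_const (cst K)
    refine this.congr (Filter.Eventually.of_forall fun t => ?_)
    simp only
    rw [pow_add]; ring
  have hφm : Measurable (fun t : ℝ => t ^ k * (Real.exp (-t) / cst K)) := by fun_prop
  have h := integral_cone hK hφm hψm hφ hψ
  have heq : ∀ y : Fin (n + 1) → ℝ, (cone K).indicator (fun y => ((y 0) ^ k *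
      (Real.exp (-(y 0)) / cst K)) * ψ (proj y)) y = (y 0) ^ k * ψ (proj y) * dens K y := by
    intro y
    unfold dens
    by_cases hy : y ∈ cone K
    · rw [Set.indicator_of_mem hy, Set.indicator_of_mem hy]; ring
    · rw [Set.indicator_of_notMem hy, Set.indicator_of_notMem hy, mul_zero]
  refine ⟨h.1.congr (Filter.Eventually.of_forall heq), ?_⟩
  simp_rw [← heq]
  rw [h.2]
  have h3 : ∫ t in Set.Ioi (0:ℝ), (t ^ k * (Real.exp (-t) / cst K)) * t ^ n
      = ((n + k).factorial : ℝ) / cst K := by
    rw [← hg.2, ← integral_div]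
    congr 1
    ext t
    rw [pow_add]; ring
  rw [h3]
  unfold cst
  have : (n.factorial : ℝ) ≠ 0 := by positivity
  field_simp

lemma dens_nonneg (y : Fin (n + 1) → ℝ) : 0 ≤ dens K y := by
  unfold dens
  apply Set.indicator_nonneg
  intro y _
  unfold cst
  positivity

lemma measurable_dens (hK : MeasurableSet K) : Measurable (dens K) := by
  unfold dens
  apply Measurable.indicator _ (measurableSet_cone hK)
  fun_prop

lemma integral_dens (hK : MeasurableSet K) (hV : 0 < (volume K).toReal) :
    Integrable (dens K) ∧ ∫ y, dens K y = 1 := by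
  have hKf : volume K ≠ ⊤ := by
    intro h; rw [h] at hV; simp at hV
  have h := moment hK hV 0 (ψ := fun _ => 1) measurable_const
    (integrableOn_const hKf)
  simp only [pow_zero, mul_one, one_mul, add_zero] at h
  refine ⟨h.1, ?_⟩
  rw [h.2]
  have : (n.factorial : ℝ) ≠ 0 := by positivity
  simp [measureReal_def]
  field_simp

lemma moment1 (hK : MeasurableSet K) (hKb : IsCompact K) (hV : 0 < (volume K).toReal)
    (a : Fin (n + 1)) :
    Integrable (fun y => y a * dens K y) ∧
    ∫ y, y a * dens K y = (n + 1 : ℝ) * ((∫ z in K, lft a z) / (volume K).toReal) := by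
  have h := moment hK hV 1 (ψ := lft a) (continuous_lft a).measurable
    ((continuous_lft a).continuousOn.integrableOn_compact hKb)
  have heq : ∀ y : Fin (n + 1) → ℝ, y 0 ^ 1 * lft a (proj y) * dens K y = y a * dens K y := by
    intro y
    by_cases hy : y ∈ cone K
    · rw [coord_eq (ne_of_gt hy.1) a]; ring
    · unfold dens
      rw [Set.indicator_of_notMem hy, mul_zero, mul_zero]
  simp_rw [heq] at h
  refine ⟨h.1, ?_⟩
  rw [h.2]
  have : (n.factorial : ℝ) ≠ 0 := by positivity
  rw [Nat.factorial_succ]
  push_cast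
  field_simp

lemma moment2 (hK : MeasurableSet K) (hKb : IsCompact K) (hV : 0 < (volume K).toReal)
    (a b : Fin (n + 1)) :
    Integrable (fun y => y a * y b * dens K y) ∧
    ∫ y, y a * y b * dens K y
      = (n + 1 : ℝ) * (n + 2) * ((∫ z in K, lft a z * lft b z) / (volume K).toReal) := by
  have hc : Continuous (fun z : Fin n → ℝ => lft a z * lft b z) :=
    (continuous_lft a).mul (continuous_lft b)
  have h := moment hK hV 2 (ψ := fun z => lft a z * lft b z) hc.measurable
    (hc.continuousOn.integrableOn_compact hKb)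
  have heq : ∀ y : Fin (n + 1) → ℝ,
      y 0 ^ 2 * (lft a (proj y) * lft b (proj y)) * dens K y = y a * y b * dens K y := by
    intro y
    by_cases hy : y ∈ cone K
    · rw [coord_eq (ne_of_gt hy.1) a, coord_eq (ne_of_gt hy.1) b]; ring
    · unfold dens
      rw [Set.indicator_of_notMem hy, mul_zero, mul_zero]
  simp_rw [heq] at h
  refine ⟨h.1, ?_⟩
  rw [h.2]
  have : (n.factorial : ℝ) ≠ 0 := by positivity
  rw [Nat.factorial_succ, Nat.factorial_succ]
  push_cast
  field_simp
  ring

lemma densCov_dens (hK : MeasurableSet K) (hKb : IsCompact K) (hV : 0 < (volume K).toReal)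
    (a b : Fin (n + 1)) :
    densCov (dens K) a b
      = (n + 1 : ℝ) * (n + 2) * ((∫ z in K, lft a z * lft b z) / (volume K).toReal)
        - (n + 1 : ℝ) ^ 2 * (((∫ z in K, lft a z) / (volume K).toReal)
            * ((∫ z in K, lft b z) / (volume K).toReal)) := by
  have h0 := integral_dens hK hV
  have ha := moment1 hK hKb hV a
  have hb := moment1 hK hKb hV b
  have hab := moment2 hK hKb hV a b
  set A := (∫ z in K, lft a z) / (volume K).toReal
  set B := (∫ z in K, lft b z) / (volume K).toReal
  unfold densCov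
  simp only [Matrix.of_apply]
  have hma : densMean (dens K) a = (n + 1 : ℝ) * A := ha.2
  have hmb : densMean (dens K) b = (n + 1 : ℝ) * B := hb.2
  rw [hma, hmb]
  have heq : ∀ y : Fin (n + 1) → ℝ, (y a - (n + 1 : ℝ) * A) * (y b - (n + 1 : ℝ) * B) * dens K y
      = (y a * y b * dens K y - (n + 1 : ℝ) * B * (y a * dens K y))
        - ((n + 1 : ℝ) * A * (y b * dens K y) - (n + 1 : ℝ) * A * ((n + 1 : ℝ) * B) * dens K y) := by
    intro y; ring
  simp_rw [heq]
  rw [integral_sub, integral_sub, integral_sub, integral_const_mul, integral_const_mul,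
    integral_const_mul, h0.2, ha.2, hb.2, hab.2]
  · ring
  · exact hb.1.const_mul _
  · exact h0.1.const_mul _
  · exact hab.1
  · exact ha.1.const_mul _
  · exact hab.1.sub (ha.1.const_mul _)
  · exact (hb.1.const_mul _).sub (h0.1.const_mul _)

lemma cst_pos (hV : 0 < (volume K).toReal) : 0 < cst K := by
  unfold cst; positivity

lemma diffEntropy_dens (hK : MeasurableSet K) (hKb : IsCompact K)
    (hV : 0 < (volume K).toReal) :
    diffEntropy (dens K) = (n + 1 : ℝ) + Real.log (cst K) := by
  have hc := cst_pos hV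
  have h0 := integral_dens hK hV
  have h1 := moment1 hK hKb hV 0
  have heq : ∀ y : Fin (n + 1) → ℝ, dens K y * Real.log (dens K y)
      = -(y 0 * dens K y) - Real.log (cst K) * dens K y := by
    intro y
    by_cases hy : y ∈ cone K
    · have : dens K y = Real.exp (-(y 0)) / cst K := by
        unfold dens; rw [Set.indicator_of_mem hy]
      have hl : Real.log (dens K y) = -(y 0) - Real.log (cst K) := by
        rw [this, Real.log_div (Real.exp_pos _).ne' hc.ne', Real.log_exp]
      rw [hl]; ring
    · unfold dens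
      rw [Set.indicator_of_notMem hy]; simp
  unfold diffEntropy
  simp_rw [heq]
  have hneg : Integrable (fun y : Fin (n + 1) → ℝ => -(y 0 * dens K y)) := h1.1.neg
  rw [integral_sub hneg (h0.1.const_mul _), integral_neg, h1.2, integral_const_mul, h0.2]
  have hone : (∫ z in K, lft (0 : Fin (n + 1)) z) / (volume K).toReal = 1 := by
    simp only [lft_zero]
    have hone0 : ∫ z in K, (1:ℝ) = (volume K).toReal := by simp [measureReal_def]
    rw [hone0]; exact div_self hV.ne'
  rw [hone]
  ring

lemma covMatrix_eq (hKb : IsCompact K) (hV : 0 < (volume K).toReal) (i j : Fin n) :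
    covMatrix K i j = (∫ z in K, z i * z j) / (volume K).toReal - centroid K i * centroid K j := by
  unfold covMatrix
  simp only [Matrix.of_apply]
  have hKf : volume K ≠ ⊤ := hKb.measure_lt_top.ne
  have hi : IntegrableOn (fun z : Fin n → ℝ => z i) K :=
    (continuous_apply i).continuousOn.integrableOn_compact hKb
  have hj : IntegrableOn (fun z : Fin n → ℝ => z j) K :=
    (continuous_apply j).continuousOn.integrableOn_compact hKb
  have hij : IntegrableOn (fun z : Fin n → ℝ => z i * z j) K :=
    ((continuous_apply i).mul (continuous_apply j)).continuousOn.integrableOn_compact hKb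
  have h1 : IntegrableOn (fun _ : Fin n → ℝ => (1:ℝ)) K := integrableOn_const hKf
  have heq : ∀ z : Fin n → ℝ, (z i - centroid K i) * (z j - centroid K j)
      = (z i * z j - centroid K j * z i) - (centroid K i * z j - centroid K i * centroid K j * 1) := by
    intro z; ring
  simp_rw [heq]
  rw [integral_sub, integral_sub, integral_sub, integral_const_mul, integral_const_mul,
    integral_const_mul]
  · have hci : ∫ z in K, z i = (volume K).toReal * centroid K i := by
      unfold centroid; field_simp
    have hcj : ∫ z in K, z j = (volume K).toReal * centroid K j := by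
      unfold centroid; field_simp
    have hone : ∫ z in K, (1:ℝ) = (volume K).toReal := by simp [measureReal_def]
    rw [hci, hcj, hone]
    field_simp
    ring
  · exact hj.const_mul _
  · exact h1.const_mul _
  · exact hij
  · exact hi.const_mul _
  · exact hij.sub (hi.const_mul _)
  · exact (hj.const_mul _).sub (h1.const_mul _)

/-- block lower-triangular unipotent matrix -/
noncomputable def Lm (c : Fin n → ℝ) : Matrix (Fin (n + 1)) (Fin (n + 1)) ℝ :=
  Matrix.of fun a b => Fin.cases (if a = 0 then 1 else Fin.cases 0 c a)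
    (fun j => if a = j.succ then 1 else 0) b

noncomputable def Dm (d : ℝ) (S : Matrix (Fin n) (Fin n) ℝ) :
    Matrix (Fin (n + 1)) (Fin (n + 1)) ℝ :=
  Matrix.of fun a b => Fin.cases (Fin.cases d (fun _ => 0) a)
    (fun j => Fin.cases 0 (fun i => S i j) a) b

lemma det_Lm (c : Fin n → ℝ) : (Lm c).det = 1 := by
  rw [Matrix.det_succ_row_zero, Fin.sum_univ_succ]
  have h1 : ∀ j : Fin n, Lm c 0 j.succ = 0 := by
    intro j
    simp [Lm, (Fin.succ_ne_zero j).symm]
  have h2 : (Lm c).submatrix Fin.succ (Fin.succAbove 0) = 1 := by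
    ext i j
    simp [Lm, Matrix.one_apply]
  simp only [h1, h2]
  simp [Lm]

lemma det_Dm (d : ℝ) (S : Matrix (Fin n) (Fin n) ℝ) : (Dm d S).det = d * S.det := by
  rw [Matrix.det_succ_row_zero, Fin.sum_univ_succ]
  have h1 : ∀ j : Fin n, Dm d S 0 j.succ = 0 := by
    intro j
    simp [Dm]
  have h2 : (Dm d S).submatrix Fin.succ (Fin.succAbove 0) = S := by
    ext i j
    simp [Dm]
  simp only [h1, h2]
  simp [Dm]

lemma densCov_factor (hK : MeasurableSet K) (hKb : IsCompact K) (hV : 0 < (volume K).toReal) :
    densCov (dens K) = Lm (centroid K) * Dm (n + 1 : ℝ) (((n + 1 : ℝ) * (n + 2)) • covMatrix K)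
      * (Lm (centroid K)).transpose := by
  have hone0 : ∫ z in K, (1:ℝ) = (volume K).toReal := by simp [measureReal_def]
  have hone : (∫ z in K, (1:ℝ)) / (volume K).toReal = 1 := by
    rw [hone0]; exact div_self hV.ne'
  have hone' : (∫ z in K, (1:ℝ) * 1) / (volume K).toReal = 1 := by
    simp only [mul_one]; exact hone
  have hcen : ∀ i, (∫ z in K, z i) / (volume K).toReal = centroid K i := fun i => rfl
  ext a b
  rw [densCov_dens hK hKb hV]
  simp only [Matrix.mul_apply, Matrix.transpose_apply]
  refine Fin.cases ?_ (fun i => ?_) a <;> refine Fin.cases ?_ (fun j => ?_) b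
  · simp only [Fin.sum_univ_succ, lft_zero, hone, hone']
    simp [Lm, Dm, (Fin.succ_ne_zero _).symm]
    ring
  · simp only [Fin.sum_univ_succ, lft_zero, lft_succ, hone, one_mul, hcen]
    simp [Lm, Dm, (Fin.succ_ne_zero _).symm]
    ring
  · simp only [Fin.sum_univ_succ, lft_zero, lft_succ, hone, mul_one, hcen]
    simp [Lm, Dm, (Fin.succ_ne_zero _).symm]
    ring
  · simp only [Fin.sum_univ_succ, lft_succ, hcen]
    have := covMatrix_eq hKb hV i j
    have h2 : (∫ z in K, z i * z j) / (volume K).toReal
        = covMatrix K i j + centroid K i * centroid K j := by rw [this]; ring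
    rw [h2]
    simp [Lm, Dm]
    ring

lemma det_densCov (hK : MeasurableSet K) (hKb : IsCompact K) (hV : 0 < (volume K).toReal) :
    (densCov (dens K)).det = (covMatrix K).det * ((n : ℝ) + 1) ^ (n + 1) * ((n : ℝ) + 2) ^ n := by
  rw [densCov_factor hK hKb hV, Matrix.det_mul, Matrix.det_mul, Matrix.det_transpose, det_Lm,
    det_Dm, Matrix.det_smul]
  simp only [Fintype.card_fin]
  rw [mul_pow]
  ring

lemma dens_pos_iff (hV : 0 < (volume K).toReal) (y : Fin (n + 1) → ℝ) :
    0 < dens K y ↔ y ∈ cone K := by
  unfold dens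
  constructor
  · intro h
    by_contra hy
    rw [Set.indicator_of_notMem hy] at h
    exact lt_irrefl _ h
  · intro hy
    rw [Set.indicator_of_mem hy]
    have := cst_pos hV
    positivity

lemma convex_cone (hKc : Convex ℝ K) : Convex ℝ (cone K) := by
  intro x hx y hy s t hs ht hst
  have hx0 := hx.1
  have hy0 := hy.1
  have h0 : 0 < (s • x + t • y) 0 := by
    simp only [Pi.add_apply, Pi.smul_apply, smul_eq_mul]
    rcases hs.eq_or_lt with h | h
    · have : t = 1 := by linarith
      rw [← h, this]; simpa using hy0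
    · have := mul_pos h hx0
      have := mul_nonneg ht hy0.le
      linarith
  refine ⟨h0, ?_⟩
  have h0' : 0 < s * x 0 + t * y 0 := by simpa using h0
  have hcomb : proj (s • x + t • y)
      = (s * x 0 / (s * x 0 + t * y 0)) • proj x + (t * y 0 / (s * x 0 + t * y 0)) • proj y := by
    ext i
    simp only [proj, Pi.add_apply, Pi.smul_apply, smul_eq_mul]
    field_simp
  rw [hcomb]
  apply hKc hx.2 hy.2
  · positivity
  · positivity
  · field_simp

lemma concave_log_dens (hKc : Convex ℝ K) (hV : 0 < (volume K).toReal) :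
    ConcaveOn ℝ {y | 0 < dens K y} (fun y => Real.log (dens K y)) := by
  have hset : {y | 0 < dens K y} = cone K := by
    ext y; exact dens_pos_iff hV y
  rw [hset]
  have hlog : ∀ y ∈ cone K, Real.log (dens K y) = -(y 0) - Real.log (cst K) := by
    intro y hy
    have : dens K y = Real.exp (-(y 0)) / cst K := by
      unfold dens; rw [Set.indicator_of_mem hy]
    rw [this, Real.log_div (Real.exp_pos _).ne' (cst_pos hV).ne', Real.log_exp]
  refine ⟨convex_cone hKc, ?_⟩
  intro x hx y hy s t hs ht hst
  simp only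
  rw [hlog x hx, hlog y hy, hlog _ (convex_cone hKc hx hy hs ht hst)]
  simp only [Pi.add_apply, Pi.smul_apply, smul_eq_mul]
  have : t = 1 - s := by linarith
  rw [this]
  apply le_of_eq
  ring

end moments

/-- positivity of the covariance determinant of a convex body -/
lemma det_cov_pos {K : Set (Fin n → ℝ)} (hKb : IsCompact K) (hKi : (interior K).Nonempty)
    (hV : 0 < (volume K).toReal) : 0 < (covMatrix K).det := by
  have hpd : (covMatrix K).PosDef := by
    have hsymm : (covMatrix K).IsHermitian := by
      ext i j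
      simp only [Matrix.conjTranspose_apply, star_trivial, covMatrix, Matrix.of_apply]
      congr 1
      apply integral_congr_ae
      filter_upwards with z
      ring
    refine Matrix.PosDef.of_dotProduct_mulVec_pos hsymm fun x hx => ?_
    have hi : ∀ i j, IntegrableOn (fun z : Fin n → ℝ => (z i - centroid K i) * (z j - centroid K j)) K := by
      intro i j
      have : Continuous (fun z : Fin n → ℝ => (z i - centroid K i) * (z j - centroid K j)) := by
        fun_prop
      exact this.continuousOn.integrableOn_compact hKb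
    have hquad : star x ⬝ᵥ (covMatrix K).mulVec x
        = (∫ z in K, (∑ i, x i * (z i - centroid K i)) ^ 2) / (volume K).toReal := by
      have h1 : ∀ z : Fin n → ℝ, (∑ i, x i * (z i - centroid K i)) ^ 2
          = ∑ i, ∑ j, x i * x j * ((z i - centroid K i) * (z j - centroid K j)) := by
        intro z
        rw [sq, Finset.sum_mul_sum]
        refine Finset.sum_congr rfl fun i _ => Finset.sum_congr rfl fun j _ => ?_
        ring
      simp_rw [h1]
      rw [integral_finsetSum]
      · simp only [dotProduct, Matrix.mulVec, star_trivial, covMatrix, Matrix.of_apply]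
        rw [Finset.sum_div]
        refine Finset.sum_congr rfl fun i _ => ?_
        rw [integral_finsetSum]
        · rw [Finset.sum_div, Finset.mul_sum]
          refine Finset.sum_congr rfl fun j _ => ?_
          rw [integral_const_mul]
          ring
        · intro j _
          exact (hi i j).const_mul _
      · intro i _
        exact integrable_finsetSum _ fun j _ => (hi i j).const_mul _
    rw [hquad]
    apply div_pos _ hV
    set q : (Fin n → ℝ) → ℝ := fun z => (∑ i, x i * (z i - centroid K i)) ^ 2 with hq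
    have hqc : Continuous q := by
      simp only [hq]; fun_prop
    have hqn : ∀ z, 0 ≤ q z := fun z => sq_nonneg _
    -- a point of the interior of `K` where `q ≠ 0`
    obtain ⟨i0, hi0⟩ : ∃ i, x i ≠ 0 := by
      by_contra h
      push Not at h
      exact hx (funext h)
    obtain ⟨p, hp⟩ := hKi
    have hex : ∃ p' ∈ interior K, q p' ≠ 0 := by
      by_cases hqp : q p = 0
      · -- move in direction `e_{i0}`
        have hcont : Continuous (fun t : ℝ => Function.update p i0 (p i0 + t)) := by
          refine continuous_pi fun j => ?_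
          by_cases hj : j = i0
          · subst hj; simp only [Function.update_self]; fun_prop
          · simp only [Function.update_of_ne hj]; fun_prop
        have hopen : IsOpen ((fun t : ℝ => Function.update p i0 (p i0 + t)) ⁻¹' interior K) :=
          isOpen_interior.preimage hcont
        have h0 : (0:ℝ) ∈ (fun t : ℝ => Function.update p i0 (p i0 + t)) ⁻¹' interior K := by
          simp only [Set.mem_preimage, add_zero, Function.update_eq_self]; exact hp
        obtain ⟨ε, hε, hball⟩ := Metric.isOpen_iff.1 hopen 0 h0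
        refine ⟨Function.update p i0 (p i0 + ε / 2), hball (by
          rw [Metric.mem_ball, Real.dist_eq, sub_zero, abs_of_pos (half_pos hε)]; linarith), ?_⟩
        have hz : ∑ i, x i * (p i - centroid K i) = 0 := by
          simpa [hq] using hqp
        have : ∑ i, x i * ((Function.update p i0 (p i0 + ε / 2)) i - centroid K i)
            = x i0 * (ε / 2) := by
          have h2 : ∀ i, x i * ((Function.update p i0 (p i0 + ε / 2)) i - centroid K i)
              = x i * (p i - centroid K i) + (if i = i0 then x i0 * (ε / 2) else 0) := by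
            intro i
            by_cases hi : i = i0
            · subst hi; simp only [Function.update_self, if_true]; ring
            · simp only [Function.update_of_ne hi, if_neg hi, add_zero]
          simp_rw [h2]
          rw [Finset.sum_add_distrib, hz, Finset.sum_ite_eq' Finset.univ i0]
          simp
        simp only [hq]
        rw [this]
        positivity
      · exact ⟨p, hp, hqp⟩
    obtain ⟨p', hp', hqp'⟩ := hex
    rw [setIntegral_pos_iff_support_of_nonneg_ae]
    · have hopen : IsOpen (Function.support q ∩ interior K) :=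
        (hqc.isOpen_support).inter isOpen_interior
      have hne : (Function.support q ∩ interior K).Nonempty := ⟨p', hqp', hp'⟩
      exact lt_of_lt_of_le (hopen.measure_pos volume hne)
        (measure_mono (Set.inter_subset_inter_right _ interior_subset))
    · exact Filter.Eventually.of_forall hqn
    · exact hqc.continuousOn.integrableOn_compact hKb
  exact hpd.det_pos

section equality

variable {K : Set (Fin n → ℝ)}

/-- the closed simplicial cone `b + M ℝ₊^{n+1}` -/
def simpCone (M : Matrix (Fin (n + 1)) (Fin (n + 1)) ℝ) (b : Fin (n + 1) → ℝ) :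
    Set (Fin (n + 1) → ℝ) := {y | ∀ i, 0 ≤ (M⁻¹.mulVec (y - b)) i}

lemma isClosed_simpCone (M : Matrix (Fin (n + 1)) (Fin (n + 1)) ℝ) (b : Fin (n + 1) → ℝ) :
    IsClosed (simpCone M b) := by
  have : simpCone M b = ⋂ i, {y | 0 ≤ (M⁻¹.mulVec (y - b)) i} := by
    ext y; simp [simpCone]
  rw [this]
  refine isClosed_iInter fun i => isClosed_le continuous_const ?_
  have : Continuous (fun y : Fin (n + 1) → ℝ => M⁻¹.mulVec (y - b)) := by
    exact Continuous.matrix_mulVec continuous_const (by fun_prop)
  exact (continuous_apply i).comp this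

lemma convex_simpCone (M : Matrix (Fin (n + 1)) (Fin (n + 1)) ℝ) (b : Fin (n + 1) → ℝ) :
    Convex ℝ (simpCone M b) := by
  intro x hx y hy s t hs ht hst i
  have : s • x + t • y - b = s • (x - b) + t • (y - b) := by
    have hb : b = s • b + t • b := by rw [← add_smul, hst, one_smul]
    nth_rw 1 [hb]
    simp only [smul_sub]; abel
  rw [this, Matrix.mulVec_add, Matrix.mulVec_smul, Matrix.mulVec_smul]
  simp only [Pi.add_apply, Pi.smul_apply, smul_eq_mul]
  have h1 := mul_nonneg hs (hx i)
  have h2 := mul_nonneg ht (hy i)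
  linarith

lemma interior_simpCone {M : Matrix (Fin (n + 1)) (Fin (n + 1)) ℝ} (hM : M.det ≠ 0)
    (b : Fin (n + 1) → ℝ) : (interior (simpCone M b)).Nonempty := by
  have hU : IsUnit M.det := isUnit_iff_ne_zero.2 hM
  set U : Set (Fin (n + 1) → ℝ) := {y | ∀ i, 0 < (M⁻¹.mulVec (y - b)) i} with hUd
  have hopen : IsOpen U := by
    have : U = ⋂ i, {y | 0 < (M⁻¹.mulVec (y - b)) i} := by
      ext y; simp [hUd]
    rw [this]
    refine isOpen_iInter_of_finite fun i => isOpen_lt continuous_const ?_
    have : Continuous (fun y : Fin (n + 1) → ℝ => M⁻¹.mulVec (y - b)) := by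
      exact Continuous.matrix_mulVec continuous_const (by fun_prop)
    exact (continuous_apply i).comp this
  have hsub : U ⊆ simpCone M b := fun y hy i => (hy i).le
  refine ⟨M.mulVec 1 + b, interior_maximal hsub hopen ?_⟩
  intro i
  simp only [add_sub_cancel_right, Matrix.mulVec_mulVec, Matrix.nonsing_inv_mul M hU,
    Matrix.one_mulVec, Pi.one_apply]
  norm_num

lemma interior_cone (hKi : (interior K).Nonempty) : (interior (cone K)).Nonempty := by
  obtain ⟨p, hp⟩ := hKi
  have hcont : ContinuousOn (proj : (Fin (n + 1) → ℝ) → Fin n → ℝ) {y | 0 < y 0} := by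
    unfold proj
    refine continuousOn_pi.2 fun i => ?_
    apply ContinuousOn.mul
    · apply ContinuousOn.inv₀
      · exact (continuous_apply 0).continuousOn
      · intro y hy; exact ne_of_gt hy
    · exact (continuous_apply _).continuousOn
  have hopen : IsOpen ({y : Fin (n + 1) → ℝ | 0 < y 0} ∩ proj ⁻¹' interior K) :=
    hcont.isOpen_inter_preimage (isOpen_lt continuous_const (continuous_apply 0)) isOpen_interior
  have hsub : ({y : Fin (n + 1) → ℝ | 0 < y 0} ∩ proj ⁻¹' interior K) ⊆ cone K :=
    fun y hy => ⟨hy.1, interior_subset hy.2⟩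
  refine ⟨Fin.cons 1 p, interior_maximal hsub hopen ⟨by simp, ?_⟩⟩
  have : proj (Fin.cons 1 p : Fin (n + 1) → ℝ) = p := by
    ext i; simp [proj]
  simpa [this] using hp

/-- a.e. inclusion of convex bodies implies inclusion in the closure -/
lemma subset_of_ae {d : ℕ} {S T : Set (Fin d → ℝ)} (hS : Convex ℝ S)
    (hSi : (interior S).Nonempty) (hT : IsClosed T) (h : volume (S \ T) = 0) : S ⊆ T := by
  intro x hx
  by_contra hxT
  have hxc : x ∈ closure (interior S) := by
    rw [hS.closure_interior_eq_closure_of_nonempty_interior hSi]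
    exact subset_closure hx
  have hopen : IsOpen Tᶜ := hT.isOpen_compl
  obtain ⟨z, hz1, hz2⟩ := mem_closure_iff.1 hxc Tᶜ hopen hxT
  have hpos : 0 < volume (Tᶜ ∩ interior S) :=
    (hopen.inter isOpen_interior).measure_pos volume ⟨z, hz1, hz2⟩
  have hle : volume (Tᶜ ∩ interior S) ≤ volume (S \ T) :=
    measure_mono fun w hw => ⟨interior_subset hw.2, hw.1⟩
  rw [h] at hle
  exact absurd hpos (not_lt.2 hle)

lemma closure_cone (hKb : IsCompact K) {y : Fin (n + 1) → ℝ} (hy : y ∈ closure (cone K)) :
    0 ≤ y 0 ∧ (y 0 = 0 → y = 0) ∧ (0 < y 0 → proj y ∈ K) := by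
  obtain ⟨R, hR⟩ := hKb.isBounded.exists_norm_le
  have hclosed : IsClosed {y : Fin (n + 1) → ℝ | 0 ≤ y 0 ∧ ∀ i : Fin n, |y i.succ| ≤ R * y 0} := by
    apply IsClosed.inter
    · exact isClosed_le continuous_const (continuous_apply 0)
    · have : {y : Fin (n + 1) → ℝ | ∀ i : Fin n, |y i.succ| ≤ R * y 0}
          = ⋂ i : Fin n, {y | |y i.succ| ≤ R * y 0} := by ext y; simp
      change IsClosed {y : Fin (n + 1) → ℝ | ∀ i : Fin n, |y i.succ| ≤ R * y 0}
      rw [this]
      refine isClosed_iInter fun i => isClosed_le ?_ ?_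
      · exact (continuous_apply _).abs
      · exact continuous_const.mul (continuous_apply 0)
  have hsub : cone K ⊆ {y : Fin (n + 1) → ℝ | 0 ≤ y 0 ∧ ∀ i : Fin n, |y i.succ| ≤ R * y 0} := by
    intro z hz
    have hz0 := hz.1
    refine ⟨hz0.le, fun i => ?_⟩
    have h1 : |proj z i| ≤ R := (norm_le_pi_norm (proj z) i).trans (hR _ hz.2)
    have h2 : z i.succ = z 0 * proj z i := by
      have := coord_eq hz0.ne' i.succ
      simpa using this
    rw [h2, abs_mul, abs_of_pos hz0, mul_comm]
    exact mul_le_mul_of_nonneg_right h1 hz0.le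
  have hy' := (closure_minimal hsub hclosed) hy
  refine ⟨hy'.1, ?_, ?_⟩
  · intro h0
    ext a
    refine Fin.cases h0 (fun i => ?_) a
    have := hy'.2 i
    rw [h0, mul_zero] at this
    exact abs_eq_zero.1 (le_antisymm this (abs_nonneg _))
  · intro h0
    have hca : ContinuousAt (proj : (Fin (n + 1) → ℝ) → Fin n → ℝ) y := by
      unfold proj
      refine continuousAt_pi.2 fun i => ?_
      apply ContinuousAt.mul
      · exact (continuous_apply 0).continuousAt.inv₀ h0.ne'
      · exact (continuous_apply _).continuousAt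
    have h1 : proj y ∈ closure (proj '' cone K) := hca.continuousWithinAt.mem_closure_image hy
    have h2 : proj '' cone K ⊆ K := by
      rintro _ ⟨z, hz, rfl⟩; exact hz.2
    have h3 := closure_mono h2 h1
    rwa [hKb.isClosed.closure_eq] at h3

lemma sum_ite_aux {d : ℕ} (s : Finset (Fin d)) (a w g : Fin d → ℝ)
    (h : ∀ j ∈ s, a j * w j = g j) :
    ∑ j, a j * (if j ∈ s then w j else 0) = ∑ j ∈ s, g j := by
  have h1 : ∀ j, a j * (if j ∈ s then w j else 0) = if j ∈ s then g j else 0 := by
    intro j
    by_cases hj : j ∈ s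
    · rw [if_pos hj, if_pos hj, h j hj]
    · rw [if_neg hj, if_neg hj, mul_zero]
  simp_rw [h1]
  rw [← Finset.sum_filter]
  congr 1
  ext j; simp

/-- equality direction (⇒): a.e. simplicial cone implies simplex -/
lemma simplex_of_ae (hKb : IsCompact K) (hKc : Convex ℝ K) (hKi : (interior K).Nonempty)
    {M : Matrix (Fin (n + 1)) (Fin (n + 1)) ℝ} {b : Fin (n + 1) → ℝ} (hM : M.det ≠ 0)
    (hae : ∀ᵐ y : Fin (n + 1) → ℝ, y ∈ cone K ↔ y ∈ simpCone M b) :
    ∃ v : Fin (n + 1) → (Fin n → ℝ), AffineIndependent ℝ v ∧ K = convexHull ℝ (Set.range v) := by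
  have hU : IsUnit M.det := isUnit_iff_ne_zero.2 hM
  have h1 : cone K ⊆ simpCone M b := by
    apply subset_of_ae (convex_cone hKc) (interior_cone hKi) (isClosed_simpCone M b)
    refine measure_mono_null ?_ hae
    rintro y ⟨hy1, hy2⟩ h
    exact hy2 (h.1 hy1)
  have h2 : simpCone M b ⊆ closure (cone K) := by
    apply subset_of_ae (convex_simpCone M b) (interior_simpCone hM b) isClosed_closure
    refine measure_mono_null ?_ hae
    rintro y ⟨hy1, hy2⟩ h
    exact hy2 (subset_closure (h.2 hy1))
  have hMinj : ∀ w : Fin (n + 1) → ℝ, M⁻¹.mulVec w = 0 → w = 0 := by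
    intro w hw
    have : M.mulVec (M⁻¹.mulVec w) = w := by
      rw [Matrix.mulVec_mulVec, Matrix.mul_nonsing_inv M hU, Matrix.one_mulVec]
    rw [← this, hw, Matrix.mulVec_zero]
  -- the apex is the origin
  have hb : b = 0 := by
    have hbP : b ∈ simpCone M b := by
      intro i; simp
    have hbc := closure_cone hKb (h2 hbP)
    rcases hbc.1.eq_or_lt with h0 | h0
    · exact hbc.2.1 h0.symm
    · exfalso
      have hscale : ∀ l : ℝ, 0 < l → l • b ∈ simpCone M b := by
        intro l hl
        apply h1
        refine ⟨by simpa using mul_pos hl h0, ?_⟩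
        have : proj (l • b) = proj b := by
          ext i
          simp only [proj, Pi.smul_apply, smul_eq_mul]
          field_simp
        rw [this]
        exact hbc.2.2 h0
      have h3 := hscale 2 (by norm_num)
      have h4 := hscale (1 / 2) (by norm_num)
      have h5 : M⁻¹.mulVec b = 0 := by
        ext i
        have e3 := h3 i
        have e4 := h4 i
        have r3 : (2:ℝ) • b - b = (1:ℝ) • b := by rw [two_smul, one_smul]; abel
        have r4 : (1 / 2 : ℝ) • b - b = (-(1 / 2) : ℝ) • b := by
          ext j; simp only [Pi.sub_apply, Pi.smul_apply, smul_eq_mul]; ring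
        rw [r3, Matrix.mulVec_smul] at e3
        rw [r4, Matrix.mulVec_smul] at e4
        simp only [Pi.smul_apply, smul_eq_mul] at e3 e4
        simp only [Pi.zero_apply]
        linarith
      have := hMinj b h5
      rw [this] at h0
      simp at h0
  subst hb
  -- the generators
  have hcol : ∀ j : Fin (n + 1), M.mulVec (Pi.single j 1) ∈ simpCone M 0 := by
    intro j i
    rw [sub_zero, Matrix.mulVec_mulVec, Matrix.nonsing_inv_mul M hU, Matrix.one_mulVec]
    by_cases hij : i = j
    · subst hij; simp
    · simp [Pi.single_eq_of_ne hij]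
  have hcol0 : ∀ j : Fin (n + 1), 0 < (M.mulVec (Pi.single j 1)) 0 := by
    intro j
    have hc := closure_cone hKb (h2 (hcol j))
    rcases hc.1.eq_or_lt with h0 | h0
    · exfalso
      have h3 := hc.2.1 h0.symm
      have h4 : M⁻¹.mulVec (M.mulVec (Pi.single j 1)) = 0 := by rw [h3, Matrix.mulVec_zero]
      rw [Matrix.mulVec_mulVec, Matrix.nonsing_inv_mul M hU, Matrix.one_mulVec] at h4
      have := congrFun h4 j
      simp at this
    · exact h0
  set t : Fin (n + 1) → ℝ := fun j => (M.mulVec (Pi.single j 1)) 0 with ht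
  set v : Fin (n + 1) → (Fin n → ℝ) := fun j => proj (M.mulVec (Pi.single j 1)) with hv
  have hvK : ∀ j, v j ∈ K := fun j => (closure_cone hKb (h2 (hcol j))).2.2 (hcol0 j)
  have hMt : ∀ j, M 0 j = t j := by
    intro j; simp [ht]
  have hMv : ∀ (i : Fin n) (j : Fin (n + 1)), M i.succ j = t j * v j i := by
    intro i j
    have h3 := coord_eq (hcol0 j).ne' i.succ
    rw [lft_succ] at h3
    have h4 : (M.mulVec (Pi.single j 1)) i.succ = M i.succ j := by simp
    rw [h4] at h3
    exact h3
  refine ⟨v, ?_, ?_⟩
  · rw [affineIndependent_iff]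
    intro s w hw1 hw2
    set u : Fin (n + 1) → ℝ := fun j => if j ∈ s then w j / t j else 0 with hu
    have hMu : M.mulVec u = 0 := by
      ext a
      refine Fin.cases ?_ (fun i => ?_) a
      · simp only [Matrix.mulVec, dotProduct, hMt, hu, Pi.zero_apply]
        rw [sum_ite_aux s t (fun j => w j / t j) w, hw1]
        intro j _
        have : t j ≠ 0 := (hcol0 j).ne'
        field_simp
      · have h5 := congrFun hw2 i
        simp only [Finset.sum_apply, Pi.smul_apply, smul_eq_mul, Pi.zero_apply] at h5
        simp only [Matrix.mulVec, dotProduct, hMv, hu, Pi.zero_apply]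
        rw [sum_ite_aux s (fun j => t j * v j i) (fun j => w j / t j) (fun j => w j * v j i), h5]
        intro j _
        have : t j ≠ 0 := (hcol0 j).ne'
        field_simp
    have hu0 : u = 0 := by
      have : M⁻¹.mulVec (M.mulVec u) = u := by
        rw [Matrix.mulVec_mulVec, Matrix.nonsing_inv_mul M hU, Matrix.one_mulVec]
      rw [← this, hMu, Matrix.mulVec_zero]
    intro e he
    have h6 := congrFun hu0 e
    simp only [hu, if_pos he, Pi.zero_apply] at h6
    have := (hcol0 e).ne'
    rcases div_eq_zero_iff.1 h6 with h7 | h7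
    · exact h7
    · exact absurd h7 this
  · apply Set.Subset.antisymm
    · intro x hx
      set y : Fin (n + 1) → ℝ := Fin.cons 1 x with hy
      have hyc : y ∈ cone K := by
        refine ⟨by simp [hy], ?_⟩
        have : proj y = x := by ext i; simp [proj, hy]
        rw [this]; exact hx
      have hyP := h1 hyc
      set u := M⁻¹.mulVec y with hu
      have hun : ∀ i, 0 ≤ u i := by
        intro i
        have := hyP i
        rwa [sub_zero] at this
      have hMu : M.mulVec u = y := by
        rw [hu, Matrix.mulVec_mulVec, Matrix.mul_nonsing_inv M hU, Matrix.one_mulVec]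
      have hsum : ∑ j, u j * t j = 1 := by
        have := congrFun hMu 0
        simp only [Matrix.mulVec, dotProduct, hMt, hy, Fin.cons_zero] at this
        rw [← this]
        exact Finset.sum_congr rfl fun j _ => mul_comm _ _
      have hx' : x = ∑ j, (u j * t j) • v j := by
        ext i
        have := congrFun hMu i.succ
        simp only [Matrix.mulVec, dotProduct, hMv, hy, Fin.cons_succ] at this
        rw [← this, Finset.sum_apply]
        refine Finset.sum_congr rfl fun j _ => ?_
        simp only [Pi.smul_apply, smul_eq_mul]; ring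
      rw [hx']
      apply (convex_convexHull ℝ (Set.range v)).sum_mem
      · intro j _; exact mul_nonneg (hun j) (hcol0 j).le
      · exact hsum
      · intro j _; exact subset_convexHull ℝ _ (Set.mem_range_self j)
    · apply convexHull_min _ hKc
      rintro _ ⟨j, rfl⟩
      exact hvK j

/-- the product exponential density has integral one -/
lemma integral_simp {M : Matrix (Fin (n + 1)) (Fin (n + 1)) ℝ} (hM : M.det ≠ 0) :
    ∫ y, (simpCone M 0).indicator (fun y => Real.exp (-∑ i, (M⁻¹.mulVec y) i)) y = |M.det| := by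
  have hU : IsUnit M.det := isUnit_iff_ne_zero.2 hM
  set G : (Fin (n + 1) → ℝ) → ℝ :=
    fun y => (simpCone M 0).indicator (fun y => Real.exp (-∑ i, (M⁻¹.mulVec y) i)) y with hG
  have hGm : Measurable G := by
    simp only [hG]
    apply Measurable.indicator _ (isClosed_simpCone M 0).measurableSet
    have h1 : Continuous (fun y : Fin (n + 1) → ℝ => M⁻¹.mulVec y) :=
      Continuous.matrix_mulVec continuous_const continuous_id
    have h2 : Continuous (fun y : Fin (n + 1) → ℝ => Real.exp (-∑ i, (M⁻¹.mulVec y) i)) := by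
      refine Real.continuous_exp.comp (Continuous.neg (continuous_finsetSum _ fun i _ => ?_))
      exact (continuous_apply i).comp h1
    exact h2.measurable
  have hmap := Real.map_matrix_volume_pi_eq_smul_volume_pi hM
  have h1 : ∫ y, G y ∂(Measure.map (Matrix.toLin' M) volume)
      = ∫ u, G (Matrix.toLin' M u) := by
    rw [integral_map]
    · exact (LinearMap.continuous_on_pi _).aemeasurable
    · exact hGm.aestronglyMeasurable
  have h2 : ∀ u : Fin (n + 1) → ℝ, G (Matrix.toLin' M u)
      = ∏ i, (Set.Ici (0:ℝ)).indicator (fun t => Real.exp (-t)) (u i) := by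
    intro u
    have hu : M⁻¹.mulVec (Matrix.toLin' M u) = u := by
      rw [Matrix.toLin'_apply, Matrix.mulVec_mulVec, Matrix.nonsing_inv_mul M hU, Matrix.one_mulVec]
    simp only [hG]
    by_cases hu0 : ∀ i, 0 ≤ u i
    · rw [Set.indicator_of_mem (show Matrix.toLin' M u ∈ simpCone M 0 by
        intro i; rw [sub_zero, hu]; exact hu0 i), hu]
      rw [← Finset.sum_neg_distrib, Real.exp_sum]
      refine Finset.prod_congr rfl fun i _ => ?_
      rw [Set.indicator_of_mem (show u i ∈ Set.Ici (0:ℝ) from hu0 i)]
    · have hn : Matrix.toLin' M u ∉ simpCone M 0 := by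
        intro h
        apply hu0
        intro i
        have := h i
        rwa [sub_zero, hu] at this
      rw [Set.indicator_of_notMem hn]
      push Not at hu0
      obtain ⟨i, hi⟩ := hu0
      symm
      apply Finset.prod_eq_zero (Finset.mem_univ i)
      rw [Set.indicator_of_notMem]
      exact not_le.2 hi
  rw [hmap, integral_smul_measure] at h1
  simp_rw [h2] at h1
  rw [integral_fintype_prod_volume_eq_prod
    (fun _ : Fin (n + 1) => fun t => (Set.Ici (0:ℝ)).indicator (fun t => Real.exp (-t)) t)] at h1
  have h3 : ∫ t, (Set.Ici (0:ℝ)).indicator (fun t => Real.exp (-t)) t = 1 := by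
    rw [integral_indicator measurableSet_Ici, integral_Ici_eq_integral_Ioi]
    exact integral_exp_neg_Ioi_zero
  rw [h3, Finset.prod_const_one, ENNReal.toReal_ofReal (abs_nonneg _), smul_eq_mul, abs_inv] at h1
  have h4 : |M.det| ≠ 0 := abs_ne_zero.2 hM
  field_simp at h1
  exact h1

/-- equality direction (⇐): a simplex gives the product exponential density -/
lemma ae_of_simplex (hKm : MeasurableSet K) (hV : 0 < (volume K).toReal)
    {v : Fin (n + 1) → (Fin n → ℝ)} (hv : AffineIndependent ℝ v)
    (hK : K = convexHull ℝ (Set.range v)) :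
    ∃ (M : Matrix (Fin (n + 1)) (Fin (n + 1)) ℝ) (b : Fin (n + 1) → ℝ), M.det ≠ 0 ∧
      dens K =ᵐ[volume] fun x => |M.det|⁻¹ *
        Set.indicator {y : Fin (n + 1) → ℝ | ∀ i, 0 ≤ (M⁻¹.mulVec (y - b)) i}
          (fun y => Real.exp (- ∑ i, (M⁻¹.mulVec (y - b)) i)) x := by
  set M : Matrix (Fin (n + 1)) (Fin (n + 1)) ℝ := Matrix.of fun a j => lft a (v j) with hMd
  have hM0 : ∀ u : Fin (n + 1) → ℝ, (M.mulVec u) 0 = ∑ j, u j := by
    intro u
    simp [hMd, Matrix.mulVec, dotProduct]
  have hMs : ∀ (u : Fin (n + 1) → ℝ) (i : Fin n), (M.mulVec u) i.succ = ∑ j, u j * v j i := by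
    intro u i
    simp only [hMd, Matrix.mulVec, dotProduct, Matrix.of_apply, lft_succ]
    exact Finset.sum_congr rfl fun j _ => mul_comm _ _
  have hdet : M.det ≠ 0 := by
    intro h
    obtain ⟨u, hu0, hu⟩ := Matrix.exists_mulVec_eq_zero_iff.2 h
    apply hu0
    have h1 : ∑ j, u j = 0 := by rw [← hM0, hu]; rfl
    have h2 : ∑ j, u j • v j = 0 := by
      ext i
      have := hMs u i
      rw [hu] at this
      simp only [Finset.sum_apply, Pi.smul_apply, smul_eq_mul, Pi.zero_apply]
      rw [← this]; rfl
    ext j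
    exact affineIndependent_iff.1 hv Finset.univ u h1 h2 j (Finset.mem_univ j)
  have hU : IsUnit M.det := isUnit_iff_ne_zero.2 hdet
  have hinv : ∀ y : Fin (n + 1) → ℝ, M.mulVec (M⁻¹.mulVec y) = y := by
    intro y
    rw [Matrix.mulVec_mulVec, Matrix.mul_nonsing_inv M hU, Matrix.one_mulVec]
  have hinv' : ∀ y : Fin (n + 1) → ℝ, M⁻¹.mulVec (M.mulVec y) = y := by
    intro y
    rw [Matrix.mulVec_mulVec, Matrix.nonsing_inv_mul M hU, Matrix.one_mulVec]
  have hsum : ∀ y : Fin (n + 1) → ℝ, ∑ i, (M⁻¹.mulVec y) i = y 0 := by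
    intro y
    rw [← hM0, hinv]
  -- the two cones agree away from the origin
  have hcone : ∀ y : Fin (n + 1) → ℝ, y ≠ 0 → (y ∈ cone K ↔ y ∈ simpCone M 0) := by
    intro y hy0
    constructor
    · intro hy
      have hQc : Convex ℝ {x : Fin n → ℝ | (Fin.cons 1 x : Fin (n + 1) → ℝ) ∈ simpCone M 0} := by
        intro x hx z hz s t hs ht hst
        have h3 : (Fin.cons 1 (s • x + t • z) : Fin (n + 1) → ℝ)
            = s • (Fin.cons 1 x : Fin (n + 1) → ℝ) + t • (Fin.cons 1 z : Fin (n + 1) → ℝ) := by
          ext a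
          refine Fin.cases ?_ (fun i => ?_) a
          · simp [hst]
          · simp
        change (Fin.cons 1 (s • x + t • z) : Fin (n + 1) → ℝ) ∈ simpCone M 0
        rw [h3]
        exact convex_simpCone M 0 hx hz hs ht hst
      have hvQ : Set.range v ⊆ {x : Fin n → ℝ | (Fin.cons 1 x : Fin (n + 1) → ℝ) ∈ simpCone M 0} := by
        rintro _ ⟨j, rfl⟩
        intro i
        have h4 : (Fin.cons 1 (v j) : Fin (n + 1) → ℝ) = M.mulVec (Pi.single j 1) := by
          ext a
          refine Fin.cases ?_ (fun i => ?_) a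
          · rw [hM0]; simp
          · rw [hMs]; simp [Pi.single_apply]
        rw [sub_zero, h4, hinv']
        by_cases hij : i = j
        · subst hij; simp
        · simp [Pi.single_eq_of_ne hij]
      have h5 : proj y ∈ {x : Fin n → ℝ | (Fin.cons 1 x : Fin (n + 1) → ℝ) ∈ simpCone M 0} := by
        have h6 := hy.2
        rw [hK] at h6
        exact (convexHull_min hvQ hQc) h6
      have h7 : y = y 0 • (Fin.cons 1 (proj y) : Fin (n + 1) → ℝ) := by
        ext a
        rw [coord_eq (ne_of_gt hy.1) a]
        refine Fin.cases ?_ (fun i => ?_) a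
        · simp
        · simp
      intro i
      have h8 := h5 i
      rw [sub_zero] at h8 ⊢
      rw [h7, Matrix.mulVec_smul]
      exact mul_nonneg hy.1.le h8
    · intro hy
      set u := M⁻¹.mulVec y with hu
      have hun : ∀ i, 0 ≤ u i := by
        intro i; have := hy i; rwa [sub_zero] at this
      have hyu : y = M.mulVec u := (hinv y).symm
      have hy0' : 0 < y 0 := by
        have h9 : y 0 = ∑ j, u j := by rw [hu, hsum]
        rcases (Finset.sum_nonneg fun j _ => hun j : 0 ≤ ∑ j, u j).eq_or_lt with h10 | h10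
        · exfalso
          have h11 : u = 0 := by
            ext j
            exact (Finset.sum_eq_zero_iff_of_nonneg (fun j _ => hun j)).1 h10.symm j (Finset.mem_univ j)
          apply hy0
          rw [hyu, h11, Matrix.mulVec_zero]
        · rw [h9]; exact h10
      refine ⟨hy0', ?_⟩
      have h12 : proj y = ∑ j, ((y 0)⁻¹ * u j) • v j := by
        ext i
        have h13 : y i.succ = ∑ j, u j * v j i := by rw [← hMs, ← hyu]
        simp only [proj, h13, Finset.sum_apply, Pi.smul_apply, smul_eq_mul, Finset.mul_sum]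
        exact Finset.sum_congr rfl fun j _ => by ring
      rw [h12, hK]
      apply (convex_convexHull ℝ (Set.range v)).sum_mem
      · intro j _
        exact mul_nonneg (inv_nonneg.2 hy0'.le) (hun j)
      · rw [← Finset.mul_sum, show ∑ j, u j = y 0 by rw [hu, hsum]]
        exact inv_mul_cancel₀ hy0'.ne'
      · intro j _; exact subset_convexHull ℝ _ (Set.mem_range_self j)
  -- proportional densities
  have hcK := cst_pos hV
  have hprop : dens K =ᵐ[volume] fun y => (cst K)⁻¹ *
      (simpCone M 0).indicator (fun y => Real.exp (-∑ i, (M⁻¹.mulVec y) i)) y := by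
    have hne : ∀ᵐ y : Fin (n + 1) → ℝ, y ≠ 0 := by
      simp [ae_iff, measure_singleton]
    filter_upwards [hne] with y hy
    have h14 := hcone y hy
    unfold dens
    by_cases hyc : y ∈ cone K
    · rw [Set.indicator_of_mem hyc, Set.indicator_of_mem (h14.1 hyc), hsum]
      rw [div_eq_inv_mul]
    · rw [Set.indicator_of_notMem hyc, Set.indicator_of_notMem (fun h => hyc (h14.2 h)), mul_zero]
  have hcst : cst K = |M.det| := by
    have h15 := (integral_dens hKm hV).2
    rw [integral_congr_ae hprop, integral_const_mul, integral_simp hdet] at h15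
    field_simp at h15
    exact h15.symm
  refine ⟨M, 0, hdet, ?_⟩
  rw [← hcst]
  filter_upwards [hprop] with y hy
  rw [hy]
  have hset0 : {y : Fin (n + 1) → ℝ | ∀ i, 0 ≤ (M⁻¹.mulVec (y - 0)) i} = simpCone M 0 := rfl
  rw [hset0]
  simp only [sub_zero]

end equality

/-- `S0391` implies `S0390`. -/
theorem S0390_of_S0391 (H : Hyp391) (n : ℕ) (_hn : 1 ≤ n)
    (K : Set (Fin n → ℝ)) (hK : IsCompact K) (hKc : Convex ℝ K) (hKi : (interior K).Nonempty) :
    (covMatrix K).det * ((n : ℝ) + 1) ^ (n + 1) * ((n : ℝ) + 2) ^ n ≤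
        (Nat.factorial n : ℝ) ^ 2 * (volume K).toReal ^ 2 ∧
      ((covMatrix K).det * ((n : ℝ) + 1) ^ (n + 1) * ((n : ℝ) + 2) ^ n =
          (Nat.factorial n : ℝ) ^ 2 * (volume K).toReal ^ 2 ↔
        ∃ v : Fin (n + 1) → (Fin n → ℝ), AffineIndependent ℝ v ∧ K = convexHull ℝ (Set.range v)) := by
  have hKm : MeasurableSet K := hK.isClosed.measurableSet
  have hV : 0 < (volume K).toReal := by
    apply ENNReal.toReal_pos
    · exact (lt_of_lt_of_le (isOpen_interior.measure_pos volume hKi)
        (measure_mono interior_subset)).ne'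
    · exact hK.measure_lt_top.ne
  have hset : {y | 0 < dens K y} = cone K := by
    ext y; exact dens_pos_iff hV y
  have h := H (n + 1) (by omega) (dens K) (measurable_dens hKm) dens_nonneg
    (integral_dens hKm hV).2 (by rw [hset]; exact convex_cone hKc) (concave_log_dens hKc hV)
  rw [det_densCov hKm hK hV, diffEntropy_dens hKm hK hV] at h
  have hdet := det_cov_pos hK hKi hV
  have hc := cst_pos hV
  set D := (covMatrix K).det * ((n : ℝ) + 1) ^ (n + 1) * ((n : ℝ) + 2) ^ n with hD
  have hDpos : 0 < D := by rw [hD]; positivity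
  have hsq : (Nat.factorial n : ℝ) ^ 2 * (volume K).toReal ^ 2 = (cst K) ^ 2 := by
    unfold cst; ring
  rw [hsq]
  have hlog : Real.log ((cst K) ^ 2) = 2 * Real.log (cst K) := by
    rw [Real.log_pow]; norm_num
  have hle : D ≤ (cst K) ^ 2 := by
    have h1 := h.1
    push_cast at h1
    rw [← Real.log_le_log_iff hDpos (by positivity), hlog]
    linarith
  have heq : D = (cst K) ^ 2 ↔
      (n + 1 : ℝ) + Real.log (cst K) = ((n + 1 : ℕ) : ℝ) + Real.log D / 2 := by
    push_cast
    constructor
    · intro h1
      rw [h1, hlog]; ring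
    · intro h1
      have h2 : Real.log D = Real.log ((cst K) ^ 2) := by rw [hlog]; linarith
      exact Real.log_injOn_pos (Set.mem_Ioi.2 hDpos) (Set.mem_Ioi.2 (by positivity)) h2
  refine ⟨hle, ?_⟩
  rw [heq, h.2]
  constructor
  · rintro ⟨M, b, hM, hae⟩
    refine simplex_of_ae hK hKc hKi hM (b := b) ?_
    filter_upwards [hae] with y hy
    have h3 : y ∈ cone K ↔ 0 < dens K y := (dens_pos_iff hV y).symm
    rw [h3, hy]
    have hMp : 0 < |M.det|⁻¹ := inv_pos.2 (abs_pos.2 hM)
    constructor
    · intro h4
      by_contra h5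
      have h6 : y ∉ {y : Fin (n + 1) → ℝ | ∀ i, 0 ≤ (M⁻¹.mulVec (y - b)) i} := h5
      rw [Set.indicator_of_notMem h6, mul_zero] at h4
      exact lt_irrefl _ h4
    · intro h5
      have h6 : y ∈ {y : Fin (n + 1) → ℝ | ∀ i, 0 ≤ (M⁻¹.mulVec (y - b)) i} := h5
      rw [Set.indicator_of_mem h6]
      exact mul_pos hMp (Real.exp_pos _)
  · rintro ⟨v, hv, hKv⟩
    exact ae_of_simplex hKm hV hv hKv

end Crest.Agent.R253.Red505
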