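import Crest.Agent.R253.Fin_505
import Crest.Agent.R253.Red_505
import Crest.Agent.R253.ApproxN_944

/-!
Row 253: `S0391` and `S0390` from the single remaining Prop `∀ n, MainQ n` (helper505).
-/

set_option autoImplicit false

open MeasureTheory Crest.GeometryTopology.Isotropic
open Crest Crest.GeometryTopology Crest.GeometryTopology.Isotropic

namespace Crest.Agent.R253.End505

open Crest.Agent.R253.Fin505

/-- S0391 from MAIN -/
theorem S0391_of_main (hM : ∀ n, MainQ n) (m : ℕ) (_hm : 1 ≤ m)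
    (f : (Fin m → ℝ) → ℝ) (hf : Measurable f) (hf0 : ∀ x, 0 ≤ f x) (hf1 : ∫ x, f x = 1)
    (hfc : Convex ℝ {x | 0 < f x}) (hfl : ConcaveOn ℝ {x | 0 < f x} (fun x => Real.log (f x))) :
    (m : ℝ) + Real.log (densCov f).det / 2 ≤ diffEntropy f ∧
      (diffEntropy f = (m : ℝ) + Real.log (densCov f).det / 2 ↔
        ∃ (M : Matrix (Fin m) (Fin m) ℝ) (b : Fin m → ℝ), M.det ≠ 0 ∧
          f =ᵐ[volume] fun x => |M.det|⁻¹ *
            Set.indicator {y : Fin m → ℝ | ∀ i, 0 ≤ (M⁻¹.mulVec (y - b)) i}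
              (fun y => Real.exp (- ∑ i, (M⁻¹.mulVec (y - b)) i)) x) :=
  S0391_ofQ (hM m) (Crest.Agent.R253.ApproxN944.approxN m) f hf hf0 hf1 hfc hfl

/-- S0390 from MAIN -/
theorem S0390_of_main (hM : ∀ n, MainQ n) (n : ℕ) (hn : 1 ≤ n)
    (K : Set (Fin n → ℝ)) (hK : IsCompact K) (hKc : Convex ℝ K) (hKi : (interior K).Nonempty) :
    (covMatrix K).det * ((n : ℝ) + 1) ^ (n + 1) * ((n : ℝ) + 2) ^ n ≤
        (Nat.factorial n : ℝ) ^ 2 * (volume K).toReal ^ 2 ∧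
      ((covMatrix K).det * ((n : ℝ) + 1) ^ (n + 1) * ((n : ℝ) + 2) ^ n =
          (Nat.factorial n : ℝ) ^ 2 * (volume K).toReal ^ 2 ↔
        ∃ v : Fin (n + 1) → (Fin n → ℝ), AffineIndependent ℝ v ∧ K = convexHull ℝ (Set.range v)) :=
  Crest.Agent.R253.Red505.S0390_of_S0391
    (fun m hm f hf hf0 hf1 hfc hfl => S0391_of_main hM m hm f hf hf0 hf1 hfc hfl) n hn K hK hKc hKi

end Crest.Agent.R253.End505
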