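import Crest.Agent.R253.Rho3_718
import Crest.Agent.R253.HFn_741

/-!
# Row 253, B-form: the two-variable kernels `KW`, `KE`, `KR(v')` against `ρ` (helper718)

All with the one-variable constant `C` of `v'' ≤ C e` as a hypothesis.
-/

set_option autoImplicit false

open Set

noncomputable section

namespace Crest.Agent.R253.KW718

open Crest.Agent.R253.Mills37 Crest.Agent.R253.SpecCalc999 Crest.Agent.R253.Rho195
  Crest.Agent.R253.HFn741 Crest.Agent.R253.Slack688 Crest.Agent.R253.V2451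
  Crest.Agent.R253.Rho3

/-- `v' > 0` -/
lemma aa_pos (z : ℝ) : 0 < aa z := H0_deriv_pos z

/-- `(v[b,a] - v'(a))² ≤ 3 C² ρ(a,b)` -/
theorem kv_rho {C : ℝ} (hC : ∀ z, bb2 z ≤ C * ee z) (a b : ℝ) :
    (dd1 H0 aa b a - aa a) ^ 2 ≤ 3 * C ^ 2 * rho a b := by
  have h := ker3' (f := H0) (f' := aa) (f'' := bb2) (C := C) H0_hasDerivAt aa_has'
    (fun z => by rw [abs_of_pos (bb2_pos z)]; exact hC z) b a
  rwa [rho_comm b a] at h

/-- `(v[a,b] - v'(b))² ≤ 3 C² ρ(a,b)` -/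
theorem kv_rho' {C : ℝ} (hC : ∀ z, bb2 z ≤ C * ee z) (a b : ℝ) :
    (dd1 H0 aa a b - aa b) ^ 2 ≤ 3 * C ^ 2 * rho a b :=
  ker3' (f := H0) (f' := aa) (f'' := bb2) (C := C) H0_hasDerivAt aa_has'
    (fun z => by rw [abs_of_pos (bb2_pos z)]; exact hC z) a b

/-- **KW**: `(v'(a) (v[b,a] - v'(a)))² ≤ (3/4) C² ρ(a,b)` -/
theorem kw_rho {C : ℝ} (hC : ∀ z, bb2 z ≤ C * ee z) (a b : ℝ) :
    (aa a * (dd1 H0 aa b a - aa a)) ^ 2 ≤ 3 / 4 * C ^ 2 * rho a b := by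
  have h := kv_rho hC a b
  have h1 := aa_pos a
  have h2 := aa_lt a
  have h3 : aa a ^ 2 ≤ 1 / 4 := by nlinarith
  rw [mul_pow]
  nlinarith [mul_nonneg (sq_nonneg (dd1 H0 aa b a - aa a)) (sub_nonneg.2 h3)]

end Crest.Agent.R253.KW718
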