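import Crest.Agent.R253.HFn_741

/-!
# Row 253, B-form: lower bounds of `h = v' + v v''` through `g = c / w` (helper741)
-/

open MeasureTheory Set Filter Topology Real

namespace Crest.Agent.R253.HFn741

open Crest.Agent.R253.Mills37 Crest.Agent.R253.Slack688 Crest.Agent.R253.V2451

noncomputable section

lemma ee_has2 (z : ℝ) : HasDerivAt ee (ee z ^ 2 + z * ee z - 1) z := by
  refine (ee_hasDerivAt z).congr_deriv ?_
  rw [mu_eq]; ring

lemma cc_eq2 (z : ℝ) : cc z = ww z - ee z ^ 2 := by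
  unfold cc ww; rw [mu_eq]; ring

lemma mu_zero_sq : mu 0 ^ 2 = 2 / π := by
  have hQ : Q 0 = 1 / 2 := by
    have := Q_neg 0
    rw [neg_zero] at this; linarith
  have hpi := Real.pi_pos
  have h : ph 0 = (√(2 * π))⁻¹ := by unfold ph; simp
  unfold mu
  rw [hQ, h, div_pow, inv_pow, Real.sq_sqrt (by positivity)]
  field_simp

lemma ee_zero_sq : ee 0 ^ 2 = 2 / π := by
  have : ee 0 = mu 0 := by unfold ee; ring
  rw [this, mu_zero_sq]

lemma ee_zero_lt : ee 0 ^ 2 < 16 / 25 := by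
  rw [ee_zero_sq, div_lt_div_iff₀ Real.pi_pos (by norm_num)]
  have := Real.pi_gt_d2
  linarith

lemma gg_zero : gg 0 = 1 - 2 / π := by
  have h1 : ww 0 = 1 := by unfold ww; ring
  unfold gg
  rw [cc_eq2, h1, ee_zero_sq]; ring

/-! ### `g ≥ 1 / (z² + c)`, `c > 3` -/

def F1 (c z : ℝ) : ℝ := (z ^ 2 + c - 1) * (1 - z * ee z) - (z ^ 2 + c) * ee z ^ 2

lemma F1_has {c : ℝ} (hc : 3 < c) (z : ℝ) : HasDerivAt (F1 c)
    ((2 * ee z + z * (z ^ 2 + c + 3) / (z ^ 2 + c)) * F1 c z -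
      (z ^ 2 + c - 3) * (c * ee z + z) / (z ^ 2 + c)) z := by
  have he := ee_has2 z
  have hz := hasDerivAt_id z
  have h2 : HasDerivAt (fun z : ℝ => z ^ 2 + c - 1) (2 * z) z := by
    have := ((hasDerivAt_pow 2 z).add_const c).sub_const 1
    simpa using this
  have h3 : HasDerivAt (fun z : ℝ => z ^ 2 + c) (2 * z) z := by
    have := (hasDerivAt_pow 2 z).add_const c
    simpa using this
  have h := (h2.mul ((hz.mul he).const_sub 1)).sub (h3.mul (he.pow 2))
  refine h.congr_deriv ?_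
  have hB : z ^ 2 + c ≠ 0 := by positivity
  unfold F1
  simp only [id]
  field_simp
  norm_num
  ring

lemma F1_pos {c : ℝ} (hc : 3 < c) {z : ℝ} (hz : z < 0) : 0 < F1 c z := by
  refine pos_left_of_ode (b := 0) (c := fun z => 2 * ee z + z * (z ^ 2 + c + 3) / (z ^ 2 + c))
    (N := fun z => (z ^ 2 + c - 3) * (c * ee z + z) / (z ^ 2 + c)) (fun x _ => F1_has hc x)
    (fun x hx => ?_) ?_ z hz
  · have h1 : 0 < ee x := ee_pos x
    have h2 : 0 < mu x := mu_pos x
    rw [mu_eq] at h2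
    have h3 : 0 < c * ee x + x := by nlinarith
    have h4 : 0 < x ^ 2 + c - 3 := by nlinarith [sq_nonneg x]
    have h5 : 0 < x ^ 2 + c := by nlinarith [sq_nonneg x]
    positivity
  · have := ee_zero_lt
    unfold F1
    nlinarith

lemma gg_ge_aux {c : ℝ} (hc : 3 < c) {z : ℝ} (hz : z < 0) : 1 / (z ^ 2 + c) < gg z := by
  have hw := ww_pos z
  have h5 : 0 < z ^ 2 + c := by nlinarith [sq_nonneg z]
  have h := F1_pos hc hz
  unfold gg
  rw [div_lt_div_iff₀ h5 hw, cc_eq2]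
  unfold F1 at h
  unfold ww
  nlinarith

/-- **(h1)** -/
theorem gg_ge_neg {z : ℝ} (hz : z ≤ 0) : 1 / (z ^ 2 + 3) ≤ gg z := by
  rcases hz.lt_or_eq with h | rfl
  · refine le_of_forall_pos_lt_add fun ε hε => ?_
    have h5 : 0 < z ^ 2 + 3 := by positivity
    have h6 : 0 < z ^ 2 + (3 + ε) := by positivity
    have h1 := gg_ge_aux (c := 3 + ε) (by linarith) h
    have h2 : 1 / (z ^ 2 + 3) - ε ≤ 1 / (z ^ 2 + (3 + ε)) := by
      rw [sub_le_iff_le_add, div_le_iff₀ h5]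
      have e1 : 1 / (z ^ 2 + (3 + ε)) * (z ^ 2 + 3) = 1 - ε / (z ^ 2 + (3 + ε)) := by
        field_simp; ring
      have e2 : ε / (z ^ 2 + (3 + ε)) ≤ ε := by
        rw [div_le_iff₀ h6]
        nlinarith [sq_nonneg z]
      nlinarith [sq_nonneg z]
    linarith
  · rw [gg_zero]
    have h0 : 2 / π < 2 / 3.14 := by
      have := Real.pi_gt_d2
      exact div_lt_div_of_pos_left (by norm_num) (by norm_num) this
    norm_num at h0 ⊢
    linarith

theorem hh_ge_neg {z : ℝ} (hz : z ≤ 0) : 1 / (z ^ 2 + 3) ≤ hh z :=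
  (gg_ge_neg hz).trans (gg_lt_hh z).le

/-! ### `g ≥ 1/2 - 1 / (2 (z² + 3))`, `z ≥ 0` -/

def F3 (z : ℝ) : ℝ := (z ^ 2 + 4) * (1 - z * ee z) - 2 * (z ^ 2 + 3) * ee z ^ 2

lemma F3_has (z : ℝ) : HasDerivAt F3
    ((2 * ee z + 3 * z * (z ^ 2 + 4) / (2 * (z ^ 2 + 3))) * F3 z -
      z * ((z ^ 4 + 6 * z ^ 2 + 12) - z * (z ^ 4 + 8 * z ^ 2 + 18) * ee z) /
        (2 * (z ^ 2 + 3))) z := by
  have he := ee_has2 z
  have hz := hasDerivAt_id z
  have h2 : HasDerivAt (fun z : ℝ => z ^ 2 + 4) (2 * z) z := by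
    have := (hasDerivAt_pow 2 z).add_const 4
    simpa using this
  have h3 : HasDerivAt (fun z : ℝ => 2 * (z ^ 2 + 3)) (2 * (2 * z)) z := by
    have := ((hasDerivAt_pow 2 z).add_const 3).const_mul 2
    simpa using this
  have h := (h2.mul ((hz.mul he).const_sub 1)).sub (h3.mul (he.pow 2))
  refine h.congr_deriv ?_
  have hB : z ^ 2 + 3 ≠ 0 := by positivity
  unfold F3
  simp only [id]
  field_simp
  norm_num
  ring

lemma ze_tendsto : Tendsto (fun z => z * ee z) atTop (𝓝 1) := by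
  have h1 : Tendsto (fun z : ℝ => 1 - 2 * (2 + z ^ 2)⁻¹) atTop (𝓝 (1 - 2 * 0)) := by
    refine Tendsto.const_sub _ (Tendsto.const_mul _ ?_)
    refine tendsto_inv_atTop_zero.comp ?_
    exact tendsto_atTop_add_const_left _ _ (tendsto_pow_atTop (by norm_num))
  rw [mul_zero, sub_zero] at h1
  refine tendsto_of_tendsto_of_tendsto_of_le_of_le' h1 tendsto_const_nhds ?_ ?_
  · filter_upwards [eventually_gt_atTop 0] with z hz
    have h := ee_gt z
    have h2 : (0 : ℝ) < 2 + z ^ 2 := by positivity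
    have h3 : 1 - 2 * (2 + z ^ 2)⁻¹ = z ^ 2 / (2 + z ^ 2) := by field_simp; ring
    rw [h3, div_le_iff₀ h2]
    nlinarith
  · filter_upwards [eventually_gt_atTop 0] with z hz
    have := ee_lt hz
    rw [lt_div_iff₀ hz] at this
    linarith

lemma zzw_tendsto : Tendsto (fun z => z ^ 2 * ww z) atTop (𝓝 2) := by
  have h1 : Tendsto (fun z : ℝ => 2 - 10 * (5 + z ^ 2)⁻¹) atTop (𝓝 (2 - 10 * 0)) := by
    refine Tendsto.const_sub _ (Tendsto.const_mul _ ?_)
    refine tendsto_inv_atTop_zero.comp ?_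
    exact tendsto_atTop_add_const_left _ _ (tendsto_pow_atTop (by norm_num))
  rw [mul_zero, sub_zero] at h1
  refine tendsto_of_tendsto_of_tendsto_of_le_of_le' h1 tendsto_const_nhds ?_ ?_
  · filter_upwards [eventually_gt_atTop 0] with z hz
    have h := ee_lt2 z
    have h2 : (0 : ℝ) < 5 + z ^ 2 := by positivity
    have h3 : 2 - 10 * (5 + z ^ 2)⁻¹ = 2 * z ^ 2 / (5 + z ^ 2) := by field_simp; ring
    have h4 : z * ee z * (z ^ 2 + 5) < 3 + z ^ 2 := by nlinarith
    have h5 : 2 < ww z * (5 + z ^ 2) := by unfold ww; nlinarith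
    rw [h3, div_le_iff₀ h2]
    nlinarith [sq_nonneg z, mul_pos hz hz]
  · filter_upwards [eventually_gt_atTop 0] with z hz
    have h1 := ww_lt hz
    have h2 := ww_pos z
    nlinarith

lemma ww_top : Tendsto ww atTop (𝓝 0) := by
  have h : Tendsto (fun z : ℝ => (z⁻¹) * (z * ww z)) atTop (𝓝 (0 * 0)) :=
    tendsto_inv_atTop_zero.mul ww_tendsto_top
  rw [zero_mul] at h
  refine h.congr' ?_
  filter_upwards [eventually_gt_atTop 0] with z hz
  field_simp

lemma F3_tendsto : Tendsto F3 atTop (𝓝 0) := by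
  have h := ((zzw_tendsto.add (ww_top.const_mul 4)).sub ((ze_tendsto.pow 2).const_mul 2)).sub
    ((ee_tendsto_top.pow 2).const_mul 6)
  norm_num at h
  refine h.congr fun z => ?_
  unfold F3 ww; ring

lemma F3_pos {z : ℝ} (hz : 0 < z) : 0 < F3 z := by
  refine pos_of_ode_top (z0 := z)
    (c := fun z => 2 * ee z + 3 * z * (z ^ 2 + 4) / (2 * (z ^ 2 + 3)))
    (N := fun z => z * ((z ^ 4 + 6 * z ^ 2 + 12) - z * (z ^ 4 + 8 * z ^ 2 + 18) * ee z) /
        (2 * (z ^ 2 + 3))) (fun x _ => F3_has x) (fun x hx => ?_) (fun x hx => ?_)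
    F3_tendsto z le_rfl
  · have h0 : 0 < x := hz.trans_le hx
    have := ee_pos x
    positivity
  · have h0 : 0 < x := hz.trans_le hx
    have h := ee_lt2 x
    have h1 : x * ee x * (x ^ 2 + 5) < 3 + x ^ 2 := by nlinarith
    have h2 : 0 < (x ^ 4 + 6 * x ^ 2 + 12) - x * (x ^ 4 + 8 * x ^ 2 + 18) * ee x := by
      have h5 : (0 : ℝ) < x ^ 2 + 5 := by positivity
      have h6 : (0 : ℝ) < x ^ 4 + 8 * x ^ 2 + 18 := by positivity
      have h7 := mul_lt_mul_of_pos_right h1 h6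
      have h8 : 0 < (x ^ 2 + 5) *
          ((x ^ 4 + 6 * x ^ 2 + 12) - x * (x ^ 4 + 8 * x ^ 2 + 18) * ee x) := by nlinarith
      exact (mul_pos_iff_of_pos_left h5).1 h8
    positivity

/-- **(h3)** -/
theorem gg_ge_pos {z : ℝ} (hz : 0 ≤ z) : 1 / 2 - 1 / (2 * (z ^ 2 + 3)) ≤ gg z := by
  rcases hz.lt_or_eq with h | rfl
  · have h1 := F3_pos h
    have hw := ww_pos z
    have h3 : 0 < z ^ 2 + 3 := by positivity
    have e1 : 1 / 2 - 1 / (2 * (z ^ 2 + 3)) = (z ^ 2 + 2) / (2 * (z ^ 2 + 3)) := by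
      field_simp; ring
    unfold gg
    rw [e1, div_le_div_iff₀ (by positivity) hw, cc_eq2]
    unfold F3 at h1
    unfold ww
    nlinarith
  · rw [gg_zero]
    have h0 : 2 / π < 2 / 3.14 := by
      have := Real.pi_gt_d2
      exact div_lt_div_of_pos_left (by norm_num) (by norm_num) this
    norm_num at h0 ⊢
    linarith

theorem hh_ge_pos {z : ℝ} (hz : 0 ≤ z) : 1 / 2 - 1 / (2 * (z ^ 2 + 3)) ≤ hh z :=
  (gg_ge_pos hz).trans (gg_lt_hh z).le

/-! ### `g` is increasing -/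

def YY (z : ℝ) : ℝ := cc z * (ww z + 1) - ee z ^ 2

lemma YY_has (z : ℝ) : HasDerivAt YY
    ((ee z + (1 - 2 * cc z) / ee z) * YY z - 2 * cc z * ss z / ee z) z := by
  have h := ((cc_hasDerivAt z).mul ((ww_hasDerivAt z).add_const 1)).sub ((ee_has2 z).pow 2)
  refine h.congr_deriv ?_
  have he := (ee_pos z).ne'
  unfold YY
  rw [cc_eq2, mu_eq]
  unfold ss ww
  field_simp
  norm_num
  ring

lemma YY_tendsto : Tendsto YY atTop (𝓝 0) := by
  have h1 := ze_tendsto
  have h2 := ee_tendsto_top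
  have h := (((h1.const_mul (-3)).add (h1.pow 2)).sub ((h2.pow 2).const_mul 3)).add
    (h1.mul (h2.pow 2))
  have h' := h.const_add 2
  norm_num at h'
  refine h'.congr fun z => ?_
  unfold YY
  rw [cc_eq2]
  unfold ww; ring

lemma YY_pos (z : ℝ) : 0 < YY z := by
  have hN : ∀ x, 0 < 2 * cc x * ss x / ee x := fun x => by
    have := cc_pos x; have := ss_pos x; have := ee_pos x
    positivity
  have hpos : ∀ z, 0 ≤ z → 0 < YY z := by
    intro z hz
    refine pos_of_ode_top (z0 := z) (c := fun z => ee z + (1 - 2 * cc z) / ee z)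
      (fun x _ => YY_has x) (fun x hx => ?_) (fun x _ => hN x) YY_tendsto z le_rfl
    have h0 : 0 ≤ x := hz.trans hx
    have h1 := ee_pos x
    have h2 := two_cc_lt x
    have h3 : ww x ≤ 1 := by unfold ww; nlinarith
    have h4 : 0 ≤ 1 - 2 * cc x := by linarith
    positivity
  by_cases hz : 0 ≤ z
  · exact hpos z hz
  · exact pos_left_of_ode (b := 0) (c := fun z => ee z + (1 - 2 * cc z) / ee z)
      (fun x _ => YY_has x) (fun x _ => hN x) (hpos 0 le_rfl).le z (not_le.mp hz)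

lemma gg_has (z : ℝ) : HasDerivAt gg (ee z * YY z / ww z ^ 2) z := by
  have hw := (ww_pos z).ne'
  have h := (cc_hasDerivAt z).div (ww_hasDerivAt z) hw
  refine h.congr_deriv ?_
  congr 1
  unfold YY
  rw [cc_eq2, mu_eq]
  unfold ss ww
  ring

theorem gg_strictMono : StrictMono gg :=
  strictMono_of_hasDerivAt_pos gg_has fun z => by
    have := ee_pos z; have := YY_pos z; have := ww_pos z
    positivity

/-- **(h2)** -/
theorem gg_ge_const {z : ℝ} (hz : 0 ≤ z) : 9 / 25 ≤ gg z := by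
  refine le_trans ?_ (gg_strictMono.monotone hz)
  rw [gg_zero]
  have h0 : 2 / π < 2 / 3.14 := by
    have := Real.pi_gt_d2
    exact div_lt_div_of_pos_left (by norm_num) (by norm_num) this
  norm_num at h0 ⊢
  linarith

theorem hh_ge_const {z : ℝ} (hz : 0 ≤ z) : 9 / 25 ≤ hh z :=
  (gg_ge_const hz).trans (gg_lt_hh z).le

end

end Crest.Agent.R253.HFn741
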