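import Crest.Agent.R253.LamB_301
import Crest.Agent.R253.EvenHS_427
import Crest.Agent.R253.HLow_741

/-!
# R253: the un-IBP'd `h`-term of `Λ(B)` (helper301; 949 #31111 (1), 518, 476)

* `psi_eq`: `Σ E tr B T_k ζ_k h(ζ) = E tr B Z₁ Ψ(ζ) - Σ E tr B T_k KR_k(Ψ)`, `Ψ' = h`.
* `psi_lower`: `E tr B Z₁ Ψ(ζ) ≥ a tr B M_T - (L/2)(θ Σ|B T_k|² + θ⁻¹ E|η|²)`, `B ≥ 0`.
* `Psi`: the primitive of `hh`; `psi_hh` : the scalar facts (`a = L = 1/4`).
* `lam_psi`: the `Λ(B)` identity in this form.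
-/

set_option autoImplicit false

open MeasureTheory ProbabilityTheory Set Filter Topology Matrix
open scoped ContDiff

noncomputable section

namespace Crest.Agent.R253.PsiT301

open Crest.Agent.R238.Gap Crest.Agent.R253.SpecCalc999 Crest.Agent.R253.Meh74
  Crest.Agent.R253.SpecField321 Crest.Agent.R253.S3 Crest.Agent.R253.Stein378
  Crest.Agent.R253.LamB301 Crest.Agent.R253.EvenHS427

variable {n : ℕ}

section field

variable {Z : Fld n} {lo hi : ℝ}

lemma Mx_Z1 (T : Fin n → Mat n) (x : E n) : Mx Z x = Z1 T x + eta0 Z T x := by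
  unfold eta0 Z1; abel

/-- Stein identity for the first chaos: `E tr B Z₁ Φ = Σ_k E tr B T_k ∂_kΦ` -/
theorem stein1 (hZ : MF Z lo hi) {Φ : E n → Mat n} (hΦ : C1m Φ) (B : Mat n) (T : Fin n → Mat n) :
    TE (fun x => B * (Z1 T x * Φ x)) = ∑ k, TE (fun x => B * (T k * S3.dM k Φ x)) := by
  have h := stein0 hZ hΦ B T
  have e : ∀ x, B * (Mx Z x * Φ x) = B * (Z1 T x * Φ x) + B * (eta0 Z T x * Φ x) := fun x => by
    rw [Mx_Z1 T x, Matrix.add_mul, Matrix.mul_add]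
  rw [TE_congr e, TE_add ((cgm_const B).mul ((cgm_Z1 T).mul hΦ.cg))
    ((cgm_const B).mul ((cgm_eta0 hZ T).mul hΦ.cg))] at h
  linarith

/-- **(Q1)** -/
theorem psi_eq (hZ : MF Z lo hi) {Ψ h : ℝ → ℝ} (hΨ : ∀ z ∈ Icc lo hi, HasDerivAt Ψ (h z) z)
    (hh : ContinuousOn h (Icc lo hi)) (B : Mat n) (T : Fin n → Mat n) :
    ∑ k, TE (fun x => B * (T k * (S3.dZ Z k x * sf h Z x))) =
      TE (fun x => B * (Z1 T x * sf Ψ Z x)) -
        ∑ k, TE (fun x => B * (T k * KR Ψ h (Mx Z x) (S3.dZ Z k x))) := by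
  rw [stein1 hZ (c1m_sf hZ hΨ hh) B T, ← Finset.sum_sub_distrib]
  refine Finset.sum_congr rfl fun k _ => ?_
  have cB := cgm_const (n := n) B
  have cT := cgm_const (n := n) (T k)
  rw [← TE_sub (cB.mul (cT.mul ((c1m_sf hZ hΨ hh).cgd k))) (cB.mul (cT.mul (cgm_KR hZ hΨ hh k)))]
  refine TE_congr fun x => ?_
  rw [dM_sf hZ hΨ, ← Matrix.mul_sub, ← Matrix.mul_sub]
  congr 2
  unfold KR sf
  abel

lemma tr_nonneg_cfc {A W : Mat n} (hA : A.IsHermitian) {f : ℝ → ℝ} (hf : ∀ z, 0 ≤ f z)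
    (hW : W.PosSemidef) : 0 ≤ (W * _root_.cfc f A).trace := by
  have h := le_tr_cfc hA (C := 0) (fun z _ => hf z) hW
  rwa [zero_mul, Matrix.trace_mul_comm] at h

/-- evenness: `E tr B f(Z₁) ≥ 0` when the even part of `f = z g` is nonnegative -/
lemma even_nonneg {T : Fin n → Mat n} (hTs : ∀ k, (T k).IsHermitian) {g : ℝ → ℝ} {L : ℝ}
    (hL : ∀ x y, |g x - g y| ≤ L * |x - y|) (hodd : ∀ z, 0 ≤ z * (g z - g (-z)))
    {B : Mat n} (hB : B.PosSemidef) :
    0 ≤ TE (fun x => B * (Z1 T x * _root_.cfc g (Z1 T x))) := by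
  have hH := fun x => herm_Z1 hTs x
  have e1 : ∀ (x : E n) (f : ℝ → ℝ), Z1 T x * _root_.cfc f (Z1 T x) =
      _root_.cfc (fun t => t * f t) (Z1 T x) := by
    intro x f
    obtain ⟨U, hU⟩ := exists_fr (hH x)
    apply conj_inj hU.o'
    rw [hU.cfc, Jord192.conj_mul hU.o', hU.cfc, hU.d, Matrix.diagonal_mul_diagonal]
  have h1 := EE_cfc_neg hTs (fun t => t * g t) (fun X => (B * X).trace)
  have cg1 : CGm fun x => _root_.cfc g (Z1 T x) := cgm_cfc_lip (cgm_Z1 T) hH hL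
  have cg2 : CGm fun x => _root_.cfc (fun t => g (-t)) (Z1 T x) :=
    cgm_cfc_lip (cgm_Z1 T) hH (L := L) fun x y => by
      refine (hL (-x) (-y)).trans (le_of_eq ?_)
      rw [show -x - -y = -(x - y) by ring, abs_neg]
  have c1 : CG (fun x => (B * (Z1 T x * _root_.cfc g (Z1 T x))).trace) :=
    ((cgm_const B).mul ((cgm_Z1 T).mul cg1)).trace
  have c2 : CG (fun x => (B * (Z1 T x * _root_.cfc (fun t => g (-t)) (Z1 T x))).trace) :=
    ((cgm_const B).mul ((cgm_Z1 T).mul cg2)).trace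
  have e2 : EE (fun x => (B * (Z1 T x * _root_.cfc g (Z1 T x))).trace) =
      -EE (fun x => (B * (Z1 T x * _root_.cfc (fun t => g (-t)) (Z1 T x))).trace) := by
    rw [← EE_neg]
    have a1 : ∀ x, (B * (Z1 T x * _root_.cfc g (Z1 T x))).trace =
        (B * _root_.cfc (fun t => t * g t) (Z1 T x)).trace := fun x => by rw [e1]
    have a2 : ∀ x, -(B * (Z1 T x * _root_.cfc (fun t => g (-t)) (Z1 T x))).trace =
        (B * _root_.cfc (fun t => (-t) * g (-t)) (Z1 T x)).trace := fun x => by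
      rw [e1]
      have : _root_.cfc (fun t => -t * g (-t)) (Z1 T x) =
          -_root_.cfc (fun t => t * g (-t)) (Z1 T x) := by
        obtain ⟨U, hU⟩ := exists_fr (hH x)
        apply conj_inj hU.o'
        rw [hU.cfc, Matrix.mul_neg, Matrix.neg_mul, hU.cfc, Matrix.diagonal_neg]
        congr 1
        funext i
        ring
      rw [this, Matrix.mul_neg, Matrix.trace_neg]
    rw [EE_congr a1, EE_congr a2]
    exact h1
  have e3 : 0 ≤ EE (fun x => (B * (Z1 T x * _root_.cfc g (Z1 T x))).trace) -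
      EE (fun x => (B * (Z1 T x * _root_.cfc (fun t => g (-t)) (Z1 T x))).trace) := by
    rw [← EE_sub c1 c2]
    refine EE_nonneg fun x => ?_
    rw [e1, e1, ← Matrix.trace_sub, ← Matrix.mul_sub]
    have : _root_.cfc (fun t => t * g t) (Z1 T x) - _root_.cfc (fun t => t * g (-t)) (Z1 T x) =
        _root_.cfc (fun t => t * (g t - g (-t))) (Z1 T x) := by
      obtain ⟨U, hU⟩ := exists_fr (hH x)
      apply conj_inj hU.o'
      rw [hU.cfc, Matrix.mul_sub, Matrix.sub_mul, hU.cfc, hU.cfc, Matrix.diagonal_sub]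
      congr 1
      funext i
      ring
    rw [this]
    exact tr_nonneg_cfc (hH x) hodd hB
  unfold TE
  linarith

/-- **(Q2)** -/
theorem psi_lower (hZ : MF Z lo hi) {T : Fin n → Mat n} (hTs : ∀ k, (T k)ᵀ = T k)
    (hT : ∀ k, EM (S3.dZ Z k) = T k) {Ψ g : ℝ → ℝ} {a L : ℝ} (hL0 : 0 < L)
    (hΨ : ∀ z, Ψ z = a * z + g z) (hL : ∀ x y, |g x - g y| ≤ L * |x - y|)
    (hodd : ∀ z, 0 ≤ z * (g z - g (-z))) {B : Mat n} (hB : B.PosSemidef) {θ : ℝ} (hθ : 0 < θ) :
    a * (∑ k, (B * (T k * T k)).trace) -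
        L / 2 * (θ * (∑ k, hs (B * T k)) + 1 / θ * EE (fun x => hs (eta0 Z T x))) ≤
      TE (fun x => B * (Z1 T x * sf Ψ Z x)) := by
  have hTh : ∀ k, (T k).IsHermitian := fun k => by
    rw [Matrix.IsHermitian, conjTranspose_eq_transpose_of_trivial, hTs k]
  have hH := fun x => herm_Z1 hTh x
  have cB := cgm_const (n := n) B
  have cZ := cgm_Z1 (n := n) T
  have cM := cgm_Mx hZ
  have cη := cgm_eta0 hZ T
  have cgZ : CGm fun x => _root_.cfc g (Mx Z x) := cgm_cfc_lip cM hZ.h hL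
  have cg1 : CGm fun x => _root_.cfc g (Z1 T x) := cgm_cfc_lip cZ hH hL
  -- split
  have e1 : ∀ x, B * (Z1 T x * sf Ψ Z x) = a • (B * (Z1 T x * Mx Z x)) +
      (B * (Z1 T x * _root_.cfc g (Z1 T x)) +
        B * Z1 T x * (_root_.cfc g (Mx Z x) - _root_.cfc g (Z1 T x)) * 1) := by
    intro x
    have h1 : sf Ψ Z x = a • Mx Z x + _root_.cfc g (Mx Z x) := by
      unfold sf
      obtain ⟨U, hU⟩ := exists_fr (hZ.h x)
      apply conj_inj hU.o'
      rw [hU.cfc, Matrix.mul_add, Matrix.add_mul, hU.cfc, Matrix.mul_smul, Matrix.smul_mul, hU.d]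
      ext i j
      rw [Matrix.add_apply, Matrix.smul_apply]
      by_cases hij : i = j
      · subst hij
        simp only [Matrix.diagonal_apply_eq, smul_eq_mul]
        exact hΨ _
      · simp [Matrix.diagonal_apply_ne _ hij]
    rw [h1, Matrix.mul_one, Matrix.mul_add, Matrix.mul_smul, Matrix.mul_add, Matrix.mul_smul,
      Matrix.mul_sub, Matrix.mul_assoc B, Matrix.mul_assoc B]
    abel
  have cA : CGm fun x => B * (Z1 T x * Mx Z x) := cB.mul (cZ.mul cM)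
  have cC : CGm fun x => B * (Z1 T x * _root_.cfc g (Z1 T x)) := cB.mul (cZ.mul cg1)
  have cD : CGm fun x => B * Z1 T x * (_root_.cfc g (Mx Z x) - _root_.cfc g (Z1 T x)) * 1 :=
    ((cB.mul cZ).mul (cgZ.sub cg1)).mul (cgm_const 1)
  rw [TE_congr e1, TE_add (cA.smulc a) (cC.add cD), TE_add cC cD, TE_smul]
  -- first term
  have h1 : TE (fun x => B * (Z1 T x * Mx Z x)) = ∑ k, (B * (T k * T k)).trace := by
    have c1 : C1m (Mx Z) := fun i j => hZ.c i j
    rw [stein1 hZ c1 B T]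
    refine Finset.sum_congr rfl fun k _ => ?_
    have h2 := TE_AF (cgm_dZ hZ k) (B * T k)
    rw [hT k, Matrix.mul_assoc] at h2
    rw [← h2]
    refine TE_congr fun x => ?_
    rw [Matrix.mul_assoc]
    rfl
  -- second term
  have h2 : 0 ≤ TE (fun x => B * (Z1 T x * _root_.cfc g (Z1 T x))) :=
    even_nonneg hTh hL hodd hB
  -- third term
  have h3 : -(L / 2 * (θ * (∑ k, hs (B * T k)) + 1 / θ * EE (fun x => hs (eta0 Z T x)))) ≤
      TE (fun x => B * Z1 T x * (_root_.cfc g (Mx Z x) - _root_.cfc g (Z1 T x)) * 1) := by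
    have hpt : ∀ x, -(L * θ / 2 * hs (B * Z1 T x) + L / (2 * θ) * hs (eta0 Z T x)) ≤
        (B * Z1 T x * (_root_.cfc g (Mx Z x) - _root_.cfc g (Z1 T x)) * 1).trace := by
      intro x
      have hy := abs_trace_three_le (B * Z1 T x)
        (_root_.cfc g (Mx Z x) - _root_.cfc g (Z1 T x)) 1 (θ := L * θ) (mul_pos hL0 hθ)
      rw [Matrix.one_mul] at hy
      have hl := hs_cfc_lip (hZ.h x) (hH x) hL
      have e4 : Mx Z x - Z1 T x = eta0 Z T x := by rw [Mx_Z1 T x]; abel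
      rw [e4] at hl
      have h5 : 1 / (2 * (L * θ)) * hs (_root_.cfc g (Mx Z x) - _root_.cfc g (Z1 T x)) ≤
          L / (2 * θ) * hs (eta0 Z T x) := by
        have h6 : (0 : ℝ) ≤ 1 / (2 * (L * θ)) := by positivity
        refine (mul_le_mul_of_nonneg_left hl h6).trans (le_of_eq ?_)
        field_simp
      have h7 := (abs_le.1 hy).1
      linarith
    have hi := EE_mono (((cg_hs (cB.mul cZ)).smul (L * θ / 2)).add
      ((cg_hs cη).smul (L / (2 * θ)))).neg cD.trace hpt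
    rw [EE_neg, EE_add ((cg_hs (cB.mul cZ)).smul (L * θ / 2)) ((cg_hs cη).smul (L / (2 * θ))),
      EE_smul, EE_smul, EE_hs_Z1] at hi
    unfold TE
    refine le_trans (le_of_eq ?_) hi
    field_simp
  rw [h1]
  linarith

/-- **(Q4)**: the identity for `Λ(B)` with the `h`-term un-IBP'd -/
theorem lam_psi (hZ : MF Z lo hi) {v v1 χ χ1 F Ψ : ℝ → ℝ}
    (hv : ∀ z ∈ Icc lo hi, HasDerivAt v (v1 z) z) (hv1 : ContinuousOn v1 (Icc lo hi))
    (hχ : ∀ z ∈ Icc lo hi, HasDerivAt χ (χ1 z) z) (hχ1 : ContinuousOn χ1 (Icc lo hi))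
    (hΨ : ∀ z ∈ Icc lo hi, HasDerivAt Ψ (χ1 z - v1 z ^ 2) z)
    (hF : ∀ z ∈ Icc lo hi, F z = 1 + z * χ z - χ1 z + v1 z ^ 2)
    {B : Mat n} (hB : Bᵀ = B) {T : Fin n → Mat n} (hT : ∀ k, (T k)ᵀ = T k) :
    TE (fun x => B * sf F Z x) -
        ∑ k, TE (fun x => B * (DK v v1 (Mx Z x) (S3.dZ Z k x) * DK v v1 (Mx Z x) (S3.dZ Z k x))) =
      B.trace - TE (fun x => B * sf (fun z => χ1 z - v1 z ^ 2) Z x) +
      TE (fun x => B * (Z1 T x * sf Ψ Z x)) +
      ∑ k, (-TE (fun x => B * (T k * (sf (fun z => v1 z ^ 2) Z x * pk Z T k x))) -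
          TE (fun x => B * (T k * KR Ψ (fun z => χ1 z - v1 z ^ 2) (Mx Z x) (S3.dZ Z k x))) +
          TE (fun x => B * (T k * KR χ χ1 (Mx Z x) (S3.dZ Z k x))) -
          TE (fun x => B * (T k * (sf (fun z => v1 z ^ 2) Z x * S3.dZ Z k x -
            S3.dZ Z k x * sf (fun z => v1 z ^ 2) Z x))) -
          2 * TE (fun x => B * (S3.dZ Z k x * sf v1 Z x * (KR v v1 (Mx Z x) (S3.dZ Z k x))ᵀ)) -
          TE (fun x => B * (KR v v1 (Mx Z x) (S3.dZ Z k x) *
            (KR v v1 (Mx Z x) (S3.dZ Z k x))ᵀ)) -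
          TE (fun x => B * (pk Z T k x * sf (fun z => v1 z ^ 2) Z x * pk Z T k x))) +
      TE (fun x => B * (eta0 Z T x * sf χ Z x)) := by
  have hWW : ∀ x, sf v1 Z x * sf v1 Z x = sf (fun z => v1 z ^ 2) Z x := fun x => by
    rw [sf_mul hZ]
    exact sf_congr hZ (fun z _ => (sq _).symm) x
  have hhh : ∀ x, sf χ1 Z x - sf (fun z => v1 z ^ 2) Z x = sf (fun z => χ1 z - v1 z ^ 2) Z x :=
    fun x => sf_sub hZ _ _ x
  have hw2 : ContinuousOn (fun z => v1 z ^ 2) (Icc lo hi) := hv1.pow 2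
  have hhc : ContinuousOn (fun z => χ1 z - v1 z ^ 2) (Icc lo hi) := hχ1.sub hw2
  rw [lam_eq0 hZ hv hv1 hχ hχ1 hF hB hT]
  simp only [hWW, hhh]
  have cB := cgm_const (n := n) B
  have cW := cgm_cfc hZ hw2
  have ch := cgm_cfc hZ hhc
  have cp := fun k => cgm_pk hZ T k
  have cd := fun k => cgm_dZ hZ k
  have cT := fun k => cgm_const (n := n) (T k)
  -- main term
  have e1 : TE (fun x => B * ((1 - ∑ k, T k * T k) * sf (fun z => χ1 z - v1 z ^ 2) Z x)) =
      TE (fun x => B * sf (fun z => χ1 z - v1 z ^ 2) Z x) -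
        ∑ k, TE (fun x => B * (T k * (T k * sf (fun z => χ1 z - v1 z ^ 2) Z x))) := by
    rw [← TE_sum fun k _ => cB.mul ((cT k).mul ((cT k).mul ch)),
      ← TE_sub (cB.mul ch) (CGm.sum fun k _ => cB.mul ((cT k).mul ((cT k).mul ch)))]
    refine TE_congr fun x => ?_
    rw [Matrix.sub_mul, Matrix.one_mul, Matrix.mul_sub, Finset.sum_mul, Finset.mul_sum]
    congr 1
    exact Finset.sum_congr rfl fun k _ => by rw [Matrix.mul_assoc]
  have e2 : ∀ k, TE (fun x => B * (T k * (pk Z T k x * sf (fun z => χ1 z - v1 z ^ 2) Z x -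
      sf (fun z => v1 z ^ 2) Z x * pk Z T k x))) =
      TE (fun x => B * (T k * (S3.dZ Z k x * sf (fun z => χ1 z - v1 z ^ 2) Z x))) -
      TE (fun x => B * (T k * (T k * sf (fun z => χ1 z - v1 z ^ 2) Z x))) -
      TE (fun x => B * (T k * (sf (fun z => v1 z ^ 2) Z x * pk Z T k x))) := by
    intro k
    rw [← TE_sub (cB.mul ((cT k).mul ((cd k).mul ch))) (cB.mul ((cT k).mul ((cT k).mul ch))),
      ← TE_sub ((cB.mul ((cT k).mul ((cd k).mul ch))).sub (cB.mul ((cT k).mul ((cT k).mul ch))))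
        (cB.mul ((cT k).mul (cW.mul (cp k))))]
    refine TE_congr fun x => ?_
    have hd : S3.dZ Z k x = T k + pk Z T k x := by unfold pk; abel
    rw [hd, Matrix.add_mul, Matrix.mul_sub, Matrix.mul_sub, Matrix.mul_add, Matrix.mul_add]
    abel
  have e3 := psi_eq hZ hΨ hhc B T
  rw [e1]
  simp only [e2, Finset.sum_add_distrib, Finset.sum_sub_distrib, Finset.sum_neg_distrib] at *
  linarith

end field

end Crest.Agent.R253.PsiT301
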