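import Crest.Agent.R253.LamI_301
import Crest.Agent.R253.PsiT_301

/-!
# R253: the primitive of `hh` (helper301)

`Psi z = ∫_0^z hh`, `Psi z = z/4 + Pst z`, `Pst` is `1/4`-Lipschitz and `z (Pst z - Pst (-z)) ≥ 0`.
-/

set_option autoImplicit false

open MeasureTheory ProbabilityTheory Set Filter Topology Matrix
open scoped ContDiff

noncomputable section

namespace Crest.Agent.R253.PsiH301

open Crest.Agent.R253.HFn741 Crest.Agent.R253.LamI301
open Crest.Agent.R253.Slack688 (aa)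

lemma hh_cont : Continuous hh := by
  have h : hh = fun z => chi' z - aa z ^ 2 := by
    funext z; unfold chi'; ring
  rw [h]
  exact chi'_cont.sub (aa_cont.pow 2)

/-- `Ψ = ∫_0 h` -/
def Psi (z : ℝ) : ℝ := ∫ t in (0 : ℝ)..z, hh t

lemma Psi_has (z : ℝ) : HasDerivAt Psi (hh z) z :=
  intervalIntegral.integral_hasDerivAt_right (hh_cont.intervalIntegrable _ _)
    hh_cont.stronglyMeasurable.stronglyMeasurableAtFilter hh_cont.continuousAt

lemma Psi_zero : Psi 0 = 0 := by unfold Psi; simp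

/-- `Ψ̃ = Ψ - z/4` -/
def Pst (z : ℝ) : ℝ := Psi z - 1 / 4 * z

lemma Psi_eq (z : ℝ) : Psi z = 1 / 4 * z + Pst z := by unfold Pst; ring

lemma Pst_has (z : ℝ) : HasDerivAt Pst (hh z - 1 / 4) z := by
  have h := (Psi_has z).fun_sub ((hasDerivAt_id' z).const_mul (1 / 4 : ℝ))
  rw [mul_one] at h
  exact h

lemma hh_sum (z : ℝ) : 1 / 2 ≤ hh z + hh (-z) := by
  wlog hz : 0 ≤ z generalizing z
  · have h := this (-z) (by linarith)
    rw [neg_neg] at h
    linarith
  have h1 := hh_ge_pos hz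
  have h2 := hh_ge_neg (z := -z) (by linarith)
  rw [neg_sq] at h2
  have h3 : 0 < z ^ 2 + 3 := by positivity
  have h4 : 1 / (2 * (z ^ 2 + 3)) ≤ 1 / (z ^ 2 + 3) := by
    refine one_div_le_one_div_of_le h3 ?_
    linarith
  linarith

/-- `|Ψ̃ x - Ψ̃ y| ≤ |x - y| / 4` once `h ≤ 1/2` -/
lemma Pst_lip (h12 : ∀ z, hh z ≤ 1 / 2) (x y : ℝ) : |Pst x - Pst y| ≤ 1 / 4 * |x - y| := by
  have hb : ∀ z ∈ (univ : Set ℝ), ‖hh z - 1 / 4‖ ≤ 1 / 4 := fun z _ => by
    rw [Real.norm_eq_abs, abs_le]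
    have h1 := hh_pos z
    have h2 := h12 z
    constructor <;> linarith
  have h := convex_univ.norm_image_sub_le_of_norm_hasDerivWithin_le
    (f := Pst) (f' := fun z => hh z - 1 / 4) (C := 1 / 4)
    (fun z _ => (Pst_has z).hasDerivWithinAt) hb (mem_univ y) (mem_univ x)
  simpa [Real.norm_eq_abs] using h

lemma Pst_odd (z : ℝ) : 0 ≤ z * (Pst z - Pst (-z)) := by
  have hg : ∀ z, HasDerivAt (fun z => Pst z - Pst (-z)) ((hh z - 1 / 4) + (hh (-z) - 1 / 4)) z := by
    intro z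
    have h1 := (Pst_has (-z)).scomp z (hasDerivAt_neg z)
    have h2 := (Pst_has z).sub h1
    refine h2.congr_deriv ?_
    rw [smul_eq_mul]; ring
  have hm : Monotone (fun z => Pst z - Pst (-z)) := by
    refine monotone_of_hasDerivAt_nonneg hg fun z => ?_
    have := hh_sum z
    change 0 ≤ (hh z - 1 / 4) + (hh (-z) - 1 / 4)
    linarith
  have h0 : Pst 0 - Pst (-0) = 0 := by simp
  rcases le_total 0 z with hz | hz
  · refine mul_nonneg hz ?_
    have h := hm hz
    simp only at h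
    linarith
  · refine mul_nonneg_of_nonpos_of_nonpos hz ?_
    have h := hm hz
    simp only at h
    linarith

end Crest.Agent.R253.PsiH301
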