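import Crest.Agent.R253.NearR_80
import Crest.Agent.R253.PsiH_301
import Crest.Agent.R253.Inst_321
import Crest.Agent.R253.KW_718

/-!
# Row 253: numeric hypotheses of `lam_ge` / `eo_ge` for the Mills functions (helper649)

`v = H0`, `v1 = aa = v'`, `χ = chi = v (1 + v')`, `χ1 = chi'`, `h = hh = χ' − v'²`.

The only input is `hh z ≤ 1/2` (741's `hh_lt`).

* `chi'_nonneg`, `chi'_le : chi' z ≤ 3/4`;
* `hρ_38 : |chi' b − aa b ^ 2 − aa a ^ 2 − 1/8| ≤ 3/8`;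
* `hκ_12 : |aa a| ≤ 1/2`;
* `hg_chi : (chi z − chi 0 − 3/8 z)² ≤ 0 + 0 z + 9/64 z²` (`a5 = c5 = 0`, `e5 = 9/64`);
* `aa_abs : |aa z − 1/4| ≤ 1/4`, `v_lip : |H0 x − H0 y − (x − y)/4| ≤ |x − y|/4`;
* `lam_ge_num` = `TrC80.lam_ge_R` with these numbers.
-/

set_option autoImplicit false

open MeasureTheory ProbabilityTheory Set Filter Topology Matrix

noncomputable section

namespace Crest.Agent.R253.LamNum649

open Crest.Agent.R253.Mills37 Crest.Agent.R253.HFn741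
open Crest.Agent.R253.Slack688 (aa aa_pos H0_has)

/-- mean value inequality on the line -/
lemma lip_of_deriv {f f' : ℝ → ℝ} (hf : ∀ z, HasDerivAt f (f' z) z) {L : ℝ}
    (hL : ∀ z, |f' z| ≤ L) (x y : ℝ) : |f x - f y| ≤ L * |x - y| := by
  have h := Convex.norm_image_sub_le_of_norm_hasDerivWithin_le (f := f) (f' := f') (s := Set.univ)
    (x := y) (y := x) (C := L) (fun z _ => (hf z).hasDerivWithinAt)
    (fun z _ => by rw [Real.norm_eq_abs]; exact hL z) convex_univ (mem_univ _) (mem_univ _)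
  simpa [Real.norm_eq_abs] using h

lemma aa_sq_le (z : ℝ) : aa z ^ 2 ≤ 1 / 4 := by
  have h1 := aa_pos z
  have h2 := aa_lt z
  nlinarith

lemma chi'_nonneg (z : ℝ) : 0 ≤ chi' z := (chi'_pos z).le

lemma chi'_le (h12 : ∀ z, hh z ≤ 1 / 2) (z : ℝ) : chi' z ≤ 3 / 4 := by
  have := aa_sq_le z
  have := h12 z
  unfold chi'
  linarith

/-- `χ' − v'² = h` -/
lemma chi'_sub (z : ℝ) : chi' z - aa z ^ 2 = hh z := by unfold chi'; ring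

/-- 378's `hρ` with `c = 1/8`, `ρ = 3/8` -/
theorem hρ_38 (h12 : ∀ z, hh z ≤ 1 / 2) (a b : ℝ) :
    |chi' b - aa b ^ 2 - aa a ^ 2 - 1 / 8| ≤ 3 / 8 := by
  rw [chi'_sub]
  have h1 := hh_pos b
  have h2 := h12 b
  have h3 := aa_sq_le a
  have h4 := sq_nonneg (aa a)
  rw [abs_le]
  constructor <;> linarith

/-- 378's `hκ` with `κ = 1/2` -/
theorem hκ_12 (a : ℝ) : |aa a| ≤ 1 / 2 := by
  rw [abs_of_pos (aa_pos a)]
  exact (aa_lt a).le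

/-- `|v' − 1/4| ≤ 1/4` -/
theorem aa_abs (z : ℝ) : |aa z - 1 / 4| ≤ 1 / 4 := by
  have h1 := aa_pos z
  have h2 := aa_lt z
  rw [abs_le]
  constructor <;> linarith

/-- `|v x − v y − (x − y)/4| ≤ |x − y|/4` -/
theorem v_lip (x y : ℝ) : |H0 x - H0 y - (x - y) / 4| ≤ 1 / 4 * |x - y| := by
  have h := lip_of_deriv (f := fun z => H0 z - 1 / 4 * z) (f' := fun z => aa z - 1 / 4)
    (fun z => ((H0_has z).sub ((hasDerivAt_id' z).const_mul (1 / 4))).congr_deriv (by ring))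
    aa_abs x y
  have e : H0 x - H0 y - (x - y) / 4 = (H0 x - 1 / 4 * x) - (H0 y - 1 / 4 * y) := by ring
  rw [e]
  exact h

/-- `|χ x − χ y − 3/8 (x − y)| ≤ 3/8 |x − y|` -/
theorem chi_lip (h12 : ∀ z, hh z ≤ 1 / 2) (x y : ℝ) :
    |chi x - chi y - 3 / 8 * (x - y)| ≤ 3 / 8 * |x - y| := by
  have h := lip_of_deriv (f := fun z => chi z - 3 / 8 * z) (f' := fun z => chi' z - 3 / 8)
    (fun z => ((chi_has z).sub ((hasDerivAt_id' z).const_mul (3 / 8))).congr_deriv (by ring))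
    (L := 3 / 8)
    (fun z => by
      have h1 := chi'_nonneg z
      have h2 := chi'_le h12 z
      rw [abs_le]
      constructor <;> linarith) x y
  have e : chi x - chi y - 3 / 8 * (x - y) = (chi x - 3 / 8 * x) - (chi y - 3 / 8 * y) := by ring
  rw [e]
  exact h

/-- 378's `hg` with `c3 = χ 0`, `c4 = 3/8`, `a5 = c5 = 0`, `e5 = 9/64` -/
theorem hg_chi (h12 : ∀ z, hh z ≤ 1 / 2) (z : ℝ) :
    (chi z - chi 0 - 3 / 8 * z) ^ 2 ≤ 0 + 0 * z + 9 / 64 * z ^ 2 := by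
  have h := chi_lip h12 z 0
  have e : chi z - chi 0 - 3 / 8 * (z - 0) = chi z - chi 0 - 3 / 8 * z := by ring
  rw [e, sub_zero] at h
  have h2 := pow_le_pow_left₀ (abs_nonneg _) h 2
  rw [sq_abs, mul_pow, sq_abs] at h2
  linarith

end Crest.Agent.R253.LamNum649

namespace Crest.Agent.R253.LamNum649

open Crest.Agent.R238.Gap Crest.Agent.R253.SpecCalc999 Crest.Agent.R253.Meh74
  Crest.Agent.R253.SpecField321 Crest.Agent.R253.S3 Crest.Agent.R253.LamB301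
  Crest.Agent.R253.LamI301 Crest.Agent.R253.TrC80
open Crest.Agent.R253.DualP973 (Tm ef Lx MTm Mx_eq dk_eq c1_ef)
open Crest.Agent.R253.ErrT378 (Lam lam_ge)
open Crest.Agent.R253.Stein378 (ky)
open Crest.Agent.R253.Mills37 (H0 kk)
open Crest.Agent.R253.Slack688 (aa H0_has)
open Crest.Agent.R253.HFn741

variable {n : ℕ} {ζ : Fld n} {lo hi : ℝ}

/-- 80's `lam_ge_R` with the literal functions and numbers; `Cy Cw Ce` parameters -/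
theorem lam_ge_num (h12 : ∀ z, hh z ≤ 1 / 2) (hζ : MF ζ lo hi) (h0 : ∀ i j, EE (ζ i j) = 0)
    {sl : ℝ → ℝ → ℝ} {Sl : E n → ℝ} (cSl : CG Sl)
    (hSl : ∀ x, ∃ U s, Fr (Mx ζ x) U s ∧ ∑ k, Jord192.slk sl U s (S3.dZ ζ k x) ≤ Sl x)
    {Cy Cw Ce bo bn θ1 θ2 θ3 θ4 : ℝ}
    (hy : ∀ a b, ky H0 aa chi chi' a b ^ 2 ≤ Cy * sl a b)
    (hw : ∀ a b, (aa a * (dd1 H0 aa b a - aa a)) ^ 2 ≤ Cw * sl a b)
    (he : ∀ a b, (dd1 H0 aa a b - aa b) ^ 2 ≤ Ce * sl a b)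
    (hC0 : 0 ≤ Cy) (hC1 : 0 ≤ Cw) (hC2 : 0 ≤ Ce)
    (hθ1 : 0 < θ1) (hθ2 : 0 < θ2) (hθ3 : 0 < θ3) (hθ4 : 0 < θ4) {b : ℝ → ℝ}
    (hbo : ∀ x, 0 ≤ x → b x ^ 2 ≤ bo ^ 2) (hbn : ∀ x, 0 ≤ x → b x ≤ bn) (hbn0 : 0 ≤ bn) :
    TR b (MTm ζ) + SW (fun x => b x * (x - 1)) hh ζ -
      (θ1 / 2 + θ2 / 2) * TR (fun x => b x ^ 2 * x) (MTm ζ) -
      (9 / (128 * θ1) + θ3 * bo ^ 2) * PW (fun _ => 1) ζ -
      1 / 4 * PW (fun x => max (b x) 0) ζ -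
      (Cy / (2 * θ2) + Cw / θ3 + bn * Ce) * EE Sl -
      (9 / 128 * θ4 * (TR (fun x => b x ^ 2 * x) (MTm ζ) + HW (fun x => b x ^ 2) ζ) +
        1 / (2 * θ4) * HW (fun _ => 1) ζ) +
      3 / 8 * HW b ζ ≤ Lam (fun z => 2 * kk z - H0 z ^ 2) H0 aa ζ (_root_.cfc b (MTm ζ)) := by
  have h := lam_ge_R hζ h0 (v := H0) (v1 := aa) (χ := chi) (χ1 := chi')
    (F := fun z => 2 * kk z - H0 z ^ 2) (h := hh)
    (fun z _ => H0_has z) (ScalE688.aa_cont.continuousOn)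
    (fun z _ => chi_has z) (chi'_cont.continuousOn)
    (fun z _ => by have := chi_id z; linarith) (fun z _ => chi'_sub z) cSl hSl
    (Cy := Cy) (Cw := Cw) (Ce := Ce) (c := 1 / 8) (ρ := 3 / 8) (κ := 1 / 2) (bo := bo) (bn := bn)
    (θ1 := θ1) (θ2 := θ2) (θ3 := θ3) (θ4 := θ4) (c3 := chi 0) (c4 := 3 / 8) (a5 := 0) (c5 := 0)
    (e5 := 9 / 64) (fun a _ b _ => hy a b) (fun a _ b _ => hw a b) (fun a _ b _ => he a b)
    (fun a _ b _ => hρ_38 h12 a b) (fun a _ => hκ_12 a) (fun z _ => hg_chi h12 z)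
    hC0 hC1 hC2 hθ1 hθ2 hθ3 hθ4 hbo hbn hbn0
  refine le_trans (le_of_eq ?_) h
  have e1 : (3 / 8 : ℝ) ^ 2 / (2 * θ1) = 9 / (128 * θ1) := by
    field_simp
    norm_num
  rw [e1]
  ring

/-! ### on the final data -/

section dat

open Crest.Agent.R253.Frame321 (Zf Uf Slk)
open Crest.Agent.R253.Inst321 (FF)

variable {G : Fin n → E n → ℝ} {M N : Fld n} {V : E n → ℝ}

/-- the near bound on 505's data, `Cy Cw Ce` parameters (against `rho`) -/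
theorem lam_ge_dat (h12 : ∀ z, hh z ≤ 1 / 2) (D : Fin505.Dat G M N V lo hi) (hz : Fin505.Nz M)
    {Cy Cw Ce bo bn θ1 θ2 θ3 θ4 : ℝ}
    (hy : ∀ a b, ky H0 aa chi chi' a b ^ 2 ≤ Cy * ScalE688.rho a b)
    (hw : ∀ a b, (aa a * (dd1 H0 aa b a - aa a)) ^ 2 ≤ Cw * ScalE688.rho a b)
    (he : ∀ a b, (dd1 H0 aa a b - aa b) ^ 2 ≤ Ce * ScalE688.rho a b)
    (hC0 : 0 ≤ Cy) (hC1 : 0 ≤ Cw) (hC2 : 0 ≤ Ce)
    (hθ1 : 0 < θ1) (hθ2 : 0 < θ2) (hθ3 : 0 < θ3) (hθ4 : 0 < θ4) {b : ℝ → ℝ}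
    (hbo : ∀ x, 0 ≤ x → b x ^ 2 ≤ bo ^ 2) (hbn : ∀ x, 0 ≤ x → b x ≤ bn) (hbn0 : 0 ≤ bn) :
    TR b (MTm (Zf M)) + SW (fun x => b x * (x - 1)) hh (Zf M) -
      (θ1 / 2 + θ2 / 2) * TR (fun x => b x ^ 2 * x) (MTm (Zf M)) -
      (9 / (128 * θ1) + θ3 * bo ^ 2) * PW (fun _ => 1) (Zf M) -
      1 / 4 * PW (fun x => max (b x) 0) (Zf M) -
      (Cy / (2 * θ2) + Cw / θ3 + bn * Ce) * EE (Slk M N) -
      (9 / 128 * θ4 * (TR (fun x => b x ^ 2 * x) (MTm (Zf M)) + HW (fun x => b x ^ 2) (Zf M)) +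
        1 / (2 * θ4) * HW (fun _ => 1) (Zf M)) +
      3 / 8 * HW b (Zf M) ≤ Lam FF H0 aa (Zf M) (_root_.cfc b (MTm (Zf M))) :=
  lam_ge_num h12 (Inst321.mfZ D) (fun i j => hz i j) (Inst321.cgS D) (Inst321.hSl D) hy hw he
    hC0 hC1 hC2 hθ1 hθ2 hθ3 hθ4 hbo hbn hbn0

/-- the same with 718's kernels: `v'' ≤ C e` gives `Cw = 3/4 C²`, `Ce = 3 C²` -/
theorem lam_ge_dat' (h12 : ∀ z, hh z ≤ 1 / 2) {C : ℝ} (hC : ∀ z, bb2 z ≤ C * Mills37.ee z)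
    (D : Fin505.Dat G M N V lo hi) (hz : Fin505.Nz M) {Cy bo bn θ1 θ2 θ3 θ4 : ℝ}
    (hy : ∀ a b, ky H0 aa chi chi' a b ^ 2 ≤ Cy * ScalE688.rho a b)
    (hC0 : 0 ≤ Cy)
    (hθ1 : 0 < θ1) (hθ2 : 0 < θ2) (hθ3 : 0 < θ3) (hθ4 : 0 < θ4) {b : ℝ → ℝ}
    (hbo : ∀ x, 0 ≤ x → b x ^ 2 ≤ bo ^ 2) (hbn : ∀ x, 0 ≤ x → b x ≤ bn) (hbn0 : 0 ≤ bn) :
    TR b (MTm (Zf M)) + SW (fun x => b x * (x - 1)) hh (Zf M) -
      (θ1 / 2 + θ2 / 2) * TR (fun x => b x ^ 2 * x) (MTm (Zf M)) -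
      (9 / (128 * θ1) + θ3 * bo ^ 2) * PW (fun _ => 1) (Zf M) -
      1 / 4 * PW (fun x => max (b x) 0) (Zf M) -
      (Cy / (2 * θ2) + 3 / 4 * C ^ 2 / θ3 + bn * (3 * C ^ 2)) * EE (Slk M N) -
      (9 / 128 * θ4 * (TR (fun x => b x ^ 2 * x) (MTm (Zf M)) + HW (fun x => b x ^ 2) (Zf M)) +
        1 / (2 * θ4) * HW (fun _ => 1) (Zf M)) +
      3 / 8 * HW b (Zf M) ≤ Lam FF H0 aa (Zf M) (_root_.cfc b (MTm (Zf M))) :=
  lam_ge_dat h12 D hz hy (fun a b => KW718.kw_rho hC a b) (fun a b => KW718.kv_rho' hC a b)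
    hC0 (by positivity) (by positivity) hθ1 hθ2 hθ3 hθ4 hbo hbn hbn0

end dat

end Crest.Agent.R253.LamNum649
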