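import Crest.Agent.R253.Conv_80
import Crest.Agent.R253.EO_629
import Crest.Agent.R253.DualR_862
import Crest.Agent.R253.LamNum_649

/-!
# Row 253: near part, far part and loss on 505's data, in the letters of `comb` (helper80)
-/

set_option autoImplicit false

open MeasureTheory ProbabilityTheory Set Filter Topology Matrix
open scoped ContDiff

noncomputable section

namespace Crest.Agent.R253.TrC80

open Crest.Agent.R238.Gap Crest.Agent.R253.SpecCalc999 Crest.Agent.R253.Meh74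
  Crest.Agent.R253.SpecField321 Crest.Agent.R253.S3 Crest.Agent.R253.LamB301
  Crest.Agent.R253.LamI301
open Crest.Agent.R253.DualP973 (Tm ef Lx MTm Mx_eq dk_eq c1_ef Yf Gf)
open Crest.Agent.R253.ErrT378 (Lam lam_ge)
open Crest.Agent.R253.Frame321 (Zf Uf Ff Uf_eq M_eq mf_Zf Zf_symm Slk)
open Crest.Agent.R253.Mills37 (mu H0 kk ee)
open Crest.Agent.R253.Slack688 (aa H0_has)
open Crest.Agent.R253.ScalE688 (zf rho)
open Crest.Agent.R253.HFn741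
open Crest.Agent.R253.Inst321
open Crest.Agent.R253.Stein378 (ky)

variable {n : ℕ} {G : Fin n → E n → ℝ} {M N : Fld n} {V : E n → ℝ} {lo hi : ℝ}

/-- the near part on 505's data, `c = 1/8`, `ρ = 3/8`, `κ = 1/2`, `c4 = 3/8`, `e5 = 9/64` -/
theorem nearD (D : Fin505.Dat G M N V lo hi) (hz : Fin505.Nz M)
    (h12 : ∀ z, hh z ≤ 1 / 2)
    {Cy Cw Ce bo bn θ1 θ2 θ3 θ4 : ℝ}
    (hy : ∀ a b, ky H0 aa chi chi' a b ^ 2 ≤ Cy * rho a b)
    (hw : ∀ a b, (aa a * (dd1 H0 aa b a - aa a)) ^ 2 ≤ Cw * rho a b)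
    (he : ∀ a b, (dd1 H0 aa a b - aa b) ^ 2 ≤ Ce * rho a b)
    (hC0 : 0 ≤ Cy) (hC1 : 0 ≤ Cw) (hC2 : 0 ≤ Ce)
    (hθ1 : 0 < θ1) (hθ2 : 0 < θ2) (hθ3 : 0 < θ3) (hθ4 : 0 < θ4) {b α γ ε : ℝ → ℝ}
    (hbo : ∀ x, 0 ≤ x → b x ^ 2 ≤ bo ^ 2) (hbn : ∀ x, 0 ≤ x → b x ≤ bn) (hbn0 : 0 ≤ bn)
    (hbx : ∀ x, 0 ≤ x → 0 ≤ b x * (x - 1))
    (hm : ∀ x, 0 ≤ x → ∀ z, α x + γ x * z - ε x * z ^ 2 ≤ hh z) :
    TR (nf b α ε θ1 θ2 θ4 0 (9 / 64)) (MTm (Zf M)) -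
      PW (nu b (3 / 8) (1 / 2) bo θ1 θ3) (Zf M) -
      HW (nh b ε θ4 (9 / 64) (3 / 8)) (Zf M) -
      (Cy / (2 * θ2) + Cw / θ3 + bn * Ce) * EE (Slk M N) ≤
      Lam FF H0 aa (Zf M) (_root_.cfc b (MTm (Zf M))) :=
  nearR (mfZ D) (fun i j => hz i j) (v := H0) (v1 := aa) (χ := chi) (χ1 := chi')
    (F := FF) (h := hh)
    (fun z _ => H0_has z) (ScalE688.aa_cont.continuousOn)
    (fun z _ => chi_has z) (chi'_cont.continuousOn)
    (fun z _ => FF_eq z) (fun z _ => LamNum649.chi'_sub z) (cgS D) (hSl D)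
    (c := 1 / 8) (ρ := 3 / 8) (κ := 1 / 2) (c3 := chi 0) (c4 := 3 / 8) (a5 := 0) (c5 := 0)
    (e5 := 9 / 64) (fun a _ b _ => hy a b) (fun a _ b _ => hw a b) (fun a _ b _ => he a b)
    (fun a _ b _ => LamNum649.hρ_38 h12 a b) (fun a _ => LamNum649.hκ_12 a)
    (fun z _ => LamNum649.hg_chi h12 z)
    hC0 hC1 hC2 hθ1 hθ2 hθ3 hθ4 hbo hbn hbn0 hbx hm

/-- the far part on 505's data -/
theorem farD (D : Fin505.Dat G M N V lo hi) (hz : Fin505.Nz M)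
    {Ce ε a c e bo bn θ θ1 : ℝ}
    (he : ∀ p q, (dd1 H0 aa p q - aa q) ^ 2 ≤ Ce * rho p q)
    (ho : ∀ z, 0 ≤ z * (H0 z - H0 (-z)) - z ^ 2 / 2)
    (hF2 : ∀ z, a + c * z - e * z ^ 2 ≤ FF z - 3 / 2 * (z * H0 z))
    (hC : 0 ≤ Ce) (hε : 0 < ε) (hθ : 0 < θ) (hθ1 : 0 < θ1) {b : ℝ → ℝ}
    (hb0 : ∀ x, 0 ≤ x → 0 ≤ b x) (hbo : ∀ x, 0 ≤ x → b x ^ 2 ≤ bo ^ 2)
    (hbn : ∀ x, 0 ≤ x → b x ≤ bn) (hbn0 : 0 ≤ bn) :
    TR (ff b a e (1 / 4) ε θ θ1) (MTm (Zf M)) - PW (fu b (1 / 4) ε θ) (Zf M) -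
      HW (fh b e (1 / 4) θ θ1) (Zf M) -
      (1 + 1 / ε) * Ce * (bn + bo ^ 2 / (4 * θ)) * EE (Slk M N) ≤
      Lam FF H0 aa (Zf M) (_root_.cfc b (MTm (Zf M))) := by
  have hζ := mfZ D
  have h0 : ∀ i j, EE (Zf M i j) = 0 := fun i j => hz i j
  have hS := (ts hζ).herm
  have hP := (ts hζ).psd
  have hFc : ContinuousOn FF (Icc (zf lo) (zf hi)) := by
    have e0 : FF = fun z => 1 + z * chi z - chi' z + aa z ^ 2 := funext FF_eq
    rw [e0]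
    have c1 : Continuous chi := continuous_iff_continuousAt.2 fun z => (chi_has z).continuousAt
    have c2 : Continuous aa := ScalE688.aa_cont
    exact (((continuous_const.add (continuous_id.mul c1)).sub chi'_cont).add
      (c2.pow 2)).continuousOn
  have hb : (_root_.cfc b (MTm (Zf M))).PosSemidef :=
    psd_cfc hS fun x hx => hb0 x (spec_nonneg hP hx)
  have h := EO629.eo_ge hζ (F := FF) (v := H0) (v1 := aa) hFc
    (fun z _ => H0_has z) (ScalE688.aa_cont.continuousOn)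
    (T := Tm (Zf M)) (fun k => Tm_t hζ k) (fun k => rfl) (EM_ζ h0) (cgS D) (hSl D)
    (κ := 1 / 4) (ε := ε) (a := a) (c := c) (e := e) (bo := bo) (bn := bn) (θ := θ) (θ1 := θ1)
    (fun p _ q _ => he p q) (fun z _ => LamNum649.aa_abs z)
    (fun x y => by
      have h1 := LamNum649.v_lip x y
      have e1 : (H0 x - 1 / 4 * x) - (H0 y - 1 / 4 * y) = H0 x - H0 y - (x - y) / 4 := by ring
      rw [e1]; exact h1)
    ho (fun z _ => hF2 z) hC hε hθ hθ1 hb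
    (fun X => hs_cfc_le hS (fun x hx => hbo x (spec_nonneg hP hx)) X)
    (fun X => tr_le_const hP hbn X) hbn0
  have e0 : ∑ k, Tm (Zf M) k * Tm (Zf M) k = MTm (Zf M) := rfl
  rw [e0] at h
  refine farR_of hζ h0 (κ := 1 / 4) (le_trans (le_of_eq ?_) h)
  ring

/-- the dual loss on 505's data -/
theorem lossD (D : Fin505.Dat G M N V lo hi) (hz : Fin505.Nz M)
    {lam : ℝ} (hlam : 0 < lam) (bwv : ∀ z, bb2 z ^ 2 ≤ lam * (1 / 16 - wq z ^ 2))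
    {Ce Cs K1 Am q0 q1 : ℝ}
    (he : ∀ a b, (dd1 H0 aa a b - aa b) ^ 2 ≤ Ce * rho a b)
    (hs' : ∀ a b, (dd1 wq bb2 a b - bb2 b) ^ 2 ≤ Cs * rho a b)
    (hC : 0 ≤ Ce) (hCs : 0 ≤ Cs) {A r : ℝ → ℝ}
    (hA : ∀ x, 0 ≤ x → 0 ≤ A x) (hAm : ∀ x, 0 ≤ x → A x ≤ Am) (hAm0 : 0 ≤ Am)
    (hK0 : 0 ≤ K1) (hK : ∀ x, 0 ≤ x → A x * r x ^ 2 * x ≤ K1)
    (hq0 : 0 < q0) (hq1 : 0 < q1) (hq : q0 + q1 = 1) :
    LossF M A r ≤ TR (gf A r lam q0) (MTm (Zf M)) + PW (gu A lam q0 K1) (Zf M) +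
      HW (gh A q0) (Zf M) + 1 / q1 * (Am * Ce + K1 * Cs) * EE (Slk M N) := by
  have hζ := mfZ D
  have h0 : ∀ i j, EE (Zf M i j) = 0 := fun i j => hz i j
  have hS := (ts hζ).herm
  have hP := (ts hζ).psd
  have hU : ∀ i j x, Uf M i j x = _root_.cfc H0 (Mx (Zf M) x) i j := fun i j x => by
    have := congrFun (congrFun (LamI301.Mx_U D.mf x) i) j
    exact this
  have h := DualR862.dualR hζ h0 (v := H0) (w := wq) (v2 := bb2)
    (fun x _ => by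
      have := H0_has x
      have e : wq x + 1 / 4 = aa x := by unfold wq; ring
      rw [e]; exact this)
    (fun x _ => wq_has x) wq_cont.continuousOn bb2_cont.continuousOn hlam
    (fun x _ => bwv x) hU (CC A (MTm (Zf M))) (_root_.cfc r (MTm (Zf M)))
    (Pn := Am) (K1 := K1) (fun X => by
      unfold CC
      have h2 : ∀ x ∈ spectrum ℝ (MTm (Zf M)), Real.sqrt (A x) ^ 2 ≤ Real.sqrt Am ^ 2 :=
        fun x hx => by
          have h3 := spec_nonneg hP hx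
          rw [Real.sq_sqrt (hA x h3), Real.sq_sqrt hAm0]
          exact hAm x h3
      have h4 := hs_cfc_le hS h2 X
      rwa [Real.sq_sqrt hAm0] at h4) hAm0 hK0
    (fun B => (ts hζ).lossK hA hK0 hK B) (cgS D) (al := Ce) (be := Cs)
    (fun x => by rw [wq_add]; exact sum_KR_le D hC he x)
    (fun x => sum_KR_le D hCs hs' x) hq0 hq1 hq
  refine lossR_of hζ hA (K1 := K1) ?_
  unfold LossF
  refine h.trans (le_of_eq ?_)
  ring

end Crest.Agent.R253.TrC80
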