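import Crest.Agent.R253.EqEasy_505

/-!
# R253, equality case, part A (helper435): 1-D sign-change argument

A log-concave function on `ℝ` with the moments `0! , 1!, 2!, 3!` of the exponential density is the
exponential density (a.e.).
-/

set_option autoImplicit false
open MeasureTheory Set Filter Topology
open scoped ENNReal NNReal

namespace Crest.Agent.R253.Eq435

open Crest.Agent.R253.EqEasy505

/-- the final step: a weight of constant sign against `g - e1` with zero integral -/
theorem ae_eq_of_sign {g : ℝ → ℝ} {p : ℝ → ℝ} (hint : Integrable (fun t => p t * (g t - e1 t)))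
    (h0 : ∫ t, p t * (g t - e1 t) = 0) (hs : ∀ t, 0 ≤ p t * (g t - e1 t))
    (hp : ∀ᵐ t, p t ≠ 0) : g =ᵐ[volume] e1 := by
  have h1 : (fun t => p t * (g t - e1 t)) =ᵐ[volume] 0 :=
    (integral_eq_zero_iff_of_nonneg hs hint).mp h0
  filter_upwards [h1, hp] with t ht hpt
  simp only [Pi.zero_apply, mul_eq_zero] at ht
  rcases ht with h | h
  · exact absurd h hpt
  · linarith

theorem ae_ne (a : ℝ) : ∀ᵐ t : ℝ, t ≠ a := by
  rw [ae_iff]
  simp

theorem e1_nonneg (t : ℝ) : 0 ≤ e1 t := by
  unfold e1
  exact indicator_nonneg (fun _ _ => (Real.exp_pos _).le) _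

theorem e1_of_neg {t : ℝ} (ht : t < 0) : e1 t = 0 := by
  unfold e1
  rw [indicator_of_notMem]
  simpa using ht

theorem e1_of_nonneg {t : ℝ} (ht : 0 ≤ t) : e1 t = Real.exp (-t) := by
  unfold e1
  rw [indicator_of_mem]
  exact ht

/-- **1-D characterisation of the exponential density by its first four moments among
log-concave functions** -/
theorem ae_eq_e1 {g : ℝ → ℝ} (hg0 : ∀ t, 0 ≤ g t)
    (hlc : ∀ x y s r : ℝ, 0 < s → 0 < r → s + r = 1 → g x ^ s * g y ^ r ≤ g (s * x + r * y))
    (hint : ∀ k : ℕ, k ≤ 3 → Integrable (fun t => t ^ k * g t))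
    (hmom : ∀ k : ℕ, k ≤ 3 → ∫ t, t ^ k * g t = (k.factorial : ℝ)) : g =ᵐ[volume] e1 := by
  -- cubic polynomials integrate to 0 against g - e1
  have hpoly : ∀ a b c d : ℝ,
      Integrable (fun t => (a + b * t + c * t ^ 2 + d * t ^ 3) * (g t - e1 t)) ∧
      ∫ t, (a + b * t + c * t ^ 2 + d * t ^ 3) * (g t - e1 t) = 0 := by
    intro a b c d
    have hk : ∀ k : ℕ, k ≤ 3 → Integrable (fun t => t ^ k * (g t - e1 t)) ∧
        ∫ t, t ^ k * (g t - e1 t) = 0 := by
      intro k hk
      have h1 := hint k hk
      have h2 := (e1_moment k)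
      have h3 : (fun t => t ^ k * (g t - e1 t)) = fun t => t ^ k * g t - t ^ k * e1 t := by
        funext t; ring
      rw [h3]
      refine ⟨h1.sub h2.1, ?_⟩
      rw [integral_sub h1 h2.1, hmom k hk, h2.2, sub_self]
    obtain ⟨i0, v0⟩ := hk 0 (by norm_num)
    obtain ⟨i1, v1⟩ := hk 1 (by norm_num)
    obtain ⟨i2, v2⟩ := hk 2 (by norm_num)
    obtain ⟨i3, v3⟩ := hk 3 (by norm_num)
    have h3 : (fun t => (a + b * t + c * t ^ 2 + d * t ^ 3) * (g t - e1 t)) = fun t =>
        ((a * (t ^ 0 * (g t - e1 t)) + b * (t ^ 1 * (g t - e1 t))) +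
          c * (t ^ 2 * (g t - e1 t))) + d * (t ^ 3 * (g t - e1 t)) := by
      funext t; ring
    rw [h3]
    have j0 := i0.const_mul a
    have j1 := i1.const_mul b
    have j2 := i2.const_mul c
    have j3 := i3.const_mul d
    refine ⟨((j0.add j1).add j2).add j3, ?_⟩
    have a1 := integral_add ((j0.add j1).add j2) j3
    have a2 := integral_add (j0.add j1) j2
    have a3 := integral_add j0 j1
    simp only [Pi.add_apply] at a1 a2 a3
    rw [a1, a2, a3, integral_const_mul, integral_const_mul, integral_const_mul,
      integral_const_mul, v0, v1, v2, v3]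
    ring
  set P : Set ℝ := {t | 0 ≤ t ∧ e1 t < g t} with hP
  have hPconv : ∀ x ∈ P, ∀ y ∈ P, ∀ t, x < t → t < y → t ∈ P := by
    intro x hx y hy t hxt hty
    have hxy : 0 < y - x := by linarith
    set s : ℝ := (y - t) / (y - x) with hs
    set r : ℝ := (t - x) / (y - x) with hr
    have hs0 : 0 < s := by apply div_pos <;> linarith
    have hr0 : 0 < r := by apply div_pos <;> linarith
    have hsr : s + r = 1 := by rw [hs, hr]; field_simp; ring
    have ht : s * x + r * y = t := by
      rw [hs, hr]; field_simp; ring
    have h1 := hlc x y s r hs0 hr0 hsr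
    rw [ht] at h1
    refine ⟨hx.1.trans hxt.le, lt_of_lt_of_le ?_ h1⟩
    have hgx := hx.2
    have hgy := hy.2
    rw [e1_of_nonneg hx.1] at hgx
    rw [e1_of_nonneg hy.1] at hgy
    rw [e1_of_nonneg (hx.1.trans hxt.le)]
    calc Real.exp (-t) = Real.exp (-x) ^ s * Real.exp (-y) ^ r := by
          rw [← Real.exp_mul, ← Real.exp_mul, ← Real.exp_add, ← ht]; congr 1; ring
      _ < g x ^ s * g y ^ r := by
          apply mul_lt_mul''
          · exact Real.rpow_lt_rpow (Real.exp_pos _).le hgx hs0
          · exact Real.rpow_lt_rpow (Real.exp_pos _).le hgy hr0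
          · positivity
          · positivity
  rcases P.eq_empty_or_nonempty with hemp | hne
  · -- g ≤ e1 on [0, ∞)
    obtain ⟨i1, v1⟩ := hpoly 0 (-1) 0 0
    refine ae_eq_of_sign i1 v1 ?_ ?_
    · intro t
      rcases lt_or_ge t 0 with ht | ht
      · rw [e1_of_neg ht, sub_zero]
        exact mul_nonneg (by linarith) (hg0 t)
      · have h1 : g t ≤ e1 t := by
          by_contra hcon
          push Not at hcon
          have : t ∈ P := ⟨ht, hcon⟩
          rw [hemp] at this
          exact this
        apply mul_nonneg_of_nonpos_of_nonpos <;> linarith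
    · filter_upwards [ae_ne 0] with t ht
      intro h
      apply ht
      linarith
  · have hbelow : BddBelow P := ⟨0, fun t ht => ht.1⟩
    set b := sInf P with hb
    have hb0 : 0 ≤ b := le_csInf hne fun t ht => ht.1
    have hlt_b : ∀ t, 0 ≤ t → t < b → g t ≤ e1 t := by
      intro t ht htb
      by_contra hcon
      push Not at hcon
      have : t ∈ P := ⟨ht, hcon⟩
      exact absurd (csInf_le hbelow this) (not_le.mpr htb)
    by_cases habove : BddAbove P
    · set c := sSup P with hc
      have hbc : b ≤ c := by
        obtain ⟨t, ht⟩ := hne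
        exact (csInf_le hbelow ht).trans (le_csSup habove ht)
      have hgt_c : ∀ t, c < t → g t ≤ e1 t := by
        intro t htc
        by_contra hcon
        push Not at hcon
        have : t ∈ P := ⟨hb0.trans (hbc.trans htc.le), hcon⟩
        exact absurd (le_csSup habove this) (not_le.mpr htc)
      have hmid : ∀ t, b < t → t < c → e1 t ≤ g t := by
        intro t hbt htc
        obtain ⟨x, hx, hxt⟩ := exists_lt_of_csInf_lt hne hbt
        obtain ⟨y, hy, hty⟩ := exists_lt_of_lt_csSup hne htc
        exact (hPconv x hx y hy t hxt hty).2.le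
      -- weight - t (t - b) (t - c)
      obtain ⟨i1, v1⟩ := hpoly 0 (-(b * c)) (b + c) (-1)
      refine ae_eq_of_sign i1 v1 ?_ ?_
      · intro t
        have hfac : 0 + -(b * c) * t + (b + c) * t ^ 2 + -1 * t ^ 3 =
            -(t * (t - b) * (t - c)) := by ring
        rw [hfac]
        rcases lt_or_ge t 0 with ht | ht
        · rw [e1_of_neg ht, sub_zero]
          apply mul_nonneg _ (hg0 t)
          have h1 : 0 ≤ (-t) * ((b - t) * (c - t)) := by
            apply mul_nonneg (by linarith) (mul_nonneg (by linarith) (by linarith))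
          nlinarith
        · rcases lt_trichotomy t b with h | h | h
          · have h1 := hlt_b t ht h
            have h2 : 0 ≤ t * ((b - t) * (c - t)) := by
              apply mul_nonneg ht (mul_nonneg (by linarith) (by linarith))
            apply mul_nonneg_of_nonpos_of_nonpos <;> nlinarith
          · rw [h]; simp
          · rcases lt_trichotomy t c with h' | h' | h'
            · have h1 := hmid t h h'
              have h2 : 0 ≤ t * ((t - b) * (c - t)) := by
                apply mul_nonneg ht (mul_nonneg (by linarith) (by linarith))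
              apply mul_nonneg <;> nlinarith
            · rw [h']; simp
            · have h1 := hgt_c t h'
              have h2 : 0 ≤ t * ((t - b) * (t - c)) := by
                apply mul_nonneg ht (mul_nonneg (by linarith) (by linarith))
              apply mul_nonneg_of_nonpos_of_nonpos <;> nlinarith
      · filter_upwards [ae_ne 0, ae_ne b, ae_ne c] with t h1 h2 h3
        have hfac : 0 + -(b * c) * t + (b + c) * t ^ 2 + -1 * t ^ 3 =
            -(t * (t - b) * (t - c)) := by ring
        rw [hfac]
        exact neg_ne_zero.mpr (mul_ne_zero (mul_ne_zero h1 (sub_ne_zero.mpr h2))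
          (sub_ne_zero.mpr h3))
    · have hgt_b : ∀ t, b < t → e1 t ≤ g t := by
        intro t hbt
        obtain ⟨x, hx, hxt⟩ := exists_lt_of_csInf_lt hne hbt
        rw [not_bddAbove_iff] at habove
        obtain ⟨y, hy, hty⟩ := habove t
        exact (hPconv x hx y hy t hxt hty).2.le
      obtain ⟨i1, v1⟩ := hpoly 0 (-b) 1 0
      refine ae_eq_of_sign i1 v1 ?_ ?_
      · intro t
        have hfac : 0 + -b * t + 1 * t ^ 2 + 0 * t ^ 3 = t * (t - b) := by ring
        rw [hfac]
        rcases lt_or_ge t 0 with ht | ht
        · rw [e1_of_neg ht, sub_zero]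
          apply mul_nonneg _ (hg0 t)
          have h1 : 0 ≤ (-t) * (b - t) := mul_nonneg (by linarith) (by linarith)
          nlinarith
        · rcases lt_trichotomy t b with h | h | h
          · have h1 := hlt_b t ht h
            have h2 : 0 ≤ t * (b - t) := mul_nonneg ht (by linarith)
            apply mul_nonneg_of_nonpos_of_nonpos <;> nlinarith
          · rw [h]; simp
          · have h1 := hgt_b t h
            apply mul_nonneg (mul_nonneg ht (by linarith)) (by linarith)
      · filter_upwards [ae_ne 0, ae_ne b] with t h1 h2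
        have hfac : 0 + -b * t + 1 * t ^ 2 + 0 * t ^ 3 = t * (t - b) := by ring
        rw [hfac]
        exact mul_ne_zero h1 (sub_ne_zero.mpr h2)

end Crest.Agent.R253.Eq435
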