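import Crest.Agent.R253.SpecCalc_999

/-!
# R253 (T5, helper747), part A: Hilbert-Schmidt Lipschitz bound for spectral functions
-/

set_option autoImplicit false
open Matrix

namespace Crest.Agent.R253.Eq747

open Crest.Agent.R253.SpecCalc999

variable {m : ℕ}

/-- Hilbert-Schmidt norm squared -/
def hs (A : Mat m) : ℝ := ∑ i, ∑ j, A i j ^ 2

lemma hs_nonneg (A : Mat m) : 0 ≤ hs A :=
  Finset.sum_nonneg fun _ _ => Finset.sum_nonneg fun _ _ => sq_nonneg _

lemma sq_le_hs (A : Mat m) (i j : Fin m) : A i j ^ 2 ≤ hs A := by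
  unfold hs
  calc A i j ^ 2 ≤ ∑ j, A i j ^ 2 :=
        Finset.single_le_sum (f := fun j => A i j ^ 2) (fun _ _ => sq_nonneg _) (Finset.mem_univ j)
    _ ≤ _ := Finset.single_le_sum (f := fun i => ∑ j, A i j ^ 2)
        (fun _ _ => Finset.sum_nonneg fun _ _ => sq_nonneg _) (Finset.mem_univ i)

lemma hs_eq_trace (A : Mat m) : hs A = (Aᵀ * A).trace := by
  unfold hs Matrix.trace
  rw [Finset.sum_comm]
  refine Finset.sum_congr rfl fun j _ => ?_
  rw [diag_apply, mul_apply]
  refine Finset.sum_congr rfl fun i _ => ?_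
  rw [transpose_apply, sq]

lemma hs_conj {U W : Mat m} (hU : U * Uᵀ = 1) (hW : W * Wᵀ = 1) (X : Mat m) :
    hs (Uᵀ * X * W) = hs X := by
  rw [hs_eq_trace, hs_eq_trace]
  have h1 : (Uᵀ * X * W)ᵀ * (Uᵀ * X * W) = Wᵀ * (Xᵀ * X * W) := by
    rw [transpose_mul, transpose_mul, transpose_transpose]
    calc Wᵀ * (Xᵀ * U) * (Uᵀ * X * W) = Wᵀ * (Xᵀ * (U * Uᵀ) * X * W) := by
          simp only [Matrix.mul_assoc]
      _ = _ := by rw [hU, Matrix.mul_one]
  rw [h1, trace_mul_comm, Matrix.mul_assoc, hW, Matrix.mul_one]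

lemma unit1 {A : Mat m} (hA : A.IsHermitian) :
    (hA.eigenvectorUnitary : Mat m) * (hA.eigenvectorUnitary : Mat m)ᵀ = 1 := by
  have h := Unitary.coe_mul_star_self hA.eigenvectorUnitary
  rw [Unitary.coe_star, star_eq_conjTranspose, conjTranspose_eq_transpose_of_trivial] at h
  exact h

lemma unit2 {A : Mat m} (hA : A.IsHermitian) :
    (hA.eigenvectorUnitary : Mat m)ᵀ * (hA.eigenvectorUnitary : Mat m) = 1 := by
  have h := Unitary.coe_star_mul_self hA.eigenvectorUnitary
  rw [star_eq_conjTranspose, conjTranspose_eq_transpose_of_trivial] at h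
  exact h

lemma cfc_mat {A : Mat m} (hA : A.IsHermitian) (f : ℝ → ℝ) :
    cfc f A = (hA.eigenvectorUnitary : Mat m) * diagonal (fun k => f (hA.eigenvalues k)) *
      (hA.eigenvectorUnitary : Mat m)ᵀ := by
  ext i j
  rw [cfc_entry hA, mul_apply]
  refine Finset.sum_congr rfl fun k _ => ?_
  rw [mul_diagonal, transpose_apply]

lemma cfc_herm (f : ℝ → ℝ) {A : Mat m} (hA : A.IsHermitian) : (cfc f A).IsHermitian := by
  ext i j
  rw [conjTranspose_apply, star_trivial, cfc_entry hA, cfc_entry hA]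
  refine Finset.sum_congr rfl fun k _ => by ring

lemma self_cfc {A : Mat m} (hA : A.IsHermitian) : cfc (fun x : ℝ => x) A = A :=
  cfc_id' ℝ A (sa hA)

/-- the difference of two spectral functions in mixed eigenframes -/
lemma mixed {A B : Mat m} (hA : A.IsHermitian) (hB : B.IsHermitian) (f : ℝ → ℝ) (a b : Fin m) :
    ((hA.eigenvectorUnitary : Mat m)ᵀ * (cfc f A - cfc f B) * (hB.eigenvectorUnitary : Mat m)) a b =
      (f (hA.eigenvalues a) - f (hB.eigenvalues b)) *
        ((hA.eigenvectorUnitary : Mat m)ᵀ * (hB.eigenvectorUnitary : Mat m)) a b := by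
  set U := (hA.eigenvectorUnitary : Mat m) with hU
  set W := (hB.eigenvectorUnitary : Mat m) with hW
  have h1 : Uᵀ * cfc f A * W = diagonal (fun k => f (hA.eigenvalues k)) * (Uᵀ * W) := by
    rw [cfc_mat hA]
    calc Uᵀ * (U * diagonal (fun k => f (hA.eigenvalues k)) * Uᵀ) * W
        = (Uᵀ * U) * diagonal (fun k => f (hA.eigenvalues k)) * (Uᵀ * W) := by
          simp only [Matrix.mul_assoc]
      _ = _ := by rw [hU, unit2 hA, Matrix.one_mul]
  have h2 : Uᵀ * cfc f B * W = Uᵀ * W * diagonal (fun k => f (hB.eigenvalues k)) := by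
    rw [cfc_mat hB]
    calc Uᵀ * (W * diagonal (fun k => f (hB.eigenvalues k)) * Wᵀ) * W
        = Uᵀ * W * diagonal (fun k => f (hB.eigenvalues k)) * (Wᵀ * W) := by
          simp only [Matrix.mul_assoc]
      _ = _ := by rw [hW, unit2 hB, Matrix.mul_one]
  rw [Matrix.mul_sub, Matrix.sub_mul, h1, h2, Matrix.sub_apply, diagonal_mul, mul_diagonal]
  ring

/-- **Hilbert-Schmidt Lipschitz bound** -/
theorem hs_lip {A B : Mat m} (hA : A.IsHermitian) (hB : B.IsHermitian) {f : ℝ → ℝ} {L : ℝ}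
    (hf : ∀ x y, |f x - f y| ≤ L * |x - y|) :
    hs (cfc f A - cfc f B) ≤ L ^ 2 * hs (A - B) := by
  have h1 := hs_conj (unit1 hA) (unit1 hB) (cfc f A - cfc f B)
  have h2 := hs_conj (unit1 hA) (unit1 hB) (A - B)
  rw [← h1, ← h2]
  unfold hs
  rw [Finset.mul_sum]
  refine Finset.sum_le_sum fun a _ => ?_
  rw [Finset.mul_sum]
  refine Finset.sum_le_sum fun b _ => ?_
  have h3 := mixed hA hB (fun x => x) a b
  rw [self_cfc hA, self_cfc hB] at h3
  rw [mixed hA hB f a b, h3, mul_pow, mul_pow, ← mul_assoc]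
  refine mul_le_mul_of_nonneg_right ?_ (sq_nonneg _)
  rw [← mul_pow, sq_le_sq, abs_mul]
  have := hf (hA.eigenvalues a) (hB.eigenvalues b)
  refine this.trans ?_
  exact mul_le_mul_of_nonneg_right (le_abs_self L) (abs_nonneg _)

lemma hs_cfc {A : Mat m} (hA : A.IsHermitian) (f : ℝ → ℝ) :
    hs (cfc f A) = ∑ k, f (hA.eigenvalues k) ^ 2 := by
  have h1 := hs_conj (unit1 hA) (unit1 hA) (cfc f A)
  rw [← h1, cfc_mat hA]
  set U := (hA.eigenvectorUnitary : Mat m) with hU
  have h2 : Uᵀ * (U * diagonal (fun k => f (hA.eigenvalues k)) * Uᵀ) * U =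
      diagonal (fun k => f (hA.eigenvalues k)) := by
    calc Uᵀ * (U * diagonal (fun k => f (hA.eigenvalues k)) * Uᵀ) * U
        = (Uᵀ * U) * diagonal (fun k => f (hA.eigenvalues k)) * (Uᵀ * U) := by
          simp only [Matrix.mul_assoc]
      _ = _ := by rw [hU, unit2 hA, Matrix.one_mul, Matrix.mul_one]
  rw [h2]
  unfold hs
  refine Finset.sum_congr rfl fun i _ => ?_
  rw [Finset.sum_eq_single i]
  · rw [diagonal_apply_eq]
  · intro j _ hj
    rw [diagonal_apply_ne _ (Ne.symm hj)]; simp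
  · intro h; exact absurd (Finset.mem_univ _) h

lemma abs_entry_le {A : Mat m} (hA : A.IsHermitian) {f : ℝ → ℝ} {B : ℝ}
    (hf : ∀ x, |f x| ≤ B) (i j : Fin m) : |(cfc f A) i j| ≤ B :=
  abs_cfc_entry_le (I := Set.univ) hA (Set.subset_univ _) (fun x _ => hf x) i j

/-- a matrix commuting with an injective spectral function of `A` commutes with `A` -/
theorem commute_of_cfc {A X : Mat m} (hA : A.IsHermitian) {f : ℝ → ℝ}
    (hf : Function.Injective f) (h : cfc f A * X = X * cfc f A) : A * X = X * A := by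
  set U := (hA.eigenvectorUnitary : Mat m) with hU
  set Y := Uᵀ * X * U with hY
  have hX : X = U * Y * Uᵀ := by
    calc X = (U * Uᵀ) * X * (U * Uᵀ) := by rw [hU, unit1 hA, Matrix.one_mul, Matrix.mul_one]
      _ = _ := by rw [hY]; simp only [Matrix.mul_assoc]
  have key : ∀ g : ℝ → ℝ, Uᵀ * (cfc g A * X - X * cfc g A) * U =
      diagonal (fun k => g (hA.eigenvalues k)) * Y - Y * diagonal (fun k => g (hA.eigenvalues k)) := by
    intro g
    rw [Matrix.mul_sub, Matrix.sub_mul, cfc_mat hA, ← hU]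
    congr 1
    · calc Uᵀ * (U * diagonal (fun k => g (hA.eigenvalues k)) * Uᵀ * X) * U
          = (Uᵀ * U) * diagonal (fun k => g (hA.eigenvalues k)) * (Uᵀ * X * U) := by
            simp only [Matrix.mul_assoc]
        _ = _ := by rw [hU, unit2 hA, Matrix.one_mul]
    · calc Uᵀ * (X * (U * diagonal (fun k => g (hA.eigenvalues k)) * Uᵀ)) * U
          = (Uᵀ * X * U) * diagonal (fun k => g (hA.eigenvalues k)) * (Uᵀ * U) := by
            simp only [Matrix.mul_assoc]
        _ = _ := by rw [hU, unit2 hA, Matrix.mul_one]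
  have hf0 := key f
  rw [h, sub_self, Matrix.mul_zero, Matrix.zero_mul] at hf0
  have hY0 : ∀ a b, (hA.eigenvalues a - hA.eigenvalues b) * Y a b = 0 := by
    intro a b
    have h1 := congrFun (congrFun hf0 a) b
    rw [Matrix.sub_apply, diagonal_mul, mul_diagonal, Matrix.zero_apply] at h1
    have h2 : (f (hA.eigenvalues a) - f (hA.eigenvalues b)) * Y a b = 0 := by
      rw [sub_mul]; linarith [mul_comm (Y a b) (f (hA.eigenvalues b))]
    rcases mul_eq_zero.mp h2 with h3 | h3
    · rw [hf (sub_eq_zero.mp h3)]; simp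
    · rw [h3, mul_zero]
  have h4 := key (fun x => x)
  rw [self_cfc hA] at h4
  have h5 : diagonal (fun k => hA.eigenvalues k) * Y - Y * diagonal (fun k => hA.eigenvalues k) =
      0 := by
    ext a b
    rw [Matrix.sub_apply, diagonal_mul, mul_diagonal, Matrix.zero_apply]
    have := hY0 a b
    rw [sub_mul] at this; linarith [mul_comm (Y a b) (hA.eigenvalues b)]
  rw [h5] at h4
  have h6 : A * X - X * A = 0 := by
    calc A * X - X * A = (U * Uᵀ) * (A * X - X * A) * (U * Uᵀ) := by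
          rw [hU, unit1 hA, Matrix.one_mul, Matrix.mul_one]
      _ = U * (Uᵀ * (A * X - X * A) * U) * Uᵀ := by simp only [Matrix.mul_assoc]
      _ = 0 := by rw [h4, Matrix.mul_zero, Matrix.zero_mul]
  exact sub_eq_zero.mp h6

end Crest.Agent.R253.Eq747
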