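import Crest.Agent.R253.EqA_435
import Crest.Agent.R253.CptH_435

/-!
# R253, equality case, part B (helper435)

If a log-concave density `f` has, after an affine map, unit variances, third central moments `2`
in every coordinate direction, and entropy `≥ m`, then it is the product exponential density.
-/

set_option autoImplicit false
open MeasureTheory Set Filter Topology Matrix
open Crest.GeometryTopology.Isotropic
open scoped ENNReal NNReal

namespace Crest.Agent.R253.Eq435

open Crest.Agent.R253.EqEasy505 Crest.Agent.R253.Cpt435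

/-! ### marginals -/

section marg

variable {n : ℕ}

/-- marginal in coordinate `i` -/
noncomputable def marg (f : (Fin (n + 1) → ℝ) → ℝ) (i : Fin (n + 1)) (s : ℝ) : ℝ :=
  ∫ y : Fin n → ℝ, f (i.insertNth s y)

theorem ins_comb (i : Fin (n + 1)) (x y : ℝ) (a b : Fin n → ℝ) (s r : ℝ) :
    (i.insertNth (s * x + r * y) (s • a + r • b) : Fin (n + 1) → ℝ) =
      s • (i.insertNth x a : Fin (n + 1) → ℝ) + r • (i.insertNth y b : Fin (n + 1) → ℝ) := by
  ext j
  refine Fin.succAboveCases i ?_ ?_ j
  · simp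
  · intro k; simp

theorem measurable_ins (i : Fin (n + 1)) (s : ℝ) :
    Measurable (fun y : Fin n → ℝ => (i.insertNth s y : Fin (n + 1) → ℝ)) := by
  rw [measurable_pi_iff]
  intro j
  refine Fin.succAboveCases i ?_ ?_ j
  · simp
  · intro k; simpa using measurable_pi_apply k

theorem norm_le_ins (i : Fin (n + 1)) (s : ℝ) (y : Fin n → ℝ) :
    ‖y‖ ≤ ‖(i.insertNth s y : Fin (n + 1) → ℝ)‖ := by
  rw [pi_norm_le_iff_of_nonneg (norm_nonneg _)]
  intro k
  have h := norm_le_pi_norm (i.insertNth s y : Fin (n + 1) → ℝ) (i.succAbove k)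
  simpa using h

theorem integrable_ins {f : (Fin (n + 1) → ℝ) → ℝ} (hf : EB f) (i : Fin (n + 1)) (s : ℝ) :
    Integrable (fun y : Fin n → ℝ => f (i.insertNth s y)) := by
  obtain ⟨C, c, hC, hc, hb⟩ := hf.bound
  refine ((integrable_exp_neg_norm hc).const_mul C).mono'
    (hf.meas.comp (measurable_ins i s)).aestronglyMeasurable (ae_of_all _ fun y => ?_)
  refine (hb _).trans ?_
  have := norm_le_ins i s y
  apply mul_le_mul_of_nonneg_left _ hC
  apply Real.exp_le_exp.mpr
  nlinarith

/-- Fubini for functions on `Fin (n+1) → ℝ` -/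
theorem integral_fubini (F : (Fin (n + 1) → ℝ) → ℝ) (hF : Integrable F) (i : Fin (n + 1)) :
    Integrable (fun s => ∫ y : Fin n → ℝ, F (i.insertNth s y)) ∧
    ∫ x, F x = ∫ s, ∫ y : Fin n → ℝ, F (i.insertNth s y) := by
  have hmp := volume_preserving_piFinSuccAbove (fun _ : Fin (n + 1) => ℝ) i
  set e := MeasurableEquiv.piFinSuccAbove (fun _ : Fin (n + 1) => ℝ) i with he
  have hsymm : ∀ p : ℝ × (Fin n → ℝ), e.symm p = i.insertNth p.1 p.2 := fun p => rfl
  have h1 : ∫ x, F x = ∫ p : ℝ × (Fin n → ℝ), F (i.insertNth p.1 p.2) := by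
    have := hmp.symm.integral_comp e.symm.measurableEmbedding F
    rw [← this]
    rfl
  have h2 : Integrable (fun p : ℝ × (Fin n → ℝ) => F (i.insertNth p.1 p.2)) := by
    have := hmp.symm.integrable_comp_of_integrable hF
    exact this
  have h3 : Integrable (fun p : ℝ × (Fin n → ℝ) => F (i.insertNth p.1 p.2))
      ((volume : Measure ℝ).prod (volume : Measure (Fin n → ℝ))) := h2
  refine ⟨h3.integral_prod_left, ?_⟩
  rw [h1]
  exact integral_prod _ h3

theorem marg_nonneg {f : (Fin (n + 1) → ℝ) → ℝ} (hf : LCD f) (i : Fin (n + 1)) (s : ℝ) :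
    0 ≤ marg f i s := integral_nonneg fun _ => hf.nonneg _

/-- marginals are log-concave -/
theorem marg_logc {f : (Fin (n + 1) → ℝ) → ℝ} (hf : LCD f) (i : Fin (n + 1))
    (x y s r : ℝ) (hs : 0 < s) (hr : 0 < r) (hsr : s + r = 1) :
    marg f i x ^ s * marg f i y ^ r ≤ marg f i (s * x + r * y) := by
  have hmeas : ∀ z, Measurable (fun a : Fin n → ℝ => ENNReal.ofReal (f (i.insertNth z a))) :=
    fun z => (hf.meas.comp (measurable_ins i z)).ennreal_ofReal
  have hs' : 1 - r = s := by linarith
  have hPL := Lib.PrekopaLeindler.PL_pi n r hr (by linarith)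
    (fun a => ENNReal.ofReal (f (i.insertNth x a)))
    (fun a => ENNReal.ofReal (f (i.insertNth y a)))
    (fun a => ENNReal.ofReal (f (i.insertNth (s * x + r * y) a)))
    (hmeas x) (hmeas y) (hmeas _) ?_
  · have hint : ∀ z, ∫⁻ a : Fin n → ℝ, ENNReal.ofReal (f (i.insertNth z a)) =
        ENNReal.ofReal (marg f i z) := fun z =>
      (ofReal_integral_eq_lintegral_ofReal (integrable_ins hf.eb i z)
        (ae_of_all _ fun _ => hf.nonneg _)).symm
    rw [hint, hint, hint, hs', ENNReal.ofReal_rpow_of_nonneg (marg_nonneg hf i x) hs.le,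
      ENNReal.ofReal_rpow_of_nonneg (marg_nonneg hf i y) hr.le,
      ← ENNReal.ofReal_mul (Real.rpow_nonneg (marg_nonneg hf i x) _)] at hPL
    exact (ENNReal.ofReal_le_ofReal_iff (marg_nonneg hf i _)).mp hPL
  · intro a b
    simp only [hs']
    rw [ENNReal.ofReal_rpow_of_nonneg (hf.nonneg _) hs.le,
      ENNReal.ofReal_rpow_of_nonneg (hf.nonneg _) hr.le,
      ← ENNReal.ofReal_mul (Real.rpow_nonneg (hf.nonneg _) _)]
    apply ENNReal.ofReal_le_ofReal
    rw [ins_comb]
    exact hf.logc _ _ s r hs hr hsr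

/-- moments of the marginal -/
theorem marg_moment {f : (Fin (n + 1) → ℝ) → ℝ} (hf : LCD f) (i : Fin (n + 1)) (k : ℕ) :
    Integrable (fun t => t ^ k * marg f i t) ∧
    ∫ t, t ^ k * marg f i t = ex f (fun x => x i ^ k) := by
  have h := integral_fubini (fun x => x i ^ k * f x)
    (hf.integrable_mul ((PB.coord i).pow k)) i
  have h1 : (fun s : ℝ => ∫ y : Fin n → ℝ, (i.insertNth s y : Fin (n + 1) → ℝ) i ^ k *
      f (i.insertNth s y)) = fun t => t ^ k * marg f i t := by
    funext s
    simp only [Fin.insertNth_apply_same]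
    rw [integral_const_mul]; rfl
  rw [h1] at h
  exact ⟨h.1, h.2.symm⟩

/-- support: if the marginal is the exponential density then `f = 0` a.e. on `{x i < 0}` -/
theorem ae_zero_of_marg {f : (Fin (n + 1) → ℝ) → ℝ} (hf : LCD f) (i : Fin (n + 1))
    (hm : marg f i =ᵐ[volume] e1) : ∀ᵐ x, x i < 0 → f x = 0 := by
  set F : (Fin (n + 1) → ℝ) → ℝ := fun x => (Iio (0 : ℝ)).indicator (fun _ => (1 : ℝ)) (x i) * f x
    with hF
  have hFint : Integrable F := by
    refine (hf.integrable.norm).mono' ?_ (ae_of_all _ fun x => ?_)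
    · apply Measurable.aestronglyMeasurable
      apply Measurable.mul _ hf.meas
      exact (measurable_const.indicator measurableSet_Iio).comp (measurable_pi_apply i)
    · simp only [hF]
      rw [norm_mul]
      have : ‖(Iio (0 : ℝ)).indicator (fun _ => (1 : ℝ)) (x i)‖ ≤ 1 := by
        by_cases h : x i ∈ Iio (0 : ℝ)
        · rw [indicator_of_mem h]; simp
        · rw [indicator_of_notMem h]; simp
      calc _ ≤ 1 * ‖f x‖ := by gcongr
        _ = _ := by rw [one_mul]
  have h1 := (integral_fubini F hFint i).2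
  have h2 : (fun s : ℝ => ∫ y : Fin n → ℝ, F (i.insertNth s y)) =ᵐ[volume] 0 := by
    filter_upwards [hm] with s hs
    simp only [hF, Fin.insertNth_apply_same, Pi.zero_apply]
    rw [integral_const_mul]
    by_cases h : s ∈ Iio (0 : ℝ)
    · have h3 : ∫ y : Fin n → ℝ, f (i.insertNth s y) = 0 := by
        have : marg f i s = 0 := by rw [hs, e1_of_neg h]
        exact this
      rw [h3, mul_zero]
    · rw [indicator_of_notMem h, zero_mul]
  rw [integral_congr_ae h2] at h1
  simp only [Pi.zero_apply, integral_zero] at h1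
  have hnn : 0 ≤ F := by
    intro x
    simp only [hF, Pi.zero_apply]
    exact mul_nonneg (indicator_nonneg (fun _ _ => zero_le_one) _) (hf.nonneg x)
  have h4 := (integral_eq_zero_iff_of_nonneg hnn hFint).mp h1
  filter_upwards [h4] with x hx hxi
  simp only [hF, Pi.zero_apply] at hx
  rw [indicator_of_mem (show x i ∈ Iio (0 : ℝ) from hxi), one_mul] at hx
  exact hx

end marg

variable {m : ℕ}

/-- support in the orthant -/
theorem ae_zero_of_moments {f : (Fin m → ℝ) → ℝ} (hf : LCD f) (i : Fin m)
    (h1 : ex f (fun x => x i) = 1) (h2 : ex f (fun x => x i ^ 2) = 2)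
    (h3 : ex f (fun x => x i ^ 3) = 6) : ∀ᵐ x, x i < 0 → f x = 0 := by
  obtain ⟨n, rfl⟩ : ∃ n, m = n + 1 := ⟨m - 1, by have := i.pos; omega⟩
  apply ae_zero_of_marg hf i
  apply ae_eq_e1 (marg_nonneg hf i) (fun x y s r hs hr hsr => marg_logc hf i x y s r hs hr hsr)
  · intro k _; exact (marg_moment hf i k).1
  · intro k hk
    rw [(marg_moment hf i k).2]
    interval_cases k
    · simpa using hf.ex_const 1
    · simpa using h1
    · simpa using h2
    · rw [h3]; norm_num [Nat.factorial]

/-- scalar Gibbs inequality -/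
theorem gibbs_scalar {u v : ℝ} (hu : 0 ≤ u) (hv : 0 < v) :
    0 ≤ u * Real.log u - u * Real.log v - u + v ∧
      (u * Real.log u - u * Real.log v - u + v = 0 → u = v) := by
  rcases hu.lt_or_eq with hu | hu
  · have h1 : Real.log (v / u) ≤ v / u - 1 := Real.log_le_sub_one_of_pos (by positivity)
    rw [Real.log_div hv.ne' hu.ne'] at h1
    have h2 : u * (Real.log v - Real.log u) ≤ u * (v / u - 1) := by gcongr
    have h3 : u * (v / u - 1) = v - u := by field_simp
    refine ⟨by linarith, fun h => ?_⟩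
    by_contra hne
    have hne' : v / u ≠ 1 := by
      intro h4
      rw [div_eq_one_iff_eq hu.ne'] at h4
      exact hne h4.symm
    have h5 := Real.log_lt_sub_one_of_pos (show 0 < v / u by positivity) hne'
    rw [Real.log_div hv.ne' hu.ne'] at h5
    have h6 : u * (Real.log v - Real.log u) < u * (v / u - 1) := by gcongr
    linarith
  · rw [← hu]
    refine ⟨by simpa using hv.le, fun h => ?_⟩
    simp at h
    exact absurd h hv.ne'

/-- **Gibbs step**: product exponential from support, means and entropy. -/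
theorem ae_eq_eP {f : (Fin m → ℝ) → ℝ} (hf : LCD f)
    (hsupp : ∀ i, ∀ᵐ x, x i < 0 → f x = 0) (h1 : ∀ i, ex f (fun x => x i) = 1)
    (hent : (m : ℝ) ≤ diffEntropy f) : f =ᵐ[volume] eP := by
  have hsupp' : ∀ᵐ x, ∀ i, x i < 0 → f x = 0 := ae_all_iff.mpr hsupp
  set F : (Fin m → ℝ) → ℝ := fun x =>
    (f x * Real.log (f x) + (∑ i, x i) * f x) + (eP x - f x) with hF
  have j1 : Integrable (fun x => f x * Real.log (f x)) := (hf.eb.entropy hf.nonneg).integrable
  have j2 : Integrable (fun x => (∑ i, x i) * f x) :=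
    hf.integrable_mul (PB.sum _ fun i _ => PB.coord i)
  have j3 : Integrable (fun x : Fin m → ℝ => eP x - f x) := eP_one.1.sub hf.integrable
  have hFint : Integrable F := (j1.add j2).add j3
  have hsum : ∫ x, (∑ i, x i) * f x = (m : ℝ) := by
    have : ex f (fun x => ∑ i, x i) = ∑ i, ex f (fun x => x i) :=
      ex_sum _ hf.eb (fun i _ => PB.coord i)
    unfold ex at this
    rw [this]
    have h2 : ∀ i, ∫ x, x i * f x = 1 := h1
    simp [h2]
  have hFval : ∫ x, F x = (m : ℝ) - diffEntropy f := by
    have a1 := integral_add (j1.add j2) j3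
    have a2 := integral_add j1 j2
    have a3 := integral_sub (eP_one (m := m)).1 hf.integrable
    simp only [Pi.add_apply] at a1 a2
    simp only [hF]
    rw [a1, a2, a3, hsum, eP_one.2, hf.int1]
    unfold diffEntropy
    ring
  have hFnn : ∀ᵐ x, 0 ≤ F x ∧ (F x = 0 → f x = eP x) := by
    filter_upwards [hsupp'] with x hx
    by_cases hpos : ∀ i, 0 ≤ x i
    · have hv : eP x = Real.exp (-∑ i, x i) := by
        rw [eP_eq, indicator_of_mem (show x ∈ {u : Fin m → ℝ | ∀ i, 0 ≤ u i} from hpos)]
      have h2 := gibbs_scalar (hf.nonneg x) (Real.exp_pos (-∑ i, x i))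
      rw [Real.log_exp] at h2
      have h3 : F x = f x * Real.log (f x) - f x * (-∑ i, x i) - f x +
          Real.exp (-∑ i, x i) := by
        simp only [hF]; rw [hv]; ring
      rw [h3, hv]
      exact h2
    · push Not at hpos
      obtain ⟨i, hi⟩ := hpos
      have hfx : f x = 0 := hx i hi
      have hex : eP x = 0 := by
        rw [eP_eq, indicator_of_notMem]
        intro h
        exact absurd (h i) (not_le.mpr hi)
      have : F x = 0 := by simp only [hF]; rw [hfx, hex]; simp
      rw [this, hfx, hex]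
      exact ⟨le_rfl, fun _ => rfl⟩
  have hF0 : ∫ x, F x = 0 := by
    apply le_antisymm
    · rw [hFval]; linarith
    · exact integral_nonneg_of_ae (hFnn.mono fun x hx => hx.1)
  have h5 := (integral_eq_zero_iff_of_nonneg_ae (hFnn.mono fun x hx => hx.1) hFint).mp hF0
  filter_upwards [h5, hFnn] with x hx hx'
  exact hx'.2 hx

/-- product exponential from the raw moments `1, 2, 6` -/
theorem ae_eq_eP_of_moments {f : (Fin m → ℝ) → ℝ} (hf : LCD f)
    (h1 : ∀ i, ex f (fun x => x i) = 1) (h2 : ∀ i, ex f (fun x => x i ^ 2) = 2)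
    (h3 : ∀ i, ex f (fun x => x i ^ 3) = 6) (hent : (m : ℝ) ≤ diffEntropy f) :
    f =ᵐ[volume] eP :=
  ae_eq_eP hf (fun i => ae_zero_of_moments hf i (h1 i) (h2 i) (h3 i)) h1 hent

theorem aff_aff_one (f : (Fin m → ℝ) → ℝ) (T : Matrix (Fin m) (Fin m) ℝ) (b c : Fin m → ℝ) :
    aff (aff f T b) 1 c = aff f T (b + T.mulVec c) := by
  funext u
  simp only [aff, det_one, abs_one, one_mul, one_mulVec, mulVec_add]
  rw [add_assoc]

/-- transfer of an a.e. identity through an affine map -/
theorem ae_eq_eM_of_aff {f : (Fin m → ℝ) → ℝ} (hf : LCD f) {T : Matrix (Fin m) (Fin m) ℝ}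
    (hT : T.det ≠ 0) (b : Fin m → ℝ) (h : aff f T b =ᵐ[volume] eP) :
    f =ᵐ[volume] eM T b := by
  have hdet : 0 < |T.det| := abs_pos.mpr hT
  have h1 : ∫ x, |f x - eM T b x| = 0 := by
    rw [integral_affine _ hT b]
    have h2 : (fun u => |f (b + T.mulVec u) - eM T b (b + T.mulVec u)|) =ᵐ[volume] 0 := by
      filter_upwards [h] with u hu
      rw [eM_eq hT]
      simp only [aff] at hu
      rw [← hu]
      have : |T.det|⁻¹ * (|T.det| * f (b + T.mulVec u)) = f (b + T.mulVec u) := by
        rw [← mul_assoc, inv_mul_cancel₀ hdet.ne', one_mul]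
      rw [this, sub_self, abs_zero]; rfl
    rw [integral_congr_ae h2]; simp
  have hint : Integrable (fun x => |f x - eM T b x|) := by
    have he : Integrable (eM T b) := by
      have : (fun x => (1 : ℝ) * eM T b x) = eM T b := by funext x; rw [one_mul]
      rw [← this]
      by_contra hcon
      have h3 := integral_undef hcon
      have h4 := integral_mul_eM (fun _ => (1 : ℝ)) hT b
      rw [h3] at h4
      simp only [one_mul] at h4
      rw [eP_one.2] at h4
      exact zero_ne_one h4
    exact (hf.integrable.sub he).abs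
  have h3 := (integral_eq_zero_iff_of_nonneg (fun x => abs_nonneg _) hint).mp h1
  filter_upwards [h3] with x hx
  simp only [Pi.zero_apply, abs_eq_zero] at hx
  linarith

/-- **Analytic part of the equality case of S0391.** -/
theorem equality_of_third {f : (Fin m → ℝ) → ℝ} (hf : LCD f) {T : Matrix (Fin m) (Fin m) ℝ}
    (hT : T.det ≠ 0) (b : Fin m → ℝ)
    (h2 : ∀ i, densCov (aff f T b) i i = 1) (h3 : ∀ i, densM3 (aff f T b) i i i = 2)
    (hent : (m : ℝ) ≤ diffEntropy (aff f T b)) :
    ∃ (M : Matrix (Fin m) (Fin m) ℝ) (b : Fin m → ℝ), M.det ≠ 0 ∧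
          f =ᵐ[volume] fun x => |M.det|⁻¹ *
            Set.indicator {y : Fin m → ℝ | ∀ i, 0 ≤ (M⁻¹.mulVec (y - b)) i}
              (fun y => Real.exp (- ∑ i, (M⁻¹.mulVec (y - b)) i)) x := by
  set g := aff f T b with hg
  have hgL : LCD g := hf.comp_affine T hT b
  set c : Fin m → ℝ := densMean g - 1 with hc
  have h1ne : (1 : Matrix (Fin m) (Fin m) ℝ).det ≠ 0 := by simp
  set g' := aff g 1 c with hg'
  have hgL' : LCD g' := hgL.comp_affine 1 h1ne c
  have hmean : densMean g' = 1 := by
    have := densMean_aff hgL h1ne c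
    rw [one_mulVec] at this
    have h4 : densMean g' = densMean g - c := by rw [this]; abel
    rw [h4, hc]; abel
  have hcov : densCov g' = densCov g := by
    have := densCov_aff hgL h1ne c
    rw [this]; simp [hg']
  have hM3 : ∀ i, densM3 g' i i i = densM3 g i i i := by
    intro i
    have := densM3_aff hgL h1ne c i i i
    rw [this]
    simp [one_apply, hg']
  have hent' : (m : ℝ) ≤ diffEntropy g' := by
    have := diffEntropy_aff hgL h1ne c
    rw [det_one, abs_one, Real.log_one, add_zero] at this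
    rw [← hg'] at this
    rw [← this]; exact hent
  have e1' : ∀ i, ex g' (fun x => x i) = 1 := by
    intro i
    have := congrFun hmean i
    simpa [densMean_eq] using this
  have e2' : ∀ i, ex g' (fun x => x i ^ 2) = 2 := by
    intro i
    have h4 := densCov_raw hgL' i i
    rw [hcov, h2 i, densMean_eq, e1' i] at h4
    have h5 : (fun x : Fin m → ℝ => x i * x i) = fun x => x i ^ 2 := by funext x; ring
    rw [h5] at h4
    linarith
  have e3' : ∀ i, ex g' (fun x => x i ^ 3) = 6 := by
    intro i
    have h4 := densM3_raw hgL' i i i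
    rw [hM3 i, h3 i, densMean_eq, e1' i] at h4
    have h5 : (fun x : Fin m → ℝ => x i * x i) = fun x => x i ^ 2 := by funext x; ring
    have h6 : (fun x : Fin m → ℝ => x i * x i * x i) = fun x => x i ^ 3 := by funext x; ring
    rw [h5, h6, e2' i] at h4
    linarith
  have hfin := ae_eq_eP_of_moments hgL' e1' e2' e3' hent'
  rw [hg', hg, aff_aff_one] at hfin
  exact ⟨T, b + T.mulVec c, hT, ae_eq_eM_of_aff hf hT _ hfin⟩

end Crest.Agent.R253.Eq435
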