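import Crest.Agent.R285.Gauss
import Crest.Agent.R238.GapIBP
import Crest.Agent.R238.GapPoinc

/-!
# R253: Mehler resolvent, covariance identity, sharp Gaussian Poincaré (helper74)

`E n` with the standard Gaussian `gam n`; `Y a x y = cos a • x + sin a • y`.
-/

set_option autoImplicit false

open MeasureTheory ProbabilityTheory Real Set Filter Topology
open scoped ContDiff

noncomputable section

namespace Crest.Agent.R253.Meh74

open Crest.Agent.R238.Gap Crest.Agent.R238.GapPoinc Crest.Agent.R238.GapPc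

variable {n : ℕ}

/-- the standard Gaussian on `E n` -/
abbrev gam (n : ℕ) : Measure (E n) := stdGaussian (E n)

/-- the rotated variable -/
def Y (a : ℝ) (x y : E n) : E n := Real.cos a • x + Real.sin a • y

lemma norm_Y_le (a : ℝ) (x y : E n) : ‖Y a x y‖ ≤ ‖x‖ + ‖y‖ := by
  unfold Y
  refine (norm_add_le _ _).trans (add_le_add ?_ ?_)
  · rw [norm_smul]
    exact mul_le_of_le_one_left (norm_nonneg _) (by simpa using Real.abs_cos_le_one a)
  · rw [norm_smul]
    exact mul_le_of_le_one_left (norm_nonneg _) (by simpa using Real.abs_sin_le_one a)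

lemma one_add_norm_Y_le (a : ℝ) (x y : E n) : 1 + ‖Y a x y‖ ≤ (1 + ‖x‖) * (1 + ‖y‖) := by
  have h1 := norm_Y_le a x y
  have h2 : 0 ≤ ‖x‖ * ‖y‖ := by positivity
  nlinarith

lemma pow_Y_le (a : ℝ) (x y : E n) (k : ℕ) :
    (1 + ‖Y a x y‖) ^ k ≤ (1 + ‖x‖) ^ k * (1 + ‖y‖) ^ k := by
  rw [← mul_pow]
  exact pow_le_pow_left₀ (by positivity) (one_add_norm_Y_le a x y) k

lemma continuous_Y : Continuous fun q : ℝ × E n × E n => Y q.1 q.2.1 q.2.2 := by
  unfold Y; fun_prop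

/-! ### polynomial growth in two variables -/

/-- polynomial growth on `E n × E n` -/
def PG2 (G : E n × E n → ℝ) : Prop :=
  ∃ (K : ℝ) (k : ℕ), ∀ p, |G p| ≤ K * ((1 + ‖p.1‖) ^ k * (1 + ‖p.2‖) ^ k)

lemma integrable_pow2 (k : ℕ) :
    Integrable (fun p : E n × E n => (1 + ‖p.1‖) ^ k * (1 + ‖p.2‖) ^ k)
      ((gam n).prod (gam n)) :=
  (integrable_pow_stdGaussian (n := n) k).mul_prod (integrable_pow_stdGaussian (n := n) k)

lemma integrable_of_PG2 {G : E n × E n → ℝ} (hG : Continuous G) (g : PG2 G) :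
    Integrable G ((gam n).prod (gam n)) := by
  obtain ⟨K, k, h⟩ := g
  refine ((integrable_pow2 (n := n) k).const_mul K).mono' hG.aestronglyMeasurable
    (ae_of_all _ fun p => ?_)
  simpa using h p

lemma PG.pg2_Y {f : E n → ℝ} (hf : PG f) (a : ℝ) : PG2 fun p : E n × E n => f (Y a p.1 p.2) := by
  obtain ⟨K, k, hK0, hK⟩ := pg_nonneg hf
  exact ⟨K, k, fun p => (hK _).trans (mul_le_mul_of_nonneg_left (pow_Y_le a _ _ k) hK0)⟩

lemma pow_le_pow2 {x : E n} {k l : ℕ} (h : k ≤ l) : (1 + ‖x‖) ^ k ≤ (1 + ‖x‖) ^ l :=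
  pow_le_pow_right₀ (by linarith [norm_nonneg x]) h

/-! ### rotation invariance -/

theorem integral_rot {G : E n × E n → ℝ} (hG : Continuous G) (t : ℝ) :
    ∫ p, G (rot t p) ∂((gam n).prod (gam n)) = ∫ p, G p ∂((gam n).prod (gam n)) := by
  have hrot := IsGaussian.map_rotation_eq_self_of_forall_strongDual_eq_zero (μ := gam n)
    (fun L => integral_strongDual_stdGaussian L) t
  conv_rhs => rw [← hrot]
  rw [integral_map (ContinuousLinearMap.continuous _).measurable.aemeasurable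
    hG.aestronglyMeasurable]
  rfl

lemma rot_fst (a : ℝ) (p : E n × E n) : (rot a p).1 = Y a p.1 p.2 := rfl

lemma rot_back (a : ℝ) (p : E n × E n) :
    Real.cos a • (rot a p).1 - Real.sin a • (rot a p).2 = p.1 := by
  have h := Real.sin_sq_add_cos_sq a
  simp only [rot]
  have : Real.cos a • (Real.cos a • p.1 + Real.sin a • p.2) -
      Real.sin a • (-Real.sin a • p.1 + Real.cos a • p.2) =
      (Real.sin a ^ 2 + Real.cos a ^ 2) • p.1 := by module
  rw [this, h, one_smul]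

/-! ### Gaussian integration by parts -/

lemma pd_zero (i : Fin n) : pd i (fun _ : E n => (0 : ℝ)) = fun _ => 0 := by
  funext x; simp [pd]

lemma wt_zero (x : E n) : wt (fun _ => 0) x = rexp (-(‖x‖ ^ 2 / 2)) := by simp [wt]

/-- **Gaussian integration by parts** -/
theorem ibp_gam {f : E n → ℝ} (hf : ContDiff ℝ 1 f) (hf0 : PG f) (i : Fin n)
    (hf1 : PG (pd i f)) : ∫ x, f x * x i ∂(gam n) = ∫ x, pd i f x ∂(gam n) := by
  have h := ibp (n := n) (P := fun _ => 0) (f := f) (B := 0) contDiff_const (by simp) i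
    (by rw [pd_zero]; exact pg_const 0) hf hf0 hf1
  rw [integral_stdGaussian_mul, integral_stdGaussian_mul]
  congr 1
  simp only [wt_zero, pd_zero, add_zero] at h
  exact h.symm

/-! ### the class of `C¹` functions of polynomial growth -/

/-- `C¹`, of polynomial growth with the first derivatives -/
structure C1 (f : E n → ℝ) : Prop where
  c : ContDiff ℝ 1 f
  g : PG f
  p : ∀ i, PG (pd i f)

lemma C1.cont {f : E n → ℝ} (hf : C1 f) : Continuous f := hf.c.continuous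
lemma C1.diff {f : E n → ℝ} (hf : C1 f) : Differentiable ℝ f := hf.c.differentiable one_ne_zero
lemma C1.contp {f : E n → ℝ} (hf : C1 f) (i : Fin n) : Continuous (pd i f) :=
  continuous_pd hf.c i

lemma W_ge (x y : E n) : 1 ≤ (1 + ‖x‖) * (1 + ‖y‖) := by
  have h1 := norm_nonneg x
  have h2 := norm_nonneg y
  nlinarith [mul_nonneg h1 h2]

lemma abs_coord (x : E n) (i : Fin n) : |x i| ≤ ‖x‖ := by
  simpa using PiLp.norm_apply_le x i

lemma fderiv_bound {f : E n → ℝ} (hf : C1 f) :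
    ∃ (K : ℝ) (k : ℕ), 0 ≤ K ∧ ∀ x v : E n, |fderiv ℝ f x v| ≤ K * (1 + ‖x‖) ^ k * ‖v‖ := by
  have h : PG (fun x => ∑ i, |pd i f x|) := PG.sum _ fun i _ => (hf.p i).abs
  obtain ⟨K, k, hK0, hK⟩ := pg_nonneg h
  refine ⟨K, k, hK0, fun x v => ?_⟩
  rw [fderiv_apply_eq_sum]
  calc |∑ b, v b * pd b f x| ≤ ∑ b, |v b * pd b f x| := Finset.abs_sum_le_sum_abs _ _
    _ ≤ ∑ b, |pd b f x| * ‖v‖ := Finset.sum_le_sum fun b _ => by
        rw [abs_mul, mul_comm]
        exact mul_le_mul_of_nonneg_left (abs_coord v b) (abs_nonneg _)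
    _ = (∑ b, |pd b f x|) * ‖v‖ := by rw [Finset.sum_mul]
    _ ≤ K * (1 + ‖x‖) ^ k * ‖v‖ :=
        mul_le_mul_of_nonneg_right ((le_abs_self _).trans (hK x)) (norm_nonneg v)

lemma hasDerivAt_Y (x y : E n) (a : ℝ) :
    HasDerivAt (fun a => Y a x y) (-Real.sin a • x + Real.cos a • y) a :=
  ((Real.hasDerivAt_cos a).smul_const x).add ((Real.hasDerivAt_sin a).smul_const y)

lemma norm_Y'_le (a : ℝ) (x y : E n) : ‖-Real.sin a • x + Real.cos a • y‖ ≤ ‖x‖ + ‖y‖ := by
  refine (norm_add_le _ _).trans (add_le_add ?_ ?_)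
  · rw [norm_smul]
    exact mul_le_of_le_one_left (norm_nonneg _) (by simpa using Real.abs_sin_le_one a)
  · rw [norm_smul]
    exact mul_le_of_le_one_left (norm_nonneg _) (by simpa using Real.abs_cos_le_one a)

lemma pd_Y_snd {f : E n → ℝ} (hf : Differentiable ℝ f) (b : ℝ) (u v : E n) (i : Fin n) :
    pd i (fun v => f (Y b u v)) v = Real.sin b * pd i f (Y b u v) := by
  have h1 : HasFDerivAt (fun v : E n => Y b u v) (Real.sin b • ContinuousLinearMap.id ℝ (E n)) v := by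
    have := ((hasFDerivAt_id (𝕜 := ℝ) v).const_smul (Real.sin b)).const_add (Real.cos b • u)
    exact this
  have h2 := ((hf (Y b u v)).hasFDerivAt).comp v h1
  unfold pd
  have h3 : fderiv ℝ (fun v => f (Y b u v)) v = _ := h2.fderiv
  rw [h3]
  simp

lemma pd_Y_fst {f : E n → ℝ} (hf : Differentiable ℝ f) (b : ℝ) (x y : E n) (i : Fin n) :
    pd i (fun x => f (Y b x y)) x = Real.cos b * pd i f (Y b x y) := by
  have h1 : HasFDerivAt (fun x : E n => Y b x y) (Real.cos b • ContinuousLinearMap.id ℝ (E n)) x := by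
    have := ((hasFDerivAt_id (𝕜 := ℝ) x).const_smul (Real.cos b)).add_const (Real.sin b • y)
    exact this
  have h2 := ((hf (Y b x y)).hasFDerivAt).comp x h1
  unfold pd
  have h3 : fderiv ℝ (fun x => f (Y b x y)) x = _ := h2.fderiv
  rw [h3]
  simp

lemma pg_Y_snd {f : E n → ℝ} (hf : PG f) (b : ℝ) (u : E n) : PG fun v => f (Y b u v) := by
  obtain ⟨K, k, hK0, hK⟩ := pg_nonneg hf
  refine ⟨K * (1 + ‖u‖) ^ k, k, fun v => (hK _).trans ?_⟩
  rw [mul_assoc]
  exact mul_le_mul_of_nonneg_left (pow_Y_le b u v k) hK0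

lemma continuous_Y_snd (b : ℝ) (u : E n) : Continuous fun v : E n => Y b u v := by
  unfold Y; fun_prop

lemma continuous_Y_pair (b : ℝ) : Continuous fun p : E n × E n => Y b p.1 p.2 := by
  unfold Y; fun_prop

lemma contDiff_Y_snd (b : ℝ) (u : E n) : ContDiff ℝ 1 fun v : E n => Y b u v := by
  unfold Y; fun_prop

/-! ### the derivative of `E f(x) g(Y_a)` -/

/-- `E f(x) g(Y_a)` -/
def Fc (f g : E n → ℝ) (a : ℝ) : ℝ := ∫ p, f p.1 * g (Y a p.1 p.2) ∂((gam n).prod (gam n))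

/-- `E ⟨Df(x), Dg(Y_a)⟩` -/
def Gc (f g : E n → ℝ) (a : ℝ) : ℝ :=
  ∫ p, (∑ i, pd i f p.1 * pd i g (Y a p.1 p.2)) ∂((gam n).prod (gam n))

lemma key_int {f g : E n → ℝ} (hf : C1 f) (hg : C1 g) (a : ℝ) :
    ∫ p, f p.1 * fderiv ℝ g (Y a p.1 p.2) (-Real.sin a • p.1 + Real.cos a • p.2)
      ∂((gam n).prod (gam n)) = -Real.sin a * Gc f g a := by
  have hfc := hf.cont
  have hgc : Continuous (fderiv ℝ g) := hg.c.continuous_fderiv one_ne_zero
  obtain ⟨Kf, kf, hKf0, hKf⟩ := pg_nonneg hf.g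
  obtain ⟨Kg, kg, hKg0, hKg⟩ := fderiv_bound hg
  -- the function of `(u, v)`
  have hPc : Continuous fun q : E n × E n => f (Y (-a) q.1 q.2) * fderiv ℝ g q.1 q.2 :=
    (hfc.comp (continuous_Y_pair _)).mul ((hgc.comp continuous_fst).clm_apply continuous_snd)
  have hPg : PG2 fun q : E n × E n => f (Y (-a) q.1 q.2) * fderiv ℝ g q.1 q.2 := by
    refine ⟨Kf * Kg, kf + kg + 1, fun q => ?_⟩
    have h1 := hKf (Y (-a) q.1 q.2)
    have h2 := hKg q.1 q.2
    have hW := W_ge q.1 q.2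
    rw [← mul_pow]
    set W := (1 + ‖q.1‖) * (1 + ‖q.2‖) with hWd
    have h3 : |f (Y (-a) q.1 q.2)| ≤ Kf * W ^ kf := by
      refine h1.trans (mul_le_mul_of_nonneg_left ?_ hKf0)
      rw [hWd, mul_pow]; exact pow_Y_le _ _ _ _
    have hx := norm_nonneg q.1
    have hy := norm_nonneg q.2
    have h4 : 1 + ‖q.1‖ ≤ W := by rw [hWd]; nlinarith
    have h5 : ‖q.2‖ ≤ W := by rw [hWd]; nlinarith
    have h6 : |fderiv ℝ g q.1 q.2| ≤ Kg * W ^ kg * W := by
      refine h2.trans ?_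
      refine mul_le_mul (mul_le_mul_of_nonneg_left ?_ hKg0) h5 hy (by positivity)
      exact pow_le_pow_left₀ (by positivity) h4 kg
    rw [abs_mul]
    calc |f (Y (-a) q.1 q.2)| * |fderiv ℝ g q.1 q.2| ≤ (Kf * W ^ kf) * (Kg * W ^ kg * W) :=
          mul_le_mul h3 h6 (abs_nonneg _) (by positivity)
      _ = Kf * Kg * W ^ (kf + kg + 1) := by ring
  have hQc : ∀ i, Continuous fun q : E n × E n => pd i g q.1 * pd i f (Y (-a) q.1 q.2) := fun i =>
    ((hg.contp i).comp continuous_fst).mul ((hf.contp i).comp (continuous_Y_pair _))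
  have hQg : ∀ i, PG2 fun q : E n × E n => pd i g q.1 * pd i f (Y (-a) q.1 q.2) := by
    intro i
    obtain ⟨K1, k1, h10, h1⟩ := pg_nonneg (hg.p i)
    obtain ⟨K2, k2, h20, h2⟩ := pg_nonneg (hf.p i)
    refine ⟨K1 * K2, k1 + k2, fun q => ?_⟩
    rw [← mul_pow]
    set W := (1 + ‖q.1‖) * (1 + ‖q.2‖) with hWd
    have hx := norm_nonneg q.1
    have hy := norm_nonneg q.2
    have h4 : 1 + ‖q.1‖ ≤ W := by rw [hWd]; nlinarith
    have h5 : |pd i g q.1| ≤ K1 * W ^ k1 :=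
      (h1 q.1).trans (mul_le_mul_of_nonneg_left (pow_le_pow_left₀ (by positivity) h4 k1) h10)
    have h6 : |pd i f (Y (-a) q.1 q.2)| ≤ K2 * W ^ k2 := by
      refine (h2 _).trans (mul_le_mul_of_nonneg_left ?_ h20)
      rw [hWd, mul_pow]; exact pow_Y_le _ _ _ _
    rw [abs_mul]
    calc _ ≤ (K1 * W ^ k1) * (K2 * W ^ k2) := mul_le_mul h5 h6 (abs_nonneg _) (by positivity)
      _ = K1 * K2 * W ^ (k1 + k2) := by ring
  have hY : ∀ p : E n × E n, Y (-a) (rot a p).1 (rot a p).2 = p.1 := by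
    intro p
    rw [← rot_back a p]
    unfold Y
    rw [Real.cos_neg, Real.sin_neg, neg_smul, ← sub_eq_add_neg]
  -- step 1: rotate
  have e1 : ∫ p, f p.1 * fderiv ℝ g (Y a p.1 p.2) (-Real.sin a • p.1 + Real.cos a • p.2)
      ∂((gam n).prod (gam n)) =
      ∫ q, f (Y (-a) q.1 q.2) * fderiv ℝ g q.1 q.2 ∂((gam n).prod (gam n)) := by
    rw [← integral_rot hPc a]
    refine integral_congr_ae (ae_of_all _ fun p => ?_)
    simp only [hY]
    rfl
  -- step 2: integrate by parts in `v`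
  have e2 : ∫ q, f (Y (-a) q.1 q.2) * fderiv ℝ g q.1 q.2 ∂((gam n).prod (gam n)) =
      -Real.sin a * ∫ q, (∑ i, pd i g q.1 * pd i f (Y (-a) q.1 q.2))
        ∂((gam n).prod (gam n)) := by
    rw [integral_prod _ (integrable_of_PG2 hPc hPg),
      integral_prod _ (integrable_finsetSum _ fun i _ => integrable_of_PG2 (hQc i) (hQg i)),
      ← integral_const_mul]
    refine integral_congr_ae (ae_of_all _ fun u => ?_)
    simp only
    have hfu : ContDiff ℝ 1 fun v => f (Y (-a) u v) := hf.c.comp (contDiff_Y_snd _ _)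
    have hfug : PG fun v => f (Y (-a) u v) := pg_Y_snd hf.g _ _
    have hpe : ∀ i, pd i (fun v => f (Y (-a) u v)) =
        fun v => Real.sin (-a) * pd i f (Y (-a) u v) := fun i => by
      funext v; exact pd_Y_snd hf.diff _ _ _ _
    have hfup : ∀ i, PG (pd i fun v => f (Y (-a) u v)) := fun i => by
      rw [hpe i]; exact (pg_const _).mul (pg_Y_snd (hf.p i) _ _)
    have hl : ∀ v : E n, f (Y (-a) u v) * fderiv ℝ g u v =
        ∑ i, pd i g u * (f (Y (-a) u v) * v i) := by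
      intro v
      rw [fderiv_apply_eq_sum, Finset.mul_sum]
      exact Finset.sum_congr rfl fun i _ => by ring
    simp_rw [hl]
    have i1 : ∀ i, Integrable (fun v : E n => pd i g u * (f (Y (-a) u v) * v i)) (gam n) := fun i =>
      (integrable_of_PG (hfu.continuous.mul (by fun_prop)) (hfug.mul (pg_coord i))).const_mul _
    have i2 : ∀ i, Integrable (fun v : E n => pd i g u * pd i f (Y (-a) u v)) (gam n) := fun i =>
      (integrable_of_PG ((hf.contp i).comp (continuous_Y_snd _ _))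
        (pg_Y_snd (hf.p i) _ _)).const_mul _
    rw [integral_finsetSum _ fun i _ => i1 i, integral_finsetSum _ fun i _ => i2 i, Finset.mul_sum]
    refine Finset.sum_congr rfl fun i _ => ?_
    rw [integral_const_mul, integral_const_mul, ibp_gam hfu hfug i (hfup i), hpe i,
      integral_const_mul, Real.sin_neg]
    ring
  -- step 3: rotate back
  have e3 : ∫ q, (∑ i, pd i g q.1 * pd i f (Y (-a) q.1 q.2)) ∂((gam n).prod (gam n)) =
      Gc f g a := by
    rw [← integral_rot (continuous_finsetSum _ fun i _ => hQc i) a]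
    unfold Gc
    refine integral_congr_ae (ae_of_all _ fun p => ?_)
    simp only [hY]
    refine Finset.sum_congr rfl fun i _ => ?_
    rw [rot_fst, mul_comm]
  rw [e1, e2, e3]

/-- common majorant of `f(x) · g(Y)` type expressions -/
lemma pg2_mul {f g : E n → ℝ} (hf : PG f) (hg : PG g) :
    ∃ (K : ℝ) (k : ℕ), 0 ≤ K ∧ ∀ (a : ℝ) (p : E n × E n),
      |f p.1 * g (Y a p.1 p.2)| ≤ K * ((1 + ‖p.1‖) ^ k * (1 + ‖p.2‖) ^ k) := by
  obtain ⟨K1, k1, h10, h1⟩ := pg_nonneg hf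
  obtain ⟨K2, k2, h20, h2⟩ := pg_nonneg hg
  refine ⟨K1 * K2, k1 + k2, by positivity, fun a q => ?_⟩
  rw [← mul_pow]
  set W := (1 + ‖q.1‖) * (1 + ‖q.2‖) with hWd
  have hx := norm_nonneg q.1
  have hy := norm_nonneg q.2
  have h4 : 1 + ‖q.1‖ ≤ W := by rw [hWd]; nlinarith
  have h5 : |f q.1| ≤ K1 * W ^ k1 :=
    (h1 q.1).trans (mul_le_mul_of_nonneg_left (pow_le_pow_left₀ (by positivity) h4 k1) h10)
  have h6 : |g (Y a q.1 q.2)| ≤ K2 * W ^ k2 := by
    refine (h2 _).trans (mul_le_mul_of_nonneg_left ?_ h20)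
    rw [hWd, mul_pow]; exact pow_Y_le _ _ _ _
  rw [abs_mul]
  calc _ ≤ (K1 * W ^ k1) * (K2 * W ^ k2) := mul_le_mul h5 h6 (abs_nonneg _) (by positivity)
    _ = K1 * K2 * W ^ (k1 + k2) := by ring

lemma continuous_fgY {f g : E n → ℝ} (hf : Continuous f) (hg : Continuous g) (a : ℝ) :
    Continuous fun p : E n × E n => f p.1 * g (Y a p.1 p.2) :=
  (hf.comp continuous_fst).mul (hg.comp (continuous_Y_pair a))

lemma integrable_fgY {f g : E n → ℝ} (hf : Continuous f) (hg : Continuous g) (hf0 : PG f)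
    (hg0 : PG g) (a : ℝ) : Integrable (fun p : E n × E n => f p.1 * g (Y a p.1 p.2))
      ((gam n).prod (gam n)) := by
  obtain ⟨K, k, _, h⟩ := pg2_mul hf0 hg0
  exact integrable_of_PG2 (continuous_fgY hf hg a) ⟨K, k, h a⟩

theorem hasDerivAt_Fc {f g : E n → ℝ} (hf : C1 f) (hg : C1 g) (a : ℝ) :
    HasDerivAt (Fc f g) (-Real.sin a * Gc f g a) a := by
  rw [← key_int hf hg a]
  have hfc := hf.cont
  have hgc : Continuous (fderiv ℝ g) := hg.c.continuous_fderiv one_ne_zero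
  obtain ⟨Kf, kf, hKf0, hKf⟩ := pg_nonneg hf.g
  obtain ⟨Kg, kg, hKg0, hKg⟩ := fderiv_bound hg
  have h := hasDerivAt_integral_of_dominated_loc_of_deriv_le (μ := (gam n).prod (gam n))
    (F := fun a (p : E n × E n) => f p.1 * g (Y a p.1 p.2))
    (F' := fun a (p : E n × E n) =>
      f p.1 * fderiv ℝ g (Y a p.1 p.2) (-Real.sin a • p.1 + Real.cos a • p.2))
    (x₀ := a) (s := univ)
    (bound := fun p : E n × E n => Kf * Kg * ((1 + ‖p.1‖) ^ (kf + kg + 1) *
      (1 + ‖p.2‖) ^ (kf + kg + 1))) univ_mem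
    (Eventually.of_forall fun b => (continuous_fgY hfc hg.cont b).aestronglyMeasurable)
    (integrable_fgY hfc hg.cont hf.g hg.g a)
    ?_ (ae_of_all _ fun p b _ => ?_) ((integrable_pow2 _).const_mul _)
    (ae_of_all _ fun p b _ => ?_)
  · exact h.2
  · refine Continuous.aestronglyMeasurable ?_
    exact (hfc.comp continuous_fst).mul ((hgc.comp (continuous_Y_pair a)).clm_apply (by fun_prop))
  · rw [← mul_pow]
    set W := (1 + ‖p.1‖) * (1 + ‖p.2‖) with hWd
    have hx := norm_nonneg p.1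
    have hy := norm_nonneg p.2
    have h4 : 1 + ‖p.1‖ ≤ W := by rw [hWd]; nlinarith
    have h5 : |f p.1| ≤ Kf * W ^ kf :=
      (hKf p.1).trans (mul_le_mul_of_nonneg_left (pow_le_pow_left₀ (by positivity) h4 kf) hKf0)
    have h6 : ‖-Real.sin b • p.1 + Real.cos b • p.2‖ ≤ W := by
      refine (norm_Y'_le b _ _).trans ?_
      rw [hWd]; nlinarith
    have h7 : |fderiv ℝ g (Y b p.1 p.2) (-Real.sin b • p.1 + Real.cos b • p.2)| ≤
        Kg * W ^ kg * W := by
      refine (hKg _ _).trans ?_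
      refine mul_le_mul (mul_le_mul_of_nonneg_left ?_ hKg0) h6 (norm_nonneg _) (by positivity)
      rw [hWd, mul_pow]; exact pow_Y_le _ _ _ _
    rw [Real.norm_eq_abs, abs_mul]
    calc _ ≤ (Kf * W ^ kf) * (Kg * W ^ kg * W) := mul_le_mul h5 h7 (abs_nonneg _) (by positivity)
      _ = Kf * Kg * W ^ (kf + kg + 1) := by ring
  · have h8 := ((hg.diff (Y b p.1 p.2)).hasFDerivAt).comp_hasDerivAt b (hasDerivAt_Y p.1 p.2 b)
    exact h8.const_mul (f p.1)

lemma continuous_Fc {f g : E n → ℝ} (hf : Continuous f) (hg : Continuous g) (hf0 : PG f)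
    (hg0 : PG g) : Continuous (Fc f g) := by
  obtain ⟨K, k, _, h⟩ := pg2_mul hf0 hg0
  refine MeasureTheory.continuous_of_dominated
    (bound := fun p : E n × E n => K * ((1 + ‖p.1‖) ^ k * (1 + ‖p.2‖) ^ k))
    (fun a => (continuous_fgY hf hg a).aestronglyMeasurable)
    (fun a => ae_of_all _ fun p => h a p) ((integrable_pow2 k).const_mul K)
    (ae_of_all _ fun p => ?_)
  have h1 : Continuous fun a : ℝ => Y a p.1 p.2 := by unfold Y; fun_prop
  exact continuous_const.mul (hg.comp h1)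

lemma Gc_eq {f g : E n → ℝ} (hf : C1 f) (hg : C1 g) (a : ℝ) :
    Gc f g a = ∑ i, Fc (pd i f) (pd i g) a := by
  unfold Gc Fc
  exact integral_finsetSum _ fun i _ =>
    integrable_fgY (hf.contp i) (hg.contp i) (hf.p i) (hg.p i) a

lemma continuous_Gc {f g : E n → ℝ} (hf : C1 f) (hg : C1 g) : Continuous (Gc f g) := by
  have : Gc f g = fun a => ∑ i, Fc (pd i f) (pd i g) a := by funext a; exact Gc_eq hf hg a
  rw [this]
  exact continuous_finsetSum _ fun i _ => continuous_Fc (hf.contp i) (hg.contp i) (hf.p i) (hg.p i)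

lemma Fc_zero (f g : E n → ℝ) : Fc f g 0 = ∫ x, f x * g x ∂(gam n) := by
  unfold Fc Y
  simp only [Real.cos_zero, Real.sin_zero, one_smul, zero_smul, add_zero]
  rw [integral_fun_fst (fun x => f x * g x)]
  simp

lemma Fc_pi (f g : E n → ℝ) : Fc f g (π / 2) = (∫ x, f x ∂(gam n)) * ∫ x, g x ∂(gam n) := by
  unfold Fc Y
  simp only [Real.cos_pi_div_two, Real.sin_pi_div_two, one_smul, zero_smul, zero_add]
  exact integral_prod_mul f g

/-- **covariance identity** -/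
theorem cov_eq {f g : E n → ℝ} (hf : C1 f) (hg : C1 g) :
    (∫ x, f x * g x ∂(gam n)) - (∫ x, f x ∂(gam n)) * (∫ x, g x ∂(gam n)) =
      ∫ a in (0 : ℝ)..(π / 2), Real.sin a * Gc f g a := by
  have h := intervalIntegral.integral_eq_sub_of_hasDerivAt (a := (0 : ℝ)) (b := π / 2)
    (fun a _ => hasDerivAt_Fc hf hg a)
    (((Real.continuous_sin.neg).mul (continuous_Gc hf hg)).intervalIntegrable _ _)
  rw [Fc_zero, Fc_pi] at h
  have h2 : ∫ a in (0 : ℝ)..(π / 2), -Real.sin a * Gc f g a =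
      -∫ a in (0 : ℝ)..(π / 2), Real.sin a * Gc f g a := by
    rw [← intervalIntegral.integral_neg]
    congr 1
    funext a
    ring
  rw [h2] at h
  linarith

lemma Fc_self_le {f : E n → ℝ} (hf : Continuous f) (hf0 : PG f) (a : ℝ) :
    Fc f f a ≤ ∫ x, f x ^ 2 ∂(gam n) := by
  have i0 : Integrable (fun x => f x ^ 2) (gam n) := integrable_of_PG (hf.pow 2) (PG_sq hf0)
  have i1 : Integrable (fun p : E n × E n => f p.1 ^ 2) ((gam n).prod (gam n)) :=
    i0.comp_fst (gam n)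
  have i2 : Integrable (fun p : E n × E n => f (Y a p.1 p.2) ^ 2) ((gam n).prod (gam n)) :=
    integrable_of_PG2 ((hf.comp (continuous_Y_pair a)).pow 2) (PG.pg2_Y (PG_sq hf0) a)
  have e1 : ∫ p : E n × E n, f p.1 ^ 2 ∂((gam n).prod (gam n)) = ∫ x, f x ^ 2 ∂(gam n) := by
    rw [integral_fun_fst (fun x => f x ^ 2)]; simp
  have e2 : ∫ p : E n × E n, f (Y a p.1 p.2) ^ 2 ∂((gam n).prod (gam n)) =
      ∫ x, f x ^ 2 ∂(gam n) := by
    rw [← e1]
    exact integral_rot (G := fun p : E n × E n => f p.1 ^ 2) ((hf.comp continuous_fst).pow 2) a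
  have h : Fc f f a ≤ ∫ p : E n × E n, (f p.1 ^ 2 + f (Y a p.1 p.2) ^ 2) / 2
      ∂((gam n).prod (gam n)) := by
    refine integral_mono (integrable_fgY hf hf hf0 hf0 a) ((i1.add i2).div_const 2) fun p => ?_
    simp only
    nlinarith [sq_nonneg (f p.1 - f (Y a p.1 p.2))]
  refine h.trans (le_of_eq ?_)
  rw [integral_div, integral_add i1 i2, e1, e2]
  ring

/-- **sharp Gaussian Poincaré inequality** -/
theorem poincare1 {f : E n → ℝ} (hf : C1 f) :
    (∫ x, f x ^ 2 ∂(gam n)) - (∫ x, f x ∂(gam n)) ^ 2 ≤ ∑ i, ∫ x, pd i f x ^ 2 ∂(gam n) := by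
  have h := cov_eq hf hf
  have e1 : ∫ x, f x * f x ∂(gam n) = ∫ x, f x ^ 2 ∂(gam n) := by simp only [sq]
  rw [e1, ← sq] at h
  rw [h]
  have hb : ∀ a, Gc f f a ≤ ∑ i, ∫ x, pd i f x ^ 2 ∂(gam n) := fun a => by
    rw [Gc_eq hf hf]
    exact Finset.sum_le_sum fun i _ => Fc_self_le (hf.contp i) (hf.p i) a
  calc ∫ a in (0 : ℝ)..(π / 2), Real.sin a * Gc f f a
      ≤ ∫ a in (0 : ℝ)..(π / 2), Real.sin a * ∑ i, ∫ x, pd i f x ^ 2 ∂(gam n) := by
        refine intervalIntegral.integral_mono_on (by positivity)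
          ((Real.continuous_sin.mul (continuous_Gc hf hf)).intervalIntegrable _ _)
          ((Real.continuous_sin.mul continuous_const).intervalIntegrable _ _) fun a ha => ?_
        exact mul_le_mul_of_nonneg_left (hb a)
          (Real.sin_nonneg_of_nonneg_of_le_pi ha.1 (ha.2.trans (by linarith [Real.pi_pos])))
    _ = ∑ i, ∫ x, pd i f x ^ 2 ∂(gam n) := by
        rw [intervalIntegral.integral_mul_const, integral_sin]
        simp

/-! ### the resolvent -/

/-- the parameter measure `da ⊗ γ(dy)` on `(0, π/2] × E n` -/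
def nu (n : ℕ) : Measure (ℝ × E n) := (volume.restrict (Ioc (0 : ℝ) (π / 2))).prod (gam n)

instance : IsFiniteMeasure (volume.restrict (Ioc (0 : ℝ) (π / 2))) := ⟨by
  rw [Measure.restrict_apply MeasurableSet.univ, univ_inter, Real.volume_Ioc]
  exact ENNReal.ofReal_lt_top⟩

lemma integrable_pow_nu (k : ℕ) :
    Integrable (fun q : ℝ × E n => (1 + ‖q.2‖) ^ k) (nu n) :=
  (integrable_pow_stdGaussian (n := n) k).comp_snd (volume.restrict (Ioc (0 : ℝ) (π / 2)))

/-- weighted average of `g (Y a x ·)` -/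
def Rw (w : ℝ → ℝ) (g : E n → ℝ) (x : E n) : ℝ := ∫ q, w q.1 * g (Y q.1 x q.2) ∂(nu n)

/-- the resolvent `(1 + N)⁻¹` -/
def Rs (g : E n → ℝ) : E n → ℝ := Rw Real.sin g

lemma continuous_Y_q (x : E n) : Continuous fun q : ℝ × E n => Y q.1 x q.2 := by
  unfold Y; fun_prop

lemma continuous_Y_x (q : ℝ × E n) : Continuous fun x : E n => Y q.1 x q.2 := by
  unfold Y; fun_prop

lemma continuous_wg {w : ℝ → ℝ} (hw : Continuous w) {g : E n → ℝ} (hg : Continuous g) (x : E n) :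
    Continuous fun q : ℝ × E n => w q.1 * g (Y q.1 x q.2) :=
  (hw.comp continuous_fst).mul (hg.comp (continuous_Y_q x))

lemma wg_bound {w : ℝ → ℝ} (hwb : ∀ a, |w a| ≤ 1) {g : E n → ℝ} {K : ℝ} {k : ℕ} (hK0 : 0 ≤ K)
    (hK : ∀ x, |g x| ≤ K * (1 + ‖x‖) ^ k) (x : E n) (q : ℝ × E n) :
    ‖w q.1 * g (Y q.1 x q.2)‖ ≤ K * (1 + ‖x‖) ^ k * (1 + ‖q.2‖) ^ k := by
  rw [Real.norm_eq_abs, abs_mul]
  calc |w q.1| * |g (Y q.1 x q.2)| ≤ 1 * (K * ((1 + ‖x‖) ^ k * (1 + ‖q.2‖) ^ k)) := by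
        refine mul_le_mul (hwb _) ((hK _).trans ?_) (abs_nonneg _) zero_le_one
        exact mul_le_mul_of_nonneg_left (pow_Y_le _ _ _ k) hK0
    _ = _ := by ring

lemma integrable_wg {w : ℝ → ℝ} (hw : Continuous w) (hwb : ∀ a, |w a| ≤ 1) {g : E n → ℝ}
    (hg : Continuous g) (hg0 : PG g) (x : E n) :
    Integrable (fun q : ℝ × E n => w q.1 * g (Y q.1 x q.2)) (nu n) := by
  obtain ⟨K, k, hK0, hK⟩ := pg_nonneg hg0
  exact ((integrable_pow_nu (n := n) k).const_mul (K * (1 + ‖x‖) ^ k)).mono'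
    (continuous_wg hw hg x).aestronglyMeasurable (ae_of_all _ fun q => wg_bound hwb hK0 hK x q)

lemma pg_Rw {w : ℝ → ℝ} (hwb : ∀ a, |w a| ≤ 1) {g : E n → ℝ} (hg0 : PG g) : PG (Rw w g) := by
  obtain ⟨K, k, hK0, hK⟩ := pg_nonneg hg0
  refine ⟨K * ∫ q : ℝ × E n, (1 + ‖q.2‖) ^ k ∂(nu n), k, fun x => ?_⟩
  have h1 : |Rw w g x| ≤ ∫ q : ℝ × E n, K * (1 + ‖x‖) ^ k * (1 + ‖q.2‖) ^ k ∂(nu n) := by
    have := norm_integral_le_of_norm_le (μ := nu n)
      ((integrable_pow_nu (n := n) k).const_mul (K * (1 + ‖x‖) ^ k))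
      (ae_of_all _ fun q => wg_bound hwb hK0 hK x q)
    exact this
  refine h1.trans (le_of_eq ?_)
  rw [integral_const_mul]
  ring

lemma hasFDerivAt_Y_fst (a : ℝ) (x y : E n) :
    HasFDerivAt (fun x : E n => Y a x y) (Real.cos a • ContinuousLinearMap.id ℝ (E n)) x :=
  ((hasFDerivAt_id (𝕜 := ℝ) x).const_smul (Real.cos a)).add_const (Real.sin a • y)

lemma norm_fderiv_bound {f : E n → ℝ} (hf : C1 f) :
    ∃ (K : ℝ) (k : ℕ), 0 ≤ K ∧ ∀ x : E n, ‖fderiv ℝ f x‖ ≤ K * (1 + ‖x‖) ^ k := by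
  obtain ⟨K, k, hK0, hK⟩ := fderiv_bound hf
  exact ⟨K, k, hK0, fun x => ContinuousLinearMap.opNorm_le_bound _ (by positivity) fun v => hK x v⟩

lemma near_bound {x0 x : E n} (hx : x ∈ Metric.ball x0 1) (k : ℕ) :
    (1 + ‖x‖) ^ k ≤ (2 + ‖x0‖) ^ k := by
  refine pow_le_pow_left₀ (by positivity) ?_ k
  have h1 : ‖x - x0‖ < 1 := by simpa [dist_eq_norm] using hx
  have h2 : ‖x‖ ≤ ‖x - x0‖ + ‖x0‖ := by
    simpa using norm_add_le (x - x0) x0
  linarith

/-- the integrand of the derivative -/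
def dR (w : ℝ → ℝ) (g : E n → ℝ) (x : E n) (q : ℝ × E n) : E n →L[ℝ] ℝ :=
  (w q.1 * Real.cos q.1) • fderiv ℝ g (Y q.1 x q.2)

lemma continuous_dR {w : ℝ → ℝ} (hw : Continuous w) {g : E n → ℝ} (hg : C1 g) (x : E n) :
    Continuous (dR w g x) := by
  have hgc : Continuous (fderiv ℝ g) := hg.c.continuous_fderiv one_ne_zero
  exact ((hw.comp continuous_fst).mul (Real.continuous_cos.comp continuous_fst)).smul
    (hgc.comp (continuous_Y_q x))

lemma norm_dR_le {w : ℝ → ℝ} (hwb : ∀ a, |w a| ≤ 1) {g : E n → ℝ} {K : ℝ} {k : ℕ} (hK0 : 0 ≤ K)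
    (hK : ∀ x, ‖fderiv ℝ g x‖ ≤ K * (1 + ‖x‖) ^ k) {x0 x : E n} (hx : x ∈ Metric.ball x0 1)
    (q : ℝ × E n) : ‖dR w g x q‖ ≤ K * (2 + ‖x0‖) ^ k * (1 + ‖q.2‖) ^ k := by
  unfold dR
  rw [norm_smul, Real.norm_eq_abs, abs_mul]
  have h1 : |w q.1| * |Real.cos q.1| ≤ 1 := by
    have := mul_le_mul (hwb q.1) (Real.abs_cos_le_one q.1) (abs_nonneg _) zero_le_one
    simpa using this
  calc |w q.1| * |Real.cos q.1| * ‖fderiv ℝ g (Y q.1 x q.2)‖
      ≤ 1 * (K * ((2 + ‖x0‖) ^ k * (1 + ‖q.2‖) ^ k)) := by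
        refine mul_le_mul h1 ((hK _).trans ?_) (norm_nonneg _) zero_le_one
        refine mul_le_mul_of_nonneg_left ((pow_Y_le _ _ _ k).trans ?_) hK0
        exact mul_le_mul_of_nonneg_right (near_bound hx k) (by positivity)
    _ = _ := by ring

theorem hasFDerivAt_Rw {w : ℝ → ℝ} (hw : Continuous w) (hwb : ∀ a, |w a| ≤ 1) {g : E n → ℝ}
    (hg : C1 g) (x0 : E n) : HasFDerivAt (Rw w g) (∫ q, dR w g x0 q ∂(nu n)) x0 := by
  obtain ⟨K, k, hK0, hK⟩ := norm_fderiv_bound hg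
  have h := hasFDerivAt_integral_of_dominated_of_fderiv_le (μ := nu n)
    (F := fun x (q : ℝ × E n) => w q.1 * g (Y q.1 x q.2))
    (F' := fun x q => dR w g x q) (x₀ := x0) (s := Metric.ball x0 1)
    (bound := fun q => K * (2 + ‖x0‖) ^ k * (1 + ‖q.2‖) ^ k)
    (Metric.ball_mem_nhds x0 one_pos)
    (Eventually.of_forall fun x => (continuous_wg hw hg.cont x).aestronglyMeasurable)
    (integrable_wg hw hwb hg.cont hg.g x0)
    (continuous_dR hw hg x0).aestronglyMeasurable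
    (ae_of_all _ fun q x hx => norm_dR_le hwb hK0 hK hx q)
    ((integrable_pow_nu k).const_mul _)
    (ae_of_all _ fun q x _ => ?_)
  · exact h
  · have h2 := (((hg.diff (Y q.1 x q.2)).hasFDerivAt).comp x
      (hasFDerivAt_Y_fst q.1 x q.2)).const_mul (w q.1)
    have h3 : w q.1 • ((fderiv ℝ g (Y q.1 x q.2)).comp
        (Real.cos q.1 • ContinuousLinearMap.id ℝ (E n))) = dR w g x q := by
      ext v
      simp only [dR, _root_.smul_apply, ContinuousLinearMap.comp_apply,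
        ContinuousLinearMap.id_apply, map_smul, smul_eq_mul]
      ring
    rw [← h3]
    exact h2

lemma continuous_int_dR {w : ℝ → ℝ} (hw : Continuous w) (hwb : ∀ a, |w a| ≤ 1) {g : E n → ℝ}
    (hg : C1 g) : Continuous fun x => ∫ q, dR w g x q ∂(nu n) := by
  obtain ⟨K, k, hK0, hK⟩ := norm_fderiv_bound hg
  have hgc : Continuous (fderiv ℝ g) := hg.c.continuous_fderiv one_ne_zero
  refine continuous_iff_continuousAt.2 fun x0 => ?_
  refine continuousAt_of_dominated (bound := fun q => K * (2 + ‖x0‖) ^ k * (1 + ‖q.2‖) ^ k)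
    (Eventually.of_forall fun x => (continuous_dR hw hg x).aestronglyMeasurable) ?_
    ((integrable_pow_nu k).const_mul _) (ae_of_all _ fun q => ?_)
  · filter_upwards [Metric.ball_mem_nhds x0 one_pos] with x hx
    exact ae_of_all _ fun q => norm_dR_le hwb hK0 hK hx q
  · have h9 : Continuous fun x => fderiv ℝ g (Y q.1 x q.2) := hgc.comp (continuous_Y_x q)
    exact (h9.const_smul (w q.1 * Real.cos q.1)).continuousAt

lemma integrable_dR {w : ℝ → ℝ} (hw : Continuous w) (hwb : ∀ a, |w a| ≤ 1) {g : E n → ℝ}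
    (hg : C1 g) (x : E n) : Integrable (dR w g x) (nu n) := by
  obtain ⟨K, k, hK0, hK⟩ := norm_fderiv_bound hg
  exact ((integrable_pow_nu (n := n) k).const_mul (K * (2 + ‖x‖) ^ k)).mono'
    (continuous_dR hw hg x).aestronglyMeasurable
    (ae_of_all _ fun q => norm_dR_le hwb hK0 hK (Metric.mem_ball_self one_pos) q)

theorem pd_Rw {w : ℝ → ℝ} (hw : Continuous w) (hwb : ∀ a, |w a| ≤ 1) {g : E n → ℝ}
    (hg : C1 g) (i : Fin n) : pd i (Rw w g) = Rw (fun a => w a * Real.cos a) (pd i g) := by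
  funext x
  unfold pd
  rw [(hasFDerivAt_Rw hw hwb hg x).fderiv,
    ContinuousLinearMap.integral_apply (integrable_dR hw hwb hg x)]
  rfl

theorem c1_Rw {w : ℝ → ℝ} (hw : Continuous w) (hwb : ∀ a, |w a| ≤ 1) {g : E n → ℝ}
    (hg : C1 g) : C1 (Rw w g) := by
  have hd : ∀ x, HasFDerivAt (Rw w g) (∫ q, dR w g x q ∂(nu n)) x := hasFDerivAt_Rw hw hwb hg
  refine ⟨?_, pg_Rw hwb hg.g, fun i => ?_⟩
  · rw [contDiff_one_iff_fderiv]
    refine ⟨fun x => (hd x).differentiableAt, ?_⟩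
    have : fderiv ℝ (Rw w g) = fun x => ∫ q, dR w g x q ∂(nu n) := by
      funext x; exact (hd x).fderiv
    rw [this]
    exact continuous_int_dR hw hwb hg
  · rw [pd_Rw hw hwb hg i]
    refine pg_Rw (fun a => ?_) (hg.p i)
    rw [abs_mul]
    have := mul_le_mul (hwb a) (Real.abs_cos_le_one a) (abs_nonneg _) zero_le_one
    simpa using this

lemma sin_b (a : ℝ) : |Real.sin a| ≤ 1 := Real.abs_sin_le_one a

theorem c1_Rs {g : E n → ℝ} (hg : C1 g) : C1 (Rs g) := c1_Rw Real.continuous_sin sin_b hg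

/-! ### the Mehler average and Fubini -/

/-- Mehler average -/
def Pa (g : E n → ℝ) (a : ℝ) (x : E n) : ℝ := ∫ y, g (Y a x y) ∂(gam n)

lemma Rw_eq {w : ℝ → ℝ} (hw : Continuous w) (hwb : ∀ a, |w a| ≤ 1) {g : E n → ℝ}
    (hg : Continuous g) (hg0 : PG g) (x : E n) :
    Rw w g x = ∫ a in Ioc (0 : ℝ) (π / 2), w a * Pa g a x := by
  unfold Rw nu
  rw [integral_prod _ (integrable_wg hw hwb hg hg0 x)]
  refine integral_congr_ae (ae_of_all _ fun a => ?_)
  simp only [Pa]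
  rw [integral_const_mul]

lemma continuous_Pa {g : E n → ℝ} (hg : Continuous g) (hg0 : PG g) :
    Continuous fun q : E n × ℝ => Pa g q.2 q.1 := by
  obtain ⟨K, k, hK0, hK⟩ := pg_nonneg hg0
  refine continuous_iff_continuousAt.2 fun q0 => ?_
  have hc : ∀ q : E n × ℝ, Continuous fun y : E n => g (Y q.2 q.1 y) := fun q =>
    hg.comp (continuous_Y_snd _ _)
  refine continuousAt_of_dominated
    (bound := fun y : E n => K * (2 + ‖q0.1‖) ^ k * (1 + ‖y‖) ^ k)
    (Eventually.of_forall fun q => (hc q).aestronglyMeasurable) ?_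
    ((integrable_pow_stdGaussian k).const_mul _) (ae_of_all _ fun y => ?_)
  · have h1 : ∀ᶠ q : E n × ℝ in 𝓝 q0, q.1 ∈ Metric.ball q0.1 1 :=
      continuous_fst.continuousAt.eventually (Metric.ball_mem_nhds _ one_pos)
    filter_upwards [h1] with q hq
    refine ae_of_all _ fun y => ?_
    rw [Real.norm_eq_abs]
    refine (hK _).trans ?_
    rw [mul_assoc]
    refine mul_le_mul_of_nonneg_left ((pow_Y_le _ _ _ k).trans ?_) hK0
    exact mul_le_mul_of_nonneg_right (near_bound hq k) (by positivity)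
  · have h2 : Continuous fun q : E n × ℝ => Y q.2 q.1 y := by unfold Y; fun_prop
    exact (hg.comp h2).continuousAt

lemma Pa_bound {g : E n → ℝ} (hg0 : PG g) : ∃ (K : ℝ) (k : ℕ), 0 ≤ K ∧
    ∀ a x, |Pa g a x| ≤ K * (1 + ‖x‖) ^ k := by
  obtain ⟨K, k, hK0, hK⟩ := pg_nonneg hg0
  refine ⟨K * ∫ y : E n, (1 + ‖y‖) ^ k ∂(gam n), k, by positivity, fun a x => ?_⟩
  have h1 : |Pa g a x| ≤ ∫ y : E n, K * (1 + ‖x‖) ^ k * (1 + ‖y‖) ^ k ∂(gam n) := by
    have h2 : ∀ y : E n, ‖g (Y a x y)‖ ≤ K * (1 + ‖x‖) ^ k * (1 + ‖y‖) ^ k := by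
      intro y
      rw [Real.norm_eq_abs]
      refine (hK _).trans ?_
      rw [mul_assoc]
      exact mul_le_mul_of_nonneg_left (pow_Y_le _ _ _ k) hK0
    exact norm_integral_le_of_norm_le (μ := gam n) (f := fun y : E n => g (Y a x y))
      ((integrable_pow_stdGaussian (n := n) k).const_mul (K * (1 + ‖x‖) ^ k))
      (ae_of_all _ h2)
  refine h1.trans (le_of_eq ?_)
  rw [integral_const_mul]
  ring

lemma Fc_eq_Pa {f g : E n → ℝ} (hf : Continuous f) (hg : Continuous g) (hf0 : PG f) (hg0 : PG g)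
    (a : ℝ) : Fc f g a = ∫ x, f x * Pa g a x ∂(gam n) := by
  unfold Fc
  rw [integral_prod _ (integrable_fgY hf hg hf0 hg0 a)]
  refine integral_congr_ae (ae_of_all _ fun x => ?_)
  simp only [Pa]
  rw [integral_const_mul]

/-- `E f · R_w g = ∫ w(a) E f(x) g(Y_a) da` -/
theorem integral_mul_Rw {w : ℝ → ℝ} (hw : Continuous w) (hwb : ∀ a, |w a| ≤ 1) {f g : E n → ℝ}
    (hf : Continuous f) (hg : Continuous g) (hf0 : PG f) (hg0 : PG g) :
    ∫ x, f x * Rw w g x ∂(gam n) = ∫ a in (0 : ℝ)..(π / 2), w a * Fc f g a := by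
  obtain ⟨Kf, kf, hKf0, hKf⟩ := pg_nonneg hf0
  obtain ⟨K, k, hK0, hK⟩ := Pa_bound hg0
  have hc : Continuous fun q : E n × ℝ => f q.1 * (w q.2 * Pa g q.2 q.1) :=
    (hf.comp continuous_fst).mul ((hw.comp continuous_snd).mul (continuous_Pa hg hg0))
  have hi : Integrable (fun q : E n × ℝ => f q.1 * (w q.2 * Pa g q.2 q.1))
      ((gam n).prod (volume.restrict (Ioc (0 : ℝ) (π / 2)))) := by
    have h0 : Integrable (fun q : E n × ℝ => Kf * K * (1 + ‖q.1‖) ^ (kf + k))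
        ((gam n).prod (volume.restrict (Ioc (0 : ℝ) (π / 2)))) :=
      ((integrable_pow_stdGaussian (n := n) (kf + k)).const_mul (Kf * K)).comp_fst _
    refine h0.mono' hc.aestronglyMeasurable (ae_of_all _ fun q => ?_)
    rw [Real.norm_eq_abs, abs_mul, abs_mul]
    calc |f q.1| * (|w q.2| * |Pa g q.2 q.1|)
        ≤ (Kf * (1 + ‖q.1‖) ^ kf) * (1 * (K * (1 + ‖q.1‖) ^ k)) := by
          refine mul_le_mul (hKf _) ?_ (by positivity) (by positivity)
          exact mul_le_mul (hwb _) (hK _ _) (abs_nonneg _) zero_le_one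
      _ = Kf * K * (1 + ‖q.1‖) ^ (kf + k) := by ring
  have e1 : ∫ x, f x * Rw w g x ∂(gam n) =
      ∫ x, (∫ a in Ioc (0 : ℝ) (π / 2), f x * (w a * Pa g a x)) ∂(gam n) := by
    refine integral_congr_ae (ae_of_all _ fun x => ?_)
    simp only
    rw [Rw_eq hw hwb hg hg0 x, integral_const_mul]
  rw [e1, integral_integral_swap (f := fun x a => f x * (w a * Pa g a x)) hi,
    intervalIntegral.integral_of_le (by positivity)]
  refine integral_congr_ae (ae_of_all _ fun a => ?_)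
  simp only
  rw [Fc_eq_Pa hf hg hf0 hg0 a, ← integral_const_mul]
  refine integral_congr_ae (ae_of_all _ fun x => ?_)
  simp only
  ring

lemma sc_b (a : ℝ) : |Real.sin a * Real.cos a| ≤ 1 := by
  rw [abs_mul]
  have := mul_le_mul (Real.abs_sin_le_one a) (Real.abs_cos_le_one a) (abs_nonneg _) zero_le_one
  simpa using this

lemma pd_Rs {g : E n → ℝ} (hg : C1 g) (i : Fin n) :
    pd i (Rs g) = Rw (fun a => Real.sin a * Real.cos a) (pd i g) :=
  pd_Rw Real.continuous_sin sin_b hg i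

/-- **the resolvent equation in weak form**: `E f·Rg + Σ_c E ∂_c f ∂_c(Rg) = E f g` -/
theorem resolvent_eq {f g : E n → ℝ} (hf : C1 f) (hg : C1 g) :
    (∫ x, f x * Rs g x ∂(gam n)) + ∑ i, ∫ x, pd i f x * pd i (Rs g) x ∂(gam n) =
      ∫ x, f x * g x ∂(gam n) := by
  have e1 : ∫ x, f x * Rs g x ∂(gam n) = ∫ a in (0 : ℝ)..(π / 2), Real.sin a * Fc f g a :=
    integral_mul_Rw Real.continuous_sin sin_b hf.cont hg.cont hf.g hg.g
  have e2 : ∀ i, ∫ x, pd i f x * pd i (Rs g) x ∂(gam n) =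
      ∫ a in (0 : ℝ)..(π / 2), Real.sin a * Real.cos a * Fc (pd i f) (pd i g) a := by
    intro i
    rw [pd_Rs hg i]
    exact integral_mul_Rw (Real.continuous_sin.mul Real.continuous_cos) sc_b (hf.contp i)
      (hg.contp i) (hf.p i) (hg.p i)
  have cF := continuous_Fc hf.cont hg.cont hf.g hg.g
  have cFi := fun i => continuous_Fc (hf.contp i) (hg.contp i) (hf.p i) (hg.p i)
  have cG := continuous_Gc hf hg
  have e3 : ∑ i, ∫ x, pd i f x * pd i (Rs g) x ∂(gam n) =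
      ∫ a in (0 : ℝ)..(π / 2), Real.sin a * Real.cos a * Gc f g a := by
    simp_rw [e2]
    rw [← intervalIntegral.integral_finsetSum]
    · congr 1
      funext a
      rw [Gc_eq hf hg, Finset.mul_sum]
    · intro i _
      exact ((Real.continuous_sin.mul Real.continuous_cos).mul (cFi i)).intervalIntegrable _ _
  have hd : ∀ a, HasDerivAt (fun a => Real.cos a * Fc f g a)
      (-(Real.sin a * Fc f g a + Real.sin a * Real.cos a * Gc f g a)) a := by
    intro a
    have h := (Real.hasDerivAt_cos a).mul (hasDerivAt_Fc hf hg a)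
    refine h.congr_deriv ?_
    ring
  have cI : Continuous fun a =>
      -(Real.sin a * Fc f g a + Real.sin a * Real.cos a * Gc f g a) :=
    ((Real.continuous_sin.mul cF).add ((Real.continuous_sin.mul Real.continuous_cos).mul cG)).neg
  have h := intervalIntegral.integral_eq_sub_of_hasDerivAt (a := (0 : ℝ)) (b := π / 2)
    (fun a _ => hd a) (cI.intervalIntegrable _ _)
  have h10 : ∫ a in (0 : ℝ)..(π / 2), (Real.sin a * Fc f g a +
      Real.sin a * Real.cos a * Gc f g a) = (∫ a in (0 : ℝ)..(π / 2), Real.sin a * Fc f g a) +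
      ∫ a in (0 : ℝ)..(π / 2), Real.sin a * Real.cos a * Gc f g a :=
    intervalIntegral.integral_add
      ((Real.continuous_sin.mul cF).intervalIntegrable _ _)
      (((Real.continuous_sin.mul Real.continuous_cos).mul cG).intervalIntegrable _ _)
  rw [intervalIntegral.integral_neg, h10] at h
  simp only [Real.cos_pi_div_two, Real.cos_zero, zero_mul, one_mul, zero_sub] at h
  rw [e1, e3, ← Fc_zero f g]
  linarith

/-! ### linearity, positivity, constants -/

lemma Rw_add {w : ℝ → ℝ} (hw : Continuous w) (hwb : ∀ a, |w a| ≤ 1) {f g : E n → ℝ}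
    (hf : Continuous f) (hg : Continuous g) (hf0 : PG f) (hg0 : PG g) (x : E n) :
    Rw w (fun x => f x + g x) x = Rw w f x + Rw w g x := by
  unfold Rw
  rw [← integral_add (integrable_wg hw hwb hf hf0 x) (integrable_wg hw hwb hg hg0 x)]
  refine integral_congr_ae (ae_of_all _ fun q => ?_)
  simp only
  ring

lemma Rw_smul (w : ℝ → ℝ) (c : ℝ) (g : E n → ℝ) (x : E n) :
    Rw w (fun x => c * g x) x = c * Rw w g x := by
  unfold Rw
  rw [← integral_const_mul]
  refine integral_congr_ae (ae_of_all _ fun q => ?_)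
  simp only
  ring

lemma Rw_sum {w : ℝ → ℝ} (hw : Continuous w) (hwb : ∀ a, |w a| ≤ 1) {ι : Type*} (s : Finset ι)
    {g : ι → E n → ℝ} (hg : ∀ i ∈ s, Continuous (g i)) (hg0 : ∀ i ∈ s, PG (g i)) (x : E n) :
    Rw w (fun x => ∑ i ∈ s, g i x) x = ∑ i ∈ s, Rw w (g i) x := by
  unfold Rw
  rw [← integral_finsetSum _ fun i hi => integrable_wg hw hwb (hg i hi) (hg0 i hi) x]
  refine integral_congr_ae (ae_of_all _ fun q => ?_)
  simp only
  rw [Finset.mul_sum]

lemma Rs_const (c : ℝ) (x : E n) : Rs (fun _ : E n => c) x = c := by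
  unfold Rs
  rw [Rw_eq Real.continuous_sin sin_b continuous_const (pg_const c)]
  simp only [Pa, integral_const, probReal_univ, one_smul]
  rw [← intervalIntegral.integral_of_le (by positivity), intervalIntegral.integral_mul_const,
    integral_sin]
  simp

lemma ae_nu {p : ℝ × E n → Prop} (h : ∀ q : ℝ × E n, q.1 ∈ Ioc (0 : ℝ) (π / 2) → p q) :
    ∀ᵐ q ∂(nu n), p q := by
  have h1 : ∀ᵐ a ∂(volume.restrict (Ioc (0 : ℝ) (π / 2))), a ∈ Ioc (0 : ℝ) (π / 2) :=
    ae_restrict_mem measurableSet_Ioc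
  have h2 : ∀ᵐ q : ℝ × E n ∂(nu n), q.1 ∈ Ioc (0 : ℝ) (π / 2) :=
    Measure.quasiMeasurePreserving_fst.ae h1
  filter_upwards [h2] with q hq using h q hq

lemma Rs_mono {f g : E n → ℝ} (hf : Continuous f) (hg : Continuous g) (hf0 : PG f) (hg0 : PG g)
    (h : ∀ x, f x ≤ g x) (x : E n) : Rs f x ≤ Rs g x := by
  refine integral_mono_ae (integrable_wg Real.continuous_sin sin_b hf hf0 x)
    (integrable_wg Real.continuous_sin sin_b hg hg0 x) (ae_nu fun q hq => ?_)
  exact mul_le_mul_of_nonneg_left (h _)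
    (Real.sin_nonneg_of_nonneg_of_le_pi hq.1.le (hq.2.trans (by linarith [Real.pi_pos])))

/-! ### gradient / Hessian data -/

/-- `G = DΦ`, `M = D²Φ`, of polynomial growth with `D³Φ` -/
structure HD (G : Fin n → E n → ℝ) (M : Fin n → Fin n → E n → ℝ) : Prop where
  g : ∀ i, C1 (G i)
  m : ∀ i j, C1 (M i j)
  d : ∀ i j, pd j (G i) = M i j
  s : ∀ i j, M i j = M j i
  t : ∀ i j k, pd k (M i j) = pd j (M i k)

/-- `H = (1+N)⁻¹ M` -/
def Hm (M : Fin n → Fin n → E n → ℝ) (i j : Fin n) : E n → ℝ := Rs (M i j)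

section
variable {G : Fin n → E n → ℝ} {M : Fin n → Fin n → E n → ℝ}

lemma HD.h (hd : HD G M) (i j : Fin n) : C1 (Hm M i j) := c1_Rs (hd.m i j)

lemma HD.hs (hd : HD G M) (i j : Fin n) : Hm M i j = Hm M j i := by
  unfold Hm; rw [hd.s i j]

lemma HD.ht (hd : HD G M) (i j k : Fin n) : pd k (Hm M i j) = pd j (Hm M i k) := by
  unfold Hm
  rw [pd_Rs (hd.m i j), pd_Rs (hd.m i k), hd.t i j k]

/-- **`Cov(∂_i Φ, ∂_j Φ) = Σ_l E M_il H_jl`** -/
theorem HD.cov (hd : HD G M) (i j : Fin n) :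
    (∫ x, G i x * G j x ∂(gam n)) - (∫ x, G i x ∂(gam n)) * (∫ x, G j x ∂(gam n)) =
      ∑ l, ∫ x, M i l x * Hm M j l x ∂(gam n) := by
  rw [cov_eq (hd.g i) (hd.g j)]
  have e1 : ∀ l, ∫ x, M i l x * Hm M j l x ∂(gam n) =
      ∫ a in (0 : ℝ)..(π / 2), Real.sin a * Fc (M i l) (M j l) a := fun l =>
    integral_mul_Rw Real.continuous_sin sin_b (hd.m i l).cont (hd.m j l).cont (hd.m i l).g
      (hd.m j l).g
  simp_rw [e1]
  rw [← intervalIntegral.integral_finsetSum]
  · congr 1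
    funext a
    rw [Gc_eq (hd.g i) (hd.g j), Finset.mul_sum]
    refine Finset.sum_congr rfl fun l _ => ?_
    rw [hd.d i l, hd.d j l]
  · intro l _
    exact ((Real.continuous_sin.mul (continuous_Fc (hd.m i l).cont (hd.m j l).cont (hd.m i l).g
      (hd.m j l).g))).intervalIntegrable _ _

/-- **the `Ξ`-identity**, componentwise -/
theorem HD.xi (hd : HD G M) {f : E n → ℝ} (hf : C1 f) (i j : Fin n) :
    (∫ x, f x * Hm M i j x ∂(gam n)) + ∑ c, ∫ x, pd c f x * pd c (Hm M i j) x ∂(gam n) =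
      ∫ x, f x * M i j x ∂(gam n) := resolvent_eq hf (hd.m i j)

lemma Hm_quad (hd : HD G M) (v : Fin n → ℝ) (x : E n) :
    ∑ i, ∑ j, Hm M i j x * v i * v j = Rs (fun x => ∑ i, ∑ j, M i j x * v i * v j) x := by
  have hc : ∀ i j, Continuous fun x => M i j x * v i * v j := fun i j =>
    ((hd.m i j).cont.mul continuous_const).mul continuous_const
  have hg : ∀ i j, PG fun x => M i j x * v i * v j := fun i j =>
    ((hd.m i j).g.mul (pg_const _)).mul (pg_const _)
  unfold Rs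
  rw [Rw_sum Real.continuous_sin sin_b Finset.univ
    (g := fun i x => ∑ j, M i j x * v i * v j)
    (fun i _ => continuous_finsetSum _ fun j _ => hc i j) (fun i _ => PG.sum _ fun j _ => hg i j)]
  refine Finset.sum_congr rfl fun i _ => ?_
  rw [Rw_sum Real.continuous_sin sin_b Finset.univ (g := fun j x => M i j x * v i * v j)
    (fun j _ => hc i j) (fun j _ => hg i j)]
  refine Finset.sum_congr rfl fun j _ => ?_
  have : (fun x => M i j x * v i * v j) = fun x => (v i * v j) * M i j x := by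
    funext x; ring
  rw [this, Rw_smul]
  unfold Hm Rs
  ring

lemma quad_c1 (hd : HD G M) (v : Fin n → ℝ) :
    Continuous (fun x => ∑ i, ∑ j, M i j x * v i * v j) ∧
      PG (fun x => ∑ i, ∑ j, M i j x * v i * v j) :=
  ⟨continuous_finsetSum _ fun i _ => continuous_finsetSum _ fun j _ =>
      ((hd.m i j).cont.mul continuous_const).mul continuous_const,
    PG.sum _ fun i _ => PG.sum _ fun j _ => ((hd.m i j).g.mul (pg_const _)).mul (pg_const _)⟩

theorem Hm_lower (hd : HD G M) {lo : ℝ}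
    (h : ∀ x (v : Fin n → ℝ), lo * ∑ i, v i ^ 2 ≤ ∑ i, ∑ j, M i j x * v i * v j)
    (x : E n) (v : Fin n → ℝ) : lo * ∑ i, v i ^ 2 ≤ ∑ i, ∑ j, Hm M i j x * v i * v j := by
  rw [Hm_quad hd]
  rw [← Rs_const (lo * ∑ i, v i ^ 2) x]
  exact Rs_mono continuous_const (quad_c1 hd v).1 (pg_const _) (quad_c1 hd v).2 (fun y => h y v) x

theorem Hm_upper (hd : HD G M) {hi : ℝ}
    (h : ∀ x (v : Fin n → ℝ), ∑ i, ∑ j, M i j x * v i * v j ≤ hi * ∑ i, v i ^ 2)
    (x : E n) (v : Fin n → ℝ) : ∑ i, ∑ j, Hm M i j x * v i * v j ≤ hi * ∑ i, v i ^ 2 := by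
  rw [Hm_quad hd]
  rw [← Rs_const (hi * ∑ i, v i ^ 2) x]
  exact Rs_mono (quad_c1 hd v).1 continuous_const (quad_c1 hd v).2 (pg_const _) (fun y => h y v) x

end

/-- matrix fields with mean zero: `E|g|² ≤ E|Dg|²` -/
theorem poincare_mean0 {f : E n → ℝ} (hf : C1 f) (h0 : ∫ x, f x ∂(gam n) = 0) :
    ∫ x, f x ^ 2 ∂(gam n) ≤ ∑ i, ∫ x, pd i f x ^ 2 ∂(gam n) := by
  have h := poincare1 hf
  rw [h0] at h
  simpa using h

end Crest.Agent.R253.Meh74
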