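import Crest.Agent.R253.Mills_37
import Crest.Agent.R253.EqA_435
import Crest.Agent.R253.EqA_747
import Crest.Agent.R253.Meh_74

/-!
# R253, equality case, law part (helper747)

* `map_kk`   : the law of `kk` under the standard Gaussian on the line is the exponential law;
* `map_frame`: for an orthonormal basis `b`, the law of `(kk ⟨b a, t⟩)_a` is the product of
  exponential laws;
* `final_law`: if `∫ φ(W x + c) f(x) dx = E φ((kk ⟨b a, t⟩)_a)` for all bounded continuous `φ`, with
  `W` invertible, then `f` is a.e. the density of the equality case of `S0391`.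
-/

set_option autoImplicit false

open MeasureTheory ProbabilityTheory Set Filter Topology
open scoped ENNReal NNReal

namespace Crest.Agent.R253.EqB747

open Crest.Agent.R253.EqEasy505 Crest.Agent.R253.Eq435

section OneD

open Crest.Agent.R253.Mills37

lemma kk_strictMono : StrictMono kk := by
  intro a b hab
  have h1 := Q_anti hab
  have h2 := Q_pos a
  have h3 := Q_pos b
  unfold kk
  have := Real.log_lt_log h3 h1
  linarith

lemma kk_continuous : Continuous kk :=
  continuous_iff_continuousAt.2 fun z => (kk_hasDerivAt z).continuousAt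

lemma kk_surj {s : ℝ} (hs : 0 < s) : ∃ z, kk z = s := by
  -- near `-∞` the value is small, near `+∞` the value is large
  have h1 : ∃ a, kk a < s := by
    have := (kk_tendsto_bot.eventually (gt_mem_nhds hs))
    exact this.exists
  have h2 : ∃ b, s < kk b := by
    have h := Q_tendsto_top.eventually (gt_mem_nhds (Real.exp_pos (-s)))
    obtain ⟨b, hb⟩ := h.exists
    refine ⟨b, ?_⟩
    unfold kk
    have := Real.log_lt_log (Q_pos b) hb
    rw [Real.log_exp] at this
    linarith
  obtain ⟨a, ha⟩ := h1
  obtain ⟨b, hb⟩ := h2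
  obtain ⟨z, hz⟩ := mem_range_of_exists_le_of_exists_ge kk_continuous ⟨a, ha.le⟩ ⟨b, hb.le⟩
  exact ⟨z, hz⟩

lemma gaussianPDF_eq (z : ℝ) : gaussianPDF 0 1 z = ENNReal.ofReal (ph z) := by
  unfold gaussianPDF gaussianPDFReal ph
  congr 1
  simp

lemma mu_mul_Q (z : ℝ) : mu z * Q z = ph z := by
  unfold mu
  exact div_mul_cancel₀ _ (Q_pos z).ne'

lemma exp_neg_kk (z : ℝ) : Real.exp (-kk z) = Q z := by
  unfold kk
  rw [neg_neg, Real.exp_log (Q_pos z)]

/-- law of `kk` under the standard Gaussian -/
theorem map_kk : (gaussianReal 0 1).map kk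
    = (volume : Measure ℝ).withDensity (fun s => ENNReal.ofReal (e1 s)) := by
  ext S hS
  rw [Measure.map_apply kk_continuous.measurable hS, withDensity_apply _ hS,
    gaussianReal_of_var_ne_zero 0 one_ne_zero,
    withDensity_apply _ (kk_continuous.measurable hS)]
  have himg : kk '' (kk ⁻¹' S) = S ∩ Ioi 0 := by
    ext s
    constructor
    · rintro ⟨z, hz, rfl⟩
      exact ⟨hz, kk_pos z⟩
    · rintro ⟨h1, h2⟩
      obtain ⟨z, hz⟩ := kk_surj h2
      exact ⟨z, by rw [mem_preimage, hz]; exact h1, hz⟩
  have hcv := lintegral_image_eq_lintegral_abs_deriv_mul (s := kk ⁻¹' S) (f := kk) (f' := mu)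
    (kk_continuous.measurable hS) (fun x _ => (kk_hasDerivAt x).hasDerivWithinAt)
    (kk_strictMono.injective.injOn) (fun s => ENNReal.ofReal (e1 s))
  rw [himg] at hcv
  have h1 : ∫⁻ s in S, ENNReal.ofReal (e1 s) = ∫⁻ s in S ∩ Ioi 0, ENNReal.ofReal (e1 s) := by
    rw [← lintegral_indicator hS, ← lintegral_indicator (hS.inter measurableSet_Ioi)]
    apply lintegral_congr_ae
    filter_upwards [ae_ne 0] with s hs
    by_cases h : s ∈ S
    · by_cases h0 : 0 < s
      · rw [indicator_of_mem h, indicator_of_mem (show s ∈ S ∩ Ioi 0 from ⟨h, h0⟩)]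
      · rw [indicator_of_mem h, indicator_of_notMem (fun h' => h0 h'.2)]
        have : s < 0 := lt_of_le_of_ne (not_lt.1 h0) hs
        rw [e1_of_neg this, ENNReal.ofReal_zero]
    · rw [indicator_of_notMem h, indicator_of_notMem (fun h' => h h'.1)]
  rw [h1, hcv]
  refine lintegral_congr fun z => ?_
  rw [gaussianPDF_eq, abs_of_pos (mu_pos z), e1_of_nonneg (kk_pos z).le, exp_neg_kk,
    ← ENNReal.ofReal_mul (mu_pos z).le, mu_mul_Q]

end OneD

variable {m : ℕ}

lemma integral_e1 : ∫ t, e1 t = 1 := by
  have := (e1_moment 0).2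
  simpa using this

lemma integrable_e1 : Integrable e1 := by
  have := (e1_moment 0).1
  simpa using this

instance : IsProbabilityMeasure ((volume : Measure ℝ).withDensity (fun s => ENNReal.ofReal (e1 s))) :=
  ⟨by
    rw [withDensity_apply _ MeasurableSet.univ, Measure.restrict_univ,
      ← ofReal_integral_eq_lintegral_ofReal integrable_e1 (ae_of_all _ e1_nonneg), integral_e1,
      ENNReal.ofReal_one]⟩

lemma eP_nonneg (u : Fin m → ℝ) : 0 ≤ eP u := Finset.prod_nonneg fun i _ => e1_nonneg _

/-- product of exponential laws -/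
theorem pi_exp : Measure.pi (fun _ : Fin m => (volume : Measure ℝ).withDensity
      (fun s => ENNReal.ofReal (e1 s)))
    = (volume : Measure (Fin m → ℝ)).withDensity (fun u => ENNReal.ofReal (eP u)) := by
  refine Measure.pi_eq fun s hs => ?_
  have hpi : MeasurableSet (Set.pi Set.univ s) := MeasurableSet.univ_pi hs
  rw [withDensity_apply _ hpi]
  have h1 : ∀ i, (volume : Measure ℝ).withDensity (fun s => ENNReal.ofReal (e1 s)) (s i)
      = ENNReal.ofReal (∫ t, (s i).indicator e1 t) := by
    intro i
    rw [withDensity_apply _ (hs i), ← lintegral_indicator (hs i),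
      ofReal_integral_eq_lintegral_ofReal (integrable_e1.indicator (hs i))
        (ae_of_all _ fun t => indicator_nonneg (fun _ _ => e1_nonneg _) _)]
    refine lintegral_congr fun t => ?_
    by_cases ht : t ∈ s i
    · rw [indicator_of_mem ht, indicator_of_mem ht]
    · rw [indicator_of_notMem ht, indicator_of_notMem ht, ENNReal.ofReal_zero]
  simp_rw [h1]
  rw [← ENNReal.ofReal_prod_of_nonneg (fun i _ => integral_nonneg fun t =>
      indicator_nonneg (fun _ _ => e1_nonneg _) _),
    ← integral_fintype_prod_volume_eq_prod (fun i : Fin m => fun t => (s i).indicator e1 t),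
    ← lintegral_indicator hpi]
  have h2 : ∀ u : Fin m → ℝ, ∏ i, (s i).indicator e1 (u i) = (Set.pi Set.univ s).indicator eP u := by
    intro u
    by_cases hu : u ∈ Set.pi Set.univ s
    · rw [indicator_of_mem hu]
      unfold eP
      exact Finset.prod_congr rfl fun i _ => indicator_of_mem (hu i (mem_univ i)) _
    · rw [indicator_of_notMem hu]
      simp only [mem_univ_pi, not_forall] at hu
      obtain ⟨i, hi⟩ := hu
      exact Finset.prod_eq_zero (Finset.mem_univ i) (indicator_of_notMem hi _)
  simp_rw [h2]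
  rw [ofReal_integral_eq_lintegral_ofReal (eP_one.1.indicator hpi)
        (ae_of_all _ fun t => indicator_nonneg (fun _ _ => eP_nonneg _) _)]
  refine lintegral_congr fun t => ?_
  by_cases ht : t ∈ Set.pi Set.univ s
  · rw [indicator_of_mem ht, indicator_of_mem ht]
  · rw [indicator_of_notMem ht, indicator_of_notMem ht, ENNReal.ofReal_zero]

open Crest.Agent.R238.Gap Crest.Agent.R253.Meh74

/-- the linear form `⟨u_α, t⟩`, `u_α` = the `α`-th column of `U` -/
def ul (U : Matrix (Fin m) (Fin m) ℝ) (α : Fin m) (t : E m) : ℝ := ∑ k, U k α * t k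

lemma continuous_ul (U : Matrix (Fin m) (Fin m) ℝ) (α : Fin m) : Continuous (ul U α) := by
  unfold ul; fun_prop

/-- law of `(kk ⟨u_α, t⟩)_α` under the standard Gaussian -/
theorem map_frame {U : Matrix (Fin m) (Fin m) ℝ} (hU : U.transpose * U = 1) :
    (gam m).map (fun t : E m => fun α => Mills37.kk (ul U α t))
      = (volume : Measure (Fin m → ℝ)).withDensity (fun u => ENNReal.ofReal (eP u)) := by
  classical
  have hUe : ∀ a b, ∑ k, U k a * U k b = if a = b then 1 else 0 := by
    intro a b
    have := congrFun (congrFun hU a) b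
    rw [Matrix.mul_apply] at this
    simpa [Matrix.transpose_apply, Matrix.one_apply] using this
  set v : Fin m → E m := fun α => WithLp.toLp 2 (fun k => U k α) with hv
  have hin : ∀ α (t : E m), inner ℝ (v α) t = ul U α t := by
    intro α t
    rw [hv, EuclideanSpace.inner_eq_star_dotProduct]
    simp [dotProduct, ul, mul_comm]
  have hon : Orthonormal ℝ v := by
    rw [orthonormal_iff_ite]
    intro a b
    rw [hin, ← hUe a b]
    rfl
  have hsp : ⊤ ≤ Submodule.span ℝ (Set.range v) := by
    rw [hon.linearIndependent.span_eq_top_of_card_eq_finrank' (by simp)]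
  set b : OrthonormalBasis (Fin m) ℝ (E m) := OrthonormalBasis.mk hon hsp with hb
  have hbv : ∀ α, b α = v α := fun α => by rw [hb, OrthonormalBasis.coe_mk]
  have hmeas : Measurable (fun t : E m => fun α => Mills37.kk (ul U α t)) :=
    measurable_pi_lambda _ fun α => (kk_continuous.comp (continuous_ul U α)).measurable
  have hmeas2 : Measurable (fun x : Fin m → ℝ => ∑ i, x i • b i) :=
    (continuous_finsetSum _ fun i _ => (continuous_apply i).smul continuous_const).measurable
  have h1 : (gam m) = (Measure.pi fun _ : Fin m ↦ gaussianReal 0 1).map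
      (fun x ↦ ∑ i, x i • b i) := stdGaussian_eq_map_pi_orthonormalBasis b
  rw [h1, Measure.map_map hmeas hmeas2]
  have h2 : (fun t : E m => fun α => Mills37.kk (ul U α t)) ∘ (fun x : Fin m → ℝ => ∑ i, x i • b i)
      = fun x α => Mills37.kk (x α) := by
    funext x α
    simp only [Function.comp_apply]
    congr 1
    rw [← hin, inner_sum, Finset.sum_eq_single α]
    · rw [inner_smul_right, hbv, orthonormal_iff_ite.1 hon]; simp
    · intro β _ hβ
      rw [inner_smul_right, hbv, orthonormal_iff_ite.1 hon, if_neg (Ne.symm hβ), mul_zero]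
    · intro h; exact absurd (Finset.mem_univ α) h
  rw [h2]
  have h3 : ∀ _i : Fin m, SigmaFinite ((gaussianReal 0 1).map Mills37.kk) := fun _ => by
    rw [map_kk]; infer_instance
  rw [Measure.pi_map_pi (μ := fun _ : Fin m => gaussianReal 0 1) (f := fun _ => Mills37.kk)
    (fun _ => kk_continuous.measurable.aemeasurable)]
  simp_rw [map_kk]
  exact pi_exp

/-- expectation of a function of `(kk ⟨u_α, t⟩)_α` -/
theorem integral_frame {U : Matrix (Fin m) (Fin m) ℝ} (hU : U.transpose * U = 1)
    {F : (Fin m → ℝ) → ℝ} (hF : Measurable F) :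
    ∫ t, F (fun α => Mills37.kk (ul U α t)) ∂(gam m) = ∫ u, F u * eP u := by
  have hmeas : Measurable (fun t : E m => fun α => Mills37.kk (ul U α t)) :=
    measurable_pi_lambda _ fun α => (kk_continuous.comp (continuous_ul U α)).measurable
  rw [← integral_map (φ := fun t : E m => fun α => Mills37.kk (ul U α t)) hmeas.aemeasurable
    hF.aestronglyMeasurable, map_frame hU,
    integral_withDensity_eq_integral_toReal_smul₀ measurable_eP.ennreal_ofReal.aemeasurable
      (ae_of_all _ fun _ => ENNReal.ofReal_lt_top)]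
  refine integral_congr_ae (ae_of_all _ fun u => ?_)
  simp only [ENNReal.toReal_ofReal (eP_nonneg u), smul_eq_mul]
  ring

lemma integrable_eM {M : Matrix (Fin m) (Fin m) ℝ} (hM : M.det ≠ 0) (b : Fin m → ℝ) :
    Integrable (eM M b) ∧ ∫ x, eM M b x = 1 := by
  have h := integral_mul_eM (fun _ => (1:ℝ)) hM b
  simp only [one_mul] at h
  rw [eP_one.2] at h
  refine ⟨?_, h⟩
  by_contra hh
  rw [integral_undef hh] at h
  exact zero_ne_one h

lemma eM_nonneg (M : Matrix (Fin m) (Fin m) ℝ) (b x : Fin m → ℝ) : 0 ≤ eM M b x := by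
  unfold eM
  exact mul_nonneg (inv_nonneg.2 (abs_nonneg _)) (indicator_nonneg (fun _ _ => (Real.exp_pos _).le) _)

/-- a density with the law of `b + M (kk ⟨u_α, t⟩)_α` is the density of the equality case -/
theorem law_unique {f : (Fin m → ℝ) → ℝ} (hf : Measurable f) (hf0 : ∀ x, 0 ≤ f x)
    (hf1 : ∫ x, f x = 1) {U : Matrix (Fin m) (Fin m) ℝ} (hU : U.transpose * U = 1)
    {M : Matrix (Fin m) (Fin m) ℝ} {b : Fin m → ℝ} (hM : M.det ≠ 0)
    (h : ∀ ψ : BoundedContinuousFunction (Fin m → ℝ) ℝ, ∫ x, ψ x * f x
      = ∫ t, ψ (b + M.mulVec (fun α => Mills37.kk (ul U α t))) ∂(gam m)) :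
    f =ᵐ[volume] eM M b := by
  have hfi : Integrable f := by
    by_contra hh
    rw [integral_undef hh] at hf1
    exact zero_ne_one hf1
  have hMi := integrable_eM hM b
  set μ : Measure (Fin m → ℝ) := volume.withDensity (fun x => ENNReal.ofReal (f x)) with hμ
  set ν : Measure (Fin m → ℝ) := volume.withDensity (fun x => ENNReal.ofReal (eM M b x)) with hν
  haveI : IsFiniteMeasure μ := isFiniteMeasure_withDensity_ofReal hfi.2
  haveI : IsFiniteMeasure ν := isFiniteMeasure_withDensity_ofReal hMi.1.2
  have hconv : ∀ (g : (Fin m → ℝ) → ℝ) (_ : Measurable g) (_ : ∀ x, 0 ≤ g x)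
      (ψ : BoundedContinuousFunction (Fin m → ℝ) ℝ),
      ∫ x, ψ x ∂(volume.withDensity (fun x => ENNReal.ofReal (g x))) = ∫ x, ψ x * g x := by
    intro g hg hg0 ψ
    rw [integral_withDensity_eq_integral_toReal_smul₀ hg.ennreal_ofReal.aemeasurable
      (ae_of_all _ fun _ => ENNReal.ofReal_lt_top)]
    refine integral_congr_ae (ae_of_all _ fun u => ?_)
    simp only [ENNReal.toReal_ofReal (hg0 u), smul_eq_mul]
    ring
  have hμν : μ = ν := by
    apply ext_of_forall_integral_eq_of_IsFiniteMeasure
    intro ψ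
    rw [hμ, hν, hconv f hf hf0, hconv _ (measurable_eM M b) (eM_nonneg M b), h ψ]
    have hc : Continuous (fun u : Fin m → ℝ => ψ (b + M.mulVec u)) :=
      ψ.continuous.comp (continuous_const.add (Continuous.matrix_mulVec continuous_const
        continuous_id))
    rw [integral_frame hU (F := fun u => ψ (b + M.mulVec u)) hc.measurable,
      integral_mul_eM (fun x => ψ x) hM b]
  have hae := (withDensity_eq_iff hf.ennreal_ofReal.aemeasurable
    (measurable_eM M b).ennreal_ofReal.aemeasurable (by
      rw [← ofReal_integral_eq_lintegral_ofReal hfi (ae_of_all _ hf0)]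
      exact ENNReal.ofReal_ne_top)).1 hμν
  filter_upwards [hae] with x hx
  have := congrArg ENNReal.toReal hx
  rwa [ENNReal.toReal_ofReal (hf0 x), ENNReal.toReal_ofReal (eM_nonneg M b x)] at this

end Crest.Agent.R253.EqB747
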