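import Crest.Agent.R253.EqB_435

/-!
# R253, equality case, part C (helper435): the tensor algebra

A symmetric 3-tensor with `(T,T)_ab = δ_ab` and tetrahedral contraction `≥ m` is
`∑ ± u_a ⊗ u_a ⊗ u_a`.
-/

set_option autoImplicit false
open MeasureTheory Set Filter Topology Matrix Module.End
open Crest.GeometryTopology.Isotropic
open scoped ENNReal NNReal

namespace Crest.Agent.R253.Eq435

open Crest.Agent.R253.EqEasy505 Crest.Agent.R253.Cpt435

variable {m : ℕ}

/-- symmetric 3-tensors -/
structure Sym3 (T : Fin m → Fin m → Fin m → ℝ) : Prop where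
  s12 : ∀ i j k, T i j k = T j i k
  s23 : ∀ i j k, T i j k = T i k j

/-- the pair contraction -/
def RR (T : Fin m → Fin m → Fin m → ℝ) (i j k l : Fin m) : ℝ := ∑ a, T a i j * T a k l

/-- tetrahedral contraction -/
def tetra (T : Fin m → Fin m → Fin m → ℝ) : ℝ :=
  ∑ i, ∑ i', ∑ j, ∑ j', RR T i i' j j' * RR T i j i' j'

theorem sum_RR_sq {T : Fin m → Fin m → Fin m → ℝ}
    (h2 : ∀ a b, ∑ i, ∑ j, T a i j * T b i j = if a = b then 1 else 0) :
    ∑ i, ∑ i', ∑ j, ∑ j', RR T i i' j j' * RR T i i' j j' = (m : ℝ) := by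
  have h1 : ∀ i i' j j', RR T i i' j j' * RR T i i' j j' =
      ∑ a, ∑ b, (T a i i' * T b i i') * (T a j j' * T b j j') := by
    intro i i' j j'
    unfold RR
    rw [Finset.sum_mul_sum]
    refine Finset.sum_congr rfl fun a _ => Finset.sum_congr rfl fun b _ => ?_
    ring
  calc ∑ i, ∑ i', ∑ j, ∑ j', RR T i i' j j' * RR T i i' j j'
      = ∑ i, ∑ i', ∑ j, ∑ j', ∑ a, ∑ b, (T a i i' * T b i i') * (T a j j' * T b j j') := by
        simp only [h1]
    _ = ∑ a, ∑ b, ∑ i, ∑ i', ∑ j, ∑ j', (T a i i' * T b i i') * (T a j j' * T b j j') := by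
        have e1 : ∀ (F : Fin m → Fin m → Fin m → Fin m → Fin m → Fin m → ℝ),
            ∑ i, ∑ i', ∑ j, ∑ j', ∑ a, ∑ b, F i i' j j' a b =
            ∑ a, ∑ b, ∑ i, ∑ i', ∑ j, ∑ j', F i i' j j' a b := by
          intro F
          have s1 : ∀ i i' j, ∑ j', ∑ a, ∑ b, F i i' j j' a b = ∑ a, ∑ b, ∑ j', F i i' j j' a b := by
            intro i i' j
            rw [Finset.sum_comm]
            refine Finset.sum_congr rfl fun a _ => ?_
            rw [Finset.sum_comm]
          have s2 : ∀ i i', ∑ j, ∑ j', ∑ a, ∑ b, F i i' j j' a b =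
              ∑ a, ∑ b, ∑ j, ∑ j', F i i' j j' a b := by
            intro i i'
            simp only [s1]
            rw [Finset.sum_comm]
            refine Finset.sum_congr rfl fun a _ => ?_
            rw [Finset.sum_comm]
          have s3 : ∀ i, ∑ i', ∑ j, ∑ j', ∑ a, ∑ b, F i i' j j' a b =
              ∑ a, ∑ b, ∑ i', ∑ j, ∑ j', F i i' j j' a b := by
            intro i
            simp only [s2]
            rw [Finset.sum_comm]
            refine Finset.sum_congr rfl fun a _ => ?_
            rw [Finset.sum_comm]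
          simp only [s3]
          rw [Finset.sum_comm]
          refine Finset.sum_congr rfl fun a _ => ?_
          rw [Finset.sum_comm]
        exact e1 _
    _ = ∑ a : Fin m, ∑ b : Fin m, (if a = b then (1 : ℝ) else 0) * (if a = b then 1 else 0) := by
        refine Finset.sum_congr rfl fun a _ => Finset.sum_congr rfl fun b _ => ?_
        nth_rewrite 1 [← h2 a b]
        rw [← h2 a b, Finset.sum_mul]
        refine Finset.sum_congr rfl fun i _ => ?_
        rw [Finset.sum_mul]
        refine Finset.sum_congr rfl fun i' _ => ?_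
        rw [Finset.mul_sum]
        refine Finset.sum_congr rfl fun j _ => ?_
        rw [Finset.mul_sum]
    _ = (m : ℝ) := by simp

theorem RR_symm {T : Fin m → Fin m → Fin m → ℝ}
    (h2 : ∀ a b, ∑ i, ∑ j, T a i j * T b i j = if a = b then 1 else 0)
    (ht : (m : ℝ) ≤ tetra T) (i j k l : Fin m) : RR T i j k l = RR T i k j l := by
  have h1 : ∑ i, ∑ i', ∑ j, ∑ j', (RR T i i' j j' - RR T i j i' j') ^ 2 ≤ 0 := by
    have e1 : ∀ i i' j j', (RR T i i' j j' - RR T i j i' j') ^ 2 =
        RR T i i' j j' * RR T i i' j j' + RR T i j i' j' * RR T i j i' j' -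
          2 * (RR T i i' j j' * RR T i j i' j') := by
      intro i i' j j'; ring
    simp only [e1, Finset.sum_sub_distrib, Finset.sum_add_distrib, ← Finset.mul_sum]
    have e2 := sum_RR_sq h2
    have e3 : ∑ i, ∑ i', ∑ j, ∑ j', RR T i j i' j' * RR T i j i' j' = (m : ℝ) := by
      rw [← e2]
      refine Finset.sum_congr rfl fun i _ => ?_
      rw [Finset.sum_comm]
    have e4 : ∑ i, ∑ i', ∑ j, ∑ j', RR T i i' j j' * RR T i j i' j' = tetra T := rfl
    rw [e2, e3, e4]
    linarith
  have h3 : ∀ i i' j j', (RR T i i' j j' - RR T i j i' j') ^ 2 = 0 := by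
    intro i i' j j'
    have hnn : ∀ i i' j j', 0 ≤ (RR T i i' j j' - RR T i j i' j') ^ 2 := fun _ _ _ _ => sq_nonneg _
    apply le_antisymm _ (hnn i i' j j')
    refine le_trans ?_ h1
    calc (RR T i i' j j' - RR T i j i' j') ^ 2
        ≤ ∑ j', (RR T i i' j j' - RR T i j i' j') ^ 2 :=
          Finset.single_le_sum (f := fun j' => (RR T i i' j j' - RR T i j i' j') ^ 2)
            (fun _ _ => hnn _ _ _ _) (Finset.mem_univ j')
      _ ≤ ∑ j, ∑ j', (RR T i i' j j' - RR T i j i' j') ^ 2 :=
          Finset.single_le_sum (f := fun j => ∑ j', (RR T i i' j j' - RR T i j i' j') ^ 2)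
            (fun _ _ => Finset.sum_nonneg fun _ _ => hnn _ _ _ _) (Finset.mem_univ j)
      _ ≤ ∑ i', ∑ j, ∑ j', (RR T i i' j j' - RR T i j i' j') ^ 2 :=
          Finset.single_le_sum (f := fun i' => ∑ j, ∑ j', (RR T i i' j j' - RR T i j i' j') ^ 2)
            (fun _ _ => Finset.sum_nonneg fun _ _ => Finset.sum_nonneg fun _ _ => hnn _ _ _ _)
            (Finset.mem_univ i')
      _ ≤ ∑ i, ∑ i', ∑ j, ∑ j', (RR T i i' j j' - RR T i j i' j') ^ 2 :=
          Finset.single_le_sum
            (f := fun i => ∑ i', ∑ j, ∑ j', (RR T i i' j j' - RR T i j i' j') ^ 2)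
            (fun _ _ => Finset.sum_nonneg fun _ _ => Finset.sum_nonneg fun _ _ =>
              Finset.sum_nonneg fun _ _ => hnn _ _ _ _) (Finset.mem_univ i)
  have := h3 i j k l
  rw [sq_eq_zero_iff, sub_eq_zero] at this
  exact this

/-- the slices commute -/
theorem slices_commute {T : Fin m → Fin m → Fin m → ℝ} (hT : Sym3 T)
    (hR : ∀ i j k l, RR T i j k l = RR T i k j l) (p q : Fin m) :
    (Matrix.of (T p)) * (Matrix.of (T q)) = (Matrix.of (T q)) * (Matrix.of (T p)) := by
  have hsw : ∀ i j k l, RR T i j k l = RR T j i k l := by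
    intro i j k l
    unfold RR
    refine Finset.sum_congr rfl fun a _ => ?_
    rw [hT.s23 a i j]
  ext k l
  simp only [Matrix.mul_apply, Matrix.of_apply]
  have h1 : ∑ a, T p k a * T q a l = RR T p k q l := by
    unfold RR
    refine Finset.sum_congr rfl fun a _ => ?_
    rw [hT.s23 p k a, hT.s12 p a k, hT.s12 q a l]
  have h2 : ∑ a, T q k a * T p a l = RR T q k p l := by
    unfold RR
    refine Finset.sum_congr rfl fun a _ => ?_
    rw [hT.s23 q k a, hT.s12 q a k, hT.s12 p a l]
  rw [h1, h2, hR p k q l, hsw p q k l, hR q p k l]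

/-- joint diagonalisation of commuting symmetric matrices -/
theorem exists_joint (S : Fin m → Matrix (Fin m) (Fin m) ℝ) (hS : ∀ p, (S p).IsHermitian)
    (hC : ∀ p q, S p * S q = S q * S p) :
    ∃ (Q : Matrix (Fin m) (Fin m) ℝ) (χ : Fin m → Fin m → ℝ), Qᵀ * Q = 1 ∧ Q * Qᵀ = 1 ∧
      ∀ p i α, ∑ k, S p i k * Q k α = χ α p * Q i α := by
  classical
  let L : Fin m → (EuclideanSpace ℝ (Fin m) →ₗ[ℝ] EuclideanSpace ℝ (Fin m)) :=
    fun p => Matrix.toEuclideanLin (S p)
  have hLs : ∀ p, (L p).IsSymmetric := fun p => isSymmetric_toEuclideanLin_iff.mpr (hS p)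
  have hLc : Pairwise (Function.onFun Commute L) := by
    intro p q _
    change Commute (L p) (L q)
    have h1 : ∀ p q, L p * L q = Matrix.toEuclideanLin (S p * S q) := by
      intro p q
      ext x
      simp [L, Matrix.toEuclideanLin_apply]
    rw [Commute, SemiconjBy, h1, h1, hC]
  have hort0 := LinearMap.IsSymmetric.orthogonalFamily_iInf_eigenspaces hLs
  have htop := LinearMap.IsSymmetric.iSup_iInf_eq_top_of_commute hLs hLc
  let V : (Fin m → ℝ) → Submodule ℝ (EuclideanSpace ℝ (Fin m)) :=
    fun γ => ⨅ j, eigenspace (L j) (γ j)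
  have hfin : {γ | V γ ≠ ⊥}.Finite := WellFoundedGT.finite_ne_bot_of_iSupIndep hort0.independent
  have : Fintype {γ // V γ ≠ ⊥} := hfin.fintype
  let W : {γ // V γ ≠ ⊥} → Submodule ℝ (EuclideanSpace ℝ (Fin m)) := fun γ => V γ.1
  have hort : OrthogonalFamily ℝ (fun γ : {γ // V γ ≠ ⊥} => W γ) fun γ => (W γ).subtypeₗᵢ :=
    hort0.comp Subtype.coe_injective
  have hint : DirectSum.IsInternal W := by
    rw [OrthogonalFamily.isInternal_iff hort]
    have h1 : ⨆ γ : {γ // V γ ≠ ⊥}, W γ = ⨆ γ, V γ := iSup_ne_bot_subtype V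
    have h2 : iSup W = ⊤ := by rw [← htop]; exact h1
    rw [h2, Submodule.top_orthogonal_eq_bot]
  have hrank : Module.finrank ℝ (EuclideanSpace ℝ (Fin m)) = m := finrank_euclideanSpace_fin
  obtain ⟨b, χ, hb⟩ : ∃ (b : OrthonormalBasis (Fin m) ℝ (EuclideanSpace ℝ (Fin m)))
      (χ : Fin m → Fin m → ℝ), ∀ α p, L p (b α) = χ α p • b α := by
    refine ⟨hint.subordinateOrthonormalBasis hrank hort,
      fun α => (hint.subordinateOrthonormalBasisIndex hrank α hort).1, ?_⟩
    intro α p
    have h1 := hint.subordinateOrthonormalBasis_subordinate hrank α hort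
    have h2 := (Submodule.mem_iInf _).mp h1 p
    exact mem_eigenspace_iff.mp h2
  let Q : Matrix (Fin m) (Fin m) ℝ := Matrix.of fun i α => (b α) i
  have hQ : Qᵀ * Q = 1 := by
    ext α β
    have h1 := orthonormal_iff_ite.mp b.orthonormal α β
    rw [Matrix.mul_apply, Matrix.one_apply]
    simp only [Q, transpose_apply, of_apply]
    rw [← h1, EuclideanSpace.inner_eq_star_dotProduct]
    simp only [dotProduct, star_trivial]
    refine Finset.sum_congr rfl fun i _ => ?_
    simp [mul_comm]
  refine ⟨Q, χ, hQ, ?_, ?_⟩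
  · exact mul_eq_one_comm.mp hQ
  · intro p i α
    have h1 := hb α p
    have h2 := congrArg (fun v : EuclideanSpace ℝ (Fin m) => v i) h1
    simp only [L, Matrix.toEuclideanLin_apply] at h2
    simpa [Q, mulVec, dotProduct] using h2

/-- **structure of the equality tensors** -/
theorem exists_frame {T : Fin m → Fin m → Fin m → ℝ} (hT : Sym3 T)
    (h2 : ∀ a b, ∑ i, ∑ j, T a i j * T b i j = if a = b then 1 else 0)
    (ht : (m : ℝ) ≤ tetra T) :
    ∃ U : Matrix (Fin m) (Fin m) ℝ, Uᵀ * U = 1 ∧ U * Uᵀ = 1 ∧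
      ∀ α, ∑ i, ∑ j, ∑ k, U i α * U j α * U k α * T i j k = 1 := by
  have hR := RR_symm h2 ht
  have hS : ∀ p, (Matrix.of (T p)).IsHermitian := by
    intro p
    ext i j
    rw [conjTranspose_apply, star_trivial, of_apply, of_apply, hT.s23 p j i]
  obtain ⟨Q, χ, hQ1, hQ2, hev⟩ := exists_joint (fun p => Matrix.of (T p)) hS
    (fun p q => slices_commute hT hR p q)
  simp only [of_apply] at hev
  have q1 : ∀ α β, ∑ i, Q i α * Q i β = if α = β then 1 else 0 := by
    intro α β
    have := congrFun (congrFun hQ1 α) β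
    rw [Matrix.mul_apply, Matrix.one_apply] at this
    simpa using this
  have q2 : ∀ i j, ∑ α, Q i α * Q j α = if i = j then 1 else 0 := by
    intro i j
    have := congrFun (congrFun hQ2 i) j
    rw [Matrix.mul_apply, Matrix.one_apply] at this
    simpa using this
  -- spectral form of the slices
  have hspec : ∀ p i k, T p i k = ∑ γ, χ γ p * Q i γ * Q k γ := by
    intro p i k
    have h1 : ∑ γ, (∑ l, T p i l * Q l γ) * Q k γ = T p i k := by
      simp only [Finset.sum_mul]
      rw [Finset.sum_comm]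
      have : ∀ l, ∑ γ, T p i l * Q l γ * Q k γ = T p i l * (if l = k then 1 else 0) := by
        intro l
        rw [← q2 l k, Finset.mul_sum]
        refine Finset.sum_congr rfl fun γ _ => ?_
        ring
      simp only [this]
      simp
    rw [← h1]
    refine Finset.sum_congr rfl fun γ _ => ?_
    rw [hev]
  -- orthogonality of χ γ to Q α, α ≠ γ
  set t : Fin m → ℝ := fun γ => ∑ i, Q i γ * χ γ i with htdef
  have htri : ∀ α β γ, ∑ i, ∑ j, ∑ k, Q i α * Q j β * Q k γ * T i j k =
      (∑ i, Q i α * χ γ i) * (if β = γ then 1 else 0) := by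
    intro α β γ
    have h1 : ∀ i j, ∑ k, Q i α * Q j β * Q k γ * T i j k = Q i α * χ γ i * (Q j β * Q j γ) := by
      intro i j
      have := hev i j γ
      calc ∑ k, Q i α * Q j β * Q k γ * T i j k
          = Q i α * Q j β * ∑ k, T i j k * Q k γ := by
            rw [Finset.mul_sum]
            refine Finset.sum_congr rfl fun k _ => ?_
            ring
        _ = _ := by rw [this]; ring
    simp only [h1, ← Finset.mul_sum]
    rw [q1 β γ, ← Finset.sum_mul]
  have horth : ∀ α γ, α ≠ γ → ∑ i, Q i α * χ γ i = 0 := by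
    intro α γ hne
    have h1 := htri α γ γ
    have h3 := htri γ α γ
    rw [if_neg hne, mul_zero] at h3
    rw [if_pos rfl, mul_one] at h1
    rw [← h1, ← h3, Finset.sum_comm]
    refine Finset.sum_congr rfl fun j _ => Finset.sum_congr rfl fun i _ =>
      Finset.sum_congr rfl fun k _ => ?_
    rw [hT.s12 i j k]; ring
  have hχ : ∀ γ i, χ γ i = t γ * Q i γ := by
    intro γ i
    have h1 : ∑ α, (∑ j, Q j α * χ γ j) * Q i α = χ γ i := by
      simp only [Finset.sum_mul]
      rw [Finset.sum_comm]
      have : ∀ j, ∑ α, Q j α * χ γ j * Q i α = χ γ j * (if j = i then 1 else 0) := by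
        intro j
        rw [← q2 j i, Finset.mul_sum]
        refine Finset.sum_congr rfl fun α _ => ?_
        ring
      simp only [this]
      simp
    rw [← h1, Finset.sum_eq_single γ]
    · intro α _ hα
      rw [horth α γ hα, zero_mul]
    · intro h; exact absurd (Finset.mem_univ γ) h
  have hχχ : ∀ p q, ∑ γ, χ γ p * χ γ q = if p = q then 1 else 0 := by
    intro p q
    rw [← h2 p q]
    have h1 : ∀ i j, T p i j * T q i j = ∑ γ, ∑ δ, (χ γ p * χ δ q) *
        ((Q i γ * Q i δ) * (Q j γ * Q j δ)) := by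
      intro i j
      rw [hspec p i j, hspec q i j, Finset.sum_mul_sum]
      refine Finset.sum_congr rfl fun γ _ => Finset.sum_congr rfl fun δ _ => ?_
      ring
    simp only [h1]
    have h3 : ∑ i, ∑ j, ∑ γ, ∑ δ, (χ γ p * χ δ q) * ((Q i γ * Q i δ) * (Q j γ * Q j δ)) =
        ∑ γ, ∑ δ, (χ γ p * χ δ q) * ((∑ i, Q i γ * Q i δ) * (∑ j, Q j γ * Q j δ)) := by
      have s1 : ∀ i, ∑ j, ∑ γ, ∑ δ, (χ γ p * χ δ q) * ((Q i γ * Q i δ) * (Q j γ * Q j δ)) =
          ∑ γ, ∑ δ, ∑ j, (χ γ p * χ δ q) * ((Q i γ * Q i δ) * (Q j γ * Q j δ)) := by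
        intro i
        rw [Finset.sum_comm]
        refine Finset.sum_congr rfl fun γ _ => ?_
        rw [Finset.sum_comm]
      simp only [s1]
      rw [Finset.sum_comm]
      refine Finset.sum_congr rfl fun γ _ => ?_
      rw [Finset.sum_comm]
      refine Finset.sum_congr rfl fun δ _ => ?_
      rw [Finset.sum_mul_sum, Finset.mul_sum]
      refine Finset.sum_congr rfl fun i _ => ?_
      rw [Finset.mul_sum]
    rw [h3]
    refine Finset.sum_congr rfl fun γ _ => ?_
    rw [Finset.sum_eq_single γ]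
    · rw [q1 γ γ, if_pos rfl]; ring
    · intro δ _ hδ
      rw [q1 γ δ, if_neg (Ne.symm hδ)]; ring
    · intro h; exact absurd (Finset.mem_univ γ) h
  have ht2 : ∀ α, t α ^ 2 = 1 := by
    intro α
    have h1 : ∑ p, ∑ q, Q p α * Q q α * (∑ γ, χ γ p * χ γ q) = 1 := by
      simp only [hχχ]
      simp only [mul_ite, mul_one, mul_zero, Finset.sum_ite_eq, Finset.mem_univ, if_true]
      simpa using q1 α α
    have h3 : ∑ p, ∑ q, Q p α * Q q α * (∑ γ, χ γ p * χ γ q) =
        ∑ γ, (t γ) ^ 2 * ((∑ p, Q p α * Q p γ) * (∑ q, Q q α * Q q γ)) := by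
      have s1 : ∀ p q, Q p α * Q q α * (∑ γ, χ γ p * χ γ q) =
          ∑ γ, (t γ) ^ 2 * ((Q p α * Q p γ) * (Q q α * Q q γ)) := by
        intro p q
        rw [Finset.mul_sum]
        refine Finset.sum_congr rfl fun γ _ => ?_
        rw [hχ γ p, hχ γ q]; ring
      simp only [s1]
      have s2 : ∀ p, ∑ q, ∑ γ, (t γ) ^ 2 * ((Q p α * Q p γ) * (Q q α * Q q γ)) =
          ∑ γ, ∑ q, (t γ) ^ 2 * ((Q p α * Q p γ) * (Q q α * Q q γ)) := fun p => Finset.sum_comm
      simp only [s2]
      rw [Finset.sum_comm]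
      refine Finset.sum_congr rfl fun γ _ => ?_
      rw [Finset.sum_mul_sum, Finset.mul_sum]
      refine Finset.sum_congr rfl fun p _ => ?_
      rw [Finset.mul_sum]
    rw [h3, Finset.sum_eq_single α] at h1
    · rw [q1 α α, if_pos rfl] at h1; linarith
    · intro γ _ hγ
      rw [q1 α γ, if_neg (Ne.symm hγ)]; ring
    · intro h; exact absurd (Finset.mem_univ α) h
  -- the frame with signs
  refine ⟨Matrix.of fun i α => t α * Q i α, ?_, ?_, ?_⟩
  · ext α β
    rw [Matrix.mul_apply, Matrix.one_apply]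
    simp only [transpose_apply, of_apply]
    have : ∑ i, t α * Q i α * (t β * Q i β) = t α * t β * ∑ i, Q i α * Q i β := by
      rw [Finset.mul_sum]
      refine Finset.sum_congr rfl fun i _ => ?_
      ring
    rw [this, q1 α β]
    by_cases h : α = β
    · subst h
      rw [if_pos rfl, mul_one, ← sq, ht2]
    · rw [if_neg h, mul_zero]
  · ext i j
    rw [Matrix.mul_apply, Matrix.one_apply]
    simp only [transpose_apply, of_apply]
    rw [← q2 i j]
    refine Finset.sum_congr rfl fun α _ => ?_
    have := ht2 α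
    calc t α * Q i α * (t α * Q j α) = t α ^ 2 * (Q i α * Q j α) := by ring
      _ = _ := by rw [this, one_mul]
  · intro α
    have h1 := htri α α α
    rw [if_pos rfl, mul_one] at h1
    simp only [of_apply]
    have h3 : ∑ i, ∑ j, ∑ k, t α * Q i α * (t α * Q j α) * (t α * Q k α) * T i j k =
        t α ^ 3 * ∑ i, ∑ j, ∑ k, Q i α * Q j α * Q k α * T i j k := by
      simp only [Finset.mul_sum]
      refine Finset.sum_congr rfl fun i _ => Finset.sum_congr rfl fun j _ =>
        Finset.sum_congr rfl fun k _ => ?_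
      ring
    rw [h3, h1]
    have h4 := ht2 α
    change t α ^ 3 * t α = 1
    calc t α ^ 3 * t α = (t α ^ 2) ^ 2 := by ring
      _ = 1 := by rw [h4]; norm_num

theorem densM3_sym3 (f : (Fin m → ℝ) → ℝ) : Sym3 (densM3 f) := by
  constructor
  · intro i j k; unfold densM3; congr 1; funext x; ring
  · intro i j k; unfold densM3; congr 1; funext x; ring

theorem aff_aff (f : (Fin m → ℝ) → ℝ) (K U : Matrix (Fin m) (Fin m) ℝ) (b c : Fin m → ℝ) :
    aff (aff f K b) U c = aff f (K * U) (b + K.mulVec c) := by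
  funext u
  simp only [aff, det_mul, abs_mul, mulVec_add, mulVec_mulVec]
  rw [add_assoc]; ring

/-- **Equality case of S0391 from the second-order information.** `f` is in isotropic position
after the affine map `(K, b)`; `T = M/2`; `(T,T) = 1`; the tetrahedral contraction is `≥ m`;
entropy `≥ m`. -/
theorem equality_of_tetra {f : (Fin m → ℝ) → ℝ} (hf : LCD f) {K : Matrix (Fin m) (Fin m) ℝ}
    (hK : K.det ≠ 0) (b : Fin m → ℝ) (hcov : densCov (aff f K b) = 1)
    (h2 : ∀ a c, ∑ i, ∑ j, (densM3 (aff f K b) a i j / 2) * (densM3 (aff f K b) c i j / 2) =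
      if a = c then 1 else 0)
    (ht : (m : ℝ) ≤ tetra (fun i j k => densM3 (aff f K b) i j k / 2))
    (hent : (m : ℝ) ≤ diffEntropy (aff f K b)) :
    ∃ (M : Matrix (Fin m) (Fin m) ℝ) (b : Fin m → ℝ), M.det ≠ 0 ∧
          f =ᵐ[volume] fun x => |M.det|⁻¹ *
            Set.indicator {y : Fin m → ℝ | ∀ i, 0 ≤ (M⁻¹.mulVec (y - b)) i}
              (fun y => Real.exp (- ∑ i, (M⁻¹.mulVec (y - b)) i)) x := by
  set g := aff f K b with hg
  have hgL : LCD g := hf.comp_affine K hK b
  have hsym : Sym3 (fun i j k => densM3 g i j k / 2) := by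
    have := densM3_sym3 g
    constructor
    · intro i j k; rw [this.s12]
    · intro i j k; rw [this.s23]
  obtain ⟨U, hU1, hU2, hUT⟩ := exists_frame hsym h2 ht
  have hUdet : |U.det| = 1 := by
    have h1 := congrArg Matrix.det hU1
    rw [det_mul, det_transpose, det_one] at h1
    have h3 : U.det ^ 2 = 1 := by rw [sq]; exact h1
    have h4 : |U.det| ^ 2 = 1 := by rw [sq_abs]; exact h3
    nlinarith [abs_nonneg U.det]
  have hUne : U.det ≠ 0 := by
    intro h; rw [h, abs_zero] at hUdet; exact zero_ne_one hUdet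
  set g' := aff g U 0 with hg'
  have hgL' : LCD g' := hgL.comp_affine U hUne 0
  have hcov' : densCov g' = 1 := by
    have h1 := densCov_aff hgL hUne 0
    rw [hcov] at h1
    calc densCov g' = (Uᵀ * U) * densCov g' * (Uᵀ * U) := by rw [hU1]; simp
      _ = Uᵀ * (U * densCov g' * Uᵀ) * U := by simp only [Matrix.mul_assoc]
      _ = 1 := by rw [← h1, Matrix.mul_one, hU1]
  have hM' : ∀ α, densM3 g' α α α = 2 := by
    intro α
    have h1 := densM3_aff hgL hUne 0
    -- contract with U
    have q1 : ∀ α β, ∑ i, U i α * U i β = if α = β then 1 else 0 := by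
      intro α β
      have := congrFun (congrFun hU1 α) β
      rw [Matrix.mul_apply, Matrix.one_apply] at this
      simpa using this
    have h3 : ∑ i, ∑ j, ∑ k, U i α * U j α * U k α * densM3 g i j k = densM3 g' α α α := by
      have h4 : ∀ i j k, U i α * U j α * U k α * densM3 g i j k =
          ∑ i', ∑ j', ∑ k', (U i α * U i i') * ((U j α * U j j') * ((U k α * U k k') *
            densM3 g' i' j' k')) := by
        intro i j k
        rw [h1 i j k, Finset.mul_sum]
        refine Finset.sum_congr rfl fun i' _ => ?_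
        rw [Finset.mul_sum]
        refine Finset.sum_congr rfl fun j' _ => ?_
        rw [Finset.mul_sum]
        refine Finset.sum_congr rfl fun k' _ => ?_
        ring
      simp only [h4]
      have key : ∀ (F : Fin m → ℝ), ∑ i, ∑ i', (U i α * U i i') * F i' = F α := by
        intro F
        rw [Finset.sum_comm]
        simp only [← Finset.sum_mul, q1]
        simp
      have r3 : ∀ i j, ∑ k, ∑ i', ∑ j', ∑ k', (U i α * U i i') * ((U j α * U j j') *
          ((U k α * U k k') * densM3 g' i' j' k')) =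
          ∑ i', ∑ j', (U i α * U i i') * ((U j α * U j j') * densM3 g' i' j' α) := by
        intro i j
        rw [Finset.sum_comm]
        refine Finset.sum_congr rfl fun i' _ => ?_
        rw [Finset.sum_comm]
        refine Finset.sum_congr rfl fun j' _ => ?_
        simp only [← Finset.mul_sum]
        rw [key (fun k' => densM3 g' i' j' k')]
      simp only [r3]
      have r2 : ∀ i, ∑ j, ∑ i', ∑ j', (U i α * U i i') * ((U j α * U j j') *
          densM3 g' i' j' α) = ∑ i', (U i α * U i i') * densM3 g' i' α α := by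
        intro i
        rw [Finset.sum_comm]
        refine Finset.sum_congr rfl fun i' _ => ?_
        simp only [← Finset.mul_sum]
        rw [key (fun j' => densM3 g' i' j' α)]
      simp only [r2]
      rw [key (fun i' => densM3 g' i' α α)]
    have h5 := hUT α
    have h6 : ∑ i, ∑ j, ∑ k, U i α * U j α * U k α * (densM3 g i j k / 2) =
        (∑ i, ∑ j, ∑ k, U i α * U j α * U k α * densM3 g i j k) / 2 := by
      simp only [Finset.sum_div]
      refine Finset.sum_congr rfl fun i _ => Finset.sum_congr rfl fun j _ =>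
        Finset.sum_congr rfl fun k _ => ?_
      ring
    rw [h6, h3] at h5
    linarith
  have hent' : (m : ℝ) ≤ diffEntropy g' := by
    have := diffEntropy_aff hgL hUne 0
    rw [hUdet, Real.log_one, add_zero, ← hg'] at this
    rw [← this]; exact hent
  have hcomp : g' = aff f (K * U) (b + K.mulVec 0) := by rw [hg', hg, aff_aff]
  have hKU : (K * U).det ≠ 0 := by rw [det_mul]; exact mul_ne_zero hK hUne
  apply equality_of_third hf hKU (b + K.mulVec 0)
  · intro i; rw [← hcomp, hcov']; simp
  · intro i; rw [← hcomp]; exact hM' i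
  · rw [← hcomp]; exact hent'

end Crest.Agent.R253.Eq435
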