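import Crest.Agent.R253.EqB_747
import Crest.Agent.R253.ChVar_56

/-!
# R253, equality case, convergence part (helper747)

If the Jacobians `M n` of the maps `G n` converge in `L²` to `Σ_α u_α u_αᵀ mu ⟨u_α, t⟩`, and the laws
of `b n + B n (G n)` converge to `f` with converging means and covariances (nondegenerate limit), then
`f` is the density of the equality case of `S0391`.
-/

set_option autoImplicit false

open MeasureTheory ProbabilityTheory Set Filter Topology
open scoped ENNReal NNReal ContDiff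

noncomputable section

namespace Crest.Agent.R253.EqD747

open Crest.Agent.R238.Gap Crest.Agent.R238.GapPoinc Crest.Agent.R238.GapPc
open Crest.Agent.R253.Meh74 Crest.Agent.R253.ChVar56
open Crest.Agent.R253.EqEasy505 Crest.Agent.R253.EqB747
open Crest.Agent.R253.Mills37 (mu kk ee mu_pos kk_pos mu_hasDerivAt kk_hasDerivAt mu_ee_pos
  mu_ee_lt_one)

variable {m : ℕ}

/-! ### growth of `mu`, `kk` -/

lemma mu_lip (x y : ℝ) : |mu x - mu y| ≤ |x - y| := by
  have h := Convex.norm_image_sub_le_of_norm_hasDerivWithin_le (f := mu)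
    (f' := fun z => mu z * ee z) (C := 1)
    (s := Set.univ) (x := y) (y := x) (fun z _ => (mu_hasDerivAt z).hasDerivWithinAt)
    (fun z _ => by
      rw [Real.norm_eq_abs, abs_of_pos (mu_ee_pos z)]
      exact (mu_ee_lt_one z).le) convex_univ (mem_univ _) (mem_univ _)
  simpa [Real.norm_eq_abs] using h

lemma mu_cont : Continuous mu :=
  continuous_iff_continuousAt.mpr fun z => (mu_hasDerivAt z).continuousAt

lemma mu_le (z : ℝ) : |mu z| ≤ mu 0 + |z| := by
  have h := mu_lip z 0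
  rw [sub_zero] at h
  have := mu_pos 0
  calc |mu z| = |mu 0 + (mu z - mu 0)| := by ring_nf
    _ ≤ |mu 0| + |mu z - mu 0| := abs_add_le _ _
    _ ≤ mu 0 + |z| := by rw [abs_of_pos this]; linarith

lemma kk_le' (z : ℝ) : |kk z| ≤ kk 0 + (mu 0 + |z|) * |z| := by
  have hconv : Convex ℝ {y : ℝ | |y| ≤ |z|} := by
    have : {y : ℝ | |y| ≤ |z|} = Icc (-|z|) |z| := by ext y; simp [abs_le]
    rw [this]; exact convex_Icc _ _
  have h := Convex.norm_image_sub_le_of_norm_hasDerivWithin_le (f := kk)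
    (f' := mu) (C := mu 0 + |z|)
    (s := {y : ℝ | |y| ≤ |z|}) (x := 0) (y := z) (fun z _ => (kk_hasDerivAt z).hasDerivWithinAt)
    (fun y hy => by
      rw [Real.norm_eq_abs]
      have h1 := mu_le y
      have h2 : |y| ≤ |z| := hy
      linarith) hconv (by simp) (by simp)
  simp only [Real.norm_eq_abs, sub_zero] at h
  have h0 := kk_pos 0
  calc |kk z| = |kk 0 + (kk z - kk 0)| := by ring_nf
    _ ≤ |kk 0| + |kk z - kk 0| := abs_add_le _ _
    _ ≤ _ := by rw [abs_of_pos h0]; linarith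

/-- `ul` as a continuous linear map -/
def uL (U : Matrix (Fin m) (Fin m) ℝ) (α : Fin m) : E m →L[ℝ] ℝ :=
  ∑ k, U k α • (EuclideanSpace.proj k : E m →L[ℝ] ℝ)

lemma uL_apply (U : Matrix (Fin m) (Fin m) ℝ) (α : Fin m) (t : E m) : uL U α t = ul U α t := by
  simp [uL, ul]

lemma pd_comp_ul {h h' : ℝ → ℝ} (hh : ∀ z, HasDerivAt h (h' z) z) (U : Matrix (Fin m) (Fin m) ℝ)
    (α i : Fin m) (t : E m) :
    pd i (fun t => h (ul U α t)) t = U i α * h' (ul U α t) := by
  have h1 : HasFDerivAt (ul U α) (uL U α) t := by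
    have := (uL U α).hasFDerivAt (x := t)
    have e : (⇑(uL U α)) = ul U α := funext (uL_apply U α)
    rwa [e] at this
  have h2 := (hh (ul U α t)).comp_hasFDerivAt t h1
  unfold pd
  have h3 : fderiv ℝ (fun t => h (ul U α t)) t = h' (ul U α t) • uL U α := h2.fderiv
  rw [h3]
  simp [uL]
  ring

lemma pg_ul (U : Matrix (Fin m) (Fin m) ℝ) (α : Fin m) : PG (ul U α) := by
  unfold ul
  exact PG.sum _ fun k _ => (pg_const (U k α)).mul (pg_coord k)

lemma pg_mu_ul (U : Matrix (Fin m) (Fin m) ℝ) (α : Fin m) : PG (fun t : E m => mu (ul U α t)) := by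
  refine PG.mono ((pg_const (mu 0)).add (pg_ul U α).abs) fun t => ?_
  have h := mu_le (ul U α t)
  exact h.trans (le_abs_self _)

lemma pg_kk_ul (U : Matrix (Fin m) (Fin m) ℝ) (α : Fin m) : PG (fun t : E m => kk (ul U α t)) := by
  refine PG.mono ((pg_const (kk 0)).add (((pg_const (mu 0)).add (pg_ul U α).abs).mul
    (pg_ul U α).abs)) fun t => ?_
  have h := kk_le' (ul U α t)
  exact h.trans (le_abs_self _)

lemma c1_kk (U : Matrix (Fin m) (Fin m) ℝ) (α : Fin m) : C1 (fun t : E m => kk (ul U α t)) := by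
  refine ⟨?_, pg_kk_ul U α, fun i => ?_⟩
  · have h1 : ContDiff ℝ 1 kk := by
      rw [contDiff_one_iff_deriv]
      refine ⟨fun z => (kk_hasDerivAt z).differentiableAt, ?_⟩
      have : deriv kk = mu := funext fun z => (kk_hasDerivAt z).deriv
      rw [this]; exact mu_cont
    have h2 := h1.comp (uL U α).contDiff
    have e : kk ∘ (⇑(uL U α)) = fun t : E m => kk (ul U α t) := by
      funext t; simp [uL_apply]
    rwa [e] at h2
  · have : pd i (fun t : E m => kk (ul U α t)) = fun t => U i α * mu (ul U α t) :=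
      funext fun t => pd_comp_ul kk_hasDerivAt U α i t
    rw [this]
    exact (pg_const _).mul (pg_mu_ul U α)

/-- the limit map (up to constants) -/
def Ginf (U : Matrix (Fin m) (Fin m) ℝ) (i : Fin m) (t : E m) : ℝ := ∑ α, U i α * kk (ul U α t)

/-- its Jacobian -/
def Minf (U : Matrix (Fin m) (Fin m) ℝ) (i j : Fin m) (t : E m) : ℝ :=
  ∑ α, U i α * U j α * mu (ul U α t)

lemma c1_Ginf (U : Matrix (Fin m) (Fin m) ℝ) (i : Fin m) : C1 (Ginf U i) := by
  unfold Ginf
  exact C1.sum fun α _ => (c1_kk U α).smul _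

lemma pd_Ginf (U : Matrix (Fin m) (Fin m) ℝ) (i j : Fin m) (t : E m) :
    pd j (Ginf U i) t = Minf U i j t := by
  unfold Ginf Minf
  rw [pd_sum' (fun α _ => (c1_kk U α).smul _)]
  refine Finset.sum_congr rfl fun α _ => ?_
  rw [(c1_const (U i α)).pd_mul (c1_kk U α) j t, pd_comp_ul kk_hasDerivAt U α j t]
  have : pd j (fun _ : E m => U i α) t = 0 := by simp [pd]
  rw [this]
  ring

/-! ### `L²` convergence of the centred maps -/

/-- centred function -/
def cen (f : E m → ℝ) (t : E m) : ℝ := f t - ∫ s, f s ∂(gam m)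

lemma c1_cen {f : E m → ℝ} (hf : C1 f) : C1 (cen f) := by
  unfold cen
  exact hf.sub (c1_const _)

lemma C1.integrable {f : E m → ℝ} (hf : C1 f) : Integrable f (gam m) :=
  integrable_of_PG hf.cont hf.g

lemma poincare_cen {f g : E m → ℝ} (hf : C1 f) (hg : C1 g) :
    ∫ t, (cen f t - cen g t) ^ 2 ∂(gam m) ≤ ∑ j, ∫ t, (pd j f t - pd j g t) ^ 2 ∂(gam m) := by
  have h1 : C1 (fun t => cen f t - cen g t) := (c1_cen hf).sub (c1_cen hg)
  have h := poincare1 h1
  have h0 : ∫ t, (cen f t - cen g t) ∂(gam m) = 0 := by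
    have hf' := C1.integrable hf
    have hg' := C1.integrable hg
    have e : ∀ t, cen f t - cen g t = (f t - g t) - ((∫ s, f s ∂(gam m)) - ∫ s, g s ∂(gam m)) := by
      intro t; unfold cen; ring
    simp_rw [e]
    have hfg : Integrable (fun t => f t - g t) (gam m) := hf'.sub hg'
    rw [integral_sub hfg (integrable_const _), integral_sub hf' hg']
    simp
  rw [h0] at h
  have hpd : ∀ j t, pd j (fun t => cen f t - cen g t) t = pd j f t - pd j g t := by
    intro j t
    have e : (fun t => cen f t - cen g t) = fun t => (f t + (-1) * g t) +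
        (-((∫ s, f s ∂(gam m)) - ∫ s, g s ∂(gam m))) := by
      funext t; unfold cen; ring
    rw [e, (hf.add (hg.smul (-1))).pd_add (c1_const _) j t, hf.pd_add (hg.smul (-1)) j t,
      (c1_const (-1 : ℝ)).pd_mul hg j t]
    simp [pd]
    ring
  simp_rw [hpd] at h
  simpa using h

theorem tendsto_cen {U : Matrix (Fin m) (Fin m) ℝ}
    {G : ℕ → Fin m → E m → ℝ} {M : ℕ → Fin m → Fin m → E m → ℝ} (hd : ∀ n, HD (G n) (M n))
    (hM : ∀ i j, Tendsto (fun n => ∫ t, (M n i j t - Minf U i j t) ^ 2 ∂(gam m)) atTop (𝓝 0))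
    (i : Fin m) :
    Tendsto (fun n => ∫ t, (cen (G n i) t - cen (Ginf U i) t) ^ 2 ∂(gam m)) atTop (𝓝 0) := by
  have h1 : Tendsto (fun n => ∑ j, ∫ t, (M n i j t - Minf U i j t) ^ 2 ∂(gam m)) atTop (𝓝 0) := by
    have := tendsto_finsetSum (Finset.univ : Finset (Fin m)) fun j _ => hM i j
    simpa using this
  refine squeeze_zero (fun n => integral_nonneg fun t => sq_nonneg _) (fun n => ?_) h1
  have h2 := poincare_cen ((hd n).g i) (c1_Ginf U i)
  simp_rw [pd_Ginf] at h2
  have h3 : ∀ j, pd j (G n i) = M n i j := fun j => (hd n).d i j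
  simp_rw [h3] at h2
  exact h2

/-! ### Cauchy–Schwarz -/

lemma cs_gam {f g : E m → ℝ} (hf : C1 f) (hg : C1 g) :
    |∫ t, f t * g t ∂(gam m)| ≤ √(∫ t, f t ^ 2 ∂(gam m)) * √(∫ t, g t ^ 2 ∂(gam m)) := by
  have if2 : Integrable (fun t => f t ^ 2) (gam m) := integrable_of_PG (hf.cont.pow 2) (hf.g.pow 2)
  have ig2 : Integrable (fun t => g t ^ 2) (gam m) := integrable_of_PG (hg.cont.pow 2) (hg.g.pow 2)
  have ifg : Integrable (fun t => f t * g t) (gam m) :=
    integrable_of_PG (hf.cont.mul hg.cont) (hf.g.mul hg.g)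
  set a := ∫ t, f t ^ 2 ∂(gam m)
  set b := ∫ t, g t ^ 2 ∂(gam m)
  set c := ∫ t, f t * g t ∂(gam m)
  have ha : 0 ≤ a := integral_nonneg fun _ => sq_nonneg _
  have hb : 0 ≤ b := integral_nonneg fun _ => sq_nonneg _
  have hq : ∀ s : ℝ, 0 ≤ a * (s * s) + (2 * c) * s + b := by
    intro s
    have h1 : 0 ≤ ∫ t, (s * f t + g t) ^ 2 ∂(gam m) := integral_nonneg fun _ => sq_nonneg _
    have h2 : ∫ t, (s * f t + g t) ^ 2 ∂(gam m) = a * (s * s) + (2 * c) * s + b := by
      have e : ∀ t, (s * f t + g t) ^ 2 = s ^ 2 * f t ^ 2 + 2 * s * (f t * g t) + g t ^ 2 := by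
        intro t; ring
      simp_rw [e]
      have j1 : Integrable (fun t => s ^ 2 * f t ^ 2) (gam m) := if2.const_mul _
      have j2 : Integrable (fun t => 2 * s * (f t * g t)) (gam m) := ifg.const_mul _
      have j12 : Integrable (fun t => s ^ 2 * f t ^ 2 + 2 * s * (f t * g t)) (gam m) := j1.add j2
      rw [integral_add j12 ig2, integral_add j1 j2, integral_const_mul, integral_const_mul]
      ring
    rwa [h2] at h1
  have hdisc := discrim_le_zero hq
  unfold discrim at hdisc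
  have h3 : c ^ 2 ≤ a * b := by nlinarith
  rw [← Real.sqrt_mul ha]
  exact Real.abs_le_sqrt h3

/-- convergence of products -/
theorem tendsto_cov {f g : ℕ → E m → ℝ} {f0 g0 : E m → ℝ} (hf : ∀ n, C1 (f n)) (hg : ∀ n, C1 (g n))
    (hf0 : C1 f0) (hg0 : C1 g0)
    (h1 : Tendsto (fun n => ∫ t, (f n t - f0 t) ^ 2 ∂(gam m)) atTop (𝓝 0))
    (h2 : Tendsto (fun n => ∫ t, (g n t - g0 t) ^ 2 ∂(gam m)) atTop (𝓝 0)) :
    Tendsto (fun n => ∫ t, f n t * g n t ∂(gam m)) atTop (𝓝 (∫ t, f0 t * g0 t ∂(gam m))) := by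
  rw [tendsto_iff_norm_sub_tendsto_zero]
  have s1 : Tendsto (fun n => √(∫ t, (f n t - f0 t) ^ 2 ∂(gam m))) atTop (𝓝 0) := by
    have := (Real.continuous_sqrt.tendsto 0).comp h1
    rwa [Real.sqrt_zero] at this
  have s2 : Tendsto (fun n => √(∫ t, (g n t - g0 t) ^ 2 ∂(gam m))) atTop (𝓝 0) := by
    have := (Real.continuous_sqrt.tendsto 0).comp h2
    rwa [Real.sqrt_zero] at this
  have s3 : Tendsto (fun n => √(∫ t, (f n t - f0 t) ^ 2 ∂(gam m)) *
      √(∫ t, (g n t - g0 t) ^ 2 ∂(gam m)) +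
      √(∫ t, (f n t - f0 t) ^ 2 ∂(gam m)) * √(∫ t, g0 t ^ 2 ∂(gam m)) +
      √(∫ t, f0 t ^ 2 ∂(gam m)) * √(∫ t, (g n t - g0 t) ^ 2 ∂(gam m))) atTop (𝓝 0) := by
    have := ((s1.mul s2).add (s1.mul_const (√(∫ t, g0 t ^ 2 ∂(gam m))))).add
      (s2.const_mul (√(∫ t, f0 t ^ 2 ∂(gam m))))
    simpa using this
  refine squeeze_zero (fun n => norm_nonneg _) (fun n => ?_) s3
  have cf : C1 (fun t => f n t - f0 t) := (hf n).sub hf0
  have cg : C1 (fun t => g n t - g0 t) := (hg n).sub hg0
  have i1 := C1.integrable (cf.mul cg)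
  have i2 := C1.integrable (cf.mul hg0)
  have i3 := C1.integrable (hf0.mul cg)
  have i4 := C1.integrable (hf0.mul hg0)
  have e : (∫ t, f n t * g n t ∂(gam m)) - ∫ t, f0 t * g0 t ∂(gam m) =
      (∫ t, (f n t - f0 t) * (g n t - g0 t) ∂(gam m)) + (∫ t, (f n t - f0 t) * g0 t ∂(gam m)) +
        ∫ t, f0 t * (g n t - g0 t) ∂(gam m) := by
    have e1 : ∀ t, f n t * g n t = ((f n t - f0 t) * (g n t - g0 t) + (f n t - f0 t) * g0 t) +
        f0 t * (g n t - g0 t) + f0 t * g0 t := by intro t; ring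
    simp_rw [e1]
    have i12 : Integrable (fun t => (f n t - f0 t) * (g n t - g0 t) + (f n t - f0 t) * g0 t)
      (gam m) := i1.add i2
    have i123 : Integrable (fun t => (f n t - f0 t) * (g n t - g0 t) + (f n t - f0 t) * g0 t +
      f0 t * (g n t - g0 t)) (gam m) := i12.add i3
    rw [integral_add i123 i4, integral_add i12 i3, integral_add i1 i2]
    ring
  rw [Real.norm_eq_abs, e]
  refine (abs_add_le _ _).trans (add_le_add ((abs_add_le _ _).trans (add_le_add ?_ ?_)) ?_)
  · exact cs_gam cf cg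
  · exact cs_gam cf hg0
  · exact cs_gam hf0 cg

/-! ### covariance of the limit -/

lemma integrable_kk (U : Matrix (Fin m) (Fin m) ℝ) (α : Fin m) :
    Integrable (fun t : E m => kk (ul U α t)) (gam m) := C1.integrable (c1_kk U α)

lemma integral_kk {U : Matrix (Fin m) (Fin m) ℝ} (hU : U.transpose * U = 1) (α : Fin m) :
    ∫ t, kk (ul U α t) ∂(gam m) = 1 := by
  have h := integral_frame hU (F := fun u => u α) (measurable_pi_apply α)
  rw [(eP_lin α).2] at h
  exact h

lemma integral_kk_kk {U : Matrix (Fin m) (Fin m) ℝ} (hU : U.transpose * U = 1) (α β : Fin m) :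
    ∫ t, (kk (ul U α t) - 1) * (kk (ul U β t) - 1) ∂(gam m) = if α = β then 1 else 0 := by
  have h := integral_frame hU (F := fun u => (u α - 1) * (u β - 1))
    (((measurable_pi_apply α).sub_const _).mul ((measurable_pi_apply β).sub_const _))
  rw [(eP_quad α β).2] at h
  exact h

lemma integral_Ginf {U : Matrix (Fin m) (Fin m) ℝ} (hU : U.transpose * U = 1) (i : Fin m) :
    ∫ t, Ginf U i t ∂(gam m) = ∑ α, U i α := by
  unfold Ginf
  rw [integral_finsetSum _ fun α _ => (integrable_kk U α).const_mul _]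
  refine Finset.sum_congr rfl fun α _ => ?_
  rw [integral_const_mul, integral_kk hU, mul_one]

lemma cen_Ginf {U : Matrix (Fin m) (Fin m) ℝ} (hU : U.transpose * U = 1) (i : Fin m) (t : E m) :
    cen (Ginf U i) t = ∑ α, U i α * (kk (ul U α t) - 1) := by
  unfold cen
  rw [integral_Ginf hU]
  unfold Ginf
  rw [← Finset.sum_sub_distrib]
  exact Finset.sum_congr rfl fun α _ => by ring

lemma cov_Ginf {U : Matrix (Fin m) (Fin m) ℝ} (hU : U.transpose * U = 1) (i j : Fin m) :
    ∫ t, cen (Ginf U i) t * cen (Ginf U j) t ∂(gam m) = if i = j then 1 else 0 := by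
  have hU' : U * U.transpose = 1 := mul_eq_one_comm.1 hU
  have e : ∀ t : E m, cen (Ginf U i) t * cen (Ginf U j) t = ∑ α, ∑ β,
      (U i α * U j β) * ((kk (ul U α t) - 1) * (kk (ul U β t) - 1)) := by
    intro t
    rw [cen_Ginf hU, cen_Ginf hU, Finset.sum_mul_sum]
    refine Finset.sum_congr rfl fun α _ => Finset.sum_congr rfl fun β _ => by ring
  simp_rw [e]
  have hint : ∀ α β : Fin m, Integrable (fun t : E m => (kk (ul U α t) - 1) *
      (kk (ul U β t) - 1)) (gam m) := fun α β =>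
    C1.integrable (((c1_kk U α).sub (c1_const 1)).mul ((c1_kk U β).sub (c1_const 1)))
  rw [integral_finsetSum _ fun α _ => integrable_finsetSum _ fun β _ => (hint α β).const_mul _]
  have e2 : ∀ α, ∫ t, ∑ β, (U i α * U j β) * ((kk (ul U α t) - 1) * (kk (ul U β t) - 1)) ∂(gam m)
      = U i α * U j α := by
    intro α
    rw [integral_finsetSum _ fun β _ => (hint α β).const_mul _]
    simp_rw [integral_const_mul, integral_kk_kk hU]
    simp
  simp_rw [e2]
  have := congrFun (congrFun hU' i) j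
  rw [Matrix.mul_apply, Matrix.one_apply] at this
  simpa [Matrix.transpose_apply] using this

lemma CovG_eq_cen {G : Fin m → E m → ℝ} (hG : ∀ i, C1 (G i)) (i j : Fin m) :
    Push.CovG G i j = ∫ t, cen (G i) t * cen (G j) t ∂(gam m) := by
  have hi := C1.integrable (hG i)
  have hj := C1.integrable (hG j)
  have hij := C1.integrable ((hG i).mul (hG j))
  unfold Push.CovG cen
  simp only [Matrix.of_apply]
  set a := ∫ t, G i t ∂(gam m)
  set b := ∫ t, G j t ∂(gam m)
  have e : ∀ t, (G i t - a) * (G j t - b) = (G i t * G j t - a * G j t) - (b * G i t - a * b) := by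
    intro t; ring
  simp_rw [e]
  have j1 : Integrable (fun t => G i t * G j t - a * G j t) (gam m) := hij.sub (hj.const_mul a)
  have j2 : Integrable (fun t => b * G i t - a * b) (gam m) :=
    (hi.const_mul b).sub (integrable_const _)
  rw [integral_sub j1 j2, integral_sub hij (hj.const_mul a),
    integral_sub (hi.const_mul b) (integrable_const _), integral_const_mul, integral_const_mul]
  simp
  ring

theorem tendsto_CovG {U : Matrix (Fin m) (Fin m) ℝ} (hU : U.transpose * U = 1)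
    {G : ℕ → Fin m → E m → ℝ} {M : ℕ → Fin m → Fin m → E m → ℝ} (hd : ∀ n, HD (G n) (M n))
    (hM : ∀ i j, Tendsto (fun n => ∫ t, (M n i j t - Minf U i j t) ^ 2 ∂(gam m)) atTop (𝓝 0))
    (i j : Fin m) :
    Tendsto (fun n => Push.CovG (G n) i j) atTop (𝓝 (if i = j then 1 else 0)) := by
  rw [← cov_Ginf hU i j]
  simp_rw [fun n => CovG_eq_cen (hd n).g i j]
  exact tendsto_cov (fun n => c1_cen ((hd n).g i)) (fun n => c1_cen ((hd n).g j))
    (c1_cen (c1_Ginf U i)) (c1_cen (c1_Ginf U j)) (tendsto_cen hd hM i) (tendsto_cen hd hM j)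

/-! ### the matrices `B n` are bounded -/

lemma entry_BCB (B C : Matrix (Fin m) (Fin m) ℝ) (i j : Fin m) :
    (B * C * B.transpose) i j = ∑ k, ∑ l, B i k * C k l * B j l := by
  rw [Matrix.mul_apply]
  simp only [Matrix.mul_apply, Matrix.transpose_apply, Finset.sum_mul]
  rw [Finset.sum_comm]

lemma B_bound {B C : Matrix (Fin m) (Fin m) ℝ} {ε : ℝ} (hε : ε * m ≤ 1 / 2)
    (hC : ∀ k l, |C k l - if k = l then 1 else 0| ≤ ε) (i : Fin m) :
    ∑ k, B i k ^ 2 ≤ 2 * (B * C * B.transpose) i i := by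
  rw [entry_BCB]
  have e : ∑ k, ∑ l, B i k * C k l * B i l = ∑ k, B i k ^ 2 +
      ∑ k, ∑ l, B i k * (C k l - if k = l then 1 else 0) * B i l := by
    have e1 : ∀ k, ∑ l, B i k * C k l * B i l = B i k ^ 2 +
        ∑ l, B i k * (C k l - if k = l then 1 else 0) * B i l := by
      intro k
      have : B i k ^ 2 = ∑ l, B i k * (if k = l then 1 else 0) * B i l := by
        simp [sq]
      rw [this, ← Finset.sum_add_distrib]
      exact Finset.sum_congr rfl fun l _ => by ring
    rw [Finset.sum_congr rfl fun k _ => e1 k, Finset.sum_add_distrib]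
  have e2 : -(ε * m * ∑ k, B i k ^ 2) ≤
      ∑ k, ∑ l, B i k * (C k l - if k = l then 1 else 0) * B i l := by
    have h1 : ∀ k l, -(ε * (B i k ^ 2 + B i l ^ 2) / 2) ≤
        B i k * (C k l - if k = l then 1 else 0) * B i l := by
      intro k l
      have hc := hC k l
      have hε0 : 0 ≤ ε := (abs_nonneg _).trans hc
      set x := C k l - if k = l then 1 else 0
      have h2 : |B i k * x * B i l| ≤ ε * (B i k ^ 2 + B i l ^ 2) / 2 := by
        rw [abs_mul, abs_mul]
        have h3 : |B i k| * |B i l| ≤ (B i k ^ 2 + B i l ^ 2) / 2 := by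
          have := sq_nonneg (|B i k| - |B i l|)
          have a1 := sq_abs (B i k)
          have a2 := sq_abs (B i l)
          nlinarith
        calc |B i k| * |x| * |B i l| = |x| * (|B i k| * |B i l|) := by ring
          _ ≤ ε * ((B i k ^ 2 + B i l ^ 2) / 2) :=
            mul_le_mul hc h3 (by positivity) hε0
          _ = _ := by ring
      exact (abs_le.1 h2).1
    have h4 : ∑ k, ∑ l, -(ε * (B i k ^ 2 + B i l ^ 2) / 2) = -(ε * m * ∑ k, B i k ^ 2) := by
      have : ∀ k, ∑ l, -(ε * (B i k ^ 2 + B i l ^ 2) / 2) =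
          -(ε * m * B i k ^ 2) / 2 - ε * (∑ l, B i l ^ 2) / 2 := by
        intro k
        have : ∀ l, -(ε * (B i k ^ 2 + B i l ^ 2) / 2) = -(ε * B i k ^ 2) / 2 -
            ε / 2 * B i l ^ 2 := fun l => by ring
        simp_rw [this]
        rw [Finset.sum_sub_distrib, ← Finset.mul_sum]
        simp
        ring
      simp_rw [this]
      rw [Finset.sum_sub_distrib, ← Finset.sum_div, Finset.sum_neg_distrib, ← Finset.mul_sum]
      simp
      ring
    rw [← h4]
    exact Finset.sum_le_sum fun k _ => Finset.sum_le_sum fun l _ => h1 k l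
  rw [e]
  have h0 : 0 ≤ ∑ k, B i k ^ 2 := Finset.sum_nonneg fun _ _ => sq_nonneg _
  nlinarith

/-- subsequence along which `B n` converges, with limit `B` such that `B Bᵀ = S` -/
theorem exists_B {C B : ℕ → Matrix (Fin m) (Fin m) ℝ} {S : Matrix (Fin m) (Fin m) ℝ}
    (hC : ∀ i j, Tendsto (fun n => C n i j) atTop (𝓝 (if i = j then 1 else 0)))
    (hcov : ∀ i j, Tendsto (fun n => (B n * C n * (B n).transpose) i j) atTop (𝓝 (S i j))) :
    ∃ (φ : ℕ → ℕ) (B0 : Matrix (Fin m) (Fin m) ℝ), StrictMono φ ∧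
      (∀ i j, Tendsto (fun n => B (φ n) i j) atTop (𝓝 (B0 i j))) ∧ B0 * B0.transpose = S := by
  -- eventually the entries are bounded
  set ε : ℝ := 1 / (2 * (m + 1)) with hε
  have hεpos : 0 < ε := by positivity
  have hεm : ε * m ≤ 1 / 2 := by
    rw [hε, div_mul_eq_mul_div, div_le_div_iff₀ (by positivity) (by norm_num)]
    linarith
  have ev1 : ∀ᶠ n in atTop, ∀ i j, |C n i j - if i = j then 1 else 0| ≤ ε := by
    rw [eventually_all]; intro i
    rw [eventually_all]; intro j
    have := (Metric.tendsto_nhds.1 (hC i j)) ε hεpos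
    filter_upwards [this] with n hn
    rw [Real.dist_eq] at hn
    exact hn.le
  have ev2 : ∀ᶠ n in atTop, ∀ i, (B n * C n * (B n).transpose) i i ≤ S i i + 1 := by
    rw [eventually_all]; intro i
    have := (hcov i i).eventually (gt_mem_nhds (show S i i < S i i + 1 by linarith))
    filter_upwards [this] with n hn
    exact le_of_lt hn
  obtain ⟨R, hR⟩ : ∃ R : ℝ, ∀ i, 2 * (S i i + 1) ≤ R := by
    refine ⟨∑ i, |2 * (S i i + 1)|, fun i => (le_abs_self _).trans ?_⟩
    exact Finset.single_le_sum (f := fun i => |2 * (S i i + 1)|) (fun _ _ => abs_nonneg _)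
      (Finset.mem_univ i)
  have ev3 : ∀ᶠ n in atTop, ∀ i j, |B n i j| ≤ √R := by
    filter_upwards [ev1, ev2] with n h1 h2 i j
    have h3 := B_bound (B := B n) hεm h1 i
    have h4 : B n i j ^ 2 ≤ ∑ k, B n i k ^ 2 :=
      Finset.single_le_sum (f := fun k => B n i k ^ 2) (fun _ _ => sq_nonneg _) (Finset.mem_univ j)
    apply Real.abs_le_sqrt
    have := h2 i
    have := hR i
    linarith
  have hcomp : IsCompact (Set.pi Set.univ fun _ : Fin m => Set.pi Set.univ fun _ : Fin m =>
      Set.Icc (-√R) (√R)) :=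
    isCompact_univ_pi fun _ => isCompact_univ_pi fun _ => isCompact_Icc
  obtain ⟨N, hN⟩ := eventually_atTop.1 ev3
  have hmem : ∀ n, (fun i j => B (n + N) i j : Fin m → Fin m → ℝ) ∈
      (Set.pi Set.univ fun _ : Fin m => Set.pi Set.univ fun _ : Fin m =>
      Set.Icc (-√R) (√R)) := by
    intro n i _ j _
    exact abs_le.1 (hN (n + N) (Nat.le_add_left _ _) i j)
  obtain ⟨B0, _, φ, hφ, hlim⟩ := hcomp.tendsto_subseq hmem
  have hB : ∀ i j, Tendsto (fun n => B (φ n + N) i j) atTop (𝓝 (B0 i j)) := by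
    intro i j
    exact tendsto_pi_nhds.1 (tendsto_pi_nhds.1 hlim i) j
  have hmono : StrictMono fun n => φ n + N := fun a b hab => Nat.add_lt_add_right (hφ hab) N
  refine ⟨fun n => φ n + N, Matrix.of B0, hmono, hB, ?_⟩
  ext i j
  have h1 := (hcov i j).comp hmono.tendsto_atTop
  have h2 : Tendsto ((fun n => (B n * C n * (B n).transpose) i j) ∘ fun n => φ n + N) atTop
      (𝓝 (∑ k, ∑ l, B0 i k * (if k = l then 1 else 0) * B0 j l)) := by
    have e : ((fun n => (B n * C n * (B n).transpose) i j) ∘ fun n => φ n + N) =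
        fun n => ∑ k, ∑ l, B (φ n + N) i k * C (φ n + N) k l * B (φ n + N) j l := by
      funext n
      simp only [Function.comp_apply]
      rw [entry_BCB]
    rw [e]
    refine tendsto_finsetSum _ fun k _ => tendsto_finsetSum _ fun l _ => ?_
    exact ((hB i k).mul ((hC k l).comp hmono.tendsto_atTop)).mul (hB j l)
  have h3 := tendsto_nhds_unique h2 h1
  rw [← h3, Matrix.mul_apply]
  simp [Matrix.transpose_apply]

/-! ### almost everywhere convergence along a subsequence -/

theorem exists_ae {G : ℕ → Fin m → E m → ℝ} {g : Fin m → E m → ℝ} (hG : ∀ n i, C1 (G n i))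
    (hg : ∀ i, C1 (g i))
    (h : ∀ i, Tendsto (fun n => ∫ t, (G n i t - g i t) ^ 2 ∂(gam m)) atTop (𝓝 0)) :
    ∃ φ : ℕ → ℕ, StrictMono φ ∧ ∀ᵐ t ∂(gam m), ∀ i, Tendsto (fun n => G (φ n) i t) atTop
      (𝓝 (g i t)) := by
  set F : ℕ → E m → ℝ := fun n t => ∑ i, (G n i t - g i t) ^ 2 with hF
  have cF : ∀ n, C1 (F n) := fun n => by
    rw [hF]
    refine C1.sum fun i _ => ?_
    have := ((hG n i).sub (hg i)).mul ((hG n i).sub (hg i))
    refine (iff_of_eq (congrArg _ ?_)).mp this
    funext t; ring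
  have hF0 : ∀ n t, 0 ≤ F n t := fun n t => Finset.sum_nonneg fun _ _ => sq_nonneg _
  have h1 : Tendsto (fun n => ∫ t, F n t ∂(gam m)) atTop (𝓝 0) := by
    have h2 : ∀ n, ∫ t, F n t ∂(gam m) = ∑ i, ∫ t, (G n i t - g i t) ^ 2 ∂(gam m) := by
      intro n
      rw [hF]
      refine integral_finsetSum _ fun i _ => ?_
      have := ((hG n i).sub (hg i)).mul ((hG n i).sub (hg i))
      have h3 := C1.integrable this
      refine h3.congr (ae_of_all _ fun t => ?_)
      simp only []
      ring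
    simp_rw [h2]
    have := tendsto_finsetSum (Finset.univ : Finset (Fin m)) fun j _ => h j
    simpa using this
  have h2 : Tendsto (fun n => eLpNorm (F n - (fun _ => (0:ℝ))) 1 (gam m)) atTop (𝓝 0) := by
    have e : ∀ n, eLpNorm (F n - (fun _ => (0:ℝ))) 1 (gam m)
        = ENNReal.ofReal (∫ t, F n t ∂(gam m)) := by
      intro n
      rw [eLpNorm_one_eq_lintegral_enorm, ofReal_integral_eq_lintegral_ofReal
        (C1.integrable (cF n)) (ae_of_all _ (hF0 n))]
      refine lintegral_congr fun t => ?_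
      simp only [Pi.sub_apply, sub_zero]
      rw [Real.enorm_eq_ofReal (hF0 n t)]
    simp_rw [e]
    have := (ENNReal.continuous_ofReal.tendsto 0).comp h1
    rwa [ENNReal.ofReal_zero] at this
  have h3 := tendstoInMeasure_of_tendsto_eLpNorm one_ne_zero
    (fun n => (cF n).cont.aestronglyMeasurable) aestronglyMeasurable_const h2
  obtain ⟨φ, hφ, hae⟩ := h3.exists_seq_tendsto_ae
  refine ⟨φ, hφ, ?_⟩
  filter_upwards [hae] with t ht i
  rw [tendsto_iff_norm_sub_tendsto_zero]
  have h4 : Tendsto (fun n => √(F (φ n) t)) atTop (𝓝 0) := by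
    have := (Real.continuous_sqrt.tendsto 0).comp ht
    rwa [Real.sqrt_zero] at this
  refine squeeze_zero (fun n => norm_nonneg _) (fun n => ?_) h4
  rw [Real.norm_eq_abs]
  apply Real.abs_le_sqrt
  exact Finset.single_le_sum (f := fun i => (G (φ n) i t - g i t) ^ 2) (fun _ _ => sq_nonneg _)
    (Finset.mem_univ i)

/-! ### the final theorem -/

theorem law_final {f : (Fin m → ℝ) → ℝ} (hf : Measurable f) (hf0 : ∀ x, 0 ≤ f x)
    (hf1 : ∫ x, f x = 1) {U : Matrix (Fin m) (Fin m) ℝ} (hU : U.transpose * U = 1)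
    {G : ℕ → Fin m → E m → ℝ} {M : ℕ → Fin m → Fin m → E m → ℝ} (hd : ∀ n, HD (G n) (M n))
    (hM : ∀ i j, Tendsto (fun n => ∫ t, (M n i j t - Minf U i j t) ^ 2 ∂(gam m)) atTop (𝓝 0))
    {B : ℕ → Matrix (Fin m) (Fin m) ℝ} {b : ℕ → Fin m → ℝ} {S : Matrix (Fin m) (Fin m) ℝ}
    {c : Fin m → ℝ} (hS : S.det ≠ 0)
    (hcov : ∀ i j, Tendsto (fun n => (B n * Push.CovG (G n) * (B n).transpose) i j) atTop (𝓝 (S i j)))
    (hmean : ∀ i, Tendsto (fun n => b n i + ∑ j, B n i j * ∫ t, G n j t ∂(gam m)) atTop (𝓝 (c i)))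
    (hw : ∀ ψ : BoundedContinuousFunction (Fin m → ℝ) ℝ,
      Tendsto (fun n => ∫ t, ψ (b n + (B n).mulVec (Gp (G n) t)) ∂(gam m)) atTop
        (𝓝 (∫ x, ψ x * f x))) :
    ∃ (M' : Matrix (Fin m) (Fin m) ℝ) (b' : Fin m → ℝ), M'.det ≠ 0 ∧ f =ᵐ[volume] eM M' b' := by
  obtain ⟨φ1, B0, hφ1, hB0, hBS⟩ := exists_B (fun i j => tendsto_CovG hU hd hM i j) hcov
  have hcen : ∀ i, Tendsto (fun n => ∫ t, (cen (G (φ1 n) i) t - cen (Ginf U i) t) ^ 2 ∂(gam m))
      atTop (𝓝 0) := fun i => (tendsto_cen hd hM i).comp hφ1.tendsto_atTop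
  obtain ⟨φ2, hφ2, hae⟩ := exists_ae (G := fun n i => cen (G (φ1 n) i))
    (g := fun i => cen (Ginf U i)) (fun n i => c1_cen ((hd _).g i))
    (fun i => c1_cen (c1_Ginf U i)) hcen
  have hB0det : B0.det ≠ 0 := by
    intro h0
    apply hS
    rw [← hBS, Matrix.det_mul, h0, zero_mul]
  have hUdet : U.det ≠ 0 := by
    intro h0
    have := congrArg Matrix.det hU
    rw [Matrix.det_mul, h0, mul_zero, Matrix.det_one] at this
    exact zero_ne_one this
  refine ⟨B0 * U, fun i => c i - ∑ j, B0 i j * ∑ α, U j α, ?_, ?_⟩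
  · rw [Matrix.det_mul]; exact mul_ne_zero hB0det hUdet
  refine law_unique hf hf0 hf1 hU (by rw [Matrix.det_mul]; exact mul_ne_zero hB0det hUdet) ?_
  intro ψ
  set φ : ℕ → ℕ := fun n => φ1 (φ2 n) with hφ
  have hφt : Tendsto φ atTop atTop := hφ1.tendsto_atTop.comp hφ2.tendsto_atTop
  have h1 := (hw ψ).comp hφt
  have h2 : Tendsto (fun n => ∫ t, ψ (b (φ n) + (B (φ n)).mulVec (Gp (G (φ n)) t)) ∂(gam m))
      atTop (𝓝 (∫ t, ψ ((fun i => c i - ∑ j, B0 i j * ∑ α, U j α) +
        (B0 * U).mulVec (fun α => kk (ul U α t))) ∂(gam m))) := by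
    refine tendsto_integral_of_dominated_convergence (fun _ => ‖ψ‖) (fun n => ?_)
      (integrable_const _) (fun n => ae_of_all _ fun t => ψ.norm_coe_le_norm _) ?_
    · have hc : Continuous (fun t : E m => b (φ n) + (B (φ n)).mulVec (Gp (G (φ n)) t)) := by
        refine continuous_const.add (Continuous.matrix_mulVec continuous_const ?_)
        exact continuous_pi fun i => ((hd (φ n)).g i).cont
      exact (ψ.continuous.comp hc).aestronglyMeasurable
    · filter_upwards [hae] with t ht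
      refine (ψ.continuous.tendsto _).comp ?_
      rw [tendsto_pi_nhds]
      intro i
      have e1 : ∀ n, (b n + (B n).mulVec (Gp (G n) t)) i =
          (b n i + ∑ j, B n i j * ∫ t, G n j t ∂(gam m)) + ∑ j, B n i j * cen (G n j) t := by
        intro n
        simp only [Pi.add_apply, Matrix.mulVec, dotProduct, Gp]
        rw [add_assoc, ← Finset.sum_add_distrib]
        congr 1
        refine Finset.sum_congr rfl fun j _ => ?_
        unfold cen
        ring
      have e2 : ((fun i => c i - ∑ j, B0 i j * ∑ α, U j α) +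
          (B0 * U).mulVec (fun α => kk (ul U α t))) i = c i + ∑ j, B0 i j * cen (Ginf U j) t := by
        have e3 : ∀ j, cen (Ginf U j) t = Ginf U j t - ∑ α, U j α := by
          intro j; unfold cen; rw [integral_Ginf hU]
        have e4 : (B0 * U).mulVec (fun α => kk (ul U α t)) i = ∑ j, B0 i j * Ginf U j t := by
          rw [← Matrix.mulVec_mulVec]
          rfl
        rw [Pi.add_apply, e4]
        simp_rw [e3, mul_sub, Finset.sum_sub_distrib]
        ring
      simp_rw [e1, e2]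
      refine ((hmean i).comp hφt).add (tendsto_finsetSum _ fun j _ => ?_)
      exact ((hB0 i j).comp hφ2.tendsto_atTop).mul (ht j)
  exact tendsto_nhds_unique h1 h2

end Crest.Agent.R253.EqD747
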