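import Crest.Agent.R253.EqD_747
import Crest.Agent.R253.CptF_435

/-!
# R253, equality case: closing theorem in terms of the densities (helper747)

`g k` = density of `G k` under the Gaussian (`Push`), `aff (g k) (A k) 0 → f` in `L¹`, with means and
covariances, and the Jacobians converge to `Minf U`: then `f` is the density of the equality case.
-/

set_option autoImplicit false

open MeasureTheory ProbabilityTheory Set Filter Topology
open scoped ENNReal NNReal ContDiff

noncomputable section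

namespace Crest.Agent.R253.EqE747

open Crest.Agent.R238.Gap Crest.Agent.R238.GapPoinc Crest.Agent.R238.GapPc
open Crest.Agent.R253.Meh74 Crest.Agent.R253.ChVar56
open Crest.Agent.R253.EqEasy505 Crest.Agent.R253.EqB747 Crest.Agent.R253.EqD747
open Crest.Agent.R253.Cpt435
open Crest.GeometryTopology.Isotropic

variable {m : ℕ}

lemma inv_mulVec_mulVec {A : Matrix (Fin m) (Fin m) ℝ} (hA : A.det ≠ 0) (u : Fin m → ℝ) :
    A⁻¹.mulVec ((0 : Fin m → ℝ) + A.mulVec u) = u := by
  rw [zero_add, Matrix.mulVec_mulVec, Matrix.nonsing_inv_mul A (isUnit_iff_ne_zero.2 hA),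
    Matrix.one_mulVec]

lemma measurable_mulVec (A : Matrix (Fin m) (Fin m) ℝ) : Measurable (fun x : Fin m → ℝ => A.mulVec x) :=
  (Continuous.matrix_mulVec continuous_const continuous_id).measurable

/-- expectations under `aff g A 0` -/
theorem integral_aff {G : Fin m → E m → ℝ} {M : Fin m → Fin m → E m → ℝ} {g : (Fin m → ℝ) → ℝ}
    (h : Push G M g) {A : Matrix (Fin m) (Fin m) ℝ} (hA : A.det ≠ 0) {ψ : (Fin m → ℝ) → ℝ}
    (hψ : Measurable ψ) :
    ∫ u, ψ u * aff g A 0 u = ∫ t, ψ (A⁻¹.mulVec (Gp G t)) ∂(gam m) := by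
  have h1 := integral_mul_aff g (fun x => ψ (A⁻¹.mulVec x)) h.fm (hψ.comp (measurable_mulVec _))
    A hA 0
  simp only [inv_mulVec_mulVec hA] at h1
  rw [h1]
  exact h.integral fun x => ψ (A⁻¹.mulVec x)

lemma densMean_aff' {G : Fin m → E m → ℝ} {M : Fin m → Fin m → E m → ℝ} {g : (Fin m → ℝ) → ℝ}
    (h : Push G M g) {A : Matrix (Fin m) (Fin m) ℝ} (hA : A.det ≠ 0) (i : Fin m) :
    densMean (aff g A 0) i = ∑ j, A⁻¹ i j * ∫ t, G j t ∂(gam m) := by
  unfold densMean
  rw [integral_aff h hA (measurable_pi_apply i)]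
  simp only [Matrix.mulVec, dotProduct, Gp]
  rw [integral_finsetSum _ fun j _ => (C1.integrable (h.hd.g j)).const_mul _]
  exact Finset.sum_congr rfl fun j _ => integral_const_mul _ _

lemma densCov_aff' {G : Fin m → E m → ℝ} {M : Fin m → Fin m → E m → ℝ} {g : (Fin m → ℝ) → ℝ}
    (h : Push G M g) {A : Matrix (Fin m) (Fin m) ℝ} (hA : A.det ≠ 0) (i j : Fin m) :
    densCov (aff g A 0) i j = (A⁻¹ * Push.CovG G * A⁻¹.transpose) i j := by
  have h1 : densCov (aff g A 0) i j = ∫ x, ((x i - densMean (aff g A 0) i) *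
      (x j - densMean (aff g A 0) j)) * aff g A 0 x := by
    unfold densCov
    simp only [Matrix.of_apply]
  have hm : Measurable (fun x : Fin m → ℝ => (x i - densMean (aff g A 0) i) *
      (x j - densMean (aff g A 0) j)) :=
    ((measurable_pi_apply i).sub_const _).mul ((measurable_pi_apply j).sub_const _)
  rw [h1, integral_aff h hA hm, entry_BCB]
  have e1 : ∀ (i : Fin m) (t : E m), A⁻¹.mulVec (Gp G t) i - densMean (aff g A 0) i =
      ∑ k, A⁻¹ i k * cen (G k) t := by
    intro i t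
    rw [densMean_aff' h hA i]
    simp only [Matrix.mulVec, dotProduct, Gp]
    rw [← Finset.sum_sub_distrib]
    refine Finset.sum_congr rfl fun k _ => ?_
    unfold cen; ring
  have e2 : ∀ t : E m, (A⁻¹.mulVec (Gp G t) i - densMean (aff g A 0) i) *
      (A⁻¹.mulVec (Gp G t) j - densMean (aff g A 0) j) =
      ∑ k, ∑ l, (A⁻¹ i k * A⁻¹ j l) * (cen (G k) t * cen (G l) t) := by
    intro t
    rw [e1, e1, Finset.sum_mul_sum]
    exact Finset.sum_congr rfl fun k _ => Finset.sum_congr rfl fun l _ => by ring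
  simp_rw [e2]
  have hint : ∀ k l, Integrable (fun t => cen (G k) t * cen (G l) t) (gam m) := fun k l =>
    C1.integrable ((c1_cen (h.hd.g k)).mul (c1_cen (h.hd.g l)))
  rw [integral_finsetSum _ fun k _ => integrable_finsetSum _ fun l _ => (hint k l).const_mul _]
  refine Finset.sum_congr rfl fun k _ => ?_
  rw [integral_finsetSum _ fun l _ => (hint k l).const_mul _]
  refine Finset.sum_congr rfl fun l _ => ?_
  rw [integral_const_mul, CovG_eq_cen h.hd.g k l]
  ring

lemma integrable_of_int_one {f : (Fin m → ℝ) → ℝ} (h : ∫ x, f x = 1) : Integrable f := by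
  by_contra hh
  rw [integral_undef hh] at h
  exact zero_ne_one h

/-- weak convergence from `L¹` convergence -/
lemma tendsto_bdd {f : (Fin m → ℝ) → ℝ} {p : ℕ → (Fin m → ℝ) → ℝ} (hf : Integrable f)
    (hp : ∀ k, Integrable (p k))
    (h : Tendsto (fun k => ∫ x, |p k x - f x|) atTop (𝓝 0))
    (ψ : BoundedContinuousFunction (Fin m → ℝ) ℝ) :
    Tendsto (fun k => ∫ x, ψ x * p k x) atTop (𝓝 (∫ x, ψ x * f x)) := by
  rw [tendsto_iff_norm_sub_tendsto_zero]
  have h2 : Tendsto (fun k => ‖ψ‖ * ∫ x, |p k x - f x|) atTop (𝓝 0) := by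
    have := h.const_mul ‖ψ‖
    simpa using this
  refine squeeze_zero (fun _ => norm_nonneg _) (fun k => ?_) h2
  have hb : ∀ q : (Fin m → ℝ) → ℝ, Integrable q → Integrable (fun x => ψ x * q x) := fun q hq =>
    hq.bdd_mul ψ.continuous.aestronglyMeasurable (ae_of_all _ fun x => ψ.norm_coe_le_norm x)
  rw [← integral_sub (hb _ (hp k)) (hb _ hf), ← integral_const_mul]
  refine norm_integral_le_of_norm_le (((hp k).sub hf).abs.const_mul _) (ae_of_all _ fun x => ?_)
  rw [← mul_sub, norm_mul]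
  exact mul_le_mul_of_nonneg_right (ψ.norm_coe_le_norm x) (norm_nonneg _)

/-- **closing theorem of the equality case** -/
theorem equality_close {f : (Fin m → ℝ) → ℝ} (hf : LCD f)
    {g : ℕ → (Fin m → ℝ) → ℝ} {A : ℕ → Matrix (Fin m) (Fin m) ℝ} (hA : ∀ k, (A k).det ≠ 0)
    {G : ℕ → Fin m → E m → ℝ} {M : ℕ → Fin m → Fin m → E m → ℝ} (hP : ∀ k, Push (G k) (M k) (g k))
    (hL1 : Tendsto (fun k => ∫ x, |aff (g k) (A k) 0 x - f x|) atTop (𝓝 0))
    (hcov : ∀ i j, Tendsto (fun k => densCov (aff (g k) (A k) 0) i j) atTop (𝓝 (densCov f i j)))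
    (hmean : ∀ i, Tendsto (fun k => densMean (aff (g k) (A k) 0) i) atTop (𝓝 (densMean f i)))
    (hM : ∃ φ : ℕ → ℕ, StrictMono φ ∧ ∃ U : Matrix (Fin m) (Fin m) ℝ, U.transpose * U = 1 ∧
      ∀ i j, Tendsto (fun n => ∫ t, (M (φ n) i j t - Minf U i j t) ^ 2 ∂(gam m)) atTop (𝓝 0)) :
    ∃ (M : Matrix (Fin m) (Fin m) ℝ) (b : Fin m → ℝ), M.det ≠ 0 ∧
          f =ᵐ[volume] fun x => |M.det|⁻¹ *
            Set.indicator {y : Fin m → ℝ | ∀ i, 0 ≤ (M⁻¹.mulVec (y - b)) i}
              (fun y => Real.exp (- ∑ i, (M⁻¹.mulVec (y - b)) i)) x := by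
  obtain ⟨φ, hφ, U, hU, hMU⟩ := hM
  have hφt := hφ.tendsto_atTop
  have hfi : Integrable f := integrable_of_int_one hf.int1
  have hpi : ∀ k, Integrable (aff (g k) (A k) 0) := by
    intro k
    apply integrable_of_int_one
    have := integral_aff (hP k) (hA k) (ψ := fun _ => 1) measurable_const
    simpa using this
  have key := law_final hf.meas hf.nonneg hf.int1 hU (fun n => (hP (φ n)).hd) hMU
    (B := fun n => (A (φ n))⁻¹) (b := fun _ => 0) (S := densCov f) (c := densMean f)
    hf.densCov_posDef.det_pos.ne' ?_ ?_ ?_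
  · exact key
  · intro i j
    have h1 := (hcov i j).comp hφt
    refine h1.congr fun n => ?_
    simp only [Function.comp_apply]
    exact densCov_aff' (hP (φ n)) (hA (φ n)) i j
  · intro i
    have h1 := (hmean i).comp hφt
    refine h1.congr fun n => ?_
    simp only [Function.comp_apply, Pi.zero_apply, zero_add]
    exact densMean_aff' (hP (φ n)) (hA (φ n)) i
  · intro ψ
    have h1 := (tendsto_bdd hfi hpi hL1 ψ).comp hφt
    refine h1.congr fun n => ?_
    simp only [Function.comp_apply, zero_add]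
    exact integral_aff (hP (φ n)) (hA (φ n)) ψ.continuous.measurable

end Crest.Agent.R253.EqE747
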