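import Mathlib
import Crest.Prelude.Def_Isotropic

/-!
Row 253, easy direction of the equality case of `S0391`: if `f` is a.e. the density of an invertible
affine image of a vector of independent exponential variables, then
`diffEntropy f = m + log det Cov / 2`.
-/

set_option autoImplicit false
open MeasureTheory Crest.GeometryTopology.Isotropic

namespace Crest.Agent.R253.EqEasy505

variable {m : ℕ}

/-- one-sided exponential density on the line -/
noncomputable def e1 (t : ℝ) : ℝ := (Set.Ici (0:ℝ)).indicator (fun t => Real.exp (-t)) t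

/-- product exponential density -/
noncomputable def eP (u : Fin m → ℝ) : ℝ := ∏ i, e1 (u i)

/-- affine image density -/
noncomputable def eM (M : Matrix (Fin m) (Fin m) ℝ) (b : Fin m → ℝ) (x : Fin m → ℝ) : ℝ :=
  |M.det|⁻¹ * Set.indicator {y : Fin m → ℝ | ∀ i, 0 ≤ (M⁻¹.mulVec (y - b)) i}
          (fun y => Real.exp (- ∑ i, (M⁻¹.mulVec (y - b)) i)) x

lemma measurable_e1 : Measurable e1 := by
  unfold e1
  exact (Real.measurable_exp.comp measurable_neg).indicator measurableSet_Ici

lemma eP_eq (u : Fin m → ℝ) :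
    eP u = Set.indicator {u : Fin m → ℝ | ∀ i, 0 ≤ u i} (fun u => Real.exp (-∑ i, u i)) u := by
  unfold eP e1
  by_cases hu : ∀ i, 0 ≤ u i
  · rw [Set.indicator_of_mem (show u ∈ {u : Fin m → ℝ | ∀ i, 0 ≤ u i} from hu)]
    rw [← Finset.sum_neg_distrib, Real.exp_sum]
    refine Finset.prod_congr rfl fun i _ => ?_
    rw [Set.indicator_of_mem (show u i ∈ Set.Ici (0:ℝ) from hu i)]
  · rw [Set.indicator_of_notMem (show u ∉ {u : Fin m → ℝ | ∀ i, 0 ≤ u i} from hu)]
    push Not at hu
    obtain ⟨i, hi⟩ := hu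
    apply Finset.prod_eq_zero (Finset.mem_univ i)
    rw [Set.indicator_of_notMem]
    exact not_le.2 hi

lemma eM_eq {M : Matrix (Fin m) (Fin m) ℝ} (hM : M.det ≠ 0) (b u : Fin m → ℝ) :
    eM M b (b + M.mulVec u) = |M.det|⁻¹ * eP u := by
  have hU : IsUnit M.det := isUnit_iff_ne_zero.2 hM
  have h : M⁻¹.mulVec (b + M.mulVec u - b) = u := by
    rw [add_sub_cancel_left, Matrix.mulVec_mulVec, Matrix.nonsing_inv_mul M hU, Matrix.one_mulVec]
  unfold eM
  rw [eP_eq]
  congr 1
  by_cases hu : ∀ i, 0 ≤ u i
  · rw [Set.indicator_of_mem (show u ∈ {u : Fin m → ℝ | ∀ i, 0 ≤ u i} from hu),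
      Set.indicator_of_mem, h]
    intro i; rw [h]; exact hu i
  · rw [Set.indicator_of_notMem (show u ∉ {u : Fin m → ℝ | ∀ i, 0 ≤ u i} from hu),
      Set.indicator_of_notMem]
    intro h1
    apply hu
    intro i
    have := h1 i
    rwa [h] at this

lemma measurable_eM (M : Matrix (Fin m) (Fin m) ℝ) (b : Fin m → ℝ) : Measurable (eM M b) := by
  unfold eM
  have h1 : Continuous (fun y : Fin m → ℝ => M⁻¹.mulVec (y - b)) :=
    Continuous.matrix_mulVec continuous_const (by fun_prop)
  refine Measurable.const_mul ?_ _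
  refine Measurable.indicator ?_ ?_
  · exact (Real.continuous_exp.comp (Continuous.neg (continuous_finsetSum _ fun i _ =>
      (continuous_apply i).comp h1))).measurable
  · have : {y : Fin m → ℝ | ∀ i, 0 ≤ (M⁻¹.mulVec (y - b)) i}
        = ⋂ i, {y | 0 ≤ (M⁻¹.mulVec (y - b)) i} := by ext y; simp
    rw [this]
    refine (isClosed_iInter fun i => isClosed_le continuous_const ?_).measurableSet
    exact (continuous_apply i).comp h1

/-- affine change of variables (arbitrary functions) -/
lemma integral_affine (F : (Fin m → ℝ) → ℝ) {M : Matrix (Fin m) (Fin m) ℝ} (hM : M.det ≠ 0)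
    (b : Fin m → ℝ) : ∫ x, F x = |M.det| * ∫ u, F (b + M.mulVec u) := by
  have h1 := Real.map_matrix_volume_pi_eq_smul_volume_pi hM
  have hU : IsUnit M.det := isUnit_iff_ne_zero.2 hM
  let e : (Fin m → ℝ) ≃ᵐ (Fin m → ℝ) :=
    { toFun := fun u => M.mulVec u
      invFun := fun u => M⁻¹.mulVec u
      left_inv := fun u => by
        simp only [Matrix.mulVec_mulVec, Matrix.nonsing_inv_mul M hU, Matrix.one_mulVec]
      right_inv := fun u => by
        simp only [Matrix.mulVec_mulVec, Matrix.mul_nonsing_inv M hU, Matrix.one_mulVec]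
      measurable_toFun := (Continuous.matrix_mulVec continuous_const continuous_id).measurable
      measurable_invFun := (Continuous.matrix_mulVec continuous_const continuous_id).measurable }
  have h2 : ∫ x, F (b + x) ∂(Measure.map (Matrix.toLin' M) volume) = ∫ u, F (b + M.mulVec u) := by
    have : Measure.map (Matrix.toLin' M) volume = Measure.map e volume := rfl
    rw [this, MeasureTheory.integral_map_equiv]
    rfl
  rw [h1, integral_smul_measure, integral_add_left_eq_self] at h2
  rw [← h2, smul_eq_mul, ENNReal.toReal_ofReal (abs_nonneg _), ← mul_assoc,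
    ← abs_mul, mul_inv_cancel₀ hM, abs_one, one_mul]

/-- 1-D moments -/
lemma e1_moment (k : ℕ) : Integrable (fun t => t ^ k * e1 t) ∧
    ∫ t, t ^ k * e1 t = (k.factorial : ℝ) := by
  have h := Real.GammaIntegral_convergent (s := (k:ℝ) + 1) (by positivity)
  have h2 : ∀ t ∈ Set.Ioi (0:ℝ), Real.exp (-t) * t ^ ((k:ℝ) + 1 - 1) = t ^ k * Real.exp (-t) := by
    intro t ht
    rw [show (k:ℝ) + 1 - 1 = (k:ℝ) by ring, Real.rpow_natCast, mul_comm]
  have h3 : IntegrableOn (fun t : ℝ => t ^ k * Real.exp (-t)) (Set.Ici 0) := by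
    rw [integrableOn_Ici_iff_integrableOn_Ioi]
    exact h.congr_fun h2 measurableSet_Ioi
  have h4 : ∀ t, t ^ k * e1 t = (Set.Ici (0:ℝ)).indicator (fun t => t ^ k * Real.exp (-t)) t := by
    intro t
    unfold e1
    by_cases ht : t ∈ Set.Ici (0:ℝ)
    · rw [Set.indicator_of_mem ht, Set.indicator_of_mem ht]
    · rw [Set.indicator_of_notMem ht, Set.indicator_of_notMem ht, mul_zero]
  constructor
  · simp_rw [h4]
    exact (integrable_indicator_iff measurableSet_Ici).2 h3
  · simp_rw [h4]
    rw [integral_indicator measurableSet_Ici, integral_Ici_eq_integral_Ioi,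
      ← Real.Gamma_nat_eq_factorial, Real.Gamma_eq_integral (by positivity)]
    exact setIntegral_congr_fun measurableSet_Ioi fun t ht => (h2 t ht).symm

/-- polynomial `a + b t + c t²` against `e1` -/
lemma e1_poly (a b c : ℝ) : Integrable (fun t => (a + b * t + c * t ^ 2) * e1 t) ∧
    ∫ t, (a + b * t + c * t ^ 2) * e1 t = a + b + 2 * c := by
  have h0 := e1_moment 0
  have h1 := e1_moment 1
  have h2 := e1_moment 2
  have heq : ∀ t, (a + b * t + c * t ^ 2) * e1 t
      = a * (t ^ 0 * e1 t) + b * (t ^ 1 * e1 t) + c * (t ^ 2 * e1 t) := by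
    intro t; ring
  have hi0 := h0.1.const_mul a
  have hi1 := h1.1.const_mul b
  have hi2 := h2.1.const_mul c
  have hi01 : Integrable (fun t => a * (t ^ 0 * e1 t) + b * (t ^ 1 * e1 t)) := hi0.add hi1
  simp_rw [heq]
  refine ⟨hi01.add hi2, ?_⟩
  rw [integral_add hi01 hi2, integral_add hi0 hi1, integral_const_mul,
    integral_const_mul, integral_const_mul, h0.2, h1.2, h2.2]
  simp [Nat.factorial]
  ring

/-- quadratic product moments on the product exponential; `p i` a polynomial for each coordinate -/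
lemma eP_poly (a b c : Fin m → ℝ) :
    Integrable (fun u : Fin m → ℝ => (∏ i, (a i + b i * u i + c i * u i ^ 2)) * eP u) ∧
    ∫ u : Fin m → ℝ, (∏ i, (a i + b i * u i + c i * u i ^ 2)) * eP u
      = ∏ i, (a i + b i + 2 * c i) := by
  have heq : ∀ u : Fin m → ℝ, (∏ i, (a i + b i * u i + c i * u i ^ 2)) * eP u
      = ∏ i, ((a i + b i * u i + c i * u i ^ 2) * e1 (u i)) := by
    intro u; unfold eP; rw [Finset.prod_mul_distrib]
  simp_rw [heq]
  constructor
  · exact Integrable.fintype_prod (f := fun i t => (a i + b i * t + c i * t ^ 2) * e1 t)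
      fun i => (e1_poly (a i) (b i) (c i)).1
  · rw [integral_fintype_prod_volume_eq_prod
      (fun i : Fin m => fun t => (a i + b i * t + c i * t ^ 2) * e1 t)]
    exact Finset.prod_congr rfl fun i _ => (e1_poly (a i) (b i) (c i)).2

lemma eP_one : Integrable (eP : (Fin m → ℝ) → ℝ) ∧ ∫ u : Fin m → ℝ, eP u = 1 := by
  have h := eP_poly (m := m) (fun _ => 1) (fun _ => 0) (fun _ => 0)
  simpa using h

lemma eP_lin (i : Fin m) : Integrable (fun u : Fin m → ℝ => u i * eP u) ∧
    ∫ u : Fin m → ℝ, u i * eP u = 1 := by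
  have h := eP_poly (m := m) (fun k => if k = i then 0 else 1) (fun k => if k = i then 1 else 0)
    (fun _ => 0)
  have heq : ∀ u : Fin m → ℝ,
      (∏ k, ((if k = i then (0:ℝ) else 1) + (if k = i then (1:ℝ) else 0) * u k + 0 * u k ^ 2)) = u i := by
    intro u
    rw [Finset.prod_eq_single i]
    · simp
    · intro k _ hk; simp [hk]
    · intro h; exact absurd (Finset.mem_univ i) h
  simp_rw [heq] at h
  refine ⟨h.1, ?_⟩
  rw [h.2]
  apply Finset.prod_eq_one
  intro k _
  by_cases hk : k = i <;> simp [hk]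

lemma eP_quad (i j : Fin m) : Integrable (fun u : Fin m → ℝ => (u i - 1) * (u j - 1) * eP u) ∧
    ∫ u : Fin m → ℝ, (u i - 1) * (u j - 1) * eP u = if i = j then 1 else 0 := by
  by_cases hij : i = j
  · subst hij
    have h := eP_poly (m := m) (fun k => 1) (fun k => if k = i then -2 else 0)
      (fun k => if k = i then 1 else 0)
    have heq : ∀ u : Fin m → ℝ,
        (∏ k, ((1:ℝ) + (if k = i then (-2:ℝ) else 0) * u k + (if k = i then (1:ℝ) else 0) * u k ^ 2))
          = (u i - 1) * (u i - 1) := by
      intro u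
      rw [Finset.prod_eq_single i]
      · simp; ring
      · intro k _ hk; simp [hk]
      · intro h; exact absurd (Finset.mem_univ i) h
    simp_rw [heq] at h
    refine ⟨h.1, ?_⟩
    rw [h.2, if_pos rfl]
    apply Finset.prod_eq_one
    intro k _
    by_cases hk : k = i
    · simp [hk]
      try norm_num
    · simp [hk]
  · have h := eP_poly (m := m) (fun k => if k = i then -1 else if k = j then -1 else 1)
      (fun k => if k = i then 1 else if k = j then 1 else 0) (fun _ => 0)
    have heq : ∀ u : Fin m → ℝ,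
        (∏ k, ((if k = i then (-1:ℝ) else if k = j then -1 else 1)
          + (if k = i then (1:ℝ) else if k = j then 1 else 0) * u k + 0 * u k ^ 2))
          = (u i - 1) * (u j - 1) := by
      intro u
      rw [← Finset.mul_prod_erase Finset.univ _ (Finset.mem_univ i)]
      rw [Finset.prod_eq_single j]
      · simp only [if_true, if_neg (Ne.symm hij)]; ring
      · intro k hk hkj
        have hki := Finset.ne_of_mem_erase hk
        simp [hkj, hki]
      · intro h
        exact absurd (Finset.mem_erase.2 ⟨Ne.symm hij, Finset.mem_univ j⟩) h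
    simp_rw [heq] at h
    refine ⟨h.1, ?_⟩
    rw [h.2, if_neg hij]
    apply Finset.prod_eq_zero (Finset.mem_univ i)
    simp

lemma measurable_eP : Measurable (eP : (Fin m → ℝ) → ℝ) := by
  unfold eP
  exact Finset.measurable_prod _ fun i _ => measurable_e1.comp (measurable_pi_apply i)

/-- expectation against `eM` -/
lemma integral_mul_eM (F : (Fin m → ℝ) → ℝ) {M : Matrix (Fin m) (Fin m) ℝ} (hM : M.det ≠ 0)
    (b : Fin m → ℝ) : ∫ x, F x * eM M b x = ∫ u, F (b + M.mulVec u) * eP u := by
  rw [integral_affine _ hM b]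
  simp_rw [eM_eq hM]
  rw [← integral_const_mul]
  congr 1
  ext u
  have : |M.det| ≠ 0 := abs_ne_zero.2 hM
  field_simp

lemma mean_eM {M : Matrix (Fin m) (Fin m) ℝ} (hM : M.det ≠ 0) (b : Fin m → ℝ) :
    densMean (eM M b) = b + M.mulVec 1 := by
  ext a
  unfold densMean
  rw [integral_mul_eM _ hM b]
  have heq : ∀ u : Fin m → ℝ, (b + M.mulVec u) a * eP u
      = b a * eP u + ∑ i, M a i * (u i * eP u) := by
    intro u
    simp only [Pi.add_apply, Matrix.mulVec, dotProduct]
    rw [add_mul, Finset.sum_mul]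
    congr 1
    exact Finset.sum_congr rfl fun i _ => by ring
  simp_rw [heq]
  rw [integral_add (eP_one.1.const_mul _) (integrable_finsetSum _ fun i _ =>
    (eP_lin i).1.const_mul _), integral_const_mul, eP_one.2, integral_finsetSum _ fun i _ =>
    (eP_lin i).1.const_mul _]
  simp only [Pi.add_apply, Matrix.mulVec, dotProduct, Pi.one_apply, mul_one]
  congr 1
  refine Finset.sum_congr rfl fun i _ => ?_
  rw [integral_const_mul, (eP_lin i).2, mul_one]

lemma cov_eM {M : Matrix (Fin m) (Fin m) ℝ} (hM : M.det ≠ 0) (b : Fin m → ℝ) :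
    densCov (eM M b) = M * M.transpose := by
  ext a c
  unfold densCov
  simp only [Matrix.of_apply]
  rw [integral_mul_eM (fun x => (x a - densMean (eM M b) a) * (x c - densMean (eM M b) c)) hM b,
    mean_eM hM b]
  have hlin : ∀ (u : Fin m → ℝ) (a : Fin m), (b + M.mulVec u) a - (b + M.mulVec 1) a
      = ∑ i, M a i * (u i - 1) := by
    intro u a
    simp only [Pi.add_apply, Matrix.mulVec, dotProduct, Pi.one_apply, mul_one]
    rw [add_sub_add_left_eq_sub, ← Finset.sum_sub_distrib]
    exact Finset.sum_congr rfl fun i _ => by ring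
  have heq : ∀ u : Fin m → ℝ, ((b + M.mulVec u) a - (b + M.mulVec 1) a)
      * ((b + M.mulVec u) c - (b + M.mulVec 1) c) * eP u
      = ∑ i, ∑ j, (M a i * M c j) * ((u i - 1) * (u j - 1) * eP u) := by
    intro u
    rw [hlin, hlin, Finset.sum_mul_sum, Finset.sum_mul]
    refine Finset.sum_congr rfl fun i _ => ?_
    rw [Finset.sum_mul]
    exact Finset.sum_congr rfl fun j _ => by ring
  simp_rw [heq]
  rw [integral_finsetSum _ fun i _ => integrable_finsetSum _ fun j _ => (eP_quad i j).1.const_mul _]
  rw [Matrix.mul_apply]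
  refine Finset.sum_congr rfl fun i _ => ?_
  rw [integral_finsetSum _ fun j _ => (eP_quad i j).1.const_mul _]
  simp_rw [integral_const_mul, (eP_quad i _).2]
  simp [Matrix.transpose_apply]

lemma entropy_eM {M : Matrix (Fin m) (Fin m) ℝ} (hM : M.det ≠ 0) (b : Fin m → ℝ) :
    diffEntropy (eM M b) = (m : ℝ) + Real.log |M.det| := by
  unfold diffEntropy
  have h0 : ∀ x, eM M b x * Real.log (eM M b x) = Real.log (eM M b x) * eM M b x := fun x => mul_comm _ _
  simp_rw [h0]
  rw [integral_mul_eM (fun x => Real.log (eM M b x)) hM b]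
  simp_rw [eM_eq hM]
  have hdet : 0 < |M.det| := abs_pos.2 hM
  have heq : ∀ u : Fin m → ℝ, Real.log (|M.det|⁻¹ * eP u) * eP u
      = -Real.log |M.det| * eP u - ∑ i, u i * eP u := by
    intro u
    by_cases hu : ∀ i, 0 ≤ u i
    · have h1 : eP u = Real.exp (-∑ i, u i) := by
        rw [eP_eq, Set.indicator_of_mem (show u ∈ {u : Fin m → ℝ | ∀ i, 0 ≤ u i} from hu)]
      have h2 : Real.log (|M.det|⁻¹ * eP u) = -Real.log |M.det| - ∑ i, u i := by
        rw [h1, Real.log_mul (inv_ne_zero hdet.ne') (Real.exp_pos _).ne', Real.log_inv,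
          Real.log_exp]
        ring
      rw [h2, sub_mul, Finset.sum_mul]
    · have h1 : eP u = 0 := by
        rw [eP_eq, Set.indicator_of_notMem (show u ∉ {u : Fin m → ℝ | ∀ i, 0 ≤ u i} from hu)]
      simp [h1]
  simp_rw [heq]
  rw [integral_sub (eP_one.1.const_mul _) (integrable_finsetSum _ fun i _ => (eP_lin i).1),
    integral_const_mul, eP_one.2, integral_finsetSum _ fun i _ => (eP_lin i).1]
  simp_rw [(eP_lin _).2]
  simp

/-- the easy direction of the equality case of `S0391` -/
theorem equality_of_ae (f : (Fin m → ℝ) → ℝ)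
    (h : ∃ (M : Matrix (Fin m) (Fin m) ℝ) (b : Fin m → ℝ), M.det ≠ 0 ∧
          f =ᵐ[volume] fun x => |M.det|⁻¹ *
            Set.indicator {y : Fin m → ℝ | ∀ i, 0 ≤ (M⁻¹.mulVec (y - b)) i}
              (fun y => Real.exp (- ∑ i, (M⁻¹.mulVec (y - b)) i)) x) :
    diffEntropy f = (m : ℝ) + Real.log (densCov f).det / 2 := by
  obtain ⟨M, b, hM, hae⟩ := h
  have hae' : f =ᵐ[volume] eM M b := hae
  have h1 : diffEntropy f = diffEntropy (eM M b) := by
    unfold diffEntropy
    congr 1
    apply integral_congr_ae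
    filter_upwards [hae'] with x hx
    rw [hx]
  have h2 : densMean f = densMean (eM M b) := by
    ext a
    unfold densMean
    apply integral_congr_ae
    filter_upwards [hae'] with x hx
    rw [hx]
  have h3 : densCov f = densCov (eM M b) := by
    ext a c
    unfold densCov
    simp only [Matrix.of_apply]
    rw [h2]
    apply integral_congr_ae
    filter_upwards [hae'] with x hx
    rw [hx]
  rw [h1, h3, entropy_eM hM b, cov_eM hM b, Matrix.det_mul, Matrix.det_transpose, ← sq,
    Real.log_pow, Real.log_abs]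
  push_cast
  ring

end Crest.Agent.R253.EqEasy505
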