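import Crest.Agent.R253.EqT3_593
import Crest.Agent.R253.EqE_747
import Crest.Agent.R253.Diag_970
import Crest.Agent.R253.CvL1_593
import Crest.Agent.R253.EqEasy_505

/-!
# R253 (helper593): the equality case of `S0391` from the main inequality with margin

`Marg c g`: data `Push G M g`, `M = μ(ζ)`, symmetric `T_k` with
`c min(1, E |ζ - Σ x_k T_k|² + |1 - Σ T_k²|²) ≤ DD g`.
`eq_of_main`: step B (for a class `Good`) and `Marg c g` for every good log-concave density `g`
imply: `DD f = 0` ⟹ `f` is a.e. the density of an invertible affine image of independent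
exponential variables.  `S0391_of_main`: the literal statement in dimension `m`.
-/

set_option autoImplicit false
open MeasureTheory ProbabilityTheory Set Filter Topology Matrix
open Crest.GeometryTopology.Isotropic

namespace Crest.Agent.R253.EqFin593

open Crest.Agent.R238.Gap Crest.Agent.R238.GapPoinc Crest.Agent.R238.GapPc
open Crest.Agent.R253.Meh74 Crest.Agent.R253.Cpt435 Crest.Agent.R253.Lim140
open Crest.Agent.R253.EqT593 Crest.Agent.R253.ChVar56 Crest.Agent.R253.EqEasy505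
open Crest.Agent.R253.Mills37 (mu)
open Crest.Agent.R253.ChVar56.Push (CovG)

variable {m : ℕ}

/-- the output of the main inequality with margin, for one density -/
def Marg (c : ℝ) (g : (Fin m → ℝ) → ℝ) : Prop :=
  ∃ (G : Fin m → E m → ℝ) (M : Fin m → Fin m → E m → ℝ)
    (ζ : E m → Matrix (Fin m) (Fin m) ℝ) (T : Fin m → Matrix (Fin m) (Fin m) ℝ),
    Push G M g ∧ (∀ i j, Continuous (fun x => ζ x i j)) ∧ (∀ i j, PG (fun x => ζ x i j)) ∧
    (∀ x, (ζ x).IsHermitian) ∧ (∀ x i j, M i j x = (cfc mu (ζ x)) i j) ∧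
    (∀ k i j, T k i j = T k j i) ∧
    c * min 1 ((∫ x, hs (ζ x - ZT T (co x)) ∂gam m) + hs (1 - ∑ k, T k * T k)) ≤ DD g

/-- **the equality case from the main inequality with margin** -/
theorem eq_of_main {Good : ((Fin m → ℝ) → ℝ) → Prop} (hB : Dens970.StepB Good) {c : ℝ}
    (hc : 0 < c)
    (hmain : ∀ g, LCD g → Good g → Marg c g)
    {f : (Fin m → ℝ) → ℝ} (hf : LCD f) (hD : DD f = 0) :
    ∃ (M : Matrix (Fin m) (Fin m) ℝ) (b : Fin m → ℝ), M.det ≠ 0 ∧
          f =ᵐ[volume] fun x => |M.det|⁻¹ *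
            Set.indicator {y : Fin m → ℝ | ∀ i, 0 ≤ (M⁻¹.mulVec (y - b)) i}
              (fun y => Real.exp (- ∑ i, (M⁻¹.mulVec (y - b)) i)) x := by
  obtain ⟨A, g, hA, hg, hG, hL, hDD⟩ := Dens970.diag hB hf
  rw [hD] at hDD
  choose G M ζ T hP hζc hζg hζ hM hT hmar using fun k => hmain (g k) (hg k) (hG k)
  -- the densities
  have hAd : ∀ k, (A k).det ≠ 0 := fun k => (hA k).det_pos.ne'
  have hF : ∀ k, LCD (aff (g k) (A k) 0) := fun k => (hg k).comp_affine (A k) (hAd k) 0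
  obtain ⟨ψ, hψ, hCv⟩ := CvL1.cv_of_L1 hF hf hL
  -- the margins tend to zero
  have hn1 : ∀ k, 0 ≤ ∫ x, hs (ζ k x - ZT (T k) (co x)) ∂gam m := fun k =>
    integral_nonneg fun x => hs_nonneg _
  have hn2 : ∀ k, 0 ≤ hs (1 - ∑ l, T k l * T k l) := fun k => hs_nonneg _
  have hdc : Tendsto (fun k => DD (g k) / c) atTop (𝓝 0) := by
    have := hDD.div_const c
    simpa using this
  have hmin : Tendsto (fun k => min 1 ((∫ x, hs (ζ k x - ZT (T k) (co x)) ∂gam m) +
      hs (1 - ∑ l, T k l * T k l))) atTop (𝓝 0) := by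
    refine squeeze_zero (fun k => le_min zero_le_one (add_nonneg (hn1 k) (hn2 k)))
      (fun k => ?_) hdc
    rw [le_div_iff₀ hc, mul_comm]
    exact hmar k
  have hsum : Tendsto (fun k => (∫ x, hs (ζ k x - ZT (T k) (co x)) ∂gam m) +
      hs (1 - ∑ l, T k l * T k l)) atTop (𝓝 0) := by
    refine hmin.congr' ?_
    filter_upwards [hmin.eventually (gt_mem_nhds one_pos)] with k hk
    rcases min_lt_iff.mp hk with h | h
    · exact absurd h (lt_irrefl _)
    · exact min_eq_right h.le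
  have h1 : Tendsto (fun k => ∫ x, hs (ζ k x - ZT (T k) (co x)) ∂gam m) atTop (𝓝 0) := by
    exact squeeze_zero hn1 (fun k => le_add_of_nonneg_right (hn2 k)) hsum
  have h2 : Tendsto (fun k => hs (1 - ∑ l, T k l * T k l)) atTop (𝓝 0) := by
    exact squeeze_zero hn2 (fun k => le_add_of_nonneg_left (hn1 k)) hsum
  obtain ⟨φ, hφ, U, hU, -, hlim⟩ := eq_tail (G := fun n => G (ψ n)) (M := fun n => M (ψ n))
    (fun k => (hP (ψ k)).hd) (fun n => hζc (ψ n)) (fun n => hζg (ψ n)) (fun n => hζ (ψ n))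
    (fun n => hM (ψ n)) (fun n => hT (ψ n)) (h1.comp hψ.tendsto_atTop) (h2.comp hψ.tendsto_atTop)
  exact EqE747.equality_close hf (g := fun n => g (ψ n)) (A := fun n => A (ψ n))
    (fun k => hAd _) (fun k => hP (ψ k)) (hL.comp hψ.tendsto_atTop)
    (fun i j => hCv.tendsto_densCov hf.eb (fun k => (hF _).int1) hf.int1 i j)
    (fun i => hCv.tendsto_densMean i) ⟨φ, hφ, U, hU, hlim⟩

theorem Marg.DD_nonneg {c : ℝ} (hc : 0 < c) {g : (Fin m → ℝ) → ℝ} (h : Marg c g) : 0 ≤ DD g := by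
  obtain ⟨G, M, ζ, T, -, -, -, -, -, -, h⟩ := h
  exact le_trans (mul_nonneg hc.le (le_min zero_le_one (add_nonneg (integral_nonneg fun x =>
    hs_nonneg _) (hs_nonneg _)))) h

/-- **`S0391` in dimension `m` from step B and the main inequality with margin** -/
theorem S0391_of_main {Good : ((Fin m → ℝ) → ℝ) → Prop} (hB : Dens970.StepB Good) {c : ℝ}
    (hc : 0 < c) (hmain : ∀ g, LCD g → Good g → Marg c g)
    (f : (Fin m → ℝ) → ℝ) (hf : Measurable f) (hf0 : ∀ x, 0 ≤ f x) (hf1 : ∫ x, f x = 1)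
    (hfc : Convex ℝ {x | 0 < f x}) (hfl : ConcaveOn ℝ {x | 0 < f x} (fun x => Real.log (f x))) :
    (m : ℝ) + Real.log (densCov f).det / 2 ≤ diffEntropy f ∧
      (diffEntropy f = (m : ℝ) + Real.log (densCov f).det / 2 ↔
        ∃ (M : Matrix (Fin m) (Fin m) ℝ) (b : Fin m → ℝ), M.det ≠ 0 ∧
          f =ᵐ[volume] fun x => |M.det|⁻¹ *
            Set.indicator {y : Fin m → ℝ | ∀ i, 0 ≤ (M⁻¹.mulVec (y - b)) i}
              (fun y => Real.exp (- ∑ i, (M⁻¹.mulVec (y - b)) i)) x) := by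
  have hL : LCD f := LCD.of_S0391 f hf hf0 hf1 hfc hfl
  refine ⟨(DD_nonneg_iff f).mp (Dens970.DD_nonneg_of_stepB hB
    (fun g hg hG => (hmain g hg hG).DD_nonneg hc) hL), fun h => ?_, fun h => ?_⟩
  · exact eq_of_main hB hc hmain hL ((DD_eq_zero_iff f).mpr h)
  · exact equality_of_ae f h

end Crest.Agent.R253.EqFin593
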