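import Crest.Agent.R253.Mills_37
import Crest.Agent.R253.SpecCalc_999
import Crest.Agent.R253.EqC_435

/-!
# R253, equality tail from the margin, part 1 (helper593)

Scalar Taylor bound of the hazard `mu`, Hilbert–Schmidt Lipschitz bound of `cfc`, the tensor algebra.
-/

set_option autoImplicit false
open MeasureTheory Set Filter Topology Matrix

noncomputable section

namespace Crest.Agent.R253.EqT593

open Crest.Agent.R253.Mills37 Crest.Agent.R253.SpecCalc999 Crest.Agent.R253.Eq435

variable {m : ℕ}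

/-! ### scalar part -/

/-- first derivative of `mu` -/
def mu1 (z : ℝ) : ℝ := mu z * ee z
/-- second derivative of `mu` -/
def mu2 (z : ℝ) : ℝ := mu z * ss z
/-- third derivative of `mu` -/
def mu3 (z : ℝ) : ℝ := mu z * ee z * ss z + mu z * (4 * ee z * (mu z * ee z - 1) + (ee z + z * (mu z * ee z - 1)))

lemma mu_d1 (z : ℝ) : HasDerivAt mu (mu1 z) z := mu_hasDerivAt z

lemma mu_d2 (z : ℝ) : HasDerivAt mu1 (mu2 z) z := by
  have h := (mu_hasDerivAt z).mul (ee_hasDerivAt z)
  refine h.congr_deriv ?_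
  unfold mu2 ss
  have e := mu_eq z
  nth_rewrite 3 [e]
  ring

lemma ss_d (z : ℝ) : HasDerivAt ss (4 * ee z * (mu z * ee z - 1) + (ee z + z * (mu z * ee z - 1))) z := by
  have he := ee_hasDerivAt z
  have h := (((he.pow 2).const_mul 2).add ((hasDerivAt_id z).mul he)).sub_const 1
  refine (h.congr_deriv ?_).congr_of_eventuallyEq (Eventually.of_forall fun x => ?_)
  · simp; ring
  · simp [ss]

lemma mu_d3 (z : ℝ) : HasDerivAt mu2 (mu3 z) z := (mu_hasDerivAt z).mul (ss_d z)

lemma mu1_pos (z : ℝ) : 0 < mu1 z := mu_ee_pos z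
lemma mu2_pos (z : ℝ) : 0 < mu2 z := mul_pos (mu_pos z) (ss_pos z)

lemma cont_mu : Continuous mu := continuous_iff_continuousAt.mpr fun z => (mu_hasDerivAt z).continuousAt
lemma cont_ee : Continuous ee := continuous_iff_continuousAt.mpr fun z => (ee_hasDerivAt z).continuousAt
lemma cont_ss : Continuous ss := continuous_iff_continuousAt.mpr fun z => (ss_d z).continuousAt
lemma cont_mu3 : Continuous mu3 := by
  unfold mu3
  have h1 := cont_mu; have h2 := cont_ee; have h3 := cont_ss
  fun_prop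

/-- `mu` is `1`-Lipschitz -/
lemma mu_lip (x y : ℝ) : |mu x - mu y| ≤ 1 * |x - y| := by
  have h := Convex.norm_image_sub_le_of_norm_hasDerivWithin_le (f := mu) (f' := mu1) (C := 1)
    (s := Set.univ) (x := y) (y := x) (fun z _ => (mu_d1 z).hasDerivWithinAt)
    (fun z _ => by
      rw [Real.norm_eq_abs, abs_of_pos (mu1_pos z)]
      exact (mu_ee_lt_one z).le) convex_univ (mem_univ _) (mem_univ _)
  simpa [Real.norm_eq_abs] using h

/-- the Taylor remainder of `mu` at `0` -/
def rr (z : ℝ) : ℝ := mu z - (mu 0 + mu1 0 * z + mu2 0 / 2 * z ^ 2)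

lemma rr_bound : ∃ K : ℝ, 0 ≤ K ∧ ∀ z, |rr z| ≤ K * |z| ^ 3 := by
  obtain ⟨K1, hK1⟩ : ∃ K1 : ℝ, ∀ z ∈ Icc (-1 : ℝ) 1, |mu3 z| ≤ K1 := by
    obtain ⟨C, hC⟩ := isCompact_Icc.exists_bound_of_continuousOn (cont_mu3.continuousOn (s := Icc (-1 : ℝ) 1))
    exact ⟨C, fun z hz => by simpa using hC z hz⟩
  have hK10 : 0 ≤ K1 := (abs_nonneg _).trans (hK1 0 (by constructor <;> norm_num))
  refine ⟨K1 + (1 + mu1 0 + mu2 0 / 2), by
    have := mu1_pos 0; have := mu2_pos 0; positivity, fun z => ?_⟩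
  have hm1 := mu1_pos 0
  have hm2 := mu2_pos 0
  rcases le_total |z| 1 with hz | hz
  · -- local
    have hball : ∀ y : ℝ, |y| ≤ |z| → y ∈ Icc (-1 : ℝ) 1 := fun y hy => by
      have := hy.trans hz
      exact abs_le.mp this
    have hconv : Convex ℝ {y : ℝ | |y| ≤ |z|} := by
      have : {y : ℝ | |y| ≤ |z|} = Icc (-|z|) |z| := by ext y; simp [abs_le]
      rw [this]; exact convex_Icc _ _
    have h0 : (0 : ℝ) ∈ {y : ℝ | |y| ≤ |z|} := by simp
    -- second derivative
    have g2 : ∀ y, |y| ≤ |z| → |mu2 y - mu2 0| ≤ K1 * |z| := by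
      intro y hy
      have h := Convex.norm_image_sub_le_of_norm_hasDerivWithin_le (f := mu2) (f' := mu3) (C := K1)
        (s := {y : ℝ | |y| ≤ |z|}) (x := 0) (y := y) (fun w _ => (mu_d3 w).hasDerivWithinAt)
        (fun w hw => by rw [Real.norm_eq_abs]; exact hK1 w (hball w hw)) hconv h0 hy
      simp only [Real.norm_eq_abs, sub_zero] at h
      exact h.trans (mul_le_mul_of_nonneg_left hy hK10)
    have g1 : ∀ y, |y| ≤ |z| → |mu1 y - (mu1 0 + mu2 0 * y)| ≤ K1 * |z| ^ 2 := by
      intro y hy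
      have h := Convex.norm_image_sub_le_of_norm_hasDerivWithin_le
        (f := fun y => mu1 y - (mu1 0 + mu2 0 * y)) (f' := fun y => mu2 y - mu2 0) (C := K1 * |z|)
        (s := {y : ℝ | |y| ≤ |z|}) (x := 0) (y := y)
        (fun w _ => by
          have h1 := (mu_d2 w).sub (((hasDerivAt_id w).const_mul (mu2 0)).const_add (mu1 0))
          have h2 : HasDerivAt (fun y => mu1 y - (mu1 0 + mu2 0 * y)) (mu2 w - mu2 0) w := by
            refine (h1.congr_deriv ?_).congr_of_eventuallyEq (Eventually.of_forall fun x => ?_)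
            · simp
            · simp
          exact h2.hasDerivWithinAt)
        (fun w hw => by rw [Real.norm_eq_abs]; exact g2 w hw) hconv h0 hy
      simp only [Real.norm_eq_abs, sub_zero, mul_zero, add_zero, sub_self] at h
      refine h.trans ?_
      have := mul_le_mul_of_nonneg_left hy (mul_nonneg hK10 (abs_nonneg z))
      calc K1 * |z| * |y| ≤ K1 * |z| * |z| := this
        _ = K1 * |z| ^ 2 := by ring
    have h := Convex.norm_image_sub_le_of_norm_hasDerivWithin_le
        (f := rr) (f' := fun y => mu1 y - (mu1 0 + mu2 0 * y)) (C := K1 * |z| ^ 2)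
        (s := {y : ℝ | |y| ≤ |z|}) (x := 0) (y := z)
        (fun w _ => by
          have h1 := (mu_d1 w).sub ((((hasDerivAt_id w).const_mul (mu1 0)).const_add (mu 0)).add
            ((((hasDerivAt_id w).pow 2)).const_mul (mu2 0 / 2)))
          have h2 : HasDerivAt rr (mu1 w - (mu1 0 + mu2 0 * w)) w := by
            refine (h1.congr_deriv ?_).congr_of_eventuallyEq (Eventually.of_forall fun x => ?_)
            · simp; ring
            · simp [rr]
          exact h2.hasDerivWithinAt)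
        (fun w hw => by rw [Real.norm_eq_abs]; exact g1 w hw) hconv h0 (by simp)
    have hr0 : rr 0 = 0 := by simp [rr]
    rw [hr0] at h
    simp only [Real.norm_eq_abs, sub_zero] at h
    calc |rr z| ≤ K1 * |z| ^ 2 * |z| := h
      _ = K1 * |z| ^ 3 := by ring
      _ ≤ _ := by
        apply mul_le_mul_of_nonneg_right _ (by positivity)
        linarith
  · have h1 := mu_lip z 0
    rw [sub_zero, one_mul] at h1
    have e : rr z = (mu z - mu 0) - mu1 0 * z - mu2 0 / 2 * z ^ 2 := by unfold rr; ring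
    have h2 : |rr z| ≤ |z| + mu1 0 * |z| + mu2 0 / 2 * |z| ^ 2 := by
      rw [e]
      refine (abs_sub _ _).trans ?_
      refine add_le_add ((abs_sub _ _).trans (add_le_add h1 ?_)) ?_
      · rw [abs_mul, abs_of_pos hm1]
      · rw [abs_mul, abs_of_pos (by positivity : 0 < mu2 0 / 2), abs_pow]
    have h3 : |z| ≤ |z| ^ 3 := by
      have := pow_le_pow_right₀ hz (by norm_num : 1 ≤ 3)
      simpa using this
    have h4 : |z| ^ 2 ≤ |z| ^ 3 := pow_le_pow_right₀ hz (by norm_num)
    calc |rr z| ≤ |z| + mu1 0 * |z| + mu2 0 / 2 * |z| ^ 2 := h2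
      _ ≤ |z| ^ 3 + mu1 0 * |z| ^ 3 + mu2 0 / 2 * |z| ^ 3 := by
        have := mul_le_mul_of_nonneg_left h3 hm1.le
        have := mul_le_mul_of_nonneg_left h4 (by positivity : 0 ≤ mu2 0 / 2)
        linarith
      _ = (1 + mu1 0 + mu2 0 / 2) * |z| ^ 3 := by ring
      _ ≤ _ := by
        apply mul_le_mul_of_nonneg_right _ (by positivity)
        linarith

/-! ### Hilbert–Schmidt norm and `cfc` -/

/-- squared Hilbert–Schmidt norm -/
def hs (X : Mat m) : ℝ := ∑ i, ∑ j, X i j ^ 2

lemma hs_nonneg (X : Mat m) : 0 ≤ hs X :=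
  Finset.sum_nonneg fun _ _ => Finset.sum_nonneg fun _ _ => sq_nonneg _

lemma hs_eq_trace (X : Mat m) : hs X = (Xᵀ * X).trace := by
  unfold hs Matrix.trace
  rw [Finset.sum_comm]
  refine Finset.sum_congr rfl fun i _ => ?_
  simp only [diag_apply, mul_apply, transpose_apply]
  exact Finset.sum_congr rfl fun j _ => by ring

lemma entry_le_hs (X : Mat m) (i j : Fin m) : X i j ^ 2 ≤ hs X :=
  (Finset.single_le_sum (f := fun j => X i j ^ 2) (fun _ _ => sq_nonneg _) (Finset.mem_univ j)).trans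
    (Finset.single_le_sum (f := fun i => ∑ j, X i j ^ 2)
      (fun _ _ => Finset.sum_nonneg fun _ _ => sq_nonneg _) (Finset.mem_univ i))

lemma hs_orth {U V : Mat m} (hU : U * Uᵀ = 1) (hV : V * Vᵀ = 1) (X : Mat m) :
    hs (Uᵀ * X * V) = hs X := by
  rw [hs_eq_trace, hs_eq_trace]
  have e : (Uᵀ * X * V)ᵀ * (Uᵀ * X * V) = Vᵀ * (Xᵀ * X * V) := by
    simp only [transpose_mul, transpose_transpose]
    calc Vᵀ * (Xᵀ * U) * (Uᵀ * X * V) = Vᵀ * (Xᵀ * (U * Uᵀ) * X * V) := by
          simp only [Matrix.mul_assoc]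
      _ = Vᵀ * (Xᵀ * X * V) := by rw [hU, Matrix.mul_one]
  rw [e, Matrix.trace_mul_comm, Matrix.mul_assoc, hV, Matrix.mul_one]

/-- spectral decomposition -/
lemma cfc_decomp {A : Mat m} (hA : A.IsHermitian) :
    ∃ (U : Mat m) (lam : Fin m → ℝ), U * Uᵀ = 1 ∧ Uᵀ * U = 1 ∧
      ∀ f : ℝ → ℝ, cfc f A = U * diagonal (fun k => f (lam k)) * Uᵀ := by
  refine ⟨(hA.eigenvectorUnitary : Mat m), hA.eigenvalues, ?_, ?_, fun f => ?_⟩
  · have h := Unitary.coe_mul_star_self hA.eigenvectorUnitary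
    rw [← conjTranspose_eq_transpose_of_trivial]
    exact h
  · have h := Unitary.coe_star_mul_self hA.eigenvectorUnitary
    rw [← conjTranspose_eq_transpose_of_trivial]
    exact h
  · ext i j
    rw [cfc_entry hA, Matrix.mul_apply]
    refine Finset.sum_congr rfl fun k _ => ?_
    rw [mul_diagonal, transpose_apply]

lemma decomp_self {A : Mat m} (hA : A.IsHermitian) {U : Mat m} {lam : Fin m → ℝ}
    (h : ∀ f : ℝ → ℝ, cfc f A = U * diagonal (fun k => f (lam k)) * Uᵀ) :
    A = U * diagonal lam * Uᵀ := by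
  have h1 := h id
  rw [cfc_id ℝ A (sa hA)] at h1
  exact h1

/-- **Hilbert–Schmidt Lipschitz bound** -/
theorem hs_cfc_sub_le {A B : Mat m} (hA : A.IsHermitian) (hB : B.IsHermitian) {f : ℝ → ℝ} {L : ℝ}
    (hf : ∀ x y, |f x - f y| ≤ L * |x - y|) : hs (cfc f A - cfc f B) ≤ L ^ 2 * hs (A - B) := by
  obtain ⟨U, lam, hU, hU', hUf⟩ := cfc_decomp hA
  obtain ⟨V, gam, hV, hV', hVf⟩ := cfc_decomp hB
  have key : ∀ g : ℝ → ℝ, Uᵀ * (cfc g A - cfc g B) * V =
      diagonal (fun k => g (lam k)) * (Uᵀ * V) - (Uᵀ * V) * diagonal (fun k => g (gam k)) := by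
    intro g
    rw [hUf g, hVf g, Matrix.mul_sub, Matrix.sub_mul]
    congr 1
    · calc Uᵀ * (U * diagonal (fun k => g (lam k)) * Uᵀ) * V
          = (Uᵀ * U) * diagonal (fun k => g (lam k)) * (Uᵀ * V) := by simp only [Matrix.mul_assoc]
        _ = _ := by rw [hU', Matrix.one_mul]
    · calc Uᵀ * (V * diagonal (fun k => g (gam k)) * Vᵀ) * V
          = (Uᵀ * V) * diagonal (fun k => g (gam k)) * (Vᵀ * V) := by simp only [Matrix.mul_assoc]
        _ = _ := by rw [hV', Matrix.mul_one]
  have h1 : hs (cfc f A - cfc f B) = ∑ k, ∑ l, ((f (lam k) - f (gam l)) * (Uᵀ * V) k l) ^ 2 := by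
    rw [← hs_orth hU hV, key f]
    unfold hs
    refine Finset.sum_congr rfl fun k _ => Finset.sum_congr rfl fun l _ => ?_
    rw [Matrix.sub_apply, diagonal_mul, mul_diagonal]
    ring
  have h2 : hs (A - B) = ∑ k, ∑ l, ((lam k - gam l) * (Uᵀ * V) k l) ^ 2 := by
    have e : A - B = cfc (id : ℝ → ℝ) A - cfc (id : ℝ → ℝ) B := by
      rw [cfc_id ℝ A (sa hA), cfc_id ℝ B (sa hB)]
    rw [e, ← hs_orth hU hV, key id]
    unfold hs
    refine Finset.sum_congr rfl fun k _ => Finset.sum_congr rfl fun l _ => ?_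
    rw [Matrix.sub_apply, diagonal_mul, mul_diagonal]
    simp only [id]
    ring
  rw [h1, h2, Finset.mul_sum]
  refine Finset.sum_le_sum fun k _ => ?_
  rw [Finset.mul_sum]
  refine Finset.sum_le_sum fun l _ => ?_
  rw [mul_pow, mul_pow, ← mul_assoc]
  apply mul_le_mul_of_nonneg_right _ (sq_nonneg _)
  have h3 := hf (lam k) (gam l)
  calc (f (lam k) - f (gam l)) ^ 2 = |f (lam k) - f (gam l)| ^ 2 := (sq_abs _).symm
    _ ≤ (L * |lam k - gam l|) ^ 2 := pow_le_pow_left₀ (abs_nonneg _) h3 2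
    _ = L ^ 2 * (lam k - gam l) ^ 2 := by rw [mul_pow, sq_abs]

/-- the third order remainder -/
theorem hs_rr_le {K : ℝ} (hK : ∀ z, |rr z| ≤ K * |z| ^ 3) {Z : Mat m}
    (hZ : Z.IsHermitian) : hs (cfc rr Z) ≤ K ^ 2 * hs Z ^ 3 := by
  obtain ⟨U, lam, hU, hU', hUf⟩ := cfc_decomp hZ
  have hUT : Uᵀ * (Uᵀ)ᵀ = 1 := by rw [transpose_transpose]; exact hU'
  have key : ∀ g : ℝ → ℝ, hs (cfc g Z) = ∑ k, g (lam k) ^ 2 := by
    intro g
    rw [← hs_orth hU hU, hUf g]
    have e : Uᵀ * (U * diagonal (fun k => g (lam k)) * Uᵀ) * U = diagonal (fun k => g (lam k)) := by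
      calc _ = (Uᵀ * U) * diagonal (fun k => g (lam k)) * (Uᵀ * U) := by simp only [Matrix.mul_assoc]
        _ = _ := by rw [hU', Matrix.one_mul, Matrix.mul_one]
    rw [e]
    unfold hs
    refine Finset.sum_congr rfl fun k _ => ?_
    rw [Finset.sum_eq_single k]
    · rw [diagonal_apply_eq]
    · intro b _ hb; rw [diagonal_apply_ne' _ hb]; ring
    · intro h; exact absurd (Finset.mem_univ k) h
  have hZ2 : hs Z = ∑ k, lam k ^ 2 := by
    have := key id
    rw [cfc_id ℝ Z (sa hZ)] at this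
    simpa using this
  rw [key rr, hZ2]
  have h1 : ∀ k, rr (lam k) ^ 2 ≤ K ^ 2 * (lam k ^ 2 * (∑ l, lam l ^ 2) ^ 2) := by
    intro k
    have h3 := hK (lam k)
    have h4 : lam k ^ 2 ≤ ∑ l, lam l ^ 2 :=
      Finset.single_le_sum (f := fun l => lam l ^ 2) (fun _ _ => sq_nonneg _) (Finset.mem_univ k)
    calc rr (lam k) ^ 2 = |rr (lam k)| ^ 2 := (sq_abs _).symm
      _ ≤ (K * |lam k| ^ 3) ^ 2 := pow_le_pow_left₀ (abs_nonneg _) h3 2
      _ = K ^ 2 * (lam k ^ 2 * (lam k ^ 2) ^ 2) := by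
          have : |lam k| ^ 2 = lam k ^ 2 := sq_abs _
          calc (K * |lam k| ^ 3) ^ 2 = K ^ 2 * (|lam k| ^ 2 * (|lam k| ^ 2) ^ 2) := by ring
            _ = _ := by rw [this]
      _ ≤ _ := by
          apply mul_le_mul_of_nonneg_left _ (sq_nonneg _)
          apply mul_le_mul_of_nonneg_left _ (sq_nonneg _)
          exact pow_le_pow_left₀ (sq_nonneg _) h4 2
  calc ∑ k, rr (lam k) ^ 2 ≤ ∑ k, K ^ 2 * (lam k ^ 2 * (∑ l, lam l ^ 2) ^ 2) :=
        Finset.sum_le_sum fun k _ => h1 k
    _ = K ^ 2 * (∑ l, lam l ^ 2) ^ 3 := by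
        rw [← Finset.mul_sum, ← Finset.sum_mul]; ring

/-- Taylor expansion of `mu (Z)` -/
theorem cfc_mu_eq {Z : Mat m} (hZ : Z.IsHermitian) :
    cfc mu Z = mu 0 • (1 : Mat m) + mu1 0 • Z + (mu2 0 / 2) • (Z * Z) + cfc rr Z := by
  obtain ⟨U, lam, hU, hU', hUf⟩ := cfc_decomp hZ
  have hZe := decomp_self hZ hUf
  have hZZ : Z * Z = U * diagonal (fun k => lam k ^ 2) * Uᵀ := by
    conv_lhs => rw [hZe]
    calc U * diagonal lam * Uᵀ * (U * diagonal lam * Uᵀ)
        = U * diagonal lam * (Uᵀ * U) * (diagonal lam * Uᵀ) := by simp only [Matrix.mul_assoc]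
      _ = U * (diagonal lam * diagonal lam) * Uᵀ := by
          rw [hU', Matrix.mul_one]; simp only [Matrix.mul_assoc]
      _ = _ := by rw [diagonal_mul_diagonal]; congr 2; ext; simp [sq]
  have h1 : (1 : Mat m) = U * Matrix.diagonal (fun _ => (1 : ℝ)) * Uᵀ := by
    rw [show (Matrix.diagonal (fun _ : Fin m => (1 : ℝ))) = (1 : Mat m) from diagonal_one,
      Matrix.mul_one, hU]
  rw [hUf mu, hUf rr, hZZ]
  conv_rhs => rw [h1]
  have hZ' : Z = U * diagonal lam * Uᵀ := hZe
  rw [show mu1 0 • Z = mu1 0 • (U * diagonal lam * Uᵀ) by rw [← hZ']]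
  have e3 : Matrix.diagonal (fun k => mu (lam k)) = mu 0 • Matrix.diagonal (fun _ => (1 : ℝ)) +
      mu1 0 • Matrix.diagonal lam + (mu2 0 / 2) • Matrix.diagonal (fun k => lam k ^ 2) +
      Matrix.diagonal (fun k => rr (lam k)) := by
    ext i j
    by_cases hij : i = j
    · subst hij
      simp only [diagonal_apply_eq, Matrix.add_apply, Matrix.smul_apply, smul_eq_mul]
      unfold rr
      ring
    · simp only [Matrix.add_apply, Matrix.smul_apply, smul_eq_mul, diagonal_apply_ne _ hij,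
        mul_zero, add_zero]
  rw [e3]
  simp only [Matrix.mul_add, Matrix.add_mul, Matrix.mul_smul, Matrix.smul_mul]

/-! ### tensor algebra -/

/-- `∑_k t_k T_k` -/
def ZT (T : Fin m → Mat m) (t : Fin m → ℝ) : Mat m := ∑ k, t k • T k

/-- the relations obtained in the limit -/
structure Rel (T : Fin m → Mat m) : Prop where
  sy : ∀ k i j, T k i j = T k j i
  i1 : ∀ i j k, T k i j = T j i k
  i2 : ∀ a i j k, (T k * T a + T a * T k) i j = (T j * T a + T a * T j) i k
  sq : ∑ k, T k * T k = 1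

/-- the structure of the limit tensor -/
theorem exists_frame_of_rel {T : Fin m → Mat m} (h : Rel T) :
    ∃ U : Mat m, Uᵀ * U = 1 ∧ U * Uᵀ = 1 ∧
      ∀ k i j, T k i j = ∑ α, U k α * U i α * U j α := by
  let S : Fin m → Fin m → Fin m → ℝ := fun k i j => T k i j
  have hS : Sym3 S := by
    constructor
    · intro i j k
      show T i j k = T j i k
      rw [h.sy i j k, h.i1 k j i, h.sy j k i]
    · intro i j k
      exact h.sy i j k
  have hmul : ∀ k a i j, (T k * T a) i j = RR S k i a j := by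
    intro k a i j
    rw [Matrix.mul_apply]
    unfold RR
    refine Finset.sum_congr rfl fun p _ => ?_
    show T k i p * T a p j = S p k i * S p a j
    rw [hS.s12 p k i, hS.s23 k p i, hS.s12 p a j]
  have hsw : ∀ i j k l, RR S i j k l = RR S j i k l := by
    intro i j k l
    unfold RR
    exact Finset.sum_congr rfl fun a _ => by rw [hS.s23 a i j]
  have hsw' : ∀ i j k l, RR S i j k l = RR S i j l k := by
    intro i j k l
    unfold RR
    exact Finset.sum_congr rfl fun a _ => by rw [hS.s23 a k l]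
  have h14 : ∀ k i a j, RR S k i a j = RR S j i a k := by
    intro k i a j
    have h1 := h.i2 a i j k
    simp only [Matrix.add_apply, hmul] at h1
    have h2 := hsw' a i k j
    linarith
  have hR : ∀ i j k l, RR S i j k l = RR S i k j l := by
    intro i j k l
    rw [hsw i j k l, hsw' j i k l, h14 j i l k, hsw k i l j, hsw' i k l j]
  have h2 : ∀ a b, ∑ i, ∑ j, S a i j * S b i j = if a = b then 1 else 0 := by
    intro a b
    have h1 := congrFun (congrFun h.sq a) b
    rw [Matrix.sum_apply] at h1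
    simp only [Matrix.mul_apply, Matrix.one_apply] at h1
    rw [← h1]
    refine Finset.sum_congr rfl fun i _ => Finset.sum_congr rfl fun j _ => ?_
    show S a i j * S b i j = T i a j * T i j b
    have e1 : S a i j = T i a j := hS.s12 a i j
    have e2 : S b i j = T i j b := by rw [hS.s12 b i j, hS.s23 i b j]
    rw [e1, e2]
  have ht : (m : ℝ) ≤ tetra S := by
    rw [← sum_RR_sq h2]
    apply le_of_eq
    unfold tetra
    refine Finset.sum_congr rfl fun i _ => Finset.sum_congr rfl fun i' _ =>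
      Finset.sum_congr rfl fun j _ => Finset.sum_congr rfl fun j' _ => ?_
    rw [hR i j i' j']
  obtain ⟨U, hU1, hU2, hU3⟩ := exists_frame hS h2 ht
  refine ⟨U, hU1, hU2, ?_⟩
  have q1 : ∀ α β, ∑ i, U i α * U i β = if α = β then 1 else 0 := by
    intro α β
    have := congrFun (congrFun hU1 α) β
    rw [mul_apply, one_apply] at this
    simpa using this
  -- the residual tensor vanishes
  have hzero : ∑ k, ∑ i, ∑ j, (S k i j - ∑ α, U k α * U i α * U j α) ^ 2 = 0 := by
    have e1 : ∀ k i j, (S k i j - ∑ α, U k α * U i α * U j α) ^ 2 =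
        S k i j * S k i j - 2 * (∑ α, U k α * U i α * U j α * S k i j) +
          ∑ α, ∑ β, (U k α * U k β) * ((U i α * U i β) * (U j α * U j β)) := by
      intro k i j
      have e2 : (∑ α, U k α * U i α * U j α) * S k i j = ∑ α, U k α * U i α * U j α * S k i j := by
        rw [Finset.sum_mul]
      have e3 : (∑ α, U k α * U i α * U j α) * (∑ α, U k α * U i α * U j α) =
          ∑ α, ∑ β, (U k α * U k β) * ((U i α * U i β) * (U j α * U j β)) := by
        rw [Finset.sum_mul_sum]
        refine Finset.sum_congr rfl fun α _ => Finset.sum_congr rfl fun β _ => ?_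
        ring
      rw [← e2, ← e3]; ring
    have f1 : ∑ k, ∑ i, ∑ j, S k i j * S k i j = (m : ℝ) := by
      simp only [h2]; simp
    have f2 : ∑ k, ∑ i, ∑ j, ∑ α, U k α * U i α * U j α * S k i j = (m : ℝ) := by
      have : ∑ k, ∑ i, ∑ j, ∑ α, U k α * U i α * U j α * S k i j =
          ∑ α, ∑ k, ∑ i, ∑ j, U k α * U i α * U j α * S k i j := by
        have s1 : ∀ k i, ∑ j, ∑ α, U k α * U i α * U j α * S k i j =
            ∑ α, ∑ j, U k α * U i α * U j α * S k i j := fun k i => Finset.sum_comm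
        simp only [s1]
        have s2 : ∀ k, ∑ i, ∑ α, ∑ j, U k α * U i α * U j α * S k i j =
            ∑ α, ∑ i, ∑ j, U k α * U i α * U j α * S k i j := fun k => Finset.sum_comm
        simp only [s2]
        rw [Finset.sum_comm]
      rw [this]
      simp only [hU3]; simp
    have f3 : ∑ k, ∑ i, ∑ j, ∑ α, ∑ β, (U k α * U k β) * ((U i α * U i β) * (U j α * U j β)) =
        (m : ℝ) := by
      have : ∑ k, ∑ i, ∑ j, ∑ α, ∑ β, (U k α * U k β) * ((U i α * U i β) * (U j α * U j β)) =
          ∑ α, ∑ β, ∑ k, ∑ i, ∑ j, (U k α * U k β) * ((U i α * U i β) * (U j α * U j β)) := by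
        have s1 : ∀ k i, ∑ j, ∑ α, ∑ β, (U k α * U k β) * ((U i α * U i β) * (U j α * U j β)) =
            ∑ α, ∑ β, ∑ j, (U k α * U k β) * ((U i α * U i β) * (U j α * U j β)) := by
          intro k i
          rw [Finset.sum_comm]
          exact Finset.sum_congr rfl fun α _ => Finset.sum_comm
        simp only [s1]
        have s2 : ∀ k, ∑ i, ∑ α, ∑ β, ∑ j, (U k α * U k β) * ((U i α * U i β) * (U j α * U j β)) =
            ∑ α, ∑ β, ∑ i, ∑ j, (U k α * U k β) * ((U i α * U i β) * (U j α * U j β)) := by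
          intro k
          rw [Finset.sum_comm]
          exact Finset.sum_congr rfl fun α _ => Finset.sum_comm
        simp only [s2]
        rw [Finset.sum_comm]
        exact Finset.sum_congr rfl fun α _ => Finset.sum_comm
      rw [this]
      have g : ∀ α β, ∑ k, ∑ i, ∑ j, (U k α * U k β) * ((U i α * U i β) * (U j α * U j β)) =
          if α = β then 1 else 0 := by
        intro α β
        simp only [← Finset.mul_sum, ← Finset.sum_mul, q1]
        by_cases hab : α = β <;> simp [hab]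
      simp only [g]; simp
    simp only [e1, Finset.sum_add_distrib, Finset.sum_sub_distrib, ← Finset.mul_sum]
    rw [f1, f2, f3]; ring
  intro k i j
  have hnn : ∀ k i j, 0 ≤ (S k i j - ∑ α, U k α * U i α * U j α) ^ 2 := fun _ _ _ => sq_nonneg _
  have h3 := (Finset.sum_eq_zero_iff_of_nonneg (fun k _ => Finset.sum_nonneg fun i _ =>
    Finset.sum_nonneg fun j _ => hnn k i j)).mp hzero k (Finset.mem_univ k)
  have h4 := (Finset.sum_eq_zero_iff_of_nonneg (fun i _ => Finset.sum_nonneg fun j _ =>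
    hnn k i j)).mp h3 i (Finset.mem_univ i)
  have h5 := (Finset.sum_eq_zero_iff_of_nonneg (fun j _ => hnn k i j)).mp h4 j (Finset.mem_univ j)
  rw [sq_eq_zero_iff, sub_eq_zero] at h5
  exact h5

/-- `cfc` of an orthogonal conjugate of a diagonal matrix -/
theorem cfc_conj_diag {U : Mat m} (hU : U * Uᵀ = 1) (hU' : Uᵀ * U = 1) (d : Fin m → ℝ)
    (f : ℝ → ℝ) : cfc f (U * Matrix.diagonal d * Uᵀ) =
      U * Matrix.diagonal (fun k => f (d k)) * Uᵀ := by
  have hU'' : star U * U = 1 := by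
    rw [Matrix.star_eq_conjTranspose, conjTranspose_eq_transpose_of_trivial]; exact hU'
  have hU3 : U * star U = 1 := by
    rw [Matrix.star_eq_conjTranspose, conjTranspose_eq_transpose_of_trivial]; exact hU
  let u : unitary (Mat m) := ⟨U, Unitary.mem_iff.mpr ⟨hU'', hU3⟩⟩
  have hc : ∀ X : Mat m, Unitary.conjStarAlgAut ℝ (Mat m) u X = U * X * Uᵀ := by
    intro X
    rw [Unitary.conjStarAlgAut_apply]
    simp only [Matrix.star_eq_conjTranspose,
      conjTranspose_eq_transpose_of_trivial, u]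
  have hd : (Matrix.diagonal d : Mat m).IsHermitian := Matrix.isHermitian_diagonal _
  have h1 := StarAlgHomClass.map_cfc (Unitary.conjStarAlgAut ℝ (Mat m) u) f
    (Matrix.diagonal d : Mat m) (contOn_spec f _)
    (by
      have : Continuous fun X : Mat m => U * X * Uᵀ := by fun_prop
      refine this.congr fun X => (hc X).symm) (sa hd)
    (by
      rw [hc]
      show star _ = _
      rw [Matrix.star_eq_conjTranspose, conjTranspose_eq_transpose_of_trivial]
      simp [Matrix.transpose_mul, Matrix.mul_assoc])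
  rw [hc, hc, cfc_diagonal] at h1
  exact h1.symm

end Crest.Agent.R253.EqT593
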