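import Crest.Agent.R253.Meh_74

/-!
# R253: the log-concavity identity (helper74)

`M V''(DΦ) M = 1 + L M - Q` and `E tr(Z W) = E {tr Z - Σ N_kl ⟨Z_k, M_l⟩ - tr (Z Q)}`, `N = M⁻¹`.
-/

set_option autoImplicit false

open MeasureTheory ProbabilityTheory Real Set Filter Topology
open scoped ContDiff

noncomputable section

namespace Crest.Agent.R253.Meh74

open Crest.Agent.R238.Gap Crest.Agent.R238.GapPoinc Crest.Agent.R238.GapPc

variable {n : ℕ}

/-! ### the class `C1` is an algebra -/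

lemma c1_const (c : ℝ) : C1 (fun _ : E n => c) :=
  ⟨contDiff_const, pg_const c, fun i => by
    have : pd i (fun _ : E n => c) = fun _ => 0 := by funext x; simp [pd]
    rw [this]; exact pg_const 0⟩

lemma C1.pd_add {f g : E n → ℝ} (hf : C1 f) (hg : C1 g) (i : Fin n) (x : E n) :
    pd i (fun x => f x + g x) x = pd i f x + pd i g x :=
  Crest.Agent.R238.Gap.pd_add (hf.diff x) (hg.diff x) i

lemma C1.pd_mul {f g : E n → ℝ} (hf : C1 f) (hg : C1 g) (i : Fin n) (x : E n) :
    pd i (fun x => f x * g x) x = pd i f x * g x + f x * pd i g x :=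
  Crest.Agent.R238.Gap.pd_mul (hf.diff x) (hg.diff x) i

lemma C1.add {f g : E n → ℝ} (hf : C1 f) (hg : C1 g) : C1 (fun x => f x + g x) :=
  ⟨hf.c.add hg.c, hf.g.add hg.g, fun i => by
    have : pd i (fun x => f x + g x) = fun x => pd i f x + pd i g x := by
      funext x; exact hf.pd_add hg i x
    rw [this]; exact (hf.p i).add (hg.p i)⟩

lemma C1.mul {f g : E n → ℝ} (hf : C1 f) (hg : C1 g) : C1 (fun x => f x * g x) :=
  ⟨hf.c.mul hg.c, hf.g.mul hg.g, fun i => by
    have : pd i (fun x => f x * g x) = fun x => pd i f x * g x + f x * pd i g x := by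
      funext x; exact hf.pd_mul hg i x
    rw [this]; exact ((hf.p i).mul hg.g).add (hf.g.mul (hg.p i))⟩

lemma C1.smul {f : E n → ℝ} (c : ℝ) (hf : C1 f) : C1 (fun x => c * f x) := (c1_const c).mul hf

lemma C1.neg {f : E n → ℝ} (hf : C1 f) : C1 (fun x => -f x) := by
  have := hf.smul (-1); simpa using this

lemma C1.sub {f g : E n → ℝ} (hf : C1 f) (hg : C1 g) : C1 (fun x => f x - g x) := by
  have := hf.add hg.neg; simpa [sub_eq_add_neg] using this

lemma C1.sum {ι : Type*} {s : Finset ι} {f : ι → E n → ℝ} (hf : ∀ i ∈ s, C1 (f i)) :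
    C1 (fun x => ∑ i ∈ s, f i x) := by
  classical
  induction s using Finset.induction_on with
  | empty => simpa using c1_const (n := n) 0
  | insert a s ha ih =>
    have h1 := (hf a (Finset.mem_insert_self a s)).add
      (ih fun i hi => hf i (Finset.mem_insert_of_mem hi))
    refine (iff_of_eq (congrArg _ ?_)).mp h1
    funext x
    rw [Finset.sum_insert ha]

lemma pd_sum' {ι : Type*} {s : Finset ι} {f : ι → E n → ℝ} (hf : ∀ i ∈ s, C1 (f i)) (k : Fin n)
    (x : E n) : pd k (fun x => ∑ i ∈ s, f i x) x = ∑ i ∈ s, pd k (f i) x := by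
  unfold pd
  rw [fderiv_fun_sum fun i hi => (hf i hi).diff x]
  simp

lemma pd_coord (k i : Fin n) (x : E n) : pd k (fun x : E n => x i) x = if i = k then 1 else 0 := by
  have h : HasFDerivAt (fun x : E n => x i) (EuclideanSpace.proj i : E n →L[ℝ] ℝ) x :=
    (EuclideanSpace.proj i : E n →L[ℝ] ℝ).hasFDerivAt
  unfold pd
  rw [h.fderiv]
  simp

lemma c1_coord (i : Fin n) : C1 (fun x : E n => x i) :=
  ⟨(EuclideanSpace.proj i : E n →L[ℝ] ℝ).contDiff, pg_coord i, fun k => by
    refine PG.of_bdd (K := 1) fun x => ?_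
    rw [pd_coord]
    split_ifs <;> simp⟩

/-! ### integration by parts for products -/

theorem ibp_prod {f g : E n → ℝ} (hf : C1 f) (hg : C1 g) (i : Fin n) :
    ∫ x, f x * (pd i g x - x i * g x) ∂(gam n) = -∫ x, pd i f x * g x ∂(gam n) := by
  have h := ibp_gam (hf.mul hg).c (hf.mul hg).g i ((hf.mul hg).p i)
  have e1 : ∀ x, pd i (fun x => f x * g x) x = pd i f x * g x + f x * pd i g x := hf.pd_mul hg i
  simp_rw [e1] at h
  have i1 : Integrable (fun x => pd i f x * g x) (gam n) :=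
    integrable_of_PG ((hf.contp i).mul hg.cont) ((hf.p i).mul hg.g)
  have i2 : Integrable (fun x => f x * pd i g x) (gam n) :=
    integrable_of_PG (hf.cont.mul (hg.contp i)) (hf.g.mul (hg.p i))
  have i3 : Integrable (fun x => f x * g x * x i) (gam n) :=
    integrable_of_PG ((hf.cont.mul hg.cont).mul (c1_coord i).cont) ((hf.g.mul hg.g).mul (pg_coord i))
  rw [integral_add i1 i2] at h
  have e2 : ∀ x, f x * (pd i g x - x i * g x) = f x * pd i g x - f x * g x * x i := fun x => by ring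
  simp_rw [e2]
  rw [integral_sub i2 i3, h]
  ring

lemma int_expand {a b c : E n → ℝ} (ha : Integrable a (gam n)) (hb : Integrable b (gam n))
    (hc : Integrable c (gam n)) : ∫ x, (a x - 2 * b x + c x) ∂(gam n) =
      (∫ x, a x ∂(gam n)) - 2 * (∫ x, b x ∂(gam n)) + ∫ x, c x ∂(gam n) := by
  have h1 : Integrable (fun x => a x - 2 * b x) (gam n) := ha.sub (hb.const_mul 2)
  rw [integral_add h1 hc, integral_sub ha (hb.const_mul 2), integral_const_mul]

/-- the variational upper bound `⟨g, Rg⟩ ≤ E|F|² + E|g - D*F|²` -/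
theorem res_le {g : E n → ℝ} (hg : C1 g) {F : Fin n → E n → ℝ} (hF : ∀ k, C1 (F k)) :
    ∫ x, g x * Rs g x ∂(gam n) ≤ (∑ k, ∫ x, F k x ^ 2 ∂(gam n)) +
      ∫ x, (g x + ∑ k, (pd k (F k) x - x k * F k x)) ^ 2 ∂(gam n) := by
  set u := Rs g with hu
  have cu : C1 u := c1_Rs hg
  have hr := resolvent_eq cu hg
  rw [← hu] at hr
  set h : E n → ℝ := fun x => g x + ∑ k, (pd k (F k) x - x k * F k x) with hh
  have hcd : ∀ k, Continuous fun x : E n => pd k (F k) x - x k * F k x := fun k =>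
    ((hF k).contp k).sub ((c1_coord k).cont.mul (hF k).cont)
  have hgd : ∀ k, PG fun x : E n => pd k (F k) x - x k * F k x := fun k =>
    ((hF k).p k).sub ((pg_coord k).mul (hF k).g)
  have hhc : Continuous h := hg.cont.add (continuous_finsetSum _ fun k _ => hcd k)
  have hhg : PG h := hg.g.add (PG.sum _ fun k _ => hgd k)
  -- integrabilities
  have iuh : Integrable (fun x => u x * h x) (gam n) :=
    integrable_of_PG (cu.cont.mul hhc) (cu.g.mul hhg)
  have ihh : Integrable (fun x => h x ^ 2) (gam n) := integrable_of_PG (hhc.pow 2) (PG_sq hhg)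
  have iuu : Integrable (fun x => u x ^ 2) (gam n) :=
    integrable_of_PG (cu.cont.pow 2) (PG_sq cu.g)
  have iFF : ∀ k, Integrable (fun x => F k x ^ 2) (gam n) := fun k =>
    integrable_of_PG ((hF k).cont.pow 2) (PG_sq (hF k).g)
  have iFu : ∀ k, Integrable (fun x => F k x * pd k u x) (gam n) := fun k =>
    integrable_of_PG ((hF k).cont.mul (cu.contp k)) ((hF k).g.mul (cu.p k))
  have ipp : ∀ k, Integrable (fun x => pd k u x ^ 2) (gam n) := fun k =>
    integrable_of_PG ((cu.contp k).pow 2) (PG_sq (cu.p k))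
  -- `E u D*F`
  have e1 : ∀ k, ∫ x, F k x * pd k u x ∂(gam n) =
      -∫ x, u x * (pd k (F k) x - x k * F k x) ∂(gam n) := fun k => by
    have := ibp_prod cu (hF k) k
    rw [this, neg_neg]
    refine integral_congr_ae (ae_of_all _ fun x => ?_)
    simp only; ring
  have iud : ∀ k, Integrable (fun x => u x * (pd k (F k) x - x k * F k x)) (gam n) := fun k =>
    integrable_of_PG (cu.cont.mul (hcd k)) (cu.g.mul (hgd k))
  have iug : Integrable (fun x => u x * g x) (gam n) :=
    integrable_of_PG (cu.cont.mul hg.cont) (cu.g.mul hg.g)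
  have e2 : ∫ x, u x * h x ∂(gam n) = (∫ x, u x * g x ∂(gam n)) -
      ∑ k, ∫ x, F k x * pd k u x ∂(gam n) := by
    have e3 : ∀ x, u x * h x = u x * g x + ∑ k, u x * (pd k (F k) x - x k * F k x) := by
      intro x; rw [hh]; simp only; rw [mul_add, Finset.mul_sum]
    simp_rw [e3]
    rw [integral_add iug (integrable_finsetSum _ fun k _ => iud k),
      integral_finsetSum _ fun k _ => iud k]
    simp_rw [e1]
    rw [Finset.sum_neg_distrib]
    ring
  -- positivity
  have p1 : 0 ≤ ∫ x, (h x - u x) ^ 2 ∂(gam n) := integral_nonneg fun x => sq_nonneg _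
  have p2 : ∀ k, 0 ≤ ∫ x, (F k x - pd k u x) ^ 2 ∂(gam n) := fun k =>
    integral_nonneg fun x => sq_nonneg _
  have q1 : ∫ x, (h x - u x) ^ 2 ∂(gam n) = (∫ x, h x ^ 2 ∂(gam n)) -
      2 * (∫ x, u x * h x ∂(gam n)) + ∫ x, u x ^ 2 ∂(gam n) := by
    have : ∀ x, (h x - u x) ^ 2 = h x ^ 2 - 2 * (u x * h x) + u x ^ 2 := fun x => by ring
    simp_rw [this]
    exact int_expand ihh iuh iuu
  have q2 : ∀ k, ∫ x, (F k x - pd k u x) ^ 2 ∂(gam n) = (∫ x, F k x ^ 2 ∂(gam n)) -
      2 * (∫ x, F k x * pd k u x ∂(gam n)) + ∫ x, pd k u x ^ 2 ∂(gam n) := fun k => by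
    have : ∀ x, (F k x - pd k u x) ^ 2 = F k x ^ 2 - 2 * (F k x * pd k u x) + pd k u x ^ 2 :=
      fun x => by ring
    simp_rw [this]
    exact int_expand (iFF k) (iFu k) (ipp k)
  have p3 : 0 ≤ ∑ k, ∫ x, (F k x - pd k u x) ^ 2 ∂(gam n) := Finset.sum_nonneg fun k _ => p2 k
  simp_rw [q2] at p3
  rw [Finset.sum_add_distrib, Finset.sum_sub_distrib, ← Finset.mul_sum] at p3
  rw [q1, e2] at p1
  have r1 : ∫ x, u x * u x ∂(gam n) = ∫ x, u x ^ 2 ∂(gam n) := by simp only [sq]
  have r2 : ∀ k, ∫ x, pd k u x * pd k u x ∂(gam n) = ∫ x, pd k u x ^ 2 ∂(gam n) := fun k => by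
    simp only [sq]
  rw [r1] at hr
  simp_rw [r2] at hr
  have r3 : ∫ x, g x * u x ∂(gam n) = ∫ x, u x * g x ∂(gam n) := by simp only [mul_comm]
  rw [r3]
  linarith

/-! ### the Monge–Ampère data -/

lemma pd_comm {h : E n → ℝ} (hh : ContDiff ℝ 2 h) (x : E n) (i j : Fin n) :
    pd i (pd j h) x = pd j (pd i h) x := by
  rw [← H_eq_pd hh, ← H_eq_pd hh, H_symm hh]

/-- the gradient as a vector -/
def Gv (G : Fin n → E n → ℝ) (x : E n) : E n := ∑ i, G i x • e i

lemma Gv_apply (G : Fin n → E n → ℝ) (x : E n) (i : Fin n) : Gv G x i = G i x := by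
  unfold Gv
  simp [Finset.sum_apply, Pi.single_apply]

lemma pd_comp_Gv {G : Fin n → E n → ℝ} (hG : ∀ i, Differentiable ℝ (G i)) {f : E n → ℝ}
    (hf : Differentiable ℝ f) (j : Fin n) (x : E n) :
    pd j (fun x => f (Gv G x)) x = ∑ l, pd l f (Gv G x) * pd j (G l) x := by
  have h1 : HasFDerivAt (Gv G) (∑ i, (fderiv ℝ (G i) x).smulRight (e i : E n)) x := by
    have : HasFDerivAt (fun x => ∑ i, G i x • (e i : E n))
        (∑ i, (fderiv ℝ (G i) x).smulRight (e i : E n)) x :=
      HasFDerivAt.fun_sum fun i _ => ((hG i x).hasFDerivAt).smul_const (e i : E n)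
    exact this
  have h2 := ((hf (Gv G x)).hasFDerivAt).comp x h1
  unfold pd
  have h3 : fderiv ℝ (fun x => f (Gv G x)) x = _ := h2.fderiv
  rw [h3]
  simp only [ContinuousLinearMap.comp_apply, _root_.sum_apply,
    ContinuousLinearMap.smulRight_apply, map_sum, map_smul, smul_eq_mul]
  refine Finset.sum_congr rfl fun l _ => ?_
  ring

/-- gradient data with inverse matrix `N = M⁻¹` and the Monge–Ampère equation for `V` in
differentiated form -/
structure MA (G : Fin n → E n → ℝ) (M N : Fin n → Fin n → E n → ℝ) (V : E n → ℝ) : Prop where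
  hd : HD G M
  m2 : ∀ i j, ContDiff ℝ 2 (M i j)
  m3 : ∀ i j k, C1 (pd k (M i j))
  n1 : ∀ i j, C1 (N i j)
  sN : ∀ i j, N i j = N j i
  inv : ∀ x i j, ∑ k, N i k x * M k j x = if i = j then 1 else 0
  hV : ContDiff ℝ 2 V
  ma : ∀ x i, ∑ k, M i k x * pd k V (Gv G x) = x i + ∑ a, ∑ b, N a b x * pd i (M a b) x

namespace MA

variable {G : Fin n → E n → ℝ} {M N : Fin n → Fin n → E n → ℝ} {V : E n → ℝ}

/-- `W = M V''(G) M` -/
def W (G : Fin n → E n → ℝ) (M : Fin n → Fin n → E n → ℝ) (V : E n → ℝ) (i j : Fin n)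
    (x : E n) : ℝ := ∑ k, ∑ l, M i k x * pd l (pd k V) (Gv G x) * M l j x

/-- `Q_ij = Σ N_ac N_db ∂_j M_cd ∂_i M_ab` -/
def Q (M N : Fin n → Fin n → E n → ℝ) (i j : Fin n) (x : E n) : ℝ :=
  ∑ a, ∑ b, ∑ c, ∑ d, N a c x * pd j (M c d) x * N d b x * pd i (M a b) x

/-- `x_l + tr (M⁻¹ ∂_l M)` -/
def be (M N : Fin n → Fin n → E n → ℝ) (l : Fin n) (x : E n) : ℝ :=
  x l + ∑ a, ∑ b, N a b x * pd l (M a b) x

/-- `L u = Σ N_ab u_ab - Σ N_kl β_l u_k` -/
def LL (M N : Fin n → Fin n → E n → ℝ) (u : E n → ℝ) (x : E n) : ℝ :=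
  (∑ a, ∑ b, N a b x * pd a (pd b u) x) - ∑ k, (∑ l, N k l x * be M N l x) * pd k u x

lemma inv' (h : MA G M N V) (x : E n) (i j : Fin n) :
    ∑ k, M i k x * N k j x = if i = j then 1 else 0 := by
  have h1 : (Matrix.of fun i j => N i j x) * (Matrix.of fun i j => M i j x) = 1 := by
    ext i j
    rw [Matrix.mul_apply, Matrix.one_apply]
    exact h.inv x i j
  have h2 := mul_eq_one_comm.mp h1
  have h3 := congrFun (congrFun h2 i) j
  rw [Matrix.mul_apply, Matrix.one_apply] at h3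
  exact h3

/-- the derivative of the inverse -/
lemma pd_N (h : MA G M N V) (j a b : Fin n) (x : E n) :
    pd j (N a b) x = -∑ c, ∑ d, N a c x * pd j (M c d) x * N d b x := by
  have h1 : ∀ d, (∑ k, (pd j (N a k) x * M k d x + N a k x * pd j (M k d) x)) = 0 := by
    intro d
    have h2 : pd j (fun x => ∑ k, N a k x * M k d x) x = 0 := by
      have : (fun x => ∑ k, N a k x * M k d x) = fun _ => if a = d then 1 else 0 := by
        funext y; exact h.inv y a d
      rw [this]; simp [pd]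
    rw [pd_sum' fun k _ => (h.n1 a k).mul (h.hd.m k d)] at h2
    rw [← h2]
    exact Finset.sum_congr rfl fun k _ => ((h.n1 a k).pd_mul (h.hd.m k d) j x).symm
  have h3 : ∑ d, (∑ k, (pd j (N a k) x * M k d x + N a k x * pd j (M k d) x)) * N d b x = 0 := by
    simp only [h1, zero_mul, Finset.sum_const_zero]
  have h4 : ∑ d, (∑ k, (pd j (N a k) x * M k d x + N a k x * pd j (M k d) x)) * N d b x =
      (∑ k, pd j (N a k) x * ∑ d, M k d x * N d b x) +
        ∑ k, ∑ d, N a k x * pd j (M k d) x * N d b x := by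
    simp only [Finset.sum_mul, add_mul, Finset.sum_add_distrib, Finset.mul_sum]
    congr 1
    · rw [Finset.sum_comm]
      exact Finset.sum_congr rfl fun k _ => Finset.sum_congr rfl fun d _ => by ring
    · rw [Finset.sum_comm]
  rw [h4] at h3
  simp only [h.inv' x] at h3
  simp only [mul_ite, mul_one, mul_zero, Finset.sum_ite_eq', Finset.mem_univ, if_true] at h3
  linarith

/-- `V_k(G) = Σ_l N_kl β_l` -/
lemma V_eq (h : MA G M N V) (x : E n) (k : Fin n) :
    pd k V (Gv G x) = ∑ l, N k l x * be M N l x := by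
  have h1 : ∀ l, be M N l x = ∑ m, M l m x * pd m V (Gv G x) := fun l => (h.ma x l).symm
  simp_rw [h1, Finset.mul_sum]
  rw [Finset.sum_comm]
  have h2 : ∀ m, ∑ l, N k l x * (M l m x * pd m V (Gv G x)) =
      (∑ l, N k l x * M l m x) * pd m V (Gv G x) := fun m => by
    rw [Finset.sum_mul]
    exact Finset.sum_congr rfl fun l _ => by ring
  simp_rw [h2, h.inv x k]
  simp

/-- fourth derivatives are symmetric -/
lemma four (h : MA G M N V) (i j a b : Fin n) (x : E n) :
    pd j (pd i (M a b)) x = pd a (pd b (M i j)) x := by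
  have e1 : pd i (M a b) = pd b (M a i) := h.hd.t a b i
  have e2 : pd j (M a i) = pd a (M i j) := by
    rw [h.hd.s a i]; rw [h.hd.t i a j]
  rw [e1, pd_comm (h.m2 a i), e2, pd_comm (h.m2 i j)]

/-- **`M V''(DΦ) M = 1 + L M - Q`** -/
theorem W_eq (h : MA G M N V) (i j : Fin n) (x : E n) :
    W G M V i j x = (if i = j then 1 else 0) + LL M N (M i j) x - Q M N i j x := by
  have hVk : ∀ k, Differentiable ℝ (pd k V) := fun k =>
    (contDiff_one_pd h.hV k).differentiable one_ne_zero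
  have hG : ∀ i, Differentiable ℝ (G i) := fun i => (h.hd.g i).diff
  have hGvd : Differentiable ℝ (Gv G) := by
    have : Differentiable ℝ (fun x => ∑ i, G i x • (e i : E n)) := by
      refine Differentiable.fun_sum fun i _ => ?_
      exact (hG i).smul_const _
    exact this
  have hcomp : ∀ k, Differentiable ℝ fun x => pd k V (Gv G x) := fun k => (hVk k).comp hGvd
  -- left side
  have hL : pd j (fun x => ∑ k, M i k x * pd k V (Gv G x)) x =
      (∑ k, pd j (M i k) x * pd k V (Gv G x)) + W G M V i j x := by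
    have hk : ∀ k, DifferentiableAt ℝ (fun x => M i k x * pd k V (Gv G x)) x := fun k =>
      ((h.hd.m i k).diff x).mul (hcomp k x)
    rw [Crest.Agent.R238.Gap.pd_sum (f := fun k x => M i k x * pd k V (Gv G x)) (fun k _ => hk k)]
    have h1 : ∀ k, pd j (fun x => M i k x * pd k V (Gv G x)) x =
        pd j (M i k) x * pd k V (Gv G x) + M i k x *
          ∑ l, pd l (pd k V) (Gv G x) * M l j x := fun k => by
      rw [Crest.Agent.R238.Gap.pd_mul ((h.hd.m i k).diff x) (hcomp k x), pd_comp_Gv hG (hVk k)]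
      simp_rw [h.hd.d _ j]
    simp_rw [h1]
    rw [Finset.sum_add_distrib]
    congr 1
    unfold W
    refine Finset.sum_congr rfl fun k _ => ?_
    rw [Finset.mul_sum]
    exact Finset.sum_congr rfl fun l _ => by ring
  have hR : pd j (fun x => x i + ∑ a, ∑ b, N a b x * pd i (M a b) x) x =
      (if i = j then 1 else 0) + ∑ a, ∑ b, (pd j (N a b) x * pd i (M a b) x +
        N a b x * pd j (pd i (M a b)) x) := by
    have c1 : ∀ a b, C1 fun x => N a b x * pd i (M a b) x := fun a b =>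
      (h.n1 a b).mul (h.m3 a b i)
    have c2 : ∀ a, C1 fun x => ∑ b, N a b x * pd i (M a b) x := fun a => C1.sum fun b _ => c1 a b
    rw [(c1_coord i).pd_add (C1.sum fun a _ => c2 a), pd_coord]
    congr 1
    rw [pd_sum' fun a _ => c2 a]
    refine Finset.sum_congr rfl fun a _ => ?_
    rw [pd_sum' fun b _ => c1 a b]
    exact Finset.sum_congr rfl fun b _ => (h.n1 a b).pd_mul (h.m3 a b i) j x
  have hE : (fun x => ∑ k, M i k x * pd k V (Gv G x)) =
      fun x => x i + ∑ a, ∑ b, N a b x * pd i (M a b) x := by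
    funext y; exact h.ma y i
  rw [hE, hR] at hL
  have hQ : ∑ a, ∑ b, pd j (N a b) x * pd i (M a b) x = -Q M N i j x := by
    unfold Q
    rw [← Finset.sum_neg_distrib]
    refine Finset.sum_congr rfl fun a _ => ?_
    rw [← Finset.sum_neg_distrib]
    refine Finset.sum_congr rfl fun b _ => ?_
    rw [h.pd_N j a b x, neg_mul, Finset.sum_mul]
    congr 1
    refine Finset.sum_congr rfl fun c _ => ?_
    rw [Finset.sum_mul]
  have hS : ∑ a, ∑ b, (pd j (N a b) x * pd i (M a b) x + N a b x * pd j (pd i (M a b)) x) =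
      -Q M N i j x + ∑ a, ∑ b, N a b x * pd a (pd b (M i j)) x := by
    simp only [Finset.sum_add_distrib]
    rw [hQ]
    congr 1
    exact Finset.sum_congr rfl fun a _ => Finset.sum_congr rfl fun b _ => by
      rw [h.four i j a b x]
  have hT : ∑ k, pd j (M i k) x * pd k V (Gv G x) =
      ∑ k, (∑ l, N k l x * be M N l x) * pd k (M i j) x := by
    refine Finset.sum_congr rfl fun k _ => ?_
    rw [h.V_eq x k, h.hd.t i k j, mul_comm]
  rw [hS, hT] at hL
  unfold LL
  linarith

/-- divergence of the inverse -/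
lemma div_N (h : MA G M N V) (a : Fin n) (x : E n) :
    ∑ b, pd b (N a b) x = -∑ c, N a c x * ∑ b, ∑ d, N b d x * pd c (M b d) x := by
  simp_rw [h.pd_N _ a _ x]
  rw [Finset.sum_neg_distrib]
  congr 1
  rw [Finset.sum_comm]
  refine Finset.sum_congr rfl fun c _ => ?_
  rw [Finset.mul_sum]
  refine Finset.sum_congr rfl fun b _ => ?_
  rw [Finset.mul_sum]
  refine Finset.sum_congr rfl fun d _ => ?_
  have e1 : pd b (M c d) = pd c (M b d) := by
    rw [h.hd.s c d, h.hd.t d c b, h.hd.s d b]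
  rw [e1, h.sN d b]
  ring

/-- `N Du` -/
def Fl (N : Fin n → Fin n → E n → ℝ) (u : E n → ℝ) (b : Fin n) (x : E n) : ℝ :=
  ∑ a, N a b x * pd a u x

lemma c1_Fl (h : MA G M N V) {u : E n → ℝ} (hu : ∀ a, C1 (pd a u)) (b : Fin n) :
    C1 (Fl N u b) := C1.sum fun a _ => (h.n1 a b).mul (hu a)

/-- divergence form of `L` -/
lemma LL_div (h : MA G M N V) {u : E n → ℝ} (hu2 : ContDiff ℝ 2 u) (hu : ∀ a, C1 (pd a u))
    (x : E n) : LL M N u x = ∑ b, (pd b (Fl N u b) x - x b * Fl N u b x) := by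
  have e1 : ∀ b, pd b (Fl N u b) x =
      ∑ a, (pd b (N a b) x * pd a u x + N a b x * pd b (pd a u) x) := fun b => by
    unfold Fl
    rw [pd_sum' fun a _ => (h.n1 a b).mul (hu a)]
    exact Finset.sum_congr rfl fun a _ => (h.n1 a b).pd_mul (hu a) b x
  have e2 : ∑ b, (pd b (Fl N u b) x - x b * Fl N u b x) =
      (∑ a, (∑ b, pd b (N a b) x) * pd a u x) + (∑ a, ∑ b, N a b x * pd a (pd b u) x) -
        ∑ a, (∑ b, N a b x * x b) * pd a u x := by
    simp_rw [e1]
    unfold Fl
    simp only [Finset.sum_sub_distrib, Finset.sum_add_distrib, Finset.mul_sum, Finset.sum_mul]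
    congr 1
    · congr 1
      · rw [Finset.sum_comm]
      · rw [Finset.sum_comm]
        refine Finset.sum_congr rfl fun a _ => Finset.sum_congr rfl fun b _ => ?_
        rw [pd_comm hu2]
    · rw [Finset.sum_comm]
      exact Finset.sum_congr rfl fun a _ => Finset.sum_congr rfl fun b _ => by ring
  rw [e2]
  unfold LL be
  simp_rw [h.div_N _ x]
  have e3 : ∀ k, ∑ l, N k l x * (x l + ∑ a, ∑ b, N a b x * pd l (M a b) x) =
      (∑ b, N k b x * x b) + ∑ c, N k c x * ∑ b, ∑ d, N b d x * pd c (M b d) x := fun k => by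
    rw [← Finset.sum_add_distrib]
    exact Finset.sum_congr rfl fun l _ => by rw [mul_add]
  simp_rw [e3, add_mul, neg_mul]
  rw [Finset.sum_add_distrib, Finset.sum_neg_distrib]
  ring

/-- `E Z·LM_ij = -E Σ N_ab ∂_b Z ∂_a M_ij` -/
theorem int_LL (h : MA G M N V) {Z : E n → ℝ} (hZ : C1 Z) (i j : Fin n) :
    ∫ x, Z x * LL M N (M i j) x ∂(gam n) =
      -∫ x, (∑ a, ∑ b, N a b x * pd b Z x * pd a (M i j) x) ∂(gam n) := by
  have hu : ∀ a, C1 (pd a (M i j)) := fun a => h.m3 i j a
  have hF : ∀ b, C1 (Fl N (M i j) b) := fun b => h.c1_Fl hu b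
  have e1 : ∀ x, Z x * LL M N (M i j) x =
      ∑ b, Z x * (pd b (Fl N (M i j) b) x - x b * Fl N (M i j) b x) := fun x => by
    rw [h.LL_div (h.m2 i j) hu x, Finset.mul_sum]
  simp_rw [e1]
  have i1 : ∀ b, Integrable (fun x => Z x * (pd b (Fl N (M i j) b) x - x b * Fl N (M i j) b x))
      (gam n) := fun b =>
    integrable_of_PG (hZ.cont.mul (((hF b).contp b).sub ((c1_coord b).cont.mul (hF b).cont)))
      (hZ.g.mul (((hF b).p b).sub ((pg_coord b).mul (hF b).g)))
  have i2 : ∀ b, Integrable (fun x => pd b Z x * Fl N (M i j) b x) (gam n) := fun b =>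
    integrable_of_PG ((hZ.contp b).mul (hF b).cont) ((hZ.p b).mul (hF b).g)
  rw [integral_finsetSum _ fun b _ => i1 b]
  simp_rw [ibp_prod hZ (hF _)]
  rw [Finset.sum_neg_distrib, ← integral_finsetSum _ fun b _ => i2 b]
  congr 1
  refine integral_congr_ae (ae_of_all _ fun x => ?_)
  simp only [Fl, Finset.mul_sum]
  rw [Finset.sum_comm]
  exact Finset.sum_congr rfl fun a _ => Finset.sum_congr rfl fun b _ => by ring

lemma c1_Q (h : MA G M N V) (i j : Fin n) : C1 (Q M N i j) :=
  C1.sum fun a _ => C1.sum fun b _ => C1.sum fun c _ => C1.sum fun d _ =>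
    (((h.n1 a c).mul (h.m3 c d j)).mul (h.n1 d b)).mul (h.m3 a b i)

lemma contLL (h : MA G M N V) (i j : Fin n) : Continuous (LL M N (M i j)) ∧ PG (LL M N (M i j)) := by
  have hF : ∀ b, C1 (Fl N (M i j) b) := fun b => h.c1_Fl (fun a => h.m3 i j a) b
  have e : LL M N (M i j) = fun x => ∑ b, (pd b (Fl N (M i j) b) x - x b * Fl N (M i j) b x) := by
    funext x; exact h.LL_div (h.m2 i j) (fun a => h.m3 i j a) x
  rw [e]
  exact ⟨continuous_finsetSum _ fun b _ => ((hF b).contp b).sub ((c1_coord b).cont.mul (hF b).cont),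
    PG.sum _ fun b _ => ((hF b).p b).sub ((pg_coord b).mul (hF b).g)⟩

/-- **the log-concavity identity, integrated**:
`E tr (Z W) = E tr Z - E Σ N_ab ⟨∂_b Z, ∂_a M⟩ - E tr (Z Q)` -/
theorem int_W (h : MA G M N V) {Z : Fin n → Fin n → E n → ℝ} (hZ : ∀ i j, C1 (Z i j)) :
    ∫ x, (∑ i, ∑ j, Z i j x * W G M V i j x) ∂(gam n) =
      (∫ x, (∑ i, Z i i x) ∂(gam n)) -
        (∫ x, (∑ i, ∑ j, ∑ a, ∑ b, N a b x * pd b (Z i j) x * pd a (M i j) x) ∂(gam n)) -
        ∫ x, (∑ i, ∑ j, Z i j x * Q M N i j x) ∂(gam n) := by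
  have iL : ∀ i j, Integrable (fun x => Z i j x * LL M N (M i j) x) (gam n) := fun i j =>
    integrable_of_PG ((hZ i j).cont.mul (h.contLL i j).1) ((hZ i j).g.mul (h.contLL i j).2)
  have iQ : ∀ i j, Integrable (fun x => Z i j x * Q M N i j x) (gam n) := fun i j =>
    integrable_of_PG ((hZ i j).mul (h.c1_Q i j)).cont ((hZ i j).mul (h.c1_Q i j)).g
  have iD : ∀ i j, Integrable (fun x => Z i j x * (if i = j then (1 : ℝ) else 0)) (gam n) :=
    fun i j => (integrable_of_PG (hZ i j).cont (hZ i j).g).mul_const _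
  have iN : ∀ i j, Integrable (fun x => ∑ a, ∑ b, N a b x * pd b (Z i j) x * pd a (M i j) x)
      (gam n) := fun i j =>
    integrable_finsetSum _ fun a _ => integrable_finsetSum _ fun b _ =>
      integrable_of_PG (((h.n1 a b).cont.mul ((hZ i j).contp b)).mul ((h.hd.m i j).contp a))
        (((h.n1 a b).g.mul ((hZ i j).p b)).mul ((h.hd.m i j).p a))
  have e1 : ∀ x, (∑ i, ∑ j, Z i j x * W G M V i j x) =
      ((∑ i, ∑ j, Z i j x * (if i = j then (1 : ℝ) else 0)) +
        ∑ i, ∑ j, Z i j x * LL M N (M i j) x) - ∑ i, ∑ j, Z i j x * Q M N i j x := by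
    intro x
    simp_rw [h.W_eq _ _ x, mul_sub, mul_add, Finset.sum_sub_distrib, Finset.sum_add_distrib]
  simp_rw [e1]
  have j1 : Integrable (fun x => ∑ i, ∑ j, Z i j x * (if i = j then (1 : ℝ) else 0)) (gam n) :=
    integrable_finsetSum _ fun i _ => integrable_finsetSum _ fun j _ => iD i j
  have j2 : Integrable (fun x => ∑ i, ∑ j, Z i j x * LL M N (M i j) x) (gam n) :=
    integrable_finsetSum _ fun i _ => integrable_finsetSum _ fun j _ => iL i j
  have j3 : Integrable (fun x => ∑ i, ∑ j, Z i j x * Q M N i j x) (gam n) :=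
    integrable_finsetSum _ fun i _ => integrable_finsetSum _ fun j _ => iQ i j
  have j12 : Integrable (fun x => (∑ i, ∑ j, Z i j x * (if i = j then (1 : ℝ) else 0)) +
      ∑ i, ∑ j, Z i j x * LL M N (M i j) x) (gam n) := j1.add j2
  rw [integral_sub j12 j3, integral_add j1 j2]
  have e2 : ∫ x, (∑ i, ∑ j, Z i j x * (if i = j then (1 : ℝ) else 0)) ∂(gam n) =
      ∫ x, (∑ i, Z i i x) ∂(gam n) := by
    refine integral_congr_ae (ae_of_all _ fun x => ?_)
    simp
  have e3 : ∫ x, (∑ i, ∑ j, Z i j x * LL M N (M i j) x) ∂(gam n) =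
      -∫ x, (∑ i, ∑ j, ∑ a, ∑ b, N a b x * pd b (Z i j) x * pd a (M i j) x) ∂(gam n) := by
    rw [integral_finsetSum _ fun i _ => integrable_finsetSum _ fun j _ => iL i j,
      integral_finsetSum _ fun i _ => integrable_finsetSum _ fun j _ => iN i j,
      ← Finset.sum_neg_distrib]
    refine Finset.sum_congr rfl fun i _ => ?_
    rw [integral_finsetSum _ fun j _ => iL i j, integral_finsetSum _ fun j _ => iN i j,
      ← Finset.sum_neg_distrib]
    exact Finset.sum_congr rfl fun j _ => h.int_LL (hZ i j) i j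
  rw [e2, e3]
  ring

end MA

end Crest.Agent.R253.Meh74
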