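import Crest.Agent.R253.EqT1_593
import Crest.Agent.R253.MAI_74

/-!
# R253, equality tail from the margin, part 2 (helper593): Gaussian analysis

Scaling, moments, the weighted closedness identities and their limit.
-/

set_option autoImplicit false
open MeasureTheory Set Filter Topology Matrix Real ProbabilityTheory

noncomputable section

namespace Crest.Agent.R253.EqT593

open Crest.Agent.R253.Mills37 Crest.Agent.R253.SpecCalc999 Crest.Agent.R253.Eq435
open Crest.Agent.R238.Gap Crest.Agent.R238.GapPoinc Crest.Agent.R238.GapPc Crest.Agent.R253.Meh74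

variable {m : ℕ}

/-! ### scaling -/

lemma pg_scale {s : ℝ} (hs : 0 < s) (hs1 : s ≤ 1) {F : E m → ℝ} (hg : PG F) :
    PG fun x => F (s • x) := by
  obtain ⟨K, k, hK0, hK⟩ := pg_nonneg hg
  refine ⟨K, k, fun x => (hK _).trans ?_⟩
  apply mul_le_mul_of_nonneg_left _ hK0
  apply pow_le_pow_left₀ (by positivity)
  rw [norm_smul, Real.norm_eq_abs, abs_of_pos hs]
  nlinarith [norm_nonneg x]

lemma scale_le {s : ℝ} (hs : 0 < s) (hs1 : s ≤ 1) {F : E m → ℝ} (hF : Continuous F)
    (h0 : ∀ x, 0 ≤ F x) (hg : PG F) :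
    ∫ x, F (s • x) ∂(gam m) ≤ (s⁻¹) ^ m * ∫ x, F x ∂(gam m) := by
  rw [integral_stdGaussian_mul, integral_stdGaussian_mul]
  set c : ℝ := (2 * π) ^ (-(Module.finrank ℝ (E m) : ℝ) / 2) with hc
  have hc0 : 0 < c := by positivity
  have i1 : Integrable (fun x => F x * rexp (-(‖x‖ ^ 2 / 2))) :=
    integrable_mul_exp (integrable_of_PG hF hg)
  have hle : ∀ y : E m, F y * rexp (-(‖y‖ ^ 2 / (2 * s ^ 2))) ≤ F y * rexp (-(‖y‖ ^ 2 / 2)) := by
    intro y
    apply mul_le_mul_of_nonneg_left _ (h0 y)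
    apply Real.exp_le_exp.mpr
    apply neg_le_neg
    apply div_le_div_of_nonneg_left (by positivity) (by positivity)
    nlinarith [mul_pos hs hs]
  have hcont : Continuous fun y : E m => F y * rexp (-(‖y‖ ^ 2 / (2 * s ^ 2))) := by fun_prop
  have i2 : Integrable (fun y : E m => F y * rexp (-(‖y‖ ^ 2 / (2 * s ^ 2)))) := by
    refine i1.mono' hcont.aestronglyMeasurable (ae_of_all _ fun y => ?_)
    rw [Real.norm_eq_abs, abs_of_nonneg (mul_nonneg (h0 y) (Real.exp_pos _).le)]
    exact hle y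
  have e1 : ∫ x : E m, F (s • x) * rexp (-(‖x‖ ^ 2 / 2)) =
      (s⁻¹) ^ m * ∫ y : E m, F y * rexp (-(‖y‖ ^ 2 / (2 * s ^ 2))) := by
    have h := Measure.integral_comp_smul (volume : Measure (E m))
      (fun y : E m => F y * rexp (-(‖y‖ ^ 2 / (2 * s ^ 2)))) s
    have hd : Module.finrank ℝ (E m) = m := finrank_euclideanSpace_fin
    rw [hd, abs_of_pos (by positivity), smul_eq_mul, ← inv_pow] at h
    rw [← h]
    refine integral_congr_ae (ae_of_all _ fun x => ?_)
    simp only
    congr 2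
    rw [norm_smul, Real.norm_eq_abs, abs_of_pos hs]
    field_simp
  rw [e1]
  have e2 : ∫ y : E m, F y * rexp (-(‖y‖ ^ 2 / (2 * s ^ 2))) ≤
      ∫ y : E m, F y * rexp (-(‖y‖ ^ 2 / 2)) := integral_mono i2 i1 hle
  have h3 : 0 ≤ (s⁻¹) ^ m := by positivity
  calc c * ((s⁻¹) ^ m * ∫ y : E m, F y * rexp (-(‖y‖ ^ 2 / (2 * s ^ 2))))
      ≤ c * ((s⁻¹) ^ m * ∫ y : E m, F y * rexp (-(‖y‖ ^ 2 / 2))) := by gcongr
    _ = _ := by ring

lemma pd_scale {f : E m → ℝ} (hf : C1 f) (s : ℝ) (k : Fin m) (x : E m) :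
    pd k (fun x => f (s • x)) x = s * pd k f (s • x) := by
  have h1 : HasFDerivAt (fun x : E m => s • x) (s • ContinuousLinearMap.id ℝ (E m)) x :=
    (hasFDerivAt_id x).const_smul s
  have h2 := ((hf.diff (s • x)).hasFDerivAt).comp x h1
  unfold pd
  have h3 : fderiv ℝ (fun x => f (s • x)) x =
      (fderiv ℝ f (s • x)).comp (s • ContinuousLinearMap.id ℝ (E m)) := h2.fderiv
  rw [h3]
  simp

lemma c1_scale {f : E m → ℝ} (hf : C1 f) {s : ℝ} (hs : 0 < s) (hs1 : s ≤ 1) :
    C1 fun x => f (s • x) :=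
  ⟨hf.c.comp (contDiff_const_smul s), pg_scale hs hs1 hf.g, fun k => by
    have : pd k (fun x => f (s • x)) = fun x => s * pd k f (s • x) := by
      funext x; exact pd_scale hf s k x
    rw [this]
    exact (pg_const s).mul (pg_scale hs hs1 (hf.p k))⟩

/-! ### Gaussian moments -/

lemma mom0 : ∫ _x : E m, (1 : ℝ) ∂(gam m) = 1 := by simp

lemma mom1 (k : Fin m) : ∫ x : E m, x k ∂(gam m) = 0 := by
  have h := ibp_gam (c1_const (n := m) 1).c (c1_const (n := m) 1).g k ((c1_const (n := m) 1).p k)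
  simp only [one_mul] at h
  rw [h]
  simp [pd]

lemma mom2 (k l : Fin m) : ∫ x : E m, x l * x k ∂(gam m) = if l = k then 1 else 0 := by
  have h := ibp_gam (c1_coord l).c (c1_coord l).g k ((c1_coord l).p k)
  rw [h]
  simp only [pd_coord]
  split_ifs <;> simp

lemma mom3 (k p q : Fin m) : ∫ x : E m, x p * x q * x k ∂(gam m) = 0 := by
  have hc := (c1_coord p).mul (c1_coord q)
  have h := ibp_gam hc.c hc.g k (hc.p k)
  rw [h]
  have e : ∀ x : E m, pd k (fun x : E m => x p * x q) x =
      (if p = k then 1 else 0) * x q + x p * (if q = k then 1 else 0) := by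
    intro x
    rw [(c1_coord p).pd_mul (c1_coord q), pd_coord, pd_coord]
  simp_rw [e]
  rw [integral_add, integral_const_mul, integral_mul_const, mom1, mom1]
  · simp
  · exact (integrable_of_PG (c1_coord q).cont (c1_coord q).g).const_mul _
  · exact (integrable_of_PG (c1_coord p).cont (c1_coord p).g).mul_const _

lemma mom4 (k a p q : Fin m) : ∫ x : E m, x a * (x p * x q) * x k ∂(gam m) =
    (if a = k then 1 else 0) * (if p = q then 1 else 0) +
      ((if p = k then 1 else 0) * (if a = q then 1 else 0) +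
        (if q = k then 1 else 0) * (if a = p then 1 else 0)) := by
  have hc := (c1_coord a).mul ((c1_coord p).mul (c1_coord q))
  have h := ibp_gam hc.c hc.g k (hc.p k)
  rw [h]
  have e : ∀ x : E m, pd k (fun x : E m => x a * (x p * x q)) x =
      (if a = k then 1 else 0) * (x p * x q) + ((if p = k then 1 else 0) * (x a * x q) +
        (if q = k then 1 else 0) * (x a * x p)) := by
    intro x
    rw [(c1_coord a).pd_mul ((c1_coord p).mul (c1_coord q)),
      (c1_coord p).pd_mul (c1_coord q), pd_coord, pd_coord, pd_coord]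
    ring
  simp_rw [e]
  have i : ∀ p q : Fin m, Integrable (fun x : E m => x p * x q) (gam m) := fun p q =>
    integrable_of_PG ((c1_coord p).mul (c1_coord q)).cont ((c1_coord p).mul (c1_coord q)).g
  have i4 : Integrable (fun x : E m => (if p = k then (1 : ℝ) else 0) * (x a * x q) +
      (if q = k then (1 : ℝ) else 0) * (x a * x p)) (gam m) :=
    ((i a q).const_mul _).add ((i a p).const_mul _)
  rw [integral_add ((i p q).const_mul _) i4,
    integral_add ((i a q).const_mul _) ((i a p).const_mul _),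
    integral_const_mul, integral_const_mul, integral_const_mul, mom2, mom2, mom2]

/-! ### closedness identities for `HD` data -/

lemma close1 {G : Fin m → E m → ℝ} {M : Fin m → Fin m → E m → ℝ} (hd : HD G M) {s : ℝ}
    (hs : 0 < s) (hs1 : s ≤ 1) (i j k : Fin m) :
    ∫ x, x k * M i j (s • x) ∂(gam m) = ∫ x, x j * M i k (s • x) ∂(gam m) := by
  have h1 := c1_scale (hd.m i j) hs hs1
  have h2 := c1_scale (hd.m i k) hs hs1
  have e1 := ibp_gam h1.c h1.g k (h1.p k)
  have e2 := ibp_gam h2.c h2.g j (h2.p j)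
  simp_rw [pd_scale (hd.m i j), hd.t i j k] at e1
  simp_rw [pd_scale (hd.m i k)] at e2
  simp_rw [mul_comm] at e1 e2 ⊢
  rw [e1, e2]

lemma close2 {G : Fin m → E m → ℝ} {M : Fin m → Fin m → E m → ℝ} (hd : HD G M) {s : ℝ}
    (hs : 0 < s) (hs1 : s ≤ 1) (a i j k : Fin m) :
    ∫ x, (x k * x a - if a = k then 1 else 0) * M i j (s • x) ∂(gam m) =
      ∫ x, (x j * x a - if a = j then 1 else 0) * M i k (s • x) ∂(gam m) := by
  have key : ∀ i j k : Fin m, ∫ x, (x k * x a - if a = k then 1 else 0) * M i j (s • x) ∂(gam m) =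
      ∫ x, x a * (s * pd k (M i j) (s • x)) ∂(gam m) := by
    intro i j k
    have h1 := c1_scale (hd.m i j) hs hs1
    have hc := (c1_coord a).mul h1
    have e1 := ibp_gam hc.c hc.g k (hc.p k)
    have e2 : ∀ x : E m, pd k (fun x : E m => x a * M i j (s • x)) x =
        (if a = k then 1 else 0) * M i j (s • x) + x a * (s * pd k (M i j) (s • x)) := by
      intro x
      rw [(c1_coord a).pd_mul h1, pd_coord, pd_scale (hd.m i j)]
    simp_rw [e2] at e1
    have i1 : Integrable (fun x : E m => (if a = k then (1 : ℝ) else 0) * M i j (s • x)) (gam m) :=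
      (integrable_of_PG h1.cont h1.g).const_mul _
    have i2 : Integrable (fun x : E m => x a * (s * pd k (M i j) (s • x))) (gam m) := by
      have e3 : (fun x : E m => x a * (s * pd k (M i j) (s • x))) =
          fun x => x a * pd k (fun x => M i j (s • x)) x := by
        funext x; rw [pd_scale (hd.m i j)]
      rw [e3]
      exact integrable_of_PG ((c1_coord a).cont.mul (h1.contp k)) ((c1_coord a).g.mul (h1.p k))
    have i3 : Integrable (fun x : E m => x a * M i j (s • x) * x k) (gam m) :=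
      integrable_of_PG (hc.cont.mul (c1_coord k).cont) (hc.g.mul (c1_coord k).g)
    rw [integral_add i1 i2] at e1
    have e4 : ∫ x, (x k * x a - if a = k then 1 else 0) * M i j (s • x) ∂(gam m) =
        ∫ x, x a * M i j (s • x) * x k ∂(gam m) -
          ∫ x, (if a = k then (1 : ℝ) else 0) * M i j (s • x) ∂(gam m) := by
      rw [← integral_sub i3 i1]
      refine integral_congr_ae (ae_of_all _ fun x => ?_)
      simp only; ring
    rw [e4, e1]; ring
  rw [key i j k, key i k j, hd.t i j k]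

/-! ### Cauchy–Schwarz and the passage to the limit -/

lemma cs_gam {f g : E m → ℝ} (hf : Continuous f) (hg : Continuous g) (pf : PG f) (pg : PG g) :
    (∫ x, f x * g x ∂(gam m)) ^ 2 ≤ (∫ x, f x ^ 2 ∂(gam m)) * ∫ x, g x ^ 2 ∂(gam m) := by
  have i1 : Integrable (fun x => f x ^ 2) (gam m) := integrable_of_PG (hf.pow 2) (PG_sq pf)
  have i2 : Integrable (fun x => g x ^ 2) (gam m) := integrable_of_PG (hg.pow 2) (PG_sq pg)
  have i3 : Integrable (fun x => f x * g x) (gam m) := integrable_of_PG (hf.mul hg) (pf.mul pg)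
  have h : ∀ t : ℝ, 0 ≤ (∫ x, g x ^ 2 ∂(gam m)) * (t * t) + (-2 * ∫ x, f x * g x ∂(gam m)) * t +
      ∫ x, f x ^ 2 ∂(gam m) := by
    intro t
    have e : (∫ x, g x ^ 2 ∂(gam m)) * (t * t) + (-2 * ∫ x, f x * g x ∂(gam m)) * t +
        ∫ x, f x ^ 2 ∂(gam m) = ∫ x, (f x - t * g x) ^ 2 ∂(gam m) := by
      have e1 : ∀ x, (f x - t * g x) ^ 2 = (f x ^ 2 + (-2 * t) * (f x * g x)) + (t * t) * g x ^ 2 :=
        fun x => by ring
      simp_rw [e1]
      have i4 : Integrable (fun x => f x ^ 2 + (-2 * t) * (f x * g x)) (gam m) :=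
        i1.add (i3.const_mul _)
      rw [integral_add i4 (i2.const_mul _), integral_add i1 (i3.const_mul _),
        integral_const_mul, integral_const_mul]
      ring
    rw [e]
    exact integral_nonneg fun x => sq_nonneg _
  have hd := discrim_le_zero h
  unfold discrim at hd
  nlinarith

/-- convergence in `L²` -/
def L2lim (F : ℕ → E m → ℝ) (F0 : E m → ℝ) : Prop :=
  Tendsto (fun n => ∫ x, (F n x - F0 x) ^ 2 ∂(gam m)) atTop (𝓝 0)

lemma lim_w {F : ℕ → E m → ℝ} {F0 w : E m → ℝ} (hF : ∀ n, Continuous (F n)) (pF : ∀ n, PG (F n))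
    (hF0 : Continuous F0) (pF0 : PG F0) (hw : Continuous w) (pw : PG w) (hl : L2lim F F0)
    {s : ℝ} (hs : 0 < s) (hs1 : s ≤ 1) :
    Tendsto (fun n => ∫ x, w x * F n (s • x) ∂(gam m)) atTop (𝓝 (∫ x, w x * F0 (s • x) ∂(gam m))) := by
  rw [tendsto_iff_dist_tendsto_zero]
  have hb : ∀ n, dist (∫ x, w x * F n (s • x) ∂(gam m)) (∫ x, w x * F0 (s • x) ∂(gam m)) ≤
      √((∫ x, w x ^ 2 ∂(gam m)) * ((s⁻¹) ^ m * ∫ x, (F n x - F0 x) ^ 2 ∂(gam m))) := by
    intro n
    have c1 : Continuous fun x : E m => F n (s • x) := (hF n).comp (continuous_const_smul s)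
    have c2 : Continuous fun x : E m => F0 (s • x) := hF0.comp (continuous_const_smul s)
    have i1 : Integrable (fun x => w x * F n (s • x)) (gam m) :=
      integrable_of_PG (hw.mul c1) (pw.mul (pg_scale hs hs1 (pF n)))
    have i2 : Integrable (fun x => w x * F0 (s • x)) (gam m) :=
      integrable_of_PG (hw.mul c2) (pw.mul (pg_scale hs hs1 pF0))
    rw [Real.dist_eq, ← integral_sub i1 i2]
    have e : ∀ x, w x * F n (s • x) - w x * F0 (s • x) = w x * (F n (s • x) - F0 (s • x)) :=
      fun x => by ring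
    simp_rw [e]
    apply Real.abs_le_sqrt
    refine (cs_gam hw (c1.sub c2) pw ((pg_scale hs hs1 (pF n)).sub (pg_scale hs hs1 pF0))).trans ?_
    apply mul_le_mul_of_nonneg_left _ (integral_nonneg fun x => sq_nonneg _)
    exact scale_le hs hs1 (F := fun x => (F n x - F0 x) ^ 2) (((hF n).sub hF0).pow 2)
      (fun x => sq_nonneg _) (PG_sq ((pF n).sub pF0))
  refine squeeze_zero (fun n => dist_nonneg) hb ?_
  have h1 := (hl.const_mul ((s⁻¹) ^ m)).const_mul (∫ x, w x ^ 2 ∂(gam m))
  simp only [mul_zero] at h1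
  have h2 := (Real.continuous_sqrt.tendsto 0).comp h1
  rwa [Real.sqrt_zero] at h2

end Crest.Agent.R253.EqT593
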