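import Crest.Agent.R253.EqT2_593

/-!
# R253, equality tail from the margin, part 3 (helper593): the limit tensor

`eq_tail` : from HD data with `M n = mu (ζ n)`, `ζ n - ∑ t_k T n k → 0` in `L²` and
`∑ (T n k)² → 1`, along a subsequence `M n → U diag (mu (Uᵀ t)) Uᵀ` in `L²`.
-/

set_option autoImplicit false
open MeasureTheory Set Filter Topology Matrix Real ProbabilityTheory

noncomputable section

namespace Crest.Agent.R253.EqT593

open Crest.Agent.R253.Mills37 Crest.Agent.R253.SpecCalc999 Crest.Agent.R253.Eq435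
open Crest.Agent.R238.Gap Crest.Agent.R238.GapPoinc Crest.Agent.R238.GapPc Crest.Agent.R253.Meh74

variable {m : ℕ}

/-- coordinates of a point of `E m` -/
def co (x : E m) : Fin m → ℝ := fun k => x k

/-! ### the linear matrix field -/

lemma ZT_herm {T : Fin m → Mat m} (hT : ∀ k i j, T k i j = T k j i) (t : Fin m → ℝ) :
    (ZT T t).IsHermitian := by
  ext i j
  unfold ZT
  simp only [conjTranspose_apply, star_trivial, Matrix.sum_apply, Matrix.smul_apply, smul_eq_mul]
  exact Finset.sum_congr rfl fun k _ => by rw [hT k j i]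

lemma ZT_apply (T : Fin m → Mat m) (t : Fin m → ℝ) (i j : Fin m) :
    ZT T t i j = ∑ k, t k * T k i j := by
  unfold ZT
  simp only [Matrix.sum_apply, Matrix.smul_apply, smul_eq_mul]

lemma ZT_smul (T : Fin m → Mat m) (s : ℝ) (t : Fin m → ℝ) : ZT T (s • t) = s • ZT T t := by
  ext i j
  rw [Matrix.smul_apply, ZT_apply, ZT_apply, smul_eq_mul, Finset.mul_sum]
  exact Finset.sum_congr rfl fun k _ => by simp [mul_assoc]

lemma ZT_sub_t (T : Fin m → Mat m) (t u : Fin m → ℝ) : ZT T (t - u) = ZT T t - ZT T u := by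
  ext i j
  rw [Matrix.sub_apply, ZT_apply, ZT_apply, ZT_apply, ← Finset.sum_sub_distrib]
  exact Finset.sum_congr rfl fun k _ => by simp [sub_mul]

lemma ZT_sub_T (T S : Fin m → Mat m) (t : Fin m → ℝ) :
    ZT (fun k => T k - S k) t = ZT T t - ZT S t := by
  ext i j
  rw [Matrix.sub_apply, ZT_apply, ZT_apply, ZT_apply, ← Finset.sum_sub_distrib]
  exact Finset.sum_congr rfl fun k _ => by rw [Matrix.sub_apply, mul_sub]

lemma hs_ZT_le (T : Fin m → Mat m) (t : Fin m → ℝ) :
    hs (ZT T t) ≤ (∑ k, t k ^ 2) * ∑ k, hs (T k) := by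
  have h1 : ∀ i j, ZT T t i j ^ 2 ≤ (∑ k, t k ^ 2) * ∑ k, T k i j ^ 2 := by
    intro i j
    rw [ZT_apply]
    exact Finset.sum_mul_sq_le_sq_mul_sq _ _ _
  calc hs (ZT T t) = ∑ i, ∑ j, ZT T t i j ^ 2 := rfl
    _ ≤ ∑ i, ∑ j, (∑ k, t k ^ 2) * ∑ k, T k i j ^ 2 :=
        Finset.sum_le_sum fun i _ => Finset.sum_le_sum fun j _ => h1 i j
    _ = (∑ k, t k ^ 2) * ∑ i, ∑ j, ∑ k, T k i j ^ 2 := by
        simp only [← Finset.mul_sum]
    _ = (∑ k, t k ^ 2) * ∑ k, hs (T k) := by
        congr 1
        unfold hs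
        have : ∀ i : Fin m, ∑ j, ∑ k, T k i j ^ 2 = ∑ k, ∑ j, T k i j ^ 2 :=
          fun i => Finset.sum_comm
        simp only [this]
        rw [Finset.sum_comm]

lemma hs_smul (s : ℝ) (X : Mat m) : hs (s • X) = s ^ 2 * hs X := by
  unfold hs
  rw [Finset.mul_sum]
  refine Finset.sum_congr rfl fun i _ => ?_
  rw [Finset.mul_sum]
  exact Finset.sum_congr rfl fun j _ => by rw [Matrix.smul_apply, smul_eq_mul, mul_pow]

lemma norm_sq_co (x : E m) : ∑ k, co x k ^ 2 = ‖x‖ ^ 2 := by
  rw [EuclideanSpace.real_norm_sq_eq]; rfl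

/-- the limit field -/
def Cf (T : Fin m → Mat m) (i j : Fin m) (x : E m) : ℝ := (cfc mu (ZT T (co x))) i j

lemma Cf_lip {T : Fin m → Mat m} (hT : ∀ k i j, T k i j = T k j i) (i j : Fin m) (x y : E m) :
    |Cf T i j x - Cf T i j y| ≤ √(∑ k, hs (T k)) * ‖x - y‖ := by
  have h1 := hs_cfc_sub_le (ZT_herm hT (co x)) (ZT_herm hT (co y)) (L := 1) mu_lip
  have h2 := entry_le_hs (cfc mu (ZT T (co x)) - cfc mu (ZT T (co y))) i j
  rw [Matrix.sub_apply] at h2
  have h3 : hs (ZT T (co x) - ZT T (co y)) ≤ ‖x - y‖ ^ 2 * ∑ k, hs (T k) := by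
    rw [← ZT_sub_t, ← norm_sq_co]
    exact hs_ZT_le T _
  have h4 : (Cf T i j x - Cf T i j y) ^ 2 ≤ ‖x - y‖ ^ 2 * ∑ k, hs (T k) := by
    unfold Cf; linarith
  have h5 := Real.abs_le_sqrt h4
  rw [Real.sqrt_mul (sq_nonneg _), Real.sqrt_sq (norm_nonneg _), mul_comm] at h5
  exact h5

lemma Cf_cont {T : Fin m → Mat m} (hT : ∀ k i j, T k i j = T k j i) (i j : Fin m) :
    Continuous (Cf T i j) := by
  have : LipschitzWith (Real.toNNReal (√(∑ k, hs (T k)))) (Cf T i j) := by
    apply LipschitzWith.of_dist_le_mul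
    intro x y
    rw [Real.coe_toNNReal _ (Real.sqrt_nonneg _), dist_eq_norm, dist_eq_norm, Real.norm_eq_abs]
    exact Cf_lip hT i j x y
  exact this.continuous

lemma Cf_pg {T : Fin m → Mat m} (hT : ∀ k i j, T k i j = T k j i) (i j : Fin m) :
    PG (Cf T i j) := by
  have h1 : PG fun x : E m => |Cf T i j 0| + √(∑ k, hs (T k)) * ‖x‖ :=
    (pg_const _).add ((pg_const _).mul pg_norm)
  refine h1.mono fun x => ?_
  have h2 := Cf_lip hT i j x 0
  rw [sub_zero] at h2
  rw [abs_of_nonneg (by positivity : 0 ≤ |Cf T i j 0| + √(∑ k, hs (T k)) * ‖x‖)]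
  have h3 : |Cf T i j x| ≤ |Cf T i j 0| + |Cf T i j x - Cf T i j 0| := by
    have := abs_add_le (Cf T i j 0) (Cf T i j x - Cf T i j 0)
    rwa [add_sub_cancel] at this
  linarith

/-! ### expansion at small scale -/

/-- the polynomial part -/
def Pp (T : Fin m → Mat m) (i j : Fin m) (s : ℝ) (x : E m) : ℝ :=
  mu 0 * (1 : Mat m) i j + (mu1 0 * s) * (∑ k, x k * T k i j) +
    (mu2 0 / 2 * s ^ 2) * ∑ p, ∑ q, (x p * x q) * (T p * T q) i j

lemma Cf_expand {T : Fin m → Mat m} (hT : ∀ k i j, T k i j = T k j i) {K : ℝ}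
    (hK0 : 0 ≤ K) (hK : ∀ z, |rr z| ≤ K * |z| ^ 3) (i j : Fin m) {s : ℝ} (hs0 : 0 < s) (x : E m) :
    |Cf T i j (s • x) - Pp T i j s x| ≤ K * s ^ 3 * (1 + ‖x‖ ^ 2 * ∑ k, hs (T k)) ^ 2 := by
  have hco : co (s • x) = s • co x := by funext k; simp [co]
  have hZ := ZT_herm hT (co (s • x))
  have e1 := cfc_mu_eq hZ
  have e2 : Cf T i j (s • x) - Pp T i j s x = (cfc rr (ZT T (co (s • x)))) i j := by
    unfold Cf
    rw [e1, hco, ZT_smul]
    simp only [Matrix.add_apply, Matrix.smul_apply, smul_eq_mul, Matrix.smul_mul, Matrix.mul_smul]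
    unfold Pp
    have e3 : (ZT T (co x) * ZT T (co x)) i j = ∑ p, ∑ q, (x p * x q) * (T p * T q) i j := by
      unfold ZT
      rw [Finset.sum_mul_sum, Matrix.sum_apply]
      refine Finset.sum_congr rfl fun p _ => ?_
      rw [Matrix.sum_apply]
      refine Finset.sum_congr rfl fun q _ => ?_
      rw [Matrix.smul_mul, Matrix.mul_smul, Matrix.smul_apply, Matrix.smul_apply]
      simp only [smul_eq_mul, co]; ring
    rw [e3, ZT_apply]
    simp only [co]
    ring
  rw [e2]
  have h1 := entry_le_hs (cfc rr (ZT T (co (s • x)))) i j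
  have h2 := hs_rr_le hK hZ
  have h3 : hs (ZT T (co (s • x))) ≤ s ^ 2 * (‖x‖ ^ 2 * ∑ k, hs (T k)) := by
    rw [hco, ZT_smul, hs_smul, ← norm_sq_co]
    exact mul_le_mul_of_nonneg_left (hs_ZT_le T _) (sq_nonneg _)
  set A : ℝ := ‖x‖ ^ 2 * ∑ k, hs (T k) with hA
  have hA0 : 0 ≤ A := mul_nonneg (sq_nonneg _) (Finset.sum_nonneg fun k _ => hs_nonneg _)
  have h4 : hs (ZT T (co (s • x))) ^ 3 ≤ (s ^ 2 * A) ^ 3 := pow_le_pow_left₀ (hs_nonneg _) h3 3
  have h5 : A ^ 3 ≤ (1 + A) ^ 4 := by
    calc A ^ 3 ≤ (1 + A) ^ 3 := pow_le_pow_left₀ hA0 (by linarith) 3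
      _ ≤ (1 + A) ^ 4 := pow_le_pow_right₀ (by linarith) (by norm_num)
  have h6 : (cfc rr (ZT T (co (s • x)))) i j ^ 2 ≤ (K * s ^ 3 * (1 + A) ^ 2) ^ 2 := by
    calc (cfc rr (ZT T (co (s • x)))) i j ^ 2 ≤ K ^ 2 * hs (ZT T (co (s • x))) ^ 3 := h1.trans h2
      _ ≤ K ^ 2 * (s ^ 2 * A) ^ 3 := mul_le_mul_of_nonneg_left h4 (sq_nonneg _)
      _ = K ^ 2 * s ^ 6 * A ^ 3 := by ring
      _ ≤ K ^ 2 * s ^ 6 * (1 + A) ^ 4 := mul_le_mul_of_nonneg_left h5 (by positivity)
      _ = _ := by ring
  exact abs_le_of_sq_le_sq h6 (by positivity)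

lemma zero_of_small {c C : ℝ} (n : ℕ) (h : ∀ s : ℝ, 0 < s → s ≤ 1 → |c| * s ^ n ≤ C * s ^ (n + 1)) :
    c = 0 := by
  by_contra hc
  have hc' : 0 < |c| := abs_pos.mpr hc
  set s : ℝ := min 1 (|c| / (2 * (|C| + 1))) with hs
  have hs0 : 0 < s := lt_min one_pos (by positivity)
  have h1 := h s hs0 (min_le_left _ _)
  have h2 : |c| ≤ C * s := by
    have : |c| * s ^ n ≤ (C * s) * s ^ n := by rw [pow_succ] at h1; linarith
    exact le_of_mul_le_mul_right this (by positivity)
  have h3 : C * s ≤ |C| * (|c| / (2 * (|C| + 1))) :=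
    (mul_le_mul_of_nonneg_right (le_abs_self C) hs0.le).trans
      (mul_le_mul_of_nonneg_left (min_le_right _ _) (abs_nonneg _))
  have h4 : |C| * (|c| / (2 * (|C| + 1))) < |c| := by
    rw [mul_div_assoc', div_lt_iff₀ (by positivity)]
    nlinarith [abs_nonneg C]
  linarith

/-- expansion of a weighted integral, for weights orthogonal to constants -/
lemma int_expand {T : Fin m → Mat m} (hT : ∀ k i j, T k i j = T k j i) {w : E m → ℝ}
    (hw : Continuous w) (pw : PG w) (hw0 : ∫ x, w x ∂(gam m) = 0) (i j : Fin m) :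
    ∃ C : ℝ, ∀ s : ℝ, 0 < s → s ≤ 1 →
      |∫ x, w x * Cf T i j (s • x) ∂(gam m) - ((mu1 0 * s) * (∑ k, (∫ x, w x * x k ∂(gam m)) * T k i j)
        + (mu2 0 / 2 * s ^ 2) * ∑ p, ∑ q, (∫ x, w x * (x p * x q) ∂(gam m)) * (T p * T q) i j)| ≤
        C * s ^ 3 := by
  obtain ⟨K, hK0, hK⟩ := rr_bound
  refine ⟨K * ∫ x, |w x| * (1 + ‖x‖ ^ 2 * ∑ k, hs (T k)) ^ 2 ∂(gam m), fun s hs0 hs1 => ?_⟩
  have c1 : Continuous fun x : E m => Cf T i j (s • x) := (Cf_cont hT i j).comp (continuous_const_smul s)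
  have i1 : Integrable (fun x => w x * Cf T i j (s • x)) (gam m) :=
    integrable_of_PG (hw.mul c1) (pw.mul (pg_scale hs0 hs1 (Cf_pg hT i j)))
  have i0 : Integrable w (gam m) := integrable_of_PG hw pw
  have ik : ∀ k : Fin m, Integrable (fun x => w x * x k) (gam m) := fun k =>
    integrable_of_PG (hw.mul (c1_coord k).cont) (pw.mul (pg_coord k))
  have ipq : ∀ p q : Fin m, Integrable (fun x => w x * (x p * x q)) (gam m) := fun p q =>
    integrable_of_PG (hw.mul ((c1_coord p).mul (c1_coord q)).cont)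
      (pw.mul ((c1_coord p).mul (c1_coord q)).g)
  have e1 : ∀ x, w x * Pp T i j s x = w x * (mu 0 * (1 : Mat m) i j) +
      (∑ k, (mu1 0 * s * T k i j) * (w x * x k)) +
        ∑ p, ∑ q, (mu2 0 / 2 * s ^ 2 * (T p * T q) i j) * (w x * (x p * x q)) := by
    intro x
    unfold Pp
    rw [mul_add, mul_add]
    congr 1
    · congr 1
      rw [Finset.mul_sum, Finset.mul_sum]
      exact Finset.sum_congr rfl fun k _ => by ring
    · rw [Finset.mul_sum, Finset.mul_sum]
      refine Finset.sum_congr rfl fun p _ => ?_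
      rw [Finset.mul_sum, Finset.mul_sum]
      exact Finset.sum_congr rfl fun q _ => by ring
  have j1 : Integrable (fun x => w x * (mu 0 * (1 : Mat m) i j)) (gam m) := i0.mul_const _
  have j2 : Integrable (fun x => ∑ k, (mu1 0 * s * T k i j) * (w x * x k)) (gam m) :=
    integrable_finsetSum _ fun k _ => (ik k).const_mul _
  have j3 : Integrable (fun x => ∑ p, ∑ q, (mu2 0 / 2 * s ^ 2 * (T p * T q) i j) *
      (w x * (x p * x q))) (gam m) :=
    integrable_finsetSum _ fun p _ => integrable_finsetSum _ fun q _ => (ipq p q).const_mul _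
  have j12 : Integrable (fun x => w x * (mu 0 * (1 : Mat m) i j) +
      (∑ k, (mu1 0 * s * T k i j) * (w x * x k))) (gam m) := j1.add j2
  have i2 : Integrable (fun x => w x * Pp T i j s x) (gam m) := by
    simp_rw [e1]; exact j12.add j3
  have e2 : ∫ x, w x * Pp T i j s x ∂(gam m) =
      (mu1 0 * s) * (∑ k, (∫ x, w x * x k ∂(gam m)) * T k i j)
        + (mu2 0 / 2 * s ^ 2) * ∑ p, ∑ q, (∫ x, w x * (x p * x q) ∂(gam m)) * (T p * T q) i j := by
    simp_rw [e1]
    rw [integral_add j12 j3, integral_add j1 j2, integral_mul_const, hw0, zero_mul, zero_add,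
      integral_finsetSum _ (fun k _ => (ik k).const_mul _),
      integral_finsetSum _ (fun p _ => integrable_finsetSum _ fun q _ => (ipq p q).const_mul _)]
    congr 1
    · rw [Finset.mul_sum]
      refine Finset.sum_congr rfl fun k _ => ?_
      rw [integral_const_mul]; ring
    · rw [Finset.mul_sum]
      refine Finset.sum_congr rfl fun p _ => ?_
      rw [integral_finsetSum _ (fun q _ => (ipq p q).const_mul _), Finset.mul_sum]
      refine Finset.sum_congr rfl fun q _ => ?_
      rw [integral_const_mul]; ring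
  rw [← e2, ← integral_sub i1 i2]
  have hcont : Continuous fun x : E m => |w x| * (1 + ‖x‖ ^ 2 * ∑ k, hs (T k)) ^ 2 := by fun_prop
  have hpg : PG fun x : E m => |w x| * (1 + ‖x‖ ^ 2 * ∑ k, hs (T k)) ^ 2 :=
    pw.abs.mul (((pg_const 1).add ((pg_norm.pow 2).mul (pg_const _))).pow 2)
  have i3 : Integrable (fun x : E m => |w x| * (1 + ‖x‖ ^ 2 * ∑ k, hs (T k)) ^ 2) (gam m) :=
    integrable_of_PG hcont hpg
  calc |∫ x, (w x * Cf T i j (s • x) - w x * Pp T i j s x) ∂(gam m)|
      ≤ ∫ x, |w x * Cf T i j (s • x) - w x * Pp T i j s x| ∂(gam m) := by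
        simpa [Real.norm_eq_abs] using norm_integral_le_integral_norm (μ := gam m)
          (fun x => w x * Cf T i j (s • x) - w x * Pp T i j s x)
    _ ≤ ∫ x, (K * s ^ 3) * (|w x| * (1 + ‖x‖ ^ 2 * ∑ k, hs (T k)) ^ 2) ∂(gam m) := by
        refine integral_mono (i1.sub i2).abs (i3.const_mul _) fun x => ?_
        simp only
        rw [← mul_sub, abs_mul]
        have := mul_le_mul_of_nonneg_left (Cf_expand hT hK0 hK i j hs0 x) (abs_nonneg (w x))
        calc _ ≤ _ := this
          _ = _ := by ring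
    _ = _ := by rw [integral_const_mul]; ring

/-- **the relations in the limit** -/
theorem rel_of_close {T : Fin m → Mat m} (hT : ∀ k i j, T k i j = T k j i)
    (hsq : ∑ k, T k * T k = 1)
    (h1 : ∀ s : ℝ, 0 < s → s ≤ 1 → ∀ i j k : Fin m,
      ∫ x, x k * Cf T i j (s • x) ∂(gam m) = ∫ x, x j * Cf T i k (s • x) ∂(gam m))
    (h2 : ∀ s : ℝ, 0 < s → s ≤ 1 → ∀ a i j k : Fin m,
      ∫ x, (x k * x a - if a = k then 1 else 0) * Cf T i j (s • x) ∂(gam m) =
      ∫ x, (x j * x a - if a = j then 1 else 0) * Cf T i k (s • x) ∂(gam m)) : Rel T := by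
  refine ⟨hT, ?_, ?_, hsq⟩
  · intro i j k
    have g : ∀ i j k : Fin m, ∃ C : ℝ, ∀ s : ℝ, 0 < s → s ≤ 1 →
        |∫ x, x k * Cf T i j (s • x) ∂(gam m) - (mu1 0 * s) * T k i j| ≤ C * s ^ 3 := by
      intro i j k
      obtain ⟨C, hC⟩ := int_expand hT (w := fun x : E m => x k) (c1_coord k).cont (c1_coord k).g
        (mom1 k) i j
      refine ⟨C, fun s hs0 hs1 => ?_⟩
      have h := hC s hs0 hs1
      have e1 : ∑ l, (∫ x : E m, x k * x l ∂(gam m)) * T l i j = T k i j := by
        simp only [mom2]; simp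
      have e2 : ∑ p, ∑ q, (∫ x : E m, x k * (x p * x q) ∂(gam m)) * (T p * T q) i j = 0 := by
        refine Finset.sum_eq_zero fun p _ => Finset.sum_eq_zero fun q _ => ?_
        have : ∫ x : E m, x k * (x p * x q) ∂(gam m) = 0 := by
          rw [← mom3 (m := m) k p q]
          exact integral_congr_ae (ae_of_all _ fun x => by simp only; ring)
        rw [this, zero_mul]
      rw [e1, e2, mul_zero, add_zero] at h
      exact h
    obtain ⟨C1', hC1⟩ := g i j k
    obtain ⟨C2', hC2⟩ := g i k j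
    have h3 : mu1 0 * (T k i j - T j i k) = 0 := by
      apply zero_of_small (C := |C1'| + |C2'|) 1
      intro s hs0 hs1
      have a1 := hC1 s hs0 hs1
      have a2 := hC2 s hs0 hs1
      rw [h1 s hs0 hs1 i j k] at a1
      have e : mu1 0 * (T k i j - T j i k) * s =
          (∫ x, x j * Cf T i k (s • x) ∂(gam m) - (mu1 0 * s) * T j i k) -
            (∫ x, x j * Cf T i k (s • x) ∂(gam m) - (mu1 0 * s) * T k i j) := by ring
      have h4 : |mu1 0 * (T k i j - T j i k)| * s ^ 1 = |mu1 0 * (T k i j - T j i k) * s| := by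
        rw [pow_one, abs_mul (mu1 0 * (T k i j - T j i k)) s, abs_of_pos hs0]
      rw [h4, e]
      refine (abs_sub _ _).trans ((add_le_add a2 a1).trans ?_)
      have h5 : s ^ 3 ≤ s ^ (1 + 1) := pow_le_pow_of_le_one hs0.le hs1 (by norm_num)
      have h6 : 0 ≤ s ^ 3 := by positivity
      have h7 : C2' ≤ |C2'| := le_abs_self _
      have h8 : C1' ≤ |C1'| := le_abs_self _
      have h9 : 0 ≤ |C1'| + |C2'| := by positivity
      calc C2' * s ^ 3 + C1' * s ^ 3 = (C1' + C2') * s ^ 3 := by ring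
        _ ≤ (|C1'| + |C2'|) * s ^ 3 := mul_le_mul_of_nonneg_right (by linarith) h6
        _ ≤ (|C1'| + |C2'|) * s ^ (1 + 1) := mul_le_mul_of_nonneg_left h5 h9
    have := (mul_eq_zero.mp h3).resolve_left (mu1_pos 0).ne'
    linarith
  · intro a i j k
    have g : ∀ i j k : Fin m, ∃ C : ℝ, ∀ s : ℝ, 0 < s → s ≤ 1 →
        |∫ x, (x k * x a - if a = k then 1 else 0) * Cf T i j (s • x) ∂(gam m) -
          (mu2 0 / 2 * s ^ 2) * (T k * T a + T a * T k) i j| ≤ C * s ^ 3 := by
      intro i j k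
      have hwc : Continuous fun x : E m => x k * x a - if a = k then (1 : ℝ) else 0 :=
        ((c1_coord k).mul (c1_coord a)).cont.sub continuous_const
      have hwp : PG fun x : E m => x k * x a - if a = k then (1 : ℝ) else 0 :=
        ((c1_coord k).mul (c1_coord a)).g.sub (pg_const _)
      have ika : Integrable (fun x : E m => x k * x a) (gam m) :=
        integrable_of_PG ((c1_coord k).mul (c1_coord a)).cont ((c1_coord k).mul (c1_coord a)).g
      have hw0 : ∫ x : E m, (x k * x a - if a = k then (1 : ℝ) else 0) ∂(gam m) = 0 := by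
        rw [integral_sub ika (integrable_const _), mom2]
        by_cases h : k = a
        · subst h; simp
        · simp [h, Ne.symm h]
      obtain ⟨C, hC⟩ := int_expand hT hwc hwp hw0 i j
      refine ⟨C, fun s hs0 hs1 => ?_⟩
      have h := hC s hs0 hs1
      have e1 : ∑ l, (∫ x : E m, (x k * x a - if a = k then (1 : ℝ) else 0) * x l ∂(gam m)) *
          T l i j = 0 := by
        refine Finset.sum_eq_zero fun l _ => ?_
        have i1 : Integrable (fun x : E m => x k * x a * x l) (gam m) :=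
          integrable_of_PG (((c1_coord k).mul (c1_coord a)).mul (c1_coord l)).cont
            (((c1_coord k).mul (c1_coord a)).mul (c1_coord l)).g
        have i2 : Integrable (fun x : E m => (if a = k then (1 : ℝ) else 0) * x l) (gam m) :=
          (integrable_of_PG (c1_coord l).cont (c1_coord l).g).const_mul _
        have : ∫ x : E m, (x k * x a - if a = k then (1 : ℝ) else 0) * x l ∂(gam m) = 0 := by
          simp_rw [sub_mul]
          rw [integral_sub i1 i2, mom3, integral_const_mul, mom1]; simp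
        rw [this, zero_mul]
      have e2 : ∑ p, ∑ q, (∫ x : E m, (x k * x a - if a = k then (1 : ℝ) else 0) * (x p * x q)
          ∂(gam m)) * (T p * T q) i j = (T k * T a + T a * T k) i j := by
        have e3 : ∀ p q : Fin m, ∫ x : E m, (x k * x a - if a = k then (1 : ℝ) else 0) * (x p * x q)
            ∂(gam m) = (if p = k then 1 else 0) * (if a = q then 1 else 0) +
              (if q = k then 1 else 0) * (if a = p then 1 else 0) := by
          intro p q
          have i1 : Integrable (fun x : E m => x k * x a * (x p * x q)) (gam m) :=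
            integrable_of_PG (((c1_coord k).mul (c1_coord a)).mul
              ((c1_coord p).mul (c1_coord q))).cont (((c1_coord k).mul (c1_coord a)).mul
              ((c1_coord p).mul (c1_coord q))).g
          have i2 : Integrable (fun x : E m => (if a = k then (1 : ℝ) else 0) * (x p * x q)) (gam m) :=
            (integrable_of_PG ((c1_coord p).mul (c1_coord q)).cont
              ((c1_coord p).mul (c1_coord q)).g).const_mul _
          have e4 : ∫ x : E m, x k * x a * (x p * x q) ∂(gam m) =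
              ∫ x : E m, x a * (x p * x q) * x k ∂(gam m) :=
            integral_congr_ae (ae_of_all _ fun x => by simp only; ring)
          simp_rw [sub_mul]
          rw [integral_sub i1 i2, e4, mom4, integral_const_mul, mom2]
          ring
        simp only [e3, add_mul, Finset.sum_add_distrib]
        rw [Matrix.add_apply]
        congr 1
        · simp
        · simp
      rw [e1, e2, mul_zero, zero_add] at h
      exact h
    obtain ⟨C1', hC1⟩ := g i j k
    obtain ⟨C2', hC2⟩ := g i k j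
    have h3 : mu2 0 / 2 * ((T k * T a + T a * T k) i j - (T j * T a + T a * T j) i k) = 0 := by
      apply zero_of_small (C := |C1'| + |C2'|) 2
      intro s hs0 hs1
      have a1 := hC1 s hs0 hs1
      have a2 := hC2 s hs0 hs1
      rw [h2 s hs0 hs1 a i j k] at a1
      set D : ℝ := (T k * T a + T a * T k) i j - (T j * T a + T a * T j) i k with hD
      set I : ℝ := ∫ x, (x j * x a - if a = j then 1 else 0) * Cf T i k (s • x) ∂(gam m) with hI
      have e : mu2 0 / 2 * D * s ^ 2 =
          (I - (mu2 0 / 2 * s ^ 2) * (T j * T a + T a * T j) i k) -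
            (I - (mu2 0 / 2 * s ^ 2) * (T k * T a + T a * T k) i j) := by rw [hD]; ring
      have h4 : |mu2 0 / 2 * D| * s ^ 2 = |mu2 0 / 2 * D * s ^ 2| := by
        rw [abs_mul (mu2 0 / 2 * D) (s ^ 2), abs_of_pos (by positivity : 0 < s ^ 2)]
      rw [h4, e]
      refine (abs_sub _ _).trans ((add_le_add a2 a1).trans ?_)
      have h6 : 0 ≤ s ^ 3 := by positivity
      have h7 : C2' ≤ |C2'| := le_abs_self _
      have h8 : C1' ≤ |C1'| := le_abs_self _
      calc C2' * s ^ 3 + C1' * s ^ 3 = (C1' + C2') * s ^ 3 := by ring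
        _ ≤ (|C1'| + |C2'|) * s ^ (2 + 1) := mul_le_mul_of_nonneg_right (by linarith) h6
    have := (mul_eq_zero.mp h3).resolve_left (by have := mu2_pos 0; positivity)
    linarith

/-! ### the limit of the data -/

lemma hs_cont {F : E m → Mat m} (hF : ∀ i j, Continuous fun x => F x i j) :
    Continuous fun x => hs (F x) := by
  unfold hs
  exact continuous_finsetSum _ fun i _ => continuous_finsetSum _ fun j _ => (hF i j).pow 2

lemma hs_pg {F : E m → Mat m} (hF : ∀ i j, PG fun x => F x i j) : PG fun x => hs (F x) := by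
  unfold hs
  exact PG.sum _ fun i _ => PG.sum _ fun j _ => (hF i j).pow 2

lemma hs_add_le (X Y : Mat m) : hs (X + Y) ≤ 2 * hs X + 2 * hs Y := by
  unfold hs
  rw [Finset.mul_sum, Finset.mul_sum, ← Finset.sum_add_distrib]
  refine Finset.sum_le_sum fun i _ => ?_
  rw [Finset.mul_sum, Finset.mul_sum, ← Finset.sum_add_distrib]
  refine Finset.sum_le_sum fun j _ => ?_
  rw [Matrix.add_apply]
  nlinarith [sq_nonneg (X i j - Y i j)]

lemma cont_ZT (T : Fin m → Mat m) (i j : Fin m) : Continuous fun x : E m => ZT T (co x) i j := by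
  simp only [ZT_apply]
  exact continuous_finsetSum _ fun k _ => (c1_coord k).cont.mul continuous_const

lemma pg_ZT (T : Fin m → Mat m) (i j : Fin m) : PG fun x : E m => ZT T (co x) i j := by
  simp only [ZT_apply]
  exact PG.sum _ fun k _ => (pg_coord k).mul (pg_const _)

lemma integral_norm_sq : ∫ x : E m, ‖x‖ ^ 2 ∂(gam m) = m := by
  have e : ∀ x : E m, ‖x‖ ^ 2 = ∑ k, x k * x k := by
    intro x
    rw [← norm_sq_co]
    exact Finset.sum_congr rfl fun k _ => by simp only [co]; ring
  simp_rw [e]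
  rw [integral_finsetSum _ fun k _ =>
    integrable_of_PG ((c1_coord k).mul (c1_coord k)).cont ((c1_coord k).mul (c1_coord k)).g]
  simp [mom2]

/-- **the limit tensor**: along a subsequence `M n → U diag (mu (Uᵀ t)) Uᵀ` in `L²`. -/
theorem eq_tail {G : ℕ → Fin m → E m → ℝ} {M : ℕ → Fin m → Fin m → E m → ℝ}
    (hd : ∀ n, HD (G n) (M n)) {ζ : ℕ → E m → Mat m}
    (hζc : ∀ n i j, Continuous fun x => ζ n x i j) (hζg : ∀ n i j, PG fun x => ζ n x i j)
    (hζ : ∀ n x, (ζ n x).IsHermitian)
    (hM : ∀ n x i j, M n i j x = (cfc mu (ζ n x)) i j)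
    {T : ℕ → Fin m → Mat m} (hT : ∀ n k i j, T n k i j = T n k j i)
    (h1 : Tendsto (fun n => ∫ x, hs (ζ n x - ZT (T n) (co x)) ∂(gam m)) atTop (𝓝 0))
    (h2 : Tendsto (fun n => hs (1 - ∑ k, T n k * T n k)) atTop (𝓝 0)) :
    ∃ φ : ℕ → ℕ, StrictMono φ ∧ ∃ U : Mat m, Uᵀ * U = 1 ∧ U * Uᵀ = 1 ∧
      ∀ i j, Tendsto (fun n => ∫ x : E m, (M (φ n) i j x -
        ∑ α, U i α * U j α * mu (∑ k, U k α * x k)) ^ 2 ∂(gam m)) atTop (𝓝 0) := by
  -- entries of `∑ T_k²` converge
  have hent : ∀ i j, Tendsto (fun n => (∑ k, T n k * T n k) i j) atTop (𝓝 ((1 : Mat m) i j)) := by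
    intro i j
    rw [tendsto_iff_dist_tendsto_zero]
    have hb : ∀ n, dist ((∑ k, T n k * T n k) i j) ((1 : Mat m) i j) ≤
        √(hs (1 - ∑ k, T n k * T n k)) := by
      intro n
      rw [dist_comm, Real.dist_eq]
      apply Real.abs_le_sqrt
      have := entry_le_hs (1 - ∑ k, T n k * T n k) i j
      rwa [Matrix.sub_apply] at this
    refine squeeze_zero (fun n => dist_nonneg) hb ?_
    have := (Real.continuous_sqrt.tendsto 0).comp h2
    rwa [Real.sqrt_zero] at this
  -- boundedness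
  have hbd : ∀ᶠ n in atTop, (fun k i j => T n k i j) ∈
      (Set.univ.pi fun _ : Fin m => Set.univ.pi fun _ : Fin m => Set.univ.pi fun _ : Fin m =>
        Icc (-2 : ℝ) 2) := by
    have h3 : ∀ i, ∀ᶠ n in atTop, (∑ k, T n k * T n k) i i < 4 := by
      intro i
      have := hent i i
      rw [Matrix.one_apply_eq] at this
      exact this.eventually_lt_const (by norm_num)
    filter_upwards [eventually_all.mpr h3] with n hn
    simp only [Set.mem_pi, Set.mem_univ, forall_true_left]
    intro k i j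
    have h4 : T n k i j ^ 2 ≤ (∑ k, T n k * T n k) i i := by
      rw [Matrix.sum_apply]
      have e : ∀ k, (T n k * T n k) i i = ∑ j, T n k i j ^ 2 := by
        intro k
        rw [Matrix.mul_apply]
        exact Finset.sum_congr rfl fun j _ => by rw [hT n k j i]; ring
      simp only [e]
      exact (Finset.single_le_sum (f := fun j => T n k i j ^ 2) (fun _ _ => sq_nonneg _)
        (Finset.mem_univ j)).trans (Finset.single_le_sum (f := fun k => ∑ j, T n k i j ^ 2)
          (fun _ _ => Finset.sum_nonneg fun _ _ => sq_nonneg _) (Finset.mem_univ k))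
    have h5 : T n k i j ^ 2 ≤ 2 ^ 2 := by linarith [hn i]
    exact abs_le.mp (abs_le_of_sq_le_sq h5 (by norm_num))
  have hcomp : IsCompact (Set.univ.pi fun _ : Fin m => Set.univ.pi fun _ : Fin m =>
      Set.univ.pi fun _ : Fin m => Icc (-2 : ℝ) 2) :=
    isCompact_univ_pi fun _ => isCompact_univ_pi fun _ => isCompact_univ_pi fun _ => isCompact_Icc
  obtain ⟨a, _, φ, hφ, hlim⟩ := hcomp.tendsto_subseq' (x := fun n => fun k i j => T n k i j)
    hbd.frequently
  have hlim' : ∀ k i j, Tendsto (fun n => T (φ n) k i j) atTop (𝓝 (a k i j)) := by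
    intro k i j
    exact tendsto_pi_nhds.mp (tendsto_pi_nhds.mp (tendsto_pi_nhds.mp hlim k) i) j
  let S : Fin m → Mat m := fun k => Matrix.of (a k)
  have hS : ∀ k i j, S k i j = S k j i := by
    intro k i j
    refine tendsto_nhds_unique (hlim' k i j) ?_
    have := hlim' k j i
    simp_rw [hT _ k j i] at this
    exact this
  have hSsq : ∑ k, S k * S k = 1 := by
    ext i j
    have l1 := (hent i j).comp hφ.tendsto_atTop
    have l2 : Tendsto (fun n => (∑ k, T (φ n) k * T (φ n) k) i j) atTop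
        (𝓝 ((∑ k, S k * S k) i j)) := by
      simp only [Matrix.sum_apply, Matrix.mul_apply]
      exact tendsto_finsetSum _ fun k _ => tendsto_finsetSum _ fun p _ =>
        (hlim' k i p).mul (hlim' k p j)
    exact tendsto_nhds_unique l2 l1
  -- L² convergence
  have hdiff : Tendsto (fun n => ∑ k, hs (T (φ n) k - S k)) atTop (𝓝 0) := by
    have : Tendsto (fun n => ∑ k, hs (T (φ n) k - S k)) atTop (𝓝 (∑ k : Fin m, ∑ i : Fin m,
        ∑ j : Fin m, (a k i j - S k i j) ^ 2)) := by
      unfold hs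
      refine tendsto_finsetSum _ fun k _ => tendsto_finsetSum _ fun i _ =>
        tendsto_finsetSum _ fun j _ => ?_
      simp only [Matrix.sub_apply]
      exact ((hlim' k i j).sub_const _).pow 2
    have e : ∑ k : Fin m, ∑ i : Fin m, ∑ j : Fin m, (a k i j - S k i j) ^ 2 = 0 := by
      simp [S]
    rwa [e] at this
  have hmaj : Tendsto (fun n => 2 * ∫ x, hs (ζ (φ n) x - ZT (T (φ n)) (co x)) ∂(gam m) +
      2 * (m * ∑ k, hs (T (φ n) k - S k))) atTop (𝓝 0) := by
    have l1 := (h1.comp hφ.tendsto_atTop).const_mul 2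
    have l2 := (hdiff.const_mul (m : ℝ)).const_mul 2
    have := l1.add l2
    simpa using this
  have hL : ∀ i j, L2lim (fun n => M (φ n) i j) (Cf S i j) := by
    intro i j
    refine squeeze_zero (fun n => integral_nonneg fun x => sq_nonneg _) (fun n => ?_) hmaj
    have cζ : ∀ i j, Continuous fun x => (ζ (φ n) x - ZT (T (φ n)) (co x)) i j := fun i j => by
      simp only [Matrix.sub_apply]; exact (hζc _ i j).sub (cont_ZT _ i j)
    have gζ : ∀ i j, PG fun x => (ζ (φ n) x - ZT (T (φ n)) (co x)) i j := fun i j => by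
      simp only [Matrix.sub_apply]; exact (hζg _ i j).sub (pg_ZT _ i j)
    have i1 : Integrable (fun x => hs (ζ (φ n) x - ZT (T (φ n)) (co x))) (gam m) :=
      integrable_of_PG (hs_cont cζ) (hs_pg gζ)
    have i2 : Integrable (fun x : E m => ‖x‖ ^ 2 * ∑ k, hs (T (φ n) k - S k)) (gam m) :=
      (integrable_of_PG (continuous_norm.pow 2) (pg_norm.pow 2)).mul_const _
    have i3 : Integrable (fun x => (M (φ n) i j x - Cf S i j x) ^ 2) (gam m) :=
      integrable_of_PG ((((hd _).m i j).cont.sub (Cf_cont hS i j)).pow 2)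
        (PG_sq (((hd _).m i j).g.sub (Cf_pg hS i j)))
    have hpt : ∀ x, (M (φ n) i j x - Cf S i j x) ^ 2 ≤
        2 * hs (ζ (φ n) x - ZT (T (φ n)) (co x)) + 2 * (‖x‖ ^ 2 * ∑ k, hs (T (φ n) k - S k)) := by
      intro x
      have e1 := hs_cfc_sub_le (hζ (φ n) x) (ZT_herm hS (co x)) (L := 1) mu_lip
      have e2 := entry_le_hs (cfc mu (ζ (φ n) x) - cfc mu (ZT S (co x))) i j
      rw [Matrix.sub_apply, ← hM] at e2
      have e3 : ζ (φ n) x - ZT S (co x) = (ζ (φ n) x - ZT (T (φ n)) (co x)) +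
          ZT (fun k => T (φ n) k - S k) (co x) := by
        rw [ZT_sub_T]; abel
      have e4 := hs_add_le (ζ (φ n) x - ZT (T (φ n)) (co x)) (ZT (fun k => T (φ n) k - S k) (co x))
      have e5 := hs_ZT_le (fun k => T (φ n) k - S k) (co x)
      rw [norm_sq_co] at e5
      rw [← e3] at e4
      unfold Cf
      linarith
    calc ∫ x, (M (φ n) i j x - Cf S i j x) ^ 2 ∂(gam m)
        ≤ ∫ x, (2 * hs (ζ (φ n) x - ZT (T (φ n)) (co x)) +
            2 * (‖x‖ ^ 2 * ∑ k, hs (T (φ n) k - S k))) ∂(gam m) :=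
          integral_mono i3 ((i1.const_mul 2).add (i2.const_mul 2)) hpt
      _ = _ := by
          rw [integral_add (i1.const_mul 2) (i2.const_mul 2), integral_const_mul,
            integral_const_mul, integral_mul_const, integral_norm_sq]
  -- the relations
  have hrel : Rel S := by
    have hc : ∀ n i j, Continuous (M (φ n) i j) := fun n i j => ((hd _).m i j).cont
    have hp : ∀ n i j, PG (M (φ n) i j) := fun n i j => ((hd _).m i j).g
    refine rel_of_close hS hSsq ?_ ?_
    · intro s hs0 hs1 i j k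
      have l1 := lim_w (fun n => hc n i j) (fun n => hp n i j) (Cf_cont hS i j) (Cf_pg hS i j)
        (c1_coord k).cont (c1_coord k).g (hL i j) hs0 hs1
      have l2 := lim_w (fun n => hc n i k) (fun n => hp n i k) (Cf_cont hS i k) (Cf_pg hS i k)
        (c1_coord j).cont (c1_coord j).g (hL i k) hs0 hs1
      refine tendsto_nhds_unique l1 (l2.congr fun n => ?_)
      exact (close1 (hd (φ n)) hs0 hs1 i j k).symm
    · intro s hs0 hs1 b i j k
      have wc : ∀ k, Continuous fun x : E m => x k * x b - if b = k then (1 : ℝ) else 0 := fun k =>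
        ((c1_coord k).mul (c1_coord b)).cont.sub continuous_const
      have wp : ∀ k, PG fun x : E m => x k * x b - if b = k then (1 : ℝ) else 0 := fun k =>
        ((c1_coord k).mul (c1_coord b)).g.sub (pg_const _)
      have l1 := lim_w (fun n => hc n i j) (fun n => hp n i j) (Cf_cont hS i j) (Cf_pg hS i j)
        (wc k) (wp k) (hL i j) hs0 hs1
      have l2 := lim_w (fun n => hc n i k) (fun n => hp n i k) (Cf_cont hS i k) (Cf_pg hS i k)
        (wc j) (wp j) (hL i k) hs0 hs1
      refine tendsto_nhds_unique l1 (l2.congr fun n => ?_)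
      exact (close2 (hd (φ n)) hs0 hs1 b i j k).symm
  obtain ⟨U, hU1, hU2, hU3⟩ := exists_frame_of_rel hrel
  refine ⟨φ, hφ, U, hU1, hU2, fun i j => ?_⟩
  have e : ∀ x : E m, Cf S i j x = ∑ α, U i α * U j α * mu (∑ k, U k α * x k) := by
    intro x
    have e1 : ZT S (co x) = U * Matrix.diagonal (fun α => ∑ k, U k α * x k) * Uᵀ := by
      ext p q
      rw [ZT_apply, Matrix.mul_apply]
      simp only [mul_diagonal, transpose_apply, hU3]
      have : ∀ k, co x k * ∑ α, U k α * U p α * U q α = ∑ α, (U k α * x k) * (U p α * U q α) := by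
        intro k
        rw [Finset.mul_sum]
        exact Finset.sum_congr rfl fun α _ => by simp only [co]; ring
      simp only [this]
      rw [Finset.sum_comm]
      refine Finset.sum_congr rfl fun α _ => ?_
      rw [← Finset.sum_mul]; ring
    unfold Cf
    rw [e1, cfc_conj_diag hU2 hU1, Matrix.mul_apply]
    refine Finset.sum_congr rfl fun α _ => ?_
    rw [mul_diagonal, transpose_apply]; ring
  have := hL i j
  unfold L2lim at this
  simp_rw [e] at this
  exact this

end Crest.Agent.R253.EqT593
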