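import Crest.Agent.R253.LamB_301
import Crest.Agent.R253.Chaos_74

/-!
# R253: the `η`-term of the B-form is an exact covariance (helper518)

`R = (1+N)⁻¹ = Rs`, `Rm` = entrywise `Rs`.

* `cov_Rs`: `E f g - E f E g = Σ_k E ∂_k f · R ∂_k g`.
* `TE_cov`: the same under the trace; `eta_R`, `eta_R'`:
  `E tr B η χ(ζ) = Σ_k E tr B (T_k χ' R p_k + p_k χ' R p_k + KR_k(χ) R p_k)`.
* `Rs_young`, `Rs_quarter`, `Rs_half`: `|R p| ≤ |p|/2`, `2|R p|² ≤ ⟨p, R p⟩` for mean zero `p`.
* `cois`: `tr (M_T + t)⁻¹ (α + Σ T_k β_k)(α + Σ T_k β_k)ᵀ ≤ |α|²/t + Σ |β_k|²`.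
-/

set_option autoImplicit false

open MeasureTheory ProbabilityTheory Real Set Filter Topology Matrix
open scoped ContDiff

noncomputable section

namespace Crest.Agent.R253.EtaR518

open Crest.Agent.R238.Gap Crest.Agent.R253.SpecCalc999 Crest.Agent.R253.Meh74
  Crest.Agent.R253.SpecField321 Crest.Agent.R253.S3 Crest.Agent.R253.Stein378
  Crest.Agent.R253.LamB301

variable {n : ℕ}

/-- **covariance identity in resolvent form** -/
theorem cov_Rs {f g : E n → ℝ} (hf : C1 f) (hg : C1 g) :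
    EE (fun x => f x * g x) - EE f * EE g = ∑ k, EE (fun x => pd k f x * Rs (pd k g) x) := by
  unfold EE
  rw [cov_eq hf hg]
  have e1 : ∀ l, ∫ x, pd l f x * Rs (pd l g) x ∂(gam n) =
      ∫ a in (0 : ℝ)..(π / 2), Real.sin a * Fc (pd l f) (pd l g) a := fun l =>
    integral_mul_Rw Real.continuous_sin sin_b (hf.contp l) (hg.contp l) (hf.p l) (hg.p l)
  simp_rw [e1]
  rw [← intervalIntegral.integral_finsetSum]
  · congr 1
    funext a
    rw [Gc_eq hf hg, Finset.mul_sum]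
  · intro l _
    exact ((Real.continuous_sin.mul (continuous_Fc (hf.contp l) (hg.contp l) (hf.p l)
      (hg.p l)))).intervalIntegrable _ _

lemma continuous_Rw {w : ℝ → ℝ} (hw : Continuous w) (hwb : ∀ a, |w a| ≤ 1) {g : E n → ℝ}
    (hg : Continuous g) (hg0 : PG g) : Continuous (Rw w g) := by
  obtain ⟨K, k, hK0, hK⟩ := pg_nonneg hg0
  refine continuous_iff_continuousAt.2 fun x0 => ?_
  refine continuousAt_of_dominated (bound := fun q => K * (2 + ‖x0‖) ^ k * (1 + ‖q.2‖) ^ k)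
    (Eventually.of_forall fun x => (continuous_wg hw hg x).aestronglyMeasurable) ?_
    ((integrable_pow_nu k).const_mul _) (ae_of_all _ fun q => ?_)
  · filter_upwards [Metric.ball_mem_nhds x0 one_pos] with x hx
    refine ae_of_all _ fun q => (wg_bound hwb hK0 hK x q).trans ?_
    refine mul_le_mul_of_nonneg_right ?_ (by positivity)
    exact mul_le_mul_of_nonneg_left (near_bound hx k) hK0
  · have h : Continuous fun x => w q.1 * g (Y q.1 x q.2) :=
      continuous_const.mul (hg.comp (continuous_Y_x q))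
    exact h.continuousAt

lemma cg_Rs {g : E n → ℝ} (hg : CG g) : CG (Rs g) :=
  ⟨continuous_Rw Real.continuous_sin sin_b hg.c hg.g, pg_Rw sin_b hg.g⟩

/-- entrywise resolvent -/
def Rm (F : E n → Mat n) (x : E n) : Mat n := Matrix.of fun i j => Rs (fun y => F y i j) x

lemma cgm_Rm {F : E n → Mat n} (hF : CGm F) : CGm (Rm F) := fun i j => cg_Rs (hF i j)

/-- covariance under the trace -/
theorem TE_cov {F G : E n → Mat n} (hF : C1m F) (hG : C1m G) (h0 : EM G = 0) (B : Mat n) :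
    TE (fun x => B * (F x * G x)) =
      ∑ k, TE (fun x => B * (S3.dM k F x * Rm (S3.dM k G) x)) := by
  have e0 : ∀ (P Q : E n → Mat n) (x : E n), (B * (P x * Q x)).trace =
      ∑ i, ∑ p, ∑ j, B i p * (P x p j * Q x j i) := by
    intro P Q x
    rw [Matrix.trace]
    refine Finset.sum_congr rfl fun i _ => ?_
    rw [Matrix.diag_apply, Matrix.mul_apply]
    refine Finset.sum_congr rfl fun p _ => ?_
    rw [Matrix.mul_apply, Finset.mul_sum]
  have e1 : ∀ (P Q : E n → Mat n), CGm P → CGm Q → TE (fun x => B * (P x * Q x)) =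
      ∑ i, ∑ p, ∑ j, B i p * EE (fun x => P x p j * Q x j i) := by
    intro P Q hP hQ
    unfold TE
    rw [EE_congr (e0 P Q)]
    have hc : ∀ i p j, CG fun x => B i p * (P x p j * Q x j i) := fun i p j =>
      ((hP p j).mul (hQ j i)).smul _
    rw [EE_sum fun i _ => CG.sum fun p _ => CG.sum fun j _ => hc i p j]
    refine Finset.sum_congr rfl fun i _ => ?_
    rw [EE_sum fun p _ => CG.sum fun j _ => hc i p j]
    refine Finset.sum_congr rfl fun p _ => ?_
    rw [EE_sum fun j _ => hc i p j]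
    exact Finset.sum_congr rfl fun j _ => EE_smul _ _
  have e2 : ∀ i p j, EE (fun x => F x p j * G x j i) =
      ∑ k, EE (fun x => S3.dM k F x p j * Rm (S3.dM k G) x j i) := by
    intro i p j
    have h := cov_Rs (hF p j) (hG j i)
    have h1 : EE (fun x => G x j i) = 0 := by
      have := congrFun (congrFun h0 j) i
      exact this
    rw [h1, mul_zero, sub_zero] at h
    rw [h]
    rfl
  rw [e1 F G hF.cg hG.cg]
  simp_rw [e2]
  have e3 : ∀ k, TE (fun x => B * (S3.dM k F x * Rm (S3.dM k G) x)) =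
      ∑ i, ∑ p, ∑ j, B i p * EE (fun x => S3.dM k F x p j * Rm (S3.dM k G) x j i) := fun k =>
    e1 _ _ (hF.cgd k) (cgm_Rm (hG.cgd k))
  simp_rw [e3, Finset.mul_sum]
  have s1 : ∀ i p : Fin n, (∑ j, ∑ k, B i p * EE (fun x => S3.dM k F x p j *
      Rm (S3.dM k G) x j i)) = ∑ k, ∑ j, B i p * EE (fun x => S3.dM k F x p j *
      Rm (S3.dM k G) x j i) := fun i p => Finset.sum_comm
  have s2 : ∀ i : Fin n, (∑ p, ∑ k, ∑ j, B i p * EE (fun x => S3.dM k F x p j *
      Rm (S3.dM k G) x j i)) = ∑ k, ∑ p, ∑ j, B i p * EE (fun x => S3.dM k F x p j *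
      Rm (S3.dM k G) x j i) := fun i => Finset.sum_comm
  rw [Finset.sum_congr rfl fun i _ => Finset.sum_congr rfl fun p _ => s1 i p,
    Finset.sum_congr rfl fun i _ => s2 i, Finset.sum_comm]

/-! ### the `η`-term -/

section field

variable {Z : Fld n} {lo hi : ℝ}

lemma eta0_apply (T : Fin n → Mat n) (x : E n) (i j : Fin n) :
    eta0 Z T x i j = Z i j x - ∑ l, T l i j * x l := by
  unfold eta0
  rw [Matrix.sub_apply, Matrix.sum_apply]
  congr 1
  exact Finset.sum_congr rfl fun l _ => by rw [Matrix.smul_apply, smul_eq_mul, mul_comm]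

lemma c1m_eta0 (hZ : MF Z lo hi) (T : Fin n → Mat n) : C1m (eta0 Z T) := by
  intro i j
  have e : (fun x => eta0 Z T x i j) = fun x => Z i j x - ∑ l, T l i j * x l :=
    funext fun x => eta0_apply T x i j
  rw [e]
  exact (hZ.c i j).sub (C1.sum fun l _ => (c1_coord l).smul _)

lemma dM_eta0 (hZ : MF Z lo hi) (T : Fin n → Mat n) (k : Fin n) :
    S3.dM k (eta0 Z T) = pk Z T k := by
  funext x
  ext i j
  have e : (fun x => eta0 Z T x i j) = fun x => Z i j x + (-1) * ∑ l, T l i j * x l := by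
    funext y
    rw [eta0_apply]; ring
  have c2 : C1 fun x : E n => ∑ l, T l i j * x l := C1.sum fun l _ => (c1_coord l).smul _
  change pd k (fun x => eta0 Z T x i j) x = (S3.dZ Z k x - T k) i j
  rw [e, (hZ.c i j).pd_add (c2.smul (-1)), (c1_const (-1)).pd_mul c2, pd_const_c,
    pd_lin (fun l => T l i j), Matrix.sub_apply]
  change pd k (Z i j) x + _ = pd k (Z i j) x - T k i j
  ring

lemma eta0_t (hZ : MF Z lo hi) {T : Fin n → Mat n} (hT : ∀ k, (T k)ᵀ = T k) (x : E n) :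
    (eta0 Z T x)ᵀ = eta0 Z T x := by
  unfold eta0
  rw [Matrix.transpose_sub, Mx_t hZ, Matrix.transpose_sum]
  congr 1
  exact Finset.sum_congr rfl fun k _ => by rw [Matrix.transpose_smul, hT]

/-- **the `η`-term is a covariance** -/
theorem eta_R (hZ : MF Z lo hi) {χ χ1 : ℝ → ℝ}
    (hχ : ∀ z ∈ Icc lo hi, HasDerivAt χ (χ1 z) z) (hχ1 : ContinuousOn χ1 (Icc lo hi))
    {B : Mat n} (hB : Bᵀ = B) {T : Fin n → Mat n} (hT : ∀ k, (T k)ᵀ = T k)
    (h0 : EM (eta0 Z T) = 0) :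
    TE (fun x => B * (eta0 Z T x * sf χ Z x)) =
      ∑ k, TE (fun x => B * (DK χ χ1 (Mx Z x) (S3.dZ Z k x) * Rm (pk Z T k) x)) := by
  have e1 : TE (fun x => B * (eta0 Z T x * sf χ Z x)) =
      TE (fun x => B * (sf χ Z x * eta0 Z T x)) := by
    unfold TE
    refine EE_congr fun x => ?_
    rw [← Matrix.trace_transpose, Matrix.transpose_mul, Matrix.transpose_mul, sf_t,
      eta0_t hZ hT, hB, Matrix.trace_mul_comm]
  rw [e1, TE_cov (c1m_sf hZ hχ hχ1) (c1m_eta0 hZ T) h0 B]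
  refine Finset.sum_congr rfl fun k _ => TE_congr fun x => ?_
  rw [dM_sf hZ hχ, dM_eta0 hZ]

/-- the split form -/
theorem eta_R' (hZ : MF Z lo hi) {χ χ1 : ℝ → ℝ}
    (hχ : ∀ z ∈ Icc lo hi, HasDerivAt χ (χ1 z) z) (hχ1 : ContinuousOn χ1 (Icc lo hi))
    {B : Mat n} (hB : Bᵀ = B) {T : Fin n → Mat n} (hT : ∀ k, (T k)ᵀ = T k)
    (h0 : EM (eta0 Z T) = 0) :
    TE (fun x => B * (eta0 Z T x * sf χ Z x)) =
      ∑ k, (TE (fun x => B * (T k * (sf χ1 Z x * Rm (pk Z T k) x))) +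
        TE (fun x => B * (pk Z T k x * sf χ1 Z x * Rm (pk Z T k) x)) +
        TE (fun x => B * (KR χ χ1 (Mx Z x) (S3.dZ Z k x) * Rm (pk Z T k) x))) := by
  rw [eta_R hZ hχ hχ1 hB hT h0]
  have cB := cgm_const (n := n) B
  have cX := cgm_cfc hZ hχ1
  have cp := fun k => cgm_pk hZ T k
  have cr := fun k => cgm_Rm (cgm_pk hZ T k)
  refine Finset.sum_congr rfl fun k _ => ?_
  rw [← TE_add (cB.mul ((cgm_const _).mul (cX.mul (cr k))))
      (cB.mul (((cp k).mul cX).mul (cr k))),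
    ← TE_add ((cB.mul ((cgm_const _).mul (cX.mul (cr k)))).add
      (cB.mul (((cp k).mul cX).mul (cr k)))) (cB.mul ((cgm_KR hZ hχ hχ1 k).mul (cr k)))]
  refine TE_congr fun x => ?_
  have e : DK χ χ1 (Mx Z x) (S3.dZ Z k x) =
      T k * sf χ1 Z x + pk Z T k x * sf χ1 Z x + KR χ χ1 (Mx Z x) (S3.dZ Z k x) := by
    have hd : S3.dZ Z k x = T k + pk Z T k x := by unfold pk; abel
    rw [← Matrix.add_mul, ← hd]
    unfold KR sf
    abel
  rw [e]
  simp only [Matrix.mul_add, Matrix.add_mul, Matrix.mul_assoc]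

end field

/-! ### norm bounds for the resolvent -/

lemma Fc_nonneg {f : E n → ℝ} (hf : CG f) {a : ℝ} (ha0 : 0 ≤ a) (ha1 : a ≤ π / 2) :
    0 ≤ Fc f f a := by
  have hcos : 0 ≤ Real.cos a := Real.cos_nonneg_of_neg_pi_div_two_le_of_le (by linarith) ha1
  have hsin : 0 ≤ Real.sin a := Real.sin_nonneg_of_nonneg_of_le_pi ha0 (by linarith [Real.pi_pos])
  have hs1 : Real.sqrt (Real.cos a) ≤ 1 := by
    rw [Real.sqrt_le_one]; exact Real.cos_le_one a
  have hcb : Real.cos (Real.arccos (Real.sqrt (Real.cos a))) = Real.sqrt (Real.cos a) :=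
    Real.cos_arccos (by linarith [Real.sqrt_nonneg (Real.cos a)]) hs1
  have hab : Real.cos a = Real.cos (Real.arccos (Real.sqrt (Real.cos a))) ^ 2 := by
    rw [hcb, Real.sq_sqrt hcos]
  rw [Fc_comp hf.c hf.c hf.g hf.g hab hsin]
  exact integral_nonneg fun x => mul_self_nonneg _

lemma EE_mul_Rs {f g : E n → ℝ} (hf : CG f) (hg : CG g) :
    EE (fun x => f x * Rs g x) = ∫ a in (0 : ℝ)..(π / 2), Real.sin a * Fc f g a :=
  integral_mul_Rw Real.continuous_sin sin_b hf.c hg.c hf.g hg.g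

/-- `0 ≤ ⟨f, R f⟩` -/
theorem Rs_nonneg {f : E n → ℝ} (hf : CG f) : 0 ≤ EE (fun x => f x * Rs f x) := by
  rw [EE_mul_Rs hf hf]
  refine intervalIntegral.integral_nonneg (by positivity) fun a ha => ?_
  exact mul_nonneg (Real.sin_nonneg_of_nonneg_of_le_pi ha.1
    (ha.2.trans (by linarith [Real.pi_pos]))) (Fc_nonneg hf ha.1 ha.2)

/-- `2 ⟨p, R p⟩ ≤ |p|²` for mean zero `p` -/
theorem Rs_half {p : E n → ℝ} (hp : CG p) (h0 : EE p = 0) :
    2 * EE (fun x => p x * Rs p x) ≤ EE (fun x => p x ^ 2) := by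
  rw [EE_mul_Rs hp hp]
  have hI : (∫ a in (0 : ℝ)..(π / 2), Real.sin a * Fc p p a) ≤
      ∫ a in (0 : ℝ)..(π / 2), Real.sin a * Real.cos a * EE (fun x => p x ^ 2) := by
    refine intervalIntegral.integral_mono_on (by positivity)
      ((Real.continuous_sin.mul (continuous_Fc hp.c hp.c hp.g hp.g)).intervalIntegrable _ _)
      (((Real.continuous_sin.mul Real.continuous_cos).mul
        continuous_const).intervalIntegrable _ _) fun a ha => ?_
    rw [mul_assoc]
    exact mul_le_mul_of_nonneg_left (Fc_contr' hp.c hp.g h0 ha.1 ha.2)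
      (Real.sin_nonneg_of_nonneg_of_le_pi ha.1 (ha.2.trans (by linarith [Real.pi_pos])))
  rw [intervalIntegral.integral_mul_const, integral_sin_mul_cos₁] at hI
  simp only [Real.sin_pi_div_two, Real.sin_zero] at hI
  linarith

lemma Rs_symm {f g : E n → ℝ} (hf : CG f) (hg : CG g) :
    EE (fun x => f x * Rs g x) = EE (fun x => g x * Rs f x) := by
  rw [EE_mul_Rs hf hg, EE_mul_Rs hg hf]
  refine intervalIntegral.integral_congr fun a ha => ?_
  rw [uIcc_of_le (by positivity)] at ha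
  have hcos : 0 ≤ Real.cos a := Real.cos_nonneg_of_neg_pi_div_two_le_of_le
    (by linarith [ha.1, Real.pi_pos]) ha.2
  have hsin : 0 ≤ Real.sin a :=
    Real.sin_nonneg_of_nonneg_of_le_pi ha.1 (ha.2.trans (by linarith [Real.pi_pos]))
  have hs1 : Real.sqrt (Real.cos a) ≤ 1 := by
    rw [Real.sqrt_le_one]; exact Real.cos_le_one a
  have hcb : Real.cos (Real.arccos (Real.sqrt (Real.cos a))) = Real.sqrt (Real.cos a) :=
    Real.cos_arccos (by linarith [Real.sqrt_nonneg (Real.cos a)]) hs1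
  have hab : Real.cos a = Real.cos (Real.arccos (Real.sqrt (Real.cos a))) ^ 2 := by
    rw [hcb, Real.sq_sqrt hcos]
  have e : Fc f g a = Fc g f a := by
    rw [Fc_comp hf.c hg.c hf.g hg.g hab hsin, Fc_comp hg.c hf.c hg.g hf.g hab hsin]
    exact integral_congr_ae (ae_of_all _ fun x => mul_comm _ _)
  rw [e]

lemma EE_Rs {g : E n → ℝ} (hg : CG g) : EE (Rs g) = EE g := by
  have h := EE_mul_Rs (cg_const (n := n) 1) hg
  have e1 : EE (fun x => (1 : ℝ) * Rs g x) = EE (Rs g) := EE_congr fun x => one_mul _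
  have e2 : EE (fun x => g x * Rs (fun _ : E n => (1 : ℝ)) x) = EE g :=
    EE_congr fun x => by rw [Rs_const, mul_one]
  rw [← e1, Rs_symm (cg_const 1) hg, e2]

/-- `2 |R p|² ≤ ⟨p, R p⟩` for mean zero `p` -/
theorem Rs_sq_le {p : E n → ℝ} (hp : CG p) (h0 : EE p = 0) :
    2 * EE (fun x => Rs p x ^ 2) ≤ EE (fun x => p x * Rs p x) := by
  have hr := cg_Rs hp
  have hr0 : EE (Rs p) = 0 := by rw [EE_Rs hp, h0]
  have h1 := Rs_half hr hr0
  have hrr := cg_Rs hr
  -- positivity on `p - 2 R p`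
  have h2 : 0 ≤ EE (fun x => (p x - 2 * Rs p x) * (Rs p x - 2 * Rs (Rs p) x)) := by
    have h3 := Rs_nonneg (hp.add (hr.smul (-2)))
    have e : ∀ x, Rs (fun x => p x + -2 * Rs p x) x = Rs p x - 2 * Rs (Rs p) x := by
      intro x
      have a1 := Rw_add Real.continuous_sin sin_b (f := p) (g := fun x => -2 * Rs p x)
        hp.c (hr.smul (-2)).c hp.g (hr.smul (-2)).g x
      have a2 := Rw_smul Real.sin (-2) (Rs p) x
      unfold Rs at a1 a2 ⊢
      rw [a1, a2]; ring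
    refine h3.trans (le_of_eq (EE_congr fun x => ?_))
    rw [e]; ring
  have e1 : EE (fun x => (p x - 2 * Rs p x) * (Rs p x - 2 * Rs (Rs p) x)) =
      EE (fun x => p x * Rs p x) - 2 * EE (fun x => p x * Rs (Rs p) x) -
        2 * EE (fun x => Rs p x ^ 2) + 4 * EE (fun x => Rs p x * Rs (Rs p) x) := by
    rw [← EE_smul, ← EE_smul, ← EE_smul, ← EE_sub (hp.mul hr) ((hp.mul hrr).smul 2),
      ← EE_sub ((hp.mul hr).sub ((hp.mul hrr).smul 2)) (hr.sq.smul 2),
      ← EE_add (((hp.mul hr).sub ((hp.mul hrr).smul 2)).sub (hr.sq.smul 2)) ((hr.mul hrr).smul 4)]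
    exact EE_congr fun x => by ring
  have e2 : EE (fun x => p x * Rs (Rs p) x) = EE (fun x => Rs p x ^ 2) := by
    rw [Rs_symm hp hr]
    exact EE_congr fun x => by ring
  rw [e1, e2] at h2
  linarith

/-- `4 |R p|² ≤ |p|²` for mean zero `p` -/
theorem Rs_quarter {p : E n → ℝ} (hp : CG p) (h0 : EE p = 0) :
    4 * EE (fun x => Rs p x ^ 2) ≤ EE (fun x => p x ^ 2) := by
  have h1 := Rs_half hp h0
  have h2 := Rs_sq_le hp h0
  linarith

/-- `E f² = Σ ⟨∂_k f, R ∂_k f⟩` for mean zero `f` -/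
theorem sq_eq_Rs {f : E n → ℝ} (hf : C1 f) (h0 : EE f = 0) :
    EE (fun x => f x ^ 2) = ∑ k, EE (fun x => pd k f x * Rs (pd k f) x) := by
  rw [← cov_Rs hf hf, h0, mul_zero, sub_zero]
  exact EE_congr fun x => sq _

/-! ### matrix forms -/

lemma hs_eq_sum (A : Mat n) : hs A = ∑ i, ∑ j, A i j ^ 2 := rfl

lemma EE_hs_sum {F : E n → Mat n} (hF : CGm F) :
    EE (fun x => hs (F x)) = ∑ i, ∑ j, EE (fun x => F x i j ^ 2) := by
  have h : ∀ x, hs (F x) = ∑ i, ∑ j, F x i j ^ 2 := fun x => rfl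
  rw [EE_congr h, EE_sum fun i _ => CG.sum fun j _ => (hF i j).sq]
  exact Finset.sum_congr rfl fun i _ => EE_sum fun j _ => (hF i j).sq

/-- `4 |R p|² ≤ |p|²` (matrices) -/
theorem Rm_quarter {F : E n → Mat n} (hF : CGm F) (h0 : EM F = 0) :
    4 * EE (fun x => hs (Rm F x)) ≤ EE (fun x => hs (F x)) := by
  rw [EE_hs_sum (cgm_Rm hF), EE_hs_sum hF, Finset.mul_sum]
  refine Finset.sum_le_sum fun i _ => ?_
  rw [Finset.mul_sum]
  exact Finset.sum_le_sum fun j _ => Rs_quarter (hF i j) (congrFun (congrFun h0 i) j)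

end Crest.Agent.R253.EtaR518
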