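import Crest.Agent.R253.ErrT_378

/-!
# R253: the `η`-term in helper476's form, and `lam_ge2` (helper378)

`|E tr b η g(ζ)| ≤ θ/2 [(1+δ) G² (tr b² M_T + E |b p|²) + (1+1/δ) bo² C_g S] + 1/(4θ) E|η|²`,
`|g'| ≤ G`: `η` is orthogonal to the chaoses `0, 1`, so `g(ζ)` may be replaced by its part in the
chaoses `≥ 2`, for which Poincaré has constant `1/2` (helper74's `eta_poincare`).
-/

set_option autoImplicit false

open MeasureTheory ProbabilityTheory Set Filter Topology Matrix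

noncomputable section

namespace Crest.Agent.R253.ErrT378

open Crest.Agent.R238.Gap Crest.Agent.R253.SpecCalc999 Crest.Agent.R253.Meh74
  Crest.Agent.R253.SpecField321 Crest.Agent.R253.S3 Crest.Agent.R253.Stein378
  Crest.Agent.R253.LamB301

variable {n : ℕ} {Z : Fld n} {lo hi : ℝ}

/-- `E η_f g = E η_f η_g` -/
lemma EE_eta_mul {f g : E n → ℝ} (hf : C1 f) (hg : C1 g) :
    EE (fun x => eta f x * g x) = EE (fun x => eta f x * eta g x) := by
  have ce := c1_eta hf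
  have ce' := c1_eta hg
  set m := ∫ y, g y ∂(gam n) with hm
  set T : Fin n → ℝ := fun k => ∫ y, pd k g y ∂(gam n) with hT
  have e : ∀ x, eta f x * g x =
      eta f x * eta g x + (m * eta f x + ∑ k, T k * (eta f x * x k)) := by
    intro x
    have : g x = eta g x + (m + ∑ k, T k * x k) := by unfold eta; simp only [hT, hm]; ring
    rw [this, mul_add, mul_add (eta f x) m, Finset.mul_sum]
    congr 2
    · ring
    · exact Finset.sum_congr rfl fun k _ => by ring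
  have c1 : CG (fun x => eta f x * eta g x) := ce.cg.mul ce'.cg
  have c2 : CG (fun x => m * eta f x) := ce.cg.smul m
  have c3 : ∀ k, CG (fun x : E n => T k * (eta f x * x k)) := fun k =>
    (ce.cg.mul (cg_coord k)).smul _
  rw [EE_congr e, EE_add c1 (c2.add (CG.sum fun k _ => c3 k)),
    EE_add c2 (CG.sum fun k _ => c3 k), EE_smul, EE_sum fun k _ => c3 k]
  have z1 : EE (eta f) = 0 := integral_eta hf
  have z2 : ∀ k, EE (fun x : E n => T k * (eta f x * x k)) = 0 := fun k => by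
    rw [EE_smul]
    have : EE (fun x : E n => eta f x * x k) = 0 := by
      unfold EE
      rw [ibp_gam ce.c ce.g k (ce.p k), integral_pd_eta hf k]
    rw [this, mul_zero]
  rw [z1]
  simp only [z2, Finset.sum_const_zero, mul_zero, add_zero]

/-- the scalar inequality -/
lemma eta_mul_le {f g : E n → ℝ} (hf : C1 f) (hg : C1 g) {θ : ℝ} (hθ : 0 < θ) :
    EE (fun x => eta f x * g x) ≤
      1 / (4 * θ) * EE (fun x => eta f x ^ 2) + θ / 2 * ∑ k, EE (fun x => pd k g x ^ 2) := by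
  have ce := c1_eta hf
  have ce' := c1_eta hg
  rw [EE_eta_mul hf hg]
  have h1 : EE (fun x => eta f x * eta g x) ≤
      EE (fun x => 1 / (4 * θ) * eta f x ^ 2 + θ * eta g x ^ 2) := by
    refine EE_mono (ce.cg.mul ce'.cg) ((ce.cg.sq.smul _).add (ce'.cg.sq.smul _)) fun x => ?_
    have h2 : 0 ≤ 1 / (4 * θ) * (eta f x - 2 * θ * eta g x) ^ 2 := by positivity
    have h3 : 1 / (4 * θ) * (eta f x - 2 * θ * eta g x) ^ 2 =
        1 / (4 * θ) * eta f x ^ 2 - eta f x * eta g x + θ * eta g x ^ 2 := by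
      field_simp
      ring
    rw [h3] at h2
    linarith
  rw [EE_add (ce.cg.sq.smul _) (ce'.cg.sq.smul _), EE_smul, EE_smul] at h1
  have h4 : 2 * EE (fun x => eta g x ^ 2) ≤ ∑ i, EE (fun x => pd i (eta g) x ^ 2) :=
    eta_poincare hg
  have h5 : ∀ i, EE (fun x => pd i (eta g) x ^ 2) ≤ EE (fun x => pd i g x ^ 2) := fun i => by
    have := pd_sq_split hg i
    unfold EE
    rw [this]
    have := sq_nonneg (∫ y, pd i g y ∂(gam n))
    linarith
  have h6 : ∑ i, EE (fun x => pd i (eta g) x ^ 2) ≤ ∑ i, EE (fun x => pd i g x ^ 2) :=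
    Finset.sum_le_sum fun i _ => h5 i
  nlinarith [h1, h4, h6, hθ]

/-- entries of `eta0` are 74's `eta` -/
lemma eta0_apply {T : Fin n → Mat n} (hT : ∀ k, EM (S3.dZ Z k) = T k)
    (h0 : EM (Mx Z) = 0) (i j : Fin n) (x : E n) : eta0 Z T x i j = eta (Z i j) x := by
  unfold eta0 eta
  rw [Matrix.sub_apply, Matrix.sum_apply]
  have e1 : (∫ y, Z i j y ∂(gam n)) = 0 := congrFun (congrFun h0 i) j
  have e2 : ∀ k, (∫ y, pd k (Z i j) y ∂(gam n)) = T k i j := fun k =>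
    congrFun (congrFun (hT k) i) j
  rw [e1, sub_zero]
  congr 1
  refine Finset.sum_congr rfl fun k _ => ?_
  rw [e2, Matrix.smul_apply, smul_eq_mul]
  ring

lemma EE_hs {F : E n → Mat n} (hF : CGm F) :
    EE (fun x => hs (F x)) = ∑ i, ∑ j, EE (fun x => F x i j ^ 2) := by
  have h : EE (fun x => hs (F x)) = EE (fun x => ∑ i, ∑ j, F x i j ^ 2) := rfl
  rw [h, EE_sum fun i _ => CG.sum fun j _ => (hF i j).sq]
  exact Finset.sum_congr rfl fun i _ => EE_sum fun j _ => (hF i j).sq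

/-- matrix form: `E <η, F> ≤ 1/(4θ) E|η|² + θ/2 Σ_k E |∂_k F|²` for every `C1` matrix field -/
theorem eta_pair_le {T : Fin n → Mat n} (hZ : MF Z lo hi) (hT : ∀ k, EM (S3.dZ Z k) = T k)
    (h0 : EM (Mx Z) = 0) {F : E n → Mat n} (hF : C1m F) {θ : ℝ} (hθ : 0 < θ) :
    EE (fun x => ∑ i, ∑ j, eta0 Z T x i j * F x i j) ≤
      1 / (4 * θ) * EE (fun x => hs (eta0 Z T x)) + θ / 2 * ∑ k, EE (fun x => hs (S3.dM k F x)) := by
  have cη := cgm_eta0 hZ T
  have e0 : EE (fun x => ∑ i, ∑ j, eta0 Z T x i j * F x i j) =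
      ∑ i, ∑ j, EE (fun x => eta (Z i j) x * F x i j) := by
    rw [EE_sum fun i _ => CG.sum fun j _ => (cη i j).mul (hF i j).cg]
    refine Finset.sum_congr rfl fun i _ => ?_
    rw [EE_sum fun j _ => (cη i j).mul (hF i j).cg]
    exact Finset.sum_congr rfl fun j _ => EE_congr fun x => by rw [eta0_apply hT h0]
  have e1 : EE (fun x => hs (eta0 Z T x)) = ∑ i, ∑ j, EE (fun x => eta (Z i j) x ^ 2) := by
    rw [EE_hs cη]
    exact Finset.sum_congr rfl fun i _ => Finset.sum_congr rfl fun j _ =>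
      EE_congr fun x => by rw [eta0_apply hT h0]
  have e2 : ∑ k, EE (fun x => hs (S3.dM k F x)) =
      ∑ i, ∑ j, ∑ k, EE (fun x => pd k (fun y => F y i j) x ^ 2) := by
    have a1 : ∀ k, EE (fun x => hs (S3.dM k F x)) =
        ∑ i, ∑ j, EE (fun x => pd k (fun y => F y i j) x ^ 2) := fun k => by
      rw [EE_hs (hF.cgd k)]
      rfl
    simp only [a1]
    rw [Finset.sum_comm]
    exact Finset.sum_congr rfl fun i _ => Finset.sum_comm
  rw [e0, e1, e2, Finset.mul_sum, Finset.mul_sum, ← Finset.sum_add_distrib]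
  refine Finset.sum_le_sum fun i _ => ?_
  rw [Finset.mul_sum, Finset.mul_sum, ← Finset.sum_add_distrib]
  exact Finset.sum_le_sum fun j _ => eta_mul_le (hZ.c i j) (hF i j) hθ

/-- `Σ_k E |b ζ_k|² = tr b² M_T + Σ_k E |b p_k|²` -/
lemma EE_hs_dZ (hZ : MF Z lo hi) {T : Fin n → Mat n} (hTs : ∀ k, (T k)ᵀ = T k)
    (hT : ∀ k, EM (S3.dZ Z k) = T k) {b : Mat n} (hb : bᵀ = b) :
    ∑ k, EE (fun x => hs (b * S3.dZ Z k x)) =
      (b * b * ∑ k, T k * T k).trace + ∑ k, EE (fun x => hs (b * pk Z T k x)) := by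
  rw [← sum_hs_mul b hb hTs, ← Finset.sum_add_distrib]
  refine Finset.sum_congr rfl fun k _ => ?_
  have cp := cgm_pk hZ T k
  have cbp : CGm (fun x => b * pk Z T k x) := (cgm_const b).mul cp
  have e : ∀ x, hs (b * S3.dZ Z k x) =
      (hs (b * T k) + hs (b * pk Z T k x)) + 2 * (((b * T k)ᵀ * b) * pk Z T k x * 1).trace := by
    intro x
    have h1 : b * S3.dZ Z k x = b * T k + b * pk Z T k x := by
      unfold pk; rw [← Matrix.mul_add]; congr 1; abel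
    rw [h1, hs_eq, hs_eq, hs_eq, Matrix.transpose_add, Matrix.add_mul, Matrix.mul_add,
      Matrix.mul_add, Matrix.trace_add, Matrix.trace_add, Matrix.trace_add, Matrix.mul_one,
      Matrix.mul_assoc (b * T k)ᵀ b]
    have h2 : ((b * pk Z T k x)ᵀ * (b * T k)).trace = ((b * T k)ᵀ * (b * pk Z T k x)).trace := by
      rw [← Matrix.trace_transpose, Matrix.transpose_mul, Matrix.transpose_transpose]
    rw [h2]
    ring
  have c3 : CG (fun x => (((b * T k)ᵀ * b) * pk Z T k x * 1).trace) :=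
    (((cgm_const _).mul cp).mul (cgm_const 1)).trace
  have c1 : CG (fun _ : E n => hs (b * T k)) := cg_const _
  have c2 : CG (fun x => hs (b * pk Z T k x)) := cg_hs cbp
  rw [EE_congr e, EE_add (c1.add c2) (c3.smul 2), EE_add c1 c2, EE_const, EE_smul]
  have z : EE (fun x => (((b * T k)ᵀ * b) * pk Z T k x * 1).trace) = 0 :=
    EM_zero_tr cp (EM_pk hZ hT k) _ _
  rw [z, mul_zero, add_zero]

lemma hs_two_add_le {δ : ℝ} (hδ : 0 < δ) (X Y : Mat n) :
    hs (X + Y) ≤ (1 + δ) * hs X + (1 + δ⁻¹) * hs Y := Jord192.hs_add_le hδ X Y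

/-- **the `η`-term** -/
theorem eta_term2 (hZ : MF Z lo hi) {T : Fin n → Mat n} (hTs : ∀ k, (T k)ᵀ = T k)
    (hT : ∀ k, EM (S3.dZ Z k) = T k) (h0 : EM (Mx Z) = 0) {g g1 : ℝ → ℝ}
    (hg : ∀ z ∈ Icc lo hi, HasDerivAt g (g1 z) z) (hg1 : ContinuousOn g1 (Icc lo hi))
    {sl : ℝ → ℝ → ℝ} {Sl : E n → ℝ} (cSl : CG Sl)
    (hSl : ∀ x, ∃ U s, Fr (Mx Z x) U s ∧ ∑ k, Jord192.slk sl U s (S3.dZ Z k x) ≤ Sl x)
    {G Cg bo θ δ : ℝ} (hG : ∀ z ∈ Icc lo hi, |g1 z| ≤ G)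
    (hk : ∀ a ∈ Icc lo hi, ∀ b ∈ Icc lo hi, (dd1 g g1 a b - g1 b) ^ 2 ≤ Cg * sl a b)
    (hCg : 0 ≤ Cg) (hθ : 0 < θ) (hδ : 0 < δ) {b : Mat n} (hb : bᵀ = b)
    (hbo : ∀ X : Mat n, hs (b * X) ≤ bo ^ 2 * hs X) :
    |TE (fun x => b * (eta0 Z T x * sf g Z x))| ≤
      θ / 2 * ((1 + δ) * G ^ 2 * ((b * b * ∑ k, T k * T k).trace +
        ∑ k, EE (fun x => hs (b * pk Z T k x))) + (1 + δ⁻¹) * bo ^ 2 * Cg * EE Sl) +
      1 / (4 * θ) * EE (fun x => hs (eta0 Z T x)) := by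
  have cη := cgm_eta0 hZ T
  have hC : C1m (sf g Z) := c1m_sf hZ hg hg1
  have cg1 := cgm_cfc hZ hg1
  -- gradient energy of `F = c • b g(ζ)`, `c = ±1`
  have main : ∀ c : ℝ, c ^ 2 = 1 → c * TE (fun x => b * (eta0 Z T x * sf g Z x)) ≤
      θ / 2 * ((1 + δ) * G ^ 2 * ((b * b * ∑ k, T k * T k).trace +
        ∑ k, EE (fun x => hs (b * pk Z T k x))) + (1 + δ⁻¹) * bo ^ 2 * Cg * EE Sl) +
      1 / (4 * θ) * EE (fun x => hs (eta0 Z T x)) := by
    intro c hc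
    have hF : C1m (fun x => (c • b) * sf g Z x) := C1m.mul (c1m_const (c • b)) hC
    have h1 := eta_pair_le hZ hT h0 hF hθ
    have e1 : EE (fun x => ∑ i, ∑ j, eta0 Z T x i j * ((c • b) * sf g Z x) i j) =
        c * TE (fun x => b * (eta0 Z T x * sf g Z x)) := by
      unfold TE
      rw [← EE_smul]
      refine EE_congr fun x => ?_
      have a1 : (b * (eta0 Z T x * sf g Z x)).trace = ((b * sf g Z x) * eta0 Z T x).trace := by
        rw [← tr_t hb, Matrix.transpose_mul, sf_t, eta0_t hZ hTs, Matrix.mul_assoc]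
      have a2 : ((b * sf g Z x) * eta0 Z T x).trace =
          ∑ i, ∑ j, (b * sf g Z x) i j * eta0 Z T x i j := by
        rw [Matrix.trace]
        refine Finset.sum_congr rfl fun i _ => ?_
        rw [Matrix.diag_apply, Matrix.mul_apply]
        refine Finset.sum_congr rfl fun j _ => ?_
        have : eta0 Z T x j i = eta0 Z T x i j := by
          have := congrFun (congrFun (eta0_t hZ hTs x) i) j
          rwa [Matrix.transpose_apply] at this
        rw [this]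
      change _ = c * (b * (eta0 Z T x * sf g Z x)).trace
      rw [a1, a2, Finset.mul_sum]
      refine Finset.sum_congr rfl fun i _ => ?_
      rw [Finset.mul_sum]
      refine Finset.sum_congr rfl fun j _ => ?_
      rw [Matrix.smul_mul, Matrix.smul_apply, smul_eq_mul]
      ring
    rw [e1] at h1
    have hdM : ∀ k x, S3.dM k (fun x => (c • b) * sf g Z x) x =
        c • (b * DK g g1 (Mx Z x) (S3.dZ Z k x)) := by
      intro k x
      rw [← dM_sf hZ hg k x]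
      ext i j
      change pd k (fun y => ((c • b) * sf g Z y) i j) x = _
      have e : (fun y => ((c • b) * sf g Z y) i j) = fun y => ∑ l, (c • b) i l * sf g Z y l j := by
        funext y; rw [Matrix.mul_apply]
      rw [e, pd_sum' fun l _ => (hC l j).smul _, Matrix.smul_apply, Matrix.mul_apply, smul_eq_mul,
        Finset.mul_sum]
      refine Finset.sum_congr rfl fun l _ => ?_
      rw [C1.pd_mul (c1_const _) (hC l j)]
      have z : pd k (fun _ : E n => (c • b) i l) x = 0 := by simp [pd]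
      rw [z, zero_mul, zero_add, Matrix.smul_apply, smul_eq_mul, mul_assoc]
      rfl
    have h2 : ∀ x, ∑ k, hs (S3.dM k (fun x => (c • b) * sf g Z x) x) ≤
        (1 + δ) * G ^ 2 * ∑ k, hs (b * S3.dZ Z k x) + (1 + δ⁻¹) * bo ^ 2 * Cg * Sl x := by
      intro x
      obtain ⟨U, s, hU, hs1⟩ := hSl x
      have hk' : ∀ k, hs (S3.dM k (fun x => (c • b) * sf g Z x) x) ≤
          (1 + δ) * G ^ 2 * hs (b * S3.dZ Z k x) +
            (1 + δ⁻¹) * bo ^ 2 * Cg * Jord192.slk sl U s (S3.dZ Z k x) := by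
        intro k
        rw [hdM, Jord192.hs_smul, hc, one_mul]
        have e3 : b * DK g g1 (Mx Z x) (S3.dZ Z k x) =
            (b * S3.dZ Z k x) * _root_.cfc g1 (Mx Z x) + b * KR g g1 (Mx Z x) (S3.dZ Z k x) := by
          unfold KR
          rw [Matrix.mul_sub, Matrix.mul_assoc]
          abel
        rw [e3]
        refine (hs_two_add_le hδ _ _).trans ?_
        have a1 := Jord192.hs_mul_cfc_le (hZ.h x) (f := g1) (C := G)
          (fun a ha => hG a (hZ.s x ha)) (b * S3.dZ Z k x)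
        have a2 := hbo (KR g g1 (Mx Z x) (S3.dZ Z k x))
        have a3 := hs_KR_le hU (fun a ha d hd => hk a (hZ.s x ha) d (hZ.s x hd)) (S3.dZ Z k x)
        have hδ' : 0 < δ⁻¹ := inv_pos.2 hδ
        have a4 := mul_le_mul_of_nonneg_left a1 (show (0 : ℝ) ≤ 1 + δ by positivity)
        have a5 := mul_le_mul_of_nonneg_left (a2.trans (mul_le_mul_of_nonneg_left a3
          (sq_nonneg bo))) (show (0 : ℝ) ≤ 1 + δ⁻¹ by positivity)
        linarith
      have a6 : (1 + δ⁻¹) * bo ^ 2 * Cg * ∑ k, Jord192.slk sl U s (S3.dZ Z k x) ≤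
          (1 + δ⁻¹) * bo ^ 2 * Cg * Sl x := by
        have hδ' : 0 < δ⁻¹ := inv_pos.2 hδ
        exact mul_le_mul_of_nonneg_left hs1 (by positivity)
      calc ∑ k, hs (S3.dM k (fun x => (c • b) * sf g Z x) x)
          ≤ ∑ k, ((1 + δ) * G ^ 2 * hs (b * S3.dZ Z k x) +
            (1 + δ⁻¹) * bo ^ 2 * Cg * Jord192.slk sl U s (S3.dZ Z k x)) :=
            Finset.sum_le_sum fun k _ => hk' k
        _ = (1 + δ) * G ^ 2 * ∑ k, hs (b * S3.dZ Z k x) +
            (1 + δ⁻¹) * bo ^ 2 * Cg * ∑ k, Jord192.slk sl U s (S3.dZ Z k x) := by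
            rw [Finset.sum_add_distrib, Finset.mul_sum, Finset.mul_sum]
        _ ≤ _ := by linarith
    have c1 : CG (fun x => ∑ k, hs (S3.dM k (fun x => (c • b) * sf g Z x) x)) :=
      CG.sum fun k _ => cg_hs (hF.cgd k)
    have c2 : CG (fun x => ∑ k, hs (b * S3.dZ Z k x)) :=
      CG.sum fun k _ => cg_hs ((cgm_const b).mul (cgm_dZ hZ k))
    have h3 := EE_mono c1 ((c2.smul ((1 + δ) * G ^ 2)).add
      (cSl.smul ((1 + δ⁻¹) * bo ^ 2 * Cg))) h2
    rw [EE_add (c2.smul _) (cSl.smul _), EE_smul, EE_smul,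
      EE_sum fun k _ => cg_hs ((cgm_const b).mul (cgm_dZ hZ k)),
      EE_sum fun k _ => cg_hs (hF.cgd k), EE_hs_dZ hZ hTs hT hb] at h3
    have h4 := mul_le_mul_of_nonneg_left h3 (show (0 : ℝ) ≤ θ / 2 by positivity)
    linarith
  rw [abs_le]
  constructor
  · have := main (-1) (by norm_num)
    linarith
  · have := main 1 (by norm_num)
    linarith

lemma dd1_affine (χ χ1 : ℝ → ℝ) (c3 c4 a b : ℝ) :
    dd1 (fun z => χ z - c3 - c4 * z) (fun z => χ1 z - c4) a b = dd1 χ χ1 a b - c4 := by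
  unfold dd1
  by_cases h : a = b
  · simp [h]
  · have h' : a - b ≠ 0 := sub_ne_zero.2 h
    simp only [h, if_false]
    field_simp
    ring

/-- **the lower bound of `Λ(b)`, `η`-term in helper476's form** -/
theorem lam_ge2 (hZ : MF Z lo hi) {v v1 χ χ1 F : ℝ → ℝ}
    (hv : ∀ z ∈ Icc lo hi, HasDerivAt v (v1 z) z) (hv1 : ContinuousOn v1 (Icc lo hi))
    (hχ : ∀ z ∈ Icc lo hi, HasDerivAt χ (χ1 z) z) (hχ1 : ContinuousOn χ1 (Icc lo hi))
    (hF : ∀ z ∈ Icc lo hi, F z = 1 + z * χ z - χ1 z + v1 z ^ 2)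
    {T : Fin n → Mat n} (hTs : ∀ k, (T k)ᵀ = T k) (hT : ∀ k, EM (S3.dZ Z k) = T k)
    (h0 : EM (Mx Z) = 0)
    {sl : ℝ → ℝ → ℝ} {Sl : E n → ℝ} (cSl : CG Sl)
    (hSl : ∀ x, ∃ U s, Fr (Mx Z x) U s ∧ ∑ k, Jord192.slk sl U s (S3.dZ Z k x) ≤ Sl x)
    {Cy Cw Ce Cx c ρ κ bo bn θ1 θ2 θ3 θ4 δ c4 G : ℝ}
    (hy : ∀ a ∈ Icc lo hi, ∀ b ∈ Icc lo hi, ky v v1 χ χ1 a b ^ 2 ≤ Cy * sl a b)
    (hw : ∀ a ∈ Icc lo hi, ∀ b ∈ Icc lo hi, (v1 a * (dd1 v v1 b a - v1 a)) ^ 2 ≤ Cw * sl a b)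
    (he : ∀ a ∈ Icc lo hi, ∀ b ∈ Icc lo hi, (dd1 v v1 a b - v1 b) ^ 2 ≤ Ce * sl a b)
    (hx : ∀ a ∈ Icc lo hi, ∀ b ∈ Icc lo hi, (dd1 χ χ1 a b - χ1 b) ^ 2 ≤ Cx * sl a b)
    (hρ : ∀ a ∈ Icc lo hi, ∀ b ∈ Icc lo hi, |χ1 b - v1 b ^ 2 - v1 a ^ 2 - c| ≤ ρ)
    (hκ : ∀ a ∈ Icc lo hi, |v1 a| ≤ κ)
    (hG : ∀ z ∈ Icc lo hi, |χ1 z - c4| ≤ G)
    (hC0 : 0 ≤ Cy) (hC1 : 0 ≤ Cw) (hC2 : 0 ≤ Ce) (hC3 : 0 ≤ Cx)
    (hθ1 : 0 < θ1) (hθ2 : 0 < θ2) (hθ3 : 0 < θ3) (hθ4 : 0 < θ4) (hδ : 0 < δ)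
    {b Q : Mat n} (hb : bᵀ = b)
    (hQ : Q.PosSemidef)
    (hbQ : (Q - b).PosSemidef) (hbo : ∀ X : Mat n, hs (b * X) ≤ bo ^ 2 * hs X)
    (hQn : ∀ X : Mat n, (Q * (X * Xᵀ)).trace ≤ bn * hs X) (hbn : 0 ≤ bn) :
    b.trace + TE (fun x => b * ((∑ k, T k * T k) - 1) * sf (fun z => χ1 z - v1 z ^ 2) Z x) -
      (θ1 / 2 + θ2 / 2) * (b * b * ∑ k, T k * T k).trace -
      (ρ ^ 2 / (2 * θ1) + θ3 * bo ^ 2) * ∑ k, EE (fun x => hs (pk Z T k x)) -
      κ ^ 2 * ∑ k, TE (fun x => Q * (pk Z T k x * pk Z T k x)) -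
      (Cy / (2 * θ2) + Cw / θ3 + bn * Ce) * EE Sl -
      (θ4 / 2 * ((1 + δ) * G ^ 2 * ((b * b * ∑ k, T k * T k).trace +
        ∑ k, EE (fun x => hs (b * pk Z T k x))) + (1 + δ⁻¹) * bo ^ 2 * Cx * EE Sl) +
      1 / (4 * θ4) * EE (fun x => hs (eta0 Z T x))) +
      c4 * TE (fun x => b * (eta0 Z T x * eta0 Z T x)) ≤ Lam F v v1 Z b := by
  have h1 := lam_eq0 hZ hv hv1 hχ hχ1 hF hb hTs
  have h2 := brk_ge hZ hv hv1 hχ hχ1 hTs hT cSl hSl hy hw he hρ hκ hC0 hC1 hC2 hθ1 hθ2 hθ3 hQ hbQ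
    hbo hQn hbn
  have hg : ∀ z ∈ Icc lo hi, HasDerivAt (fun z => χ z - 0 - c4 * z) (χ1 z - c4) z := fun z hz => by
    have h := ((hχ z hz).sub_const 0).sub ((hasDerivAt_id z).const_mul c4)
    rw [mul_one] at h
    exact h
  have h3 := (abs_le.1 (eta_term2 hZ hTs hT h0 hg (hχ1.sub continuousOn_const) cSl hSl
    (Cg := Cx) (δ := δ) (θ := θ4) hG
    (fun a ha d hd => by
      have e : dd1 (fun z => χ z - 0 - c4 * z) (fun z => χ1 z - c4) a d - (χ1 d - c4) =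
          dd1 χ χ1 a d - χ1 d := by rw [dd1_affine]; ring
      rw [e]
      exact hx a ha d hd) hC3 hθ4 hδ hb hbo)).1
  have h4 := center_eta' hZ hχ hχ1 hTs hT h0 hb 0 c4
  have hWW : ∀ x, sf χ1 Z x - sf v1 Z x * sf v1 Z x = sf (fun z => χ1 z - v1 z ^ 2) Z x := by
    intro x
    have e1 : sf v1 Z x * sf v1 Z x = sf (fun z => v1 z ^ 2) Z x := by
      rw [sf_mul hZ]
      exact sf_congr hZ (fun z _ => (sq _).symm) x
    rw [e1, sf_sub hZ]
  have e2 : -TE (fun x => b * ((1 - ∑ k, T k * T k) *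
          (sf χ1 Z x - sf v1 Z x * sf v1 Z x))) =
      TE (fun x => b * ((∑ k, T k * T k) - 1) * sf (fun z => χ1 z - v1 z ^ 2) Z x) := by
    unfold TE
    rw [← EE_neg]
    refine EE_congr fun x => ?_
    change -(b * ((1 - ∑ k, T k * T k) * (sf χ1 Z x - sf v1 Z x * sf v1 Z x))).trace =
      (b * ((∑ k, T k * T k) - 1) * sf (fun z => χ1 z - v1 z ^ 2) Z x).trace
    rw [hWW, ← Matrix.trace_neg, ← Matrix.mul_neg, ← Matrix.neg_mul, neg_sub, Matrix.mul_assoc]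
  unfold Lam
  rw [h1]
  unfold brk at h2
  rw [sum_hs_mul b hb hTs] at h2
  rw [h4]
  linarith

end Crest.Agent.R253.ErrT378
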