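import Crest.Agent.R253.BrPC_505
import Crest.Agent.R238.MaxPOY

/-!
Row 253, T6 node (F) (helper706), part A: the log-scale cut-off `chi e` and its derivative bounds.
-/

set_option autoImplicit false

open Set Filter
open scoped ContDiff Topology

namespace Crest.Agent.R253.Fam706

open Crest.Agent.R238 Crest.Agent.R238.MaxP

variable {n : ℕ}

/-- smooth cut-off on the line: `1` on `(-∞, 1]`, `0` on `[2, ∞)` -/
noncomputable def hc (t : ℝ) : ℝ := Real.smoothTransition (2 - t)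

theorem hc_smooth : ContDiff ℝ ∞ hc :=
  Real.smoothTransition.contDiff.comp (contDiff_const.sub contDiff_id)

theorem hc_nonneg (t : ℝ) : 0 ≤ hc t := Real.smoothTransition.nonneg _

theorem hc_le_one (t : ℝ) : hc t ≤ 1 := Real.smoothTransition.le_one _

theorem hc_one {t : ℝ} (h : t ≤ 1) : hc t = 1 :=
  Real.smoothTransition.one_of_one_le (by linarith)

theorem hc_zero {t : ℝ} (h : 2 ≤ t) : hc t = 0 :=
  Real.smoothTransition.zero_of_nonpos (by linarith)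

/-- first and second derivative -/
noncomputable def h1 : ℝ → ℝ := deriv hc
noncomputable def h2 : ℝ → ℝ := deriv h1

theorem h1_smooth : ContDiff ℝ ∞ h1 :=
  ((contDiff_infty_iff_deriv (f := hc)).1 hc_smooth).2

theorem h2_smooth : ContDiff ℝ ∞ h2 :=
  ((contDiff_infty_iff_deriv (f := h1)).1 h1_smooth).2

theorem hc_has (t : ℝ) : HasDerivAt hc (h1 t) t :=
  (hc_smooth.differentiable (by simp) t).hasDerivAt

theorem h1_has (t : ℝ) : HasDerivAt h1 (h2 t) t :=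
  (h1_smooth.differentiable (by simp) t).hasDerivAt

theorem h1_zero_of_lt {t : ℝ} (h : t < 1) : h1 t = 0 := by
  have : hc =ᶠ[𝓝 t] fun _ => (1 : ℝ) := by
    filter_upwards [Iio_mem_nhds h] with s hs using hc_one (le_of_lt hs)
  unfold h1
  rw [this.deriv_eq]; simp

theorem h1_zero_of_gt {t : ℝ} (h : 2 < t) : h1 t = 0 := by
  have : hc =ᶠ[𝓝 t] fun _ => (0 : ℝ) := by
    filter_upwards [Ioi_mem_nhds h] with s hs using hc_zero (le_of_lt hs)
  unfold h1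
  rw [this.deriv_eq]; simp

theorem h2_zero_of_lt {t : ℝ} (h : t < 1) : h2 t = 0 := by
  have : h1 =ᶠ[𝓝 t] fun _ => (0 : ℝ) := by
    filter_upwards [Iio_mem_nhds h] with s hs using h1_zero_of_lt hs
  unfold h2
  rw [this.deriv_eq]; simp

theorem h2_zero_of_gt {t : ℝ} (h : 2 < t) : h2 t = 0 := by
  have : h1 =ᶠ[𝓝 t] fun _ => (0 : ℝ) := by
    filter_upwards [Ioi_mem_nhds h] with s hs using h1_zero_of_gt hs
  unfold h2
  rw [this.deriv_eq]; simp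

/-- uniform bound of the two derivatives -/
theorem exists_Kh : ∃ K : ℝ, 0 ≤ K ∧ (∀ t, |h1 t| ≤ K) ∧ ∀ t, |h2 t| ≤ K := by
  obtain ⟨K1, hK1⟩ := (isCompact_Icc (a := (1 : ℝ)) (b := 2)).exists_bound_of_continuousOn
    h1_smooth.continuous.continuousOn
  obtain ⟨K2, hK2⟩ := (isCompact_Icc (a := (1 : ℝ)) (b := 2)).exists_bound_of_continuousOn
    h2_smooth.continuous.continuousOn
  refine ⟨max 0 (max K1 K2), le_max_left _ _, fun t => ?_, fun t => ?_⟩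
  · by_cases h : t < 1
    · rw [h1_zero_of_lt h]; simp
    · by_cases h' : 2 < t
      · rw [h1_zero_of_gt h']; simp
      · have := hK1 t ⟨not_lt.1 h, not_lt.1 h'⟩
        rw [Real.norm_eq_abs] at this
        exact this.trans ((le_max_left _ _).trans (le_max_right _ _))
  · by_cases h : t < 1
    · rw [h2_zero_of_lt h]; simp
    · by_cases h' : 2 < t
      · rw [h2_zero_of_gt h']; simp
      · have := hK2 t ⟨not_lt.1 h, not_lt.1 h'⟩
        rw [Real.norm_eq_abs] at this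
        exact this.trans ((le_max_right _ _).trans (le_max_right _ _))

/-- a fixed constant -/
noncomputable def Kh : ℝ := exists_Kh.choose
theorem Kh_nonneg : 0 ≤ Kh := exists_Kh.choose_spec.1
theorem h1_le (t : ℝ) : |h1 t| ≤ Kh := exists_Kh.choose_spec.2.1 t
theorem h2_le (t : ℝ) : |h2 t| ≤ Kh := exists_Kh.choose_spec.2.2 t

/-- the log-scale cut-off on `E n` -/
noncomputable def chi (e : ℝ) (x : E n) : ℝ := hc (e * Real.log (1 + ‖x‖ ^ 2))

/-- radial profiles -/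
noncomputable def F0 (e s : ℝ) : ℝ := hc (e * Real.log (1 + s))
noncomputable def F1 (e s : ℝ) : ℝ := h1 (e * Real.log (1 + s)) * (e / (1 + s))
noncomputable def F2 (e s : ℝ) : ℝ :=
  h2 (e * Real.log (1 + s)) * (e / (1 + s)) * (e / (1 + s))
    + h1 (e * Real.log (1 + s)) * (-(e / (1 + s) ^ 2))

theorem chi_eq (e : ℝ) : (chi e : E n → ℝ) = fun x => F0 e (‖x‖ ^ 2) := rfl

theorem chi_nonneg (e : ℝ) (x : E n) : 0 ≤ chi e x := hc_nonneg _
theorem chi_le_one (e : ℝ) (x : E n) : chi e x ≤ 1 := hc_le_one _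
theorem chi_one {e : ℝ} {x : E n} (h : e * Real.log (1 + ‖x‖ ^ 2) ≤ 1) : chi e x = 1 := hc_one h
theorem chi_zero {e : ℝ} {x : E n} (h : 2 ≤ e * Real.log (1 + ‖x‖ ^ 2)) : chi e x = 0 := hc_zero h

theorem inner_has {e s : ℝ} (hs : 0 ≤ s) :
    HasDerivAt (fun s => e * Real.log (1 + s)) (e / (1 + s)) s := by
  have h1 : HasDerivAt (fun s : ℝ => 1 + s) 1 s := (hasDerivAt_id s).const_add 1
  have h2 := (h1.log (by positivity)).const_mul e
  refine h2.congr_deriv ?_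
  ring

theorem F0_has {e s : ℝ} (hs : 0 ≤ s) : HasDerivAt (F0 e) (F1 e s) s := by
  have h := (hc_has (e * Real.log (1 + s))).comp s (inner_has hs)
  exact h

theorem F1_has {e s : ℝ} (hs : 0 ≤ s) : HasDerivAt (F1 e) (F2 e s) s := by
  have h := (h1_has (e * Real.log (1 + s))).comp s (inner_has (e := e) hs)
  have h3 : HasDerivAt (fun s : ℝ => e / (1 + s)) (-(e / (1 + s) ^ 2)) s := by
    have h1 : HasDerivAt (fun s : ℝ => 1 + s) 1 s := (hasDerivAt_id s).const_add 1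
    have h2 := (hasDerivAt_const s e).div h1 (by positivity)
    refine h2.congr_deriv ?_
    field_simp
    ring
  exact h.mul h3

theorem F1_le {e s : ℝ} (he : 0 ≤ e) (hs : 0 ≤ s) : |F1 e s| ≤ Kh * (e / (1 + s)) := by
  unfold F1
  rw [abs_mul, abs_of_nonneg (by positivity : 0 ≤ e / (1 + s))]
  exact mul_le_mul_of_nonneg_right (h1_le _) (by positivity)

theorem F2_le {e s : ℝ} (he : 0 ≤ e) (he1 : e ≤ 1) (hs : 0 ≤ s) :
    |F2 e s| ≤ 2 * Kh * (e / (1 + s) ^ 2) := by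
  have hK := Kh_nonneg
  have h0 : 0 ≤ e / (1 + s) := by positivity
  have h0' : 0 ≤ e / (1 + s) ^ 2 := by positivity
  unfold F2
  refine (abs_add_le _ _).trans ?_
  have e1 : |h2 (e * Real.log (1 + s)) * (e / (1 + s)) * (e / (1 + s))|
      ≤ Kh * (e / (1 + s) ^ 2) := by
    rw [abs_mul, abs_mul, abs_of_nonneg h0]
    calc |h2 (e * Real.log (1 + s))| * (e / (1 + s)) * (e / (1 + s))
        ≤ Kh * (e / (1 + s)) * (e / (1 + s)) :=
          mul_le_mul_of_nonneg_right (mul_le_mul_of_nonneg_right (h2_le _) h0) h0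
      _ = Kh * (e * (e / (1 + s) ^ 2)) := by field_simp
      _ ≤ Kh * (1 * (e / (1 + s) ^ 2)) :=
          mul_le_mul_of_nonneg_left (mul_le_mul_of_nonneg_right he1 h0') hK
      _ = _ := by ring
  have e2 : |h1 (e * Real.log (1 + s)) * (-(e / (1 + s) ^ 2))| ≤ Kh * (e / (1 + s) ^ 2) := by
    rw [abs_mul, abs_neg, abs_of_nonneg h0']
    exact mul_le_mul_of_nonneg_right (h1_le _) h0'
  linarith

theorem chi_smooth (e : ℝ) : ContDiff ℝ ∞ (chi e : E n → ℝ) := by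
  unfold chi
  refine hc_smooth.comp (contDiff_const.mul (ContDiff.log ?_ fun x => ?_))
  · exact contDiff_const.add (contDiff_norm_sq ℝ)
  · positivity

theorem fderiv_chi (e : ℝ) :
    fderiv ℝ (chi e : E n → ℝ) = fun x => (2 * F1 e (‖x‖ ^ 2)) • innerSL ℝ x := by
  rw [chi_eq]
  exact fderiv_radial fun t ht => F0_has ht

theorem fderiv2_chi (e : ℝ) (x a b : E n) :
    fderiv ℝ (fderiv ℝ (chi e : E n → ℝ)) x a b =
      4 * F2 e (‖x‖ ^ 2) * (inner ℝ x a) * (inner ℝ x b) + 2 * F1 e (‖x‖ ^ 2) * inner ℝ a b := by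
  rw [chi_eq]
  exact fderiv_fderiv_radial (fun t ht => F0_has ht) (fun t ht => F1_has ht) x a b

/-- first derivative bound -/
theorem fderiv_chi_le' {e : ℝ} (he : 0 ≤ e) (x w : E n) :
    |fderiv ℝ (chi e : E n → ℝ) x w| ≤ 2 * Kh * e * ‖x‖ * ‖w‖ / (1 + ‖x‖ ^ 2) := by
  rw [fderiv_chi]
  have h1 := F1_le he (by positivity : 0 ≤ ‖x‖ ^ 2)
  have h2 : |inner ℝ x w| ≤ ‖x‖ * ‖w‖ := abs_real_inner_le_norm x w
  have e1 : ((2 * F1 e (‖x‖ ^ 2)) • innerSL ℝ x) w = 2 * F1 e (‖x‖ ^ 2) * inner ℝ x w := by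
    simp
  show |((2 * F1 e (‖x‖ ^ 2)) • innerSL ℝ x) w| ≤ _
  rw [e1, abs_mul, abs_mul, abs_of_pos (by norm_num : (0 : ℝ) < 2)]
  have hK := Kh_nonneg
  calc 2 * |F1 e (‖x‖ ^ 2)| * |inner ℝ x w|
      ≤ 2 * (Kh * (e / (1 + ‖x‖ ^ 2))) * (‖x‖ * ‖w‖) := by
        refine mul_le_mul (by linarith) h2 (abs_nonneg _) (by positivity)
    _ = _ := by ring

theorem fderiv_chi_le {e : ℝ} (he : 0 ≤ e) (x w : E n) :
    |fderiv ℝ (chi e : E n → ℝ) x w| ≤ 4 * Kh * e * ‖w‖ / (1 + ‖x‖) := by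
  have hK := Kh_nonneg
  refine (fderiv_chi_le' he x w).trans ?_
  have hx := norm_nonneg x
  have hw := norm_nonneg w
  rw [div_le_div_iff₀ (by positivity) (by positivity)]
  have h1 : ‖x‖ * (1 + ‖x‖) ≤ 2 * (1 + ‖x‖ ^ 2) := by nlinarith [sq_nonneg (‖x‖ - 1)]
  have h2 : 0 ≤ 2 * Kh * e * ‖w‖ := by positivity
  calc 2 * Kh * e * ‖x‖ * ‖w‖ * (1 + ‖x‖) = 2 * Kh * e * ‖w‖ * (‖x‖ * (1 + ‖x‖)) := by ring
    _ ≤ 2 * Kh * e * ‖w‖ * (2 * (1 + ‖x‖ ^ 2)) := mul_le_mul_of_nonneg_left h1 h2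
    _ = _ := by ring

/-- second derivative bound -/
theorem fderiv2_chi_le {e : ℝ} (he : 0 ≤ e) (he1 : e ≤ 1) (x z : E n) :
    |fderiv ℝ (fderiv ℝ (chi e : E n → ℝ)) x z z| ≤ 10 * Kh * e * ‖z‖ ^ 2 / (1 + ‖x‖ ^ 2) := by
  have hK := Kh_nonneg
  rw [fderiv2_chi]
  have hx := norm_nonneg x
  have hz := norm_nonneg z
  have h1 := F1_le he (by positivity : 0 ≤ ‖x‖ ^ 2)
  have h2 := F2_le he he1 (by positivity : 0 ≤ ‖x‖ ^ 2)
  have h3 : |inner ℝ x z| ≤ ‖x‖ * ‖z‖ := abs_real_inner_le_norm x z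
  have h4 : inner ℝ z z = ‖z‖ ^ 2 := real_inner_self_eq_norm_sq z
  have h5 : |4 * F2 e (‖x‖ ^ 2) * (inner ℝ x z) * (inner ℝ x z)|
      ≤ 8 * Kh * e * ‖z‖ ^ 2 / (1 + ‖x‖ ^ 2) := by
    rw [abs_mul, abs_mul, abs_mul, abs_of_pos (by norm_num : (0 : ℝ) < 4)]
    calc 4 * |F2 e (‖x‖ ^ 2)| * |inner ℝ x z| * |inner ℝ x z|
        ≤ 4 * (2 * Kh * (e / (1 + ‖x‖ ^ 2) ^ 2)) * (‖x‖ * ‖z‖) * (‖x‖ * ‖z‖) := by
          gcongr
      _ = 8 * Kh * e * ‖z‖ ^ 2 * (‖x‖ ^ 2 / (1 + ‖x‖ ^ 2) ^ 2) := by ring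
      _ ≤ 8 * Kh * e * ‖z‖ ^ 2 * (1 / (1 + ‖x‖ ^ 2)) := by
          refine mul_le_mul_of_nonneg_left ?_ (by positivity)
          rw [div_le_div_iff₀ (by positivity) (by positivity)]
          nlinarith [sq_nonneg ‖x‖]
      _ = _ := by ring
  have h6 : |2 * F1 e (‖x‖ ^ 2) * inner ℝ z z| ≤ 2 * Kh * e * ‖z‖ ^ 2 / (1 + ‖x‖ ^ 2) := by
    rw [h4, abs_mul, abs_mul, abs_of_pos (by norm_num : (0 : ℝ) < 2),
      abs_of_nonneg (by positivity : 0 ≤ ‖z‖ ^ 2)]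
    calc 2 * |F1 e (‖x‖ ^ 2)| * ‖z‖ ^ 2 ≤ 2 * (Kh * (e / (1 + ‖x‖ ^ 2))) * ‖z‖ ^ 2 := by gcongr
      _ = _ := by ring
  refine (abs_add_le _ _).trans ?_
  have : 8 * Kh * e * ‖z‖ ^ 2 / (1 + ‖x‖ ^ 2) + 2 * Kh * e * ‖z‖ ^ 2 / (1 + ‖x‖ ^ 2)
      = 10 * Kh * e * ‖z‖ ^ 2 / (1 + ‖x‖ ^ 2) := by ring
  linarith

end Crest.Agent.R253.Fam706
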