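import Crest.Agent.R253.FamA_706

/-!
Row 253, T6 node (F) (helper706), part B: the family
`PA P0 e B x = P0 (B x) + chi e x * (‖B x‖² - ‖x‖²)/2`, its derivatives, the Hessian lower bound.
-/

set_option autoImplicit false

open Set Filter
open scoped ContDiff Topology

namespace Crest.Agent.R253.Fam706

open Crest.Agent.R238 Crest.Agent.R238.Apr Crest.Agent.R253.Br

variable {n : ℕ}

/-- half of the difference of the two quadratic forms -/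
noncomputable def qB (B : E n →L[ℝ] E n) (x : E n) : ℝ := (‖B x‖ ^ 2 - ‖x‖ ^ 2) / 2

/-- the family -/
noncomputable def PA (P0 : E n → ℝ) (e : ℝ) (B : E n →L[ℝ] E n) (x : E n) : ℝ :=
  P0 (B x) + chi e x * ((‖B x‖ ^ 2 - ‖x‖ ^ 2) / 2)

/-- the box -/
def Bx (b1 b2 : ℝ) : Set (E n →L[ℝ] E n) := {B | ∀ x, b1 * ‖x‖ ≤ ‖B x‖ ∧ ‖B x‖ ≤ b2 * ‖x‖}

/-- gradient of `qB` -/
noncomputable def gB (B : E n →L[ℝ] E n) (x : E n) : E n →L[ℝ] ℝ :=
  (innerSL ℝ (B x)).comp B - innerSL ℝ x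

theorem gB_apply (B : E n →L[ℝ] E n) (x w : E n) :
    gB B x w = inner ℝ (B x) (B w) - inner ℝ x w := rfl

theorem qB_has (B : E n →L[ℝ] E n) (x : E n) : HasFDerivAt (qB B) (gB B x) x := by
  have h1 : HasFDerivAt (fun y : E n => ‖y‖ ^ 2) (2 • (innerSL ℝ x)) x :=
    (hasStrictFDerivAt_norm_sq x).hasFDerivAt
  have h2 : HasFDerivAt (fun y : E n => ‖B y‖ ^ 2) ((2 • (innerSL ℝ (B x))).comp B) x :=
    HasFDerivAt.comp x (g := fun y : E n => ‖y‖ ^ 2) (hasStrictFDerivAt_norm_sq (B x)).hasFDerivAt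
      B.hasFDerivAt
  have h3 := (h2.sub h1).mul_const (1 / 2 : ℝ)
  have e : qB B = fun y => (‖B y‖ ^ 2 - ‖y‖ ^ 2) * (1 / 2) := by
    funext y; unfold qB; ring
  rw [e]
  refine h3.congr_fderiv ?_
  ext w
  rw [gB_apply]
  simp only [smul_apply, sub_apply, ContinuousLinearMap.comp_apply, innerSL_apply_apply,
    smul_eq_mul, nsmul_eq_mul]
  push_cast
  ring

/-- second derivative of `qB` -/
noncomputable def sB (B : E n →L[ℝ] E n) : E n →L[ℝ] E n →L[ℝ] ℝ :=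
  ((ContinuousLinearMap.compL ℝ (E n) (E n) ℝ).flip B).comp ((innerSL ℝ).comp B) - innerSL ℝ

theorem sB_apply (B : E n →L[ℝ] E n) (x : E n) : sB B x = gB B x := by
  ext w
  simp only [sB, gB, sub_apply, ContinuousLinearMap.comp_apply, ContinuousLinearMap.flip_apply,
    ContinuousLinearMap.compL_apply]

theorem gB_has (B : E n →L[ℝ] E n) (x : E n) : HasFDerivAt (gB B) (sB B) x := by
  have e : gB B = fun y => sB B y := by funext y; rw [sB_apply]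
  rw [e]
  exact (sB B).hasFDerivAt

theorem PA_eq_q (P0 : E n → ℝ) (e : ℝ) (B : E n →L[ℝ] E n) :
    PA P0 e B = fun x => P0 (B x) + chi e x * qB B x := rfl

theorem PA_has {P0 : E n → ℝ} (hP : ContDiff ℝ ∞ P0) (e : ℝ) (B : E n →L[ℝ] E n) (x : E n) :
    HasFDerivAt (PA P0 e B)
      ((fderiv ℝ P0 (B x)).comp B + (chi e x • gB B x + qB B x • fderiv ℝ (chi e) x)) x := by
  rw [PA_eq_q]
  have h1 : HasFDerivAt (fun x => P0 (B x)) ((fderiv ℝ P0 (B x)).comp B) x :=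
    ((hP.differentiable (by simp)) (B x)).hasFDerivAt.comp x B.hasFDerivAt
  have h2 : HasFDerivAt (chi e : E n → ℝ) (fderiv ℝ (chi e) x) x :=
    (((chi_smooth e).differentiable (by simp)) x).hasFDerivAt
  exact h1.add (h2.mul (qB_has B x))

theorem fderiv_PA {P0 : E n → ℝ} (hP : ContDiff ℝ ∞ P0) (e : ℝ) (B : E n →L[ℝ] E n) :
    fderiv ℝ (PA P0 e B) = fun x =>
      (fderiv ℝ P0 (B x)).comp B + (chi e x • gB B x + qB B x • fderiv ℝ (chi e) x) :=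
  funext fun x => (PA_has hP e B x).fderiv

theorem fderiv2_PA {P0 : E n → ℝ} (hP : ContDiff ℝ ∞ P0) (e : ℝ) (B : E n →L[ℝ] E n)
    (x a b : E n) :
    fderiv ℝ (fderiv ℝ (PA P0 e B)) x a b = fderiv ℝ (fderiv ℝ P0) (B x) (B a) (B b)
      + ((chi e x * (inner ℝ (B a) (B b) - inner ℝ a b) + fderiv ℝ (chi e) x a * gB B x b)
      + (qB B x * fderiv ℝ (fderiv ℝ (chi e)) x a b + gB B x a * fderiv ℝ (chi e) x b)) := by
  rw [fderiv_PA hP]
  have d0 : Differentiable ℝ (fderiv ℝ P0) := (hP.fderiv_right (m := ∞) (by simp)).differentiable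
    (by simp)
  have d1 : Differentiable ℝ (fderiv ℝ (chi e : E n → ℝ)) :=
    ((chi_smooth e).fderiv_right (m := ∞) (by simp)).differentiable (by simp)
  have h1 : HasFDerivAt (fun x => fderiv ℝ P0 (B x)) ((fderiv ℝ (fderiv ℝ P0) (B x)).comp B) x :=
    (d0 (B x)).hasFDerivAt.comp x B.hasFDerivAt
  have h1' : HasFDerivAt (fun x => (fderiv ℝ P0 (B x)).comp B)
      (((ContinuousLinearMap.compL ℝ (E n) (E n) ℝ).flip B).comp
        ((fderiv ℝ (fderiv ℝ P0) (B x)).comp B)) x :=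
    ((ContinuousLinearMap.compL ℝ (E n) (E n) ℝ).flip B).hasFDerivAt.comp x h1
  have h2 : HasFDerivAt (chi e : E n → ℝ) (fderiv ℝ (chi e) x) x :=
    (((chi_smooth e).differentiable (by simp)) x).hasFDerivAt
  have h3 := h2.smul (gB_has B x)
  have h4 := (qB_has B x).smul (d1 x).hasFDerivAt
  have h5 := h1'.add (h3.add h4)
  have h6 : fderiv ℝ (fun x => (fderiv ℝ P0 (B x)).comp B
      + (chi e x • gB B x + qB B x • fderiv ℝ (chi e) x)) x = _ := h5.fderiv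
  rw [h6]
  simp only [add_apply, smul_apply, ContinuousLinearMap.comp_apply,
    ContinuousLinearMap.smulRight_apply, ContinuousLinearMap.flip_apply,
    ContinuousLinearMap.compL_apply, smul_eq_mul, sB_apply]
  rw [gB_apply B a b]

theorem abs_gB_le {B : E n →L[ℝ] E n} {b2 : ℝ} (hb : 0 ≤ b2) (hB : ∀ x, ‖B x‖ ≤ b2 * ‖x‖)
    (x w : E n) : |gB B x w| ≤ (b2 ^ 2 + 1) * ‖x‖ * ‖w‖ := by
  rw [gB_apply]
  have h1 : |inner ℝ (B x) (B w)| ≤ ‖B x‖ * ‖B w‖ := abs_real_inner_le_norm _ _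
  have h2 : |inner ℝ x w| ≤ ‖x‖ * ‖w‖ := abs_real_inner_le_norm _ _
  have h3 : ‖B x‖ * ‖B w‖ ≤ (b2 * ‖x‖) * (b2 * ‖w‖) :=
    mul_le_mul (hB x) (hB w) (norm_nonneg _) (by positivity)
  refine (abs_sub _ _).trans ?_
  nlinarith

theorem abs_qB_le {B : E n →L[ℝ] E n} {b2 : ℝ} (_hb : 0 ≤ b2) (hB : ∀ x, ‖B x‖ ≤ b2 * ‖x‖)
    (x : E n) : |qB B x| ≤ (b2 ^ 2 + 1) / 2 * ‖x‖ ^ 2 := by
  unfold qB
  have h1 : ‖B x‖ ^ 2 ≤ (b2 * ‖x‖) ^ 2 := pow_le_pow_left₀ (norm_nonneg _) (hB x) 2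
  have h2 : 0 ≤ ‖B x‖ ^ 2 := by positivity
  have h3 : 0 ≤ ‖x‖ ^ 2 := by positivity
  rw [abs_le]
  constructor <;> nlinarith [sq_nonneg (b2 * ‖x‖)]

/-- error of the cut-off in the second derivative -/
theorem err_le {B : E n →L[ℝ] E n} {b2 e : ℝ} (hb : 0 ≤ b2) (hB : ∀ x, ‖B x‖ ≤ b2 * ‖x‖)
    (he : 0 ≤ e) (he1 : e ≤ 1) (x z : E n) :
    |fderiv ℝ (chi e : E n → ℝ) x z * gB B x z
      + (qB B x * fderiv ℝ (fderiv ℝ (chi e)) x z z + gB B x z * fderiv ℝ (chi e) x z)|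
      ≤ 9 * Kh * (b2 ^ 2 + 1) * e * ‖z‖ ^ 2 := by
  have hK := Kh_nonneg
  have hx := norm_nonneg x
  have hz := norm_nonneg z
  have h1 := fderiv_chi_le' he x z
  have h2 := fderiv2_chi_le he he1 x z
  have h3 := abs_gB_le hb hB x z
  have h4 := abs_qB_le hb hB x
  have hr : ‖x‖ ^ 2 / (1 + ‖x‖ ^ 2) ≤ 1 := by
    rw [div_le_one (by positivity)]; linarith
  have a1 : |fderiv ℝ (chi e : E n → ℝ) x z * gB B x z| ≤ 2 * Kh * (b2 ^ 2 + 1) * e * ‖z‖ ^ 2 := by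
    rw [abs_mul]
    calc |fderiv ℝ (chi e : E n → ℝ) x z| * |gB B x z|
        ≤ (2 * Kh * e * ‖x‖ * ‖z‖ / (1 + ‖x‖ ^ 2)) * ((b2 ^ 2 + 1) * ‖x‖ * ‖z‖) :=
          mul_le_mul h1 h3 (abs_nonneg _) (by positivity)
      _ = 2 * Kh * (b2 ^ 2 + 1) * e * ‖z‖ ^ 2 * (‖x‖ ^ 2 / (1 + ‖x‖ ^ 2)) := by ring
      _ ≤ 2 * Kh * (b2 ^ 2 + 1) * e * ‖z‖ ^ 2 * 1 :=
          mul_le_mul_of_nonneg_left hr (by positivity)
      _ = _ := by ring
  have a2 : |qB B x * fderiv ℝ (fderiv ℝ (chi e : E n → ℝ)) x z z|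
      ≤ 5 * Kh * (b2 ^ 2 + 1) * e * ‖z‖ ^ 2 := by
    rw [abs_mul]
    calc |qB B x| * |fderiv ℝ (fderiv ℝ (chi e : E n → ℝ)) x z z|
        ≤ ((b2 ^ 2 + 1) / 2 * ‖x‖ ^ 2) * (10 * Kh * e * ‖z‖ ^ 2 / (1 + ‖x‖ ^ 2)) :=
          mul_le_mul h4 h2 (abs_nonneg _) (by positivity)
      _ = 5 * Kh * (b2 ^ 2 + 1) * e * ‖z‖ ^ 2 * (‖x‖ ^ 2 / (1 + ‖x‖ ^ 2)) := by ring
      _ ≤ 5 * Kh * (b2 ^ 2 + 1) * e * ‖z‖ ^ 2 * 1 :=
          mul_le_mul_of_nonneg_left hr (by positivity)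
      _ = _ := by ring
  have a3 : |gB B x z * fderiv ℝ (chi e : E n → ℝ) x z| ≤ 2 * Kh * (b2 ^ 2 + 1) * e * ‖z‖ ^ 2 := by
    rw [mul_comm]; exact a1
  refine (abs_add_le _ _).trans ?_
  have := abs_add_le (qB B x * fderiv ℝ (fderiv ℝ (chi e : E n → ℝ)) x z z)
    (gB B x z * fderiv ℝ (chi e : E n → ℝ) x z)
  linarith

/-- `D²P0` vanishes outside the support -/
theorem fderiv2_zero_of_far {P0 : E n → ℝ} {R : ℝ} (hR : tsupport P0 ⊆ Metric.ball 0 R)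
    {y : E n} (hy : R ≤ ‖y‖) : fderiv ℝ (fderiv ℝ P0) y = 0 := by
  have h1 : y ∉ tsupport P0 := fun h => by
    have := hR h
    rw [mem_ball_zero_iff] at this
    linarith
  have h2 : ∀ᶠ w in 𝓝 y, P0 w = (fun _ => (0 : ℝ)) w := by
    have : ∀ᶠ w in 𝓝 y, w ∉ tsupport P0 := (isClosed_tsupport P0).isOpen_compl.mem_nhds h1
    filter_upwards [this] with w hw
    exact image_eq_zero_of_notMem_tsupport hw
  have h3 : fderiv ℝ P0 =ᶠ[𝓝 y] fderiv ℝ (fun _ : E n => (0 : ℝ)) := EventuallyEq.fderiv h2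
  rw [h3.fderiv_eq]
  have h4 : (fderiv ℝ (fun _ : E n => (0 : ℝ))) = fun _ => 0 := by funext y; simp
  rw [h4]; simp

/-- **Hessian lower bound, uniform in `e ≤ e0` and `B` in the box** -/
theorem hess_PA {P0 : E n → ℝ} (hP : PDatB P0) {b1 b2 : ℝ} (hb1 : 0 < b1) (hb : b1 ≤ b2) :
    ∃ c e0 : ℝ, 0 < c ∧ c ≤ 1 ∧ 0 < e0 ∧ e0 ≤ 1 ∧ ∀ e, 0 < e → e ≤ e0 → ∀ B ∈ Bx (n := n) b1 b2,
      ∀ x z : E n, c * ‖z‖ ^ 2 ≤ ‖z‖ ^ 2 + fderiv ℝ (fderiv ℝ (PA P0 e B)) x z z := by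
  obtain ⟨ε, hε, hc⟩ := hP.conv
  have hs2 : ContDiff ℝ 2 P0 := by exact_mod_cast contDiff_infty.1 hP.tst.smooth 2
  have hb2 : 0 < b2 := hb1.trans_le hb
  obtain ⟨R', hR'⟩ := hP.tst.supp.isCompact.isBounded.subset_ball (0 : E n)
  set R := max R' 1 with hRdef
  have hR : tsupport P0 ⊆ Metric.ball 0 R :=
    hR'.trans (Metric.ball_subset_ball (le_max_left _ _))
  have hRpos : 0 < R := lt_max_of_lt_right one_pos
  have hK := Kh_nonneg
  -- the constant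
  set c1 : ℝ := min (min 1 (b1 ^ 2)) (2 * ε * b1 ^ 2) with hc1
  have hc1pos : 0 < c1 := by
    refine lt_min (lt_min one_pos (by positivity)) (by positivity)
  set L : ℝ := Real.log (1 + (R / b1) ^ 2) with hL
  have hL0 : 0 ≤ L := Real.log_nonneg (by nlinarith [sq_nonneg (R / b1)])
  set K9 : ℝ := 9 * Kh * (b2 ^ 2 + 1) with hK9
  have hK90 : 0 ≤ K9 := by positivity
  refine ⟨c1 / 2, min 1 (min (1 / (L + 1)) (c1 / (2 * (K9 + 1)))), by positivity, ?_, ?_,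
    min_le_left _ _, ?_⟩
  · have : c1 ≤ 1 := (min_le_left _ _).trans (min_le_left _ _)
    linarith
  · refine lt_min one_pos (lt_min (by positivity) (by positivity))
  intro e he hee B hB x z
  have he1 : e ≤ 1 := hee.trans (min_le_left _ _)
  have heL : e ≤ 1 / (L + 1) := hee.trans ((min_le_right _ _).trans (min_le_left _ _))
  have heK : e ≤ c1 / (2 * (K9 + 1)) := hee.trans ((min_le_right _ _).trans (min_le_right _ _))
  have hBu : ∀ x, ‖B x‖ ≤ b2 * ‖x‖ := fun x => (hB x).2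
  have hz0 : 0 ≤ ‖z‖ ^ 2 := by positivity
  rw [fderiv2_PA hP.tst.smooth]
  have herr := err_le hb2.le hBu he.le he1 x z
  have herr' : 9 * Kh * (b2 ^ 2 + 1) * e * ‖z‖ ^ 2 ≤ c1 / 2 * ‖z‖ ^ 2 := by
    refine mul_le_mul_of_nonneg_right ?_ hz0
    have h1 : K9 * e ≤ (K9 + 1) * e := by nlinarith
    have h2 : (K9 + 1) * e ≤ c1 / 2 := by
      rw [le_div_iff₀ (by positivity)] at heK
      linarith
    calc 9 * Kh * (b2 ^ 2 + 1) * e = K9 * e := by rw [hK9]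
      _ ≤ c1 / 2 := h1.trans h2
  have hBz : b1 ^ 2 * ‖z‖ ^ 2 ≤ ‖B z‖ ^ 2 := by
    rw [← mul_pow]
    exact pow_le_pow_left₀ (by positivity) (hB z).1 2
  have hin1 : inner ℝ (B z) (B z) = ‖B z‖ ^ 2 := real_inner_self_eq_norm_sq _
  have hin2 : inner ℝ z z = ‖z‖ ^ 2 := real_inner_self_eq_norm_sq _
  rw [hin1, hin2]
  have hx0 := chi_nonneg e x
  have hx1 := chi_le_one e x
  -- main term
  have main : c1 * ‖z‖ ^ 2 ≤ ‖z‖ ^ 2 + fderiv ℝ (fderiv ℝ P0) (B x) (B z) (B z)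
      + chi e x * (‖B z‖ ^ 2 - ‖z‖ ^ 2) := by
    by_cases hfar : R ≤ ‖B x‖
    · rw [fderiv2_zero_of_far hR hfar]
      have h1 : c1 ≤ 1 := (min_le_left _ _).trans (min_le_left _ _)
      have h2 : c1 ≤ b1 ^ 2 := (min_le_left _ _).trans (min_le_right _ _)
      have h3 : c1 * ‖z‖ ^ 2 ≤ ‖z‖ ^ 2 := by nlinarith
      have h4 : c1 * ‖z‖ ^ 2 ≤ ‖B z‖ ^ 2 := by nlinarith
      simp only [zero_apply, add_zero]
      have h5 : (1 - chi e x) * (c1 * ‖z‖ ^ 2) ≤ (1 - chi e x) * ‖z‖ ^ 2 :=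
        mul_le_mul_of_nonneg_left h3 (by linarith)
      have h6 : chi e x * (c1 * ‖z‖ ^ 2) ≤ chi e x * ‖B z‖ ^ 2 :=
        mul_le_mul_of_nonneg_left h4 hx0
      nlinarith
    · have hchi : chi e x = 1 := by
        refine chi_one ?_
        have h1 : b1 * ‖x‖ ≤ R := (hB x).1.trans (not_le.1 hfar).le
        have h2 : ‖x‖ ≤ R / b1 := by rw [le_div_iff₀ hb1]; linarith
        have h3 : ‖x‖ ^ 2 ≤ (R / b1) ^ 2 := pow_le_pow_left₀ (norm_nonneg _) h2 2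
        have h4 : Real.log (1 + ‖x‖ ^ 2) ≤ L :=
          Real.log_le_log (by positivity) (by linarith)
        have h5 : e * (L + 1) ≤ 1 := by
          rw [le_div_iff₀ (by positivity)] at heL; exact heL
        nlinarith
      have h1 := hess_lower hs2 hc (B x) (B z)
      have h2 : c1 ≤ 2 * ε * b1 ^ 2 := min_le_right _ _
      have h3 : c1 * ‖z‖ ^ 2 ≤ 2 * ε * ‖B z‖ ^ 2 := by
        calc c1 * ‖z‖ ^ 2 ≤ 2 * ε * b1 ^ 2 * ‖z‖ ^ 2 := mul_le_mul_of_nonneg_right h2 hz0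
          _ = 2 * ε * (b1 ^ 2 * ‖z‖ ^ 2) := by ring
          _ ≤ _ := mul_le_mul_of_nonneg_left hBz (by positivity)
      rw [hchi]
      linarith
  have h7 := (abs_le.1 herr).1
  linarith

end Crest.Agent.R253.Fam706
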