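import Crest.Agent.R253.EvenHS_427
import Crest.Agent.R253.LamI_301

/-!
# R253: far-row assembly (helper427)

Input: one line of the type of helper626's `(F3)` for `b = βᵀ β`; scalar minorant
`g0 + g1 z₊² + d z ≤ om z`. Output: the linear lower bound of `Λ(b)`.
-/

set_option autoImplicit false

open MeasureTheory ProbabilityTheory Set Filter Topology Matrix
open scoped ContDiff

noncomputable section

namespace Crest.Agent.R253.FarA427

open Crest.Agent.R238.Gap Crest.Agent.R253.Meh74 Crest.Agent.R253.SpecCalc999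
  Crest.Agent.R253.SpecField321 Crest.Agent.R253.S3 Crest.Agent.R253.Jord192
  Crest.Agent.R253.EvenHS427 Crest.Agent.R253.LamB301 Crest.Agent.R253.LamI301
  Crest.Agent.R253.DualP973

variable {m n : ℕ}

/-! ### traces in a frame of `A` -/

lemma tr_CC_cfc {A U : Mat m} {s : Fin m → ℝ} (hU : Fr A U s) (f : ℝ → ℝ) (C : Mat m) :
    (Cᵀ * C * _root_.cfc f A).trace = ∑ i, ∑ j, f (s j) * (C * U) i j ^ 2 := by
  have h1 : (Cᵀ * C * _root_.cfc f A).trace =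
      ((C * U)ᵀ * ((C * U) * Matrix.diagonal fun i => f (s i))).trace := by
    rw [← hU.cfc f]
    have h2 : C * U * (Uᵀ * _root_.cfc f A * U) = C * _root_.cfc f A * U := by
      calc C * U * (Uᵀ * _root_.cfc f A * U) = C * ((U * Uᵀ) * _root_.cfc f A) * U := by
            simp only [Matrix.mul_assoc]
        _ = _ := by rw [hU.o', Matrix.one_mul]
    rw [h2, Matrix.transpose_mul]
    have h3 : Uᵀ * Cᵀ * (C * _root_.cfc f A * U) = Uᵀ * (Cᵀ * C * _root_.cfc f A * U) := by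
      simp only [Matrix.mul_assoc]
    have h4 : (Uᵀ * (Cᵀ * C * _root_.cfc f A * U)).trace =
        (Cᵀ * C * _root_.cfc f A * (U * Uᵀ)).trace := by
      rw [Matrix.trace_mul_comm]
      simp only [Matrix.mul_assoc]
    rw [h3, h4, hU.o', Matrix.mul_one]
  rw [h1, Matrix.trace, Finset.sum_comm]
  refine Finset.sum_congr rfl fun j _ => ?_
  rw [Matrix.diag_apply, Matrix.mul_apply]
  refine Finset.sum_congr rfl fun i _ => ?_
  rw [Matrix.transpose_apply, Matrix.mul_diagonal]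
  ring

lemma tr_CC_mono {A : Mat m} (hA : A.IsHermitian) {f g : ℝ → ℝ}
    (h : ∀ z ∈ spectrum ℝ A, f z ≤ g z) (C : Mat m) :
    (Cᵀ * C * _root_.cfc f A).trace ≤ (Cᵀ * C * _root_.cfc g A).trace := by
  obtain ⟨U, hU⟩ := exists_fr hA
  rw [tr_CC_cfc hU, tr_CC_cfc hU]
  exact Finset.sum_le_sum fun i _ => Finset.sum_le_sum fun j _ =>
    mul_le_mul_of_nonneg_right (h _ (hU.mem_spec j)) (sq_nonneg _)

lemma hs_C_cfc {A : Mat m} (hA : A.IsHermitian) (f : ℝ → ℝ) (C : Mat m) :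
    hs (C * _root_.cfc f A) = (Cᵀ * C * _root_.cfc (fun z => f z ^ 2) A).trace := by
  obtain ⟨U, hU⟩ := exists_fr hA
  rw [tr_CC_cfc hU]
  have h1 : (1 : Mat m) * (1 : Mat m)ᵀ = 1 := by rw [Matrix.transpose_one, Matrix.mul_one]
  rw [← hs_conj2 h1 hU.o' (C * _root_.cfc f A)]
  have h2 : (1 : Mat m)ᵀ * (C * _root_.cfc f A) * U =
      (C * U) * Matrix.diagonal fun i => f (hA.eigenvalues i) := by
    rw [Matrix.transpose_one, Matrix.one_mul, ← hU.cfc f]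
    calc C * _root_.cfc f A * U = C * (1 * _root_.cfc f A) * U := by rw [Matrix.one_mul]
      _ = C * ((U * Uᵀ) * _root_.cfc f A) * U := by rw [hU.o']
      _ = _ := by simp only [Matrix.mul_assoc]
  rw [h2]
  unfold hs
  refine Finset.sum_congr rfl fun i _ => Finset.sum_congr rfl fun j _ => ?_
  rw [Matrix.mul_diagonal]
  ring

/-- pointwise scalar minorant: `tr CᵀC om(A) ≥ g0 |C|² + g1 |C A₊|² + d tr CᵀC A` -/
lemma tr_minorant {A : Mat m} (hA : A.IsHermitian) {om : ℝ → ℝ} {g0 g1 d : ℝ}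
    (h : ∀ z ∈ spectrum ℝ A, g0 + g1 * (max z 0) ^ 2 + d * z ≤ om z) (C : Mat m) :
    g0 * hs C + g1 * hs (C * _root_.cfc (fun z : ℝ => max z 0) A) + d * (Cᵀ * C * A).trace ≤
      (Cᵀ * C * _root_.cfc om A).trace := by
  refine le_trans (le_of_eq ?_) (tr_CC_mono hA h C)
  obtain ⟨U, hU⟩ := exists_fr hA
  have e1 : hs C = (Cᵀ * C * _root_.cfc (fun _ : ℝ => (1 : ℝ)) A).trace := by
    rw [cfc_const_one ℝ A, Matrix.mul_one, hs_eq]
  have e2 : (Cᵀ * C * A).trace = (Cᵀ * C * _root_.cfc (fun z : ℝ => z) A).trace := by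
    rw [cfc_id'' hA]
  rw [e1, e2, hs_C_cfc hA, tr_CC_cfc hU, tr_CC_cfc hU, tr_CC_cfc hU, tr_CC_cfc hU]
  simp only [Finset.mul_sum]
  rw [← Finset.sum_add_distrib, ← Finset.sum_add_distrib]
  refine Finset.sum_congr rfl fun i _ => ?_
  rw [← Finset.sum_add_distrib, ← Finset.sum_add_distrib]
  refine Finset.sum_congr rfl fun j _ => ?_
  ring

variable {ζ : Fld n} {lo hi : ℝ}

/-- `E tr CᵀC om(ζ) ≥ g0 |C|² + g1 E |C ζ₊|²` -/
theorem TE_minorant (hζ : MF ζ lo hi) (h0 : ∀ i j, EE (ζ i j) = 0) {om : ℝ → ℝ}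
    (hom : ContinuousOn om (Icc lo hi)) {g0 g1 d : ℝ}
    (h : ∀ z ∈ Icc lo hi, g0 + g1 * (max z 0) ^ 2 + d * z ≤ om z) (C : Mat n) :
    g0 * hs C + g1 * EE (fun x => hs (C * _root_.cfc (fun z : ℝ => max z 0) (Mx ζ x))) ≤
      TE (fun x => Cᵀ * C * sf om ζ x) := by
  have cM : CGm (Mx ζ) := cgm_Mx hζ
  have cP : CG fun x => hs (C * _root_.cfc (fun z : ℝ => max z 0) (Mx ζ x)) :=
    cg_hs (cgm_mul_const C (cgm_cfc_lip cM hζ.h pos_lip))
  have cA : CG fun x => (Cᵀ * C * Mx ζ x).trace := ((cgm_const (Cᵀ * C)).mul cM).trace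
  have cO : CG fun x => (Cᵀ * C * sf om ζ x).trace :=
    ((cgm_const (Cᵀ * C)).mul (cgm_cfc hζ hom)).trace
  have h1 := EE_mono (((cg_const (g0 * hs C)).add (cP.smul g1)).add (cA.smul d)) cO fun x =>
    tr_minorant (hζ.h x) (fun z hz => h z (hζ.s x hz)) C
  rw [EE_add ((cg_const _).add (cP.smul g1)) (cA.smul d), EE_add (cg_const _) (cP.smul g1),
    EE_const, EE_smul, EE_smul] at h1
  have h2 : EE (fun x => (Cᵀ * C * Mx ζ x).trace) = 0 := by
    have h3 := TE_AF cM (Cᵀ * C)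
    have h4 : EM (Mx ζ) = 0 := EM_ζ h0
    rw [h4, Matrix.mul_zero, Matrix.trace_zero] at h3
    exact h3
  rw [h2] at h1
  unfold TE
  linarith

lemma herm_Tm (hζ : MF ζ lo hi) (k : Fin n) : (Tm ζ k).IsHermitian := by
  unfold Matrix.IsHermitian
  rw [conjTranspose_eq_transpose_of_trivial]
  exact Tm_t hζ k

/-- `ζ - Z₁ = η` in the letters of the spine -/
lemma sub_Z1 (h0 : ∀ i j, EE (ζ i j) = 0) (x : E n) :
    Mx ζ x - Z1 (Tm ζ) x = Mx (ef ζ) x := by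
  rw [Mx_ef h0]
  rfl

/-- `E |C ζ₊|² ≥ (1-s)/2 Σ |C T_k|² - (1/s - 1) E |η|²` -/
theorem pos_lower_T (hζ : MF ζ lo hi) (h0 : ∀ i j, EE (ζ i j) = 0) {C : Mat n}
    (hC : ∀ X, hs (C * X) ≤ hs X) {s : ℝ} (hs0 : 0 < s) (hs1 : s < 1) :
    (1 - s) / 2 * ∑ k, hs (C * Tm ζ k) - (1 / s - 1) * EE (fun x => hs (Mx (ef ζ) x)) ≤
      EE (fun x => hs (C * _root_.cfc (fun z : ℝ => max z 0) (Mx ζ x))) := by
  have h := pos_lower (cgm_Mx hζ) hζ.h (herm_Tm hζ) hC hs0 hs1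
  have e : ∀ x, hs (Mx ζ x - Z1 (Tm ζ) x) = hs (Mx (ef ζ) x) := fun x => by rw [sub_Z1 h0]
  rw [EE_congr e] at h
  linarith

/-- **far-row assembly**: from a line of type (F3) of helper626 -/
theorem far_asm (hζ : MF ζ lo hi) (h0 : ∀ i j, EE (ζ i j) = 0) {β : Mat n}
    (hβ : ∀ X, hs (β * X) ≤ hs X) {om : ℝ → ℝ} (hom : ContinuousOn om (Icc lo hi))
    {g0 g1 d : ℝ} (hg1 : 0 ≤ g1)
    (hmin : ∀ z ∈ Icc lo hi, g0 + g1 * (max z 0) ^ 2 + d * z ≤ om z)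
    {s th t R LAM : ℝ} (hs0 : 0 < s) (hs1 : s < 1)
    (hF : TE (fun x => βᵀ * β * sf om ζ x) -
        t * EE (fun x => ∑ k, hs (β * Mx (dk k ζ) x)) - R ≤
      th * (EE (fun x => ∑ k, hs (β * Mx (dk k ζ) x)) - EE (fun x => hs (β * Mx ζ x))) + LAM) :
    g0 * hs β + (g1 * (1 - s) / 2 - t) * ∑ k, hs (β * Tm ζ k) -
        g1 * (1 / s - 1) * EE (fun x => hs (Mx (ef ζ) x)) -
        th * (EE (fun x => ∑ k, hs (β * Mx (dk k (ef ζ)) x)) -
          EE (fun x => hs (β * Mx (ef ζ) x))) -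
        t * EE (fun x => ∑ k, hs (β * Mx (dk k (ef ζ)) x)) - R ≤ LAM := by
  have h1 := TE_minorant hζ h0 hom hmin β
  have h2 := mul_le_mul_of_nonneg_left (pos_lower_T hζ h0 hβ hs0 hs1) hg1
  have h3 := split_N hζ h0 β
  have h4 := split_dk hζ β
  rw [h3, h4] at hF
  linarith

end Crest.Agent.R253.FarA427
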