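import Mathlib

/-!
# Row 253, (L7): the scalar row inequality on `[0, 1]` (helper967)

`row01`: for `b₁ = -β (1 - x)`, `A = 1 + β (1 - x)` the row function is at least
`c (x - 1)² / (1 + x)` on `[0, 1]` as soon as two numerical conditions at the end points hold.
-/

set_option autoImplicit false

noncomputable section

namespace Crest.Agent.R253.FinTau967

lemma log_ge_quad {u : ℝ} (hu : 0 ≤ u) : u - u ^ 2 / 2 ≤ Real.log (1 + u) := by
  have h := Real.le_log_one_add_of_nonneg hu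
  refine le_trans ?_ h
  rw [le_div_iff₀ (by linarith)]
  nlinarith [pow_nonneg hu 3]

/-- the row inequality on `[0, 1]`, parametric -/
theorem row01 {β a e k0 k1 l c : ℝ} (hβ : 0 ≤ β) (hl : 0 ≤ l) (hc : 0 ≤ c)
    (h0 : c ≤ β * a - β * e - β ^ 2 / 2 - (k1 + k0) * β ^ 2 - l / 16)
    (h1 : c ≤ β * a - β ^ 2 / 2 - k0 * β ^ 2 - l * (1 + β) / 16)
    {x : ℝ} (hx0 : 0 ≤ x) (hx1 : x ≤ 1) :
    c * (x - 1) ^ 2 / (1 + x) ≤
      Real.log (1 + β * (1 - x)) + (-(β * (1 - x))) +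
        (-(β * (1 - x))) * (x - 1) * (a - e * x)
        - k1 * (-(β * (1 - x))) ^ 2 * x - k0 * (-(β * (1 - x))) ^ 2
        - l * ((1 + β * (1 - x)) * (x - 1) ^ 2 / (16 + x)) := by
  have hy : 0 ≤ 1 - x := by linarith
  have hlog := log_ge_quad (mul_nonneg hβ hy)
  have e1 : c * (x - 1) ^ 2 / (1 + x) ≤ c * (x - 1) ^ 2 :=
    div_le_self (mul_nonneg hc (sq_nonneg _)) (by linarith)
  have e2 : (1 + β * (1 - x)) * (x - 1) ^ 2 / (16 + x) ≤
      (1 + β * (1 - x)) * (x - 1) ^ 2 / 16 := by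
    apply div_le_div_of_nonneg_left _ (by norm_num) (by linarith)
    have := mul_nonneg hβ hy
    positivity
  have e3 := mul_le_mul_of_nonneg_left e2 hl
  have key : 0 ≤ (1 - x) ^ 2 * (x * (β * a - β * e - β ^ 2 / 2 - (k1 + k0) * β ^ 2 - l / 16 - c)
      + (1 - x) * (β * a - β ^ 2 / 2 - k0 * β ^ 2 - l * (1 + β) / 16 - c)) := by
    have : 0 ≤ β * a - β * e - β ^ 2 / 2 - (k1 + k0) * β ^ 2 - l / 16 - c := by linarith
    have : 0 ≤ β * a - β ^ 2 / 2 - k0 * β ^ 2 - l * (1 + β) / 16 - c := by linarith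
    positivity
  nlinarith [e1, e3, hlog, key]

/-- sharper form of `row01` (condition `c / 2` at `x = 1`) -/
theorem row01b {β a e k0 k1 l c : ℝ} (hβ : 0 ≤ β) (hl : 0 ≤ l) (hc : 0 ≤ c)
    (h0 : c / 2 ≤ β * a - β * e - β ^ 2 / 2 - (k1 + k0) * β ^ 2 - l / 16)
    (h1 : c ≤ β * a - β ^ 2 / 2 - k0 * β ^ 2 - l * (1 + β) / 16)
    {x : ℝ} (hx0 : 0 ≤ x) (hx1 : x ≤ 1) :
    c * ((x - 1) ^ 2 / (1 + x)) ≤
      Real.log (1 + β * (1 - x)) + (-(β * (1 - x))) +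
        (-(β * (1 - x))) * (x - 1) * (a - e * x)
        - k1 * (-(β * (1 - x))) ^ 2 * x - k0 * (-(β * (1 - x))) ^ 2
        - l * ((1 + β * (1 - x)) * (x - 1) ^ 2 / (16 + x)) := by
  have hy : 0 ≤ 1 - x := by linarith
  have hlog := log_ge_quad (mul_nonneg hβ hy)
  have e1 : (x - 1) ^ 2 / (1 + x) ≤ (x - 1) ^ 2 * (1 - x / 2) := by
    rw [div_le_iff₀ (by linarith)]
    have h3 : 0 ≤ (x - 1) ^ 2 * (x * (1 - x)) := by positivity
    nlinarith [h3]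
  have e1' := mul_le_mul_of_nonneg_left e1 hc
  have e2 : (1 + β * (1 - x)) * (x - 1) ^ 2 / (16 + x) ≤
      (1 + β * (1 - x)) * (x - 1) ^ 2 / 16 := by
    apply div_le_div_of_nonneg_left _ (by norm_num) (by linarith)
    have := mul_nonneg hβ hy
    positivity
  have e3 := mul_le_mul_of_nonneg_left e2 hl
  have key : 0 ≤ (1 - x) ^ 2 * (x * (β * a - β * e - β ^ 2 / 2 - (k1 + k0) * β ^ 2 - l / 16 - c / 2)
      + (1 - x) * (β * a - β ^ 2 / 2 - k0 * β ^ 2 - l * (1 + β) / 16 - c)) := by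
    have : 0 ≤ β * a - β * e - β ^ 2 / 2 - (k1 + k0) * β ^ 2 - l / 16 - c / 2 := by linarith
    have : 0 ≤ β * a - β ^ 2 / 2 - k0 * β ^ 2 - l * (1 + β) / 16 - c := by linarith
    positivity
  nlinarith [e1', e3, hlog, key]

/-- the bracket of 862's loss with `r = 17 / (16 + x)`, `lam = 1/8` -/
theorem loss_bracket {x : ℝ} (hx : 0 ≤ x) (A : ℝ) :
    1 / 6 * (A * (1 - 17 / (16 + x)) ^ 2 * x) + 1 / 8 / 12 * (A * (1 - 17 / (16 + x) * x) ^ 2) =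
      1 / 6 * (A * (x - 1) ^ 2 / (16 + x)) := by
  have h : (16 + x) ≠ 0 := by positivity
  field_simp
  ring

/-- **(L7) on `[0, 1]`** for the frozen table: `b₁ = -(3/50)(1 - x)`, `b₂ = 0`, in the letters of
`nf`, `ff`, `gf` -/
theorem phi01 {x : ℝ} (hx0 : 0 ≤ x) (hx1 : x ≤ 1) :
    1 / 200 * ((1 - x) ^ 2 / (1 + x)) ≤
      Real.log (1 - -(3 / 50 * (1 - x)) - 0) +
      (-(3 / 50 * (1 - x)) + -(3 / 50 * (1 - x)) * (x - 1) * (363 / 1000 - 136 / 10000 * x) -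
        (3 / 4 / 2 + 3 / 20 / 2) * ((-(3 / 50 * (1 - x))) ^ 2 * x) -
        7 / 2 / 2 * (0 * (-(3 / 50 * (1 - x))) ^ 2 + 9 / 64 * ((-(3 / 50 * (1 - x))) ^ 2 * x))) -
      1 / (20 / 23) * (1 / 6 * ((1 - -(3 / 50 * (1 - x)) - 0) * (1 - 17 / (16 + x)) ^ 2 * x) +
        1 / 8 / 12 * ((1 - -(3 / 50 * (1 - x)) - 0) * (1 - 17 / (16 + x) * x) ^ 2)) := by
  have h := row01b (β := 3 / 50) (a := 363 / 1000) (e := 136 / 10000) (k0 := 0) (k1 := 891 / 1280)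
    (l := 23 / 120) (c := 1 / 200) (by norm_num) (by norm_num) (by norm_num) (by norm_num)
    (by norm_num) hx0 hx1
  rw [loss_bracket hx0]
  have e1 : (1 - -(3 / 50 * (1 - x)) - 0 : ℝ) = 1 + 3 / 50 * (1 - x) := by ring
  have e2 : (1 - x) ^ 2 = (x - 1) ^ 2 := by ring
  rw [e1, e2]
  have e3 : 23 / 120 * ((1 + 3 / 50 * (1 - x)) * (x - 1) ^ 2 / (16 + x)) =
      1 / (20 / 23) * (1 / 6 * ((1 + 3 / 50 * (1 - x)) * (x - 1) ^ 2 / (16 + x))) := by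
    ring
  rw [e3] at h
  linarith

end Crest.Agent.R253.FinTau967
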