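import Mathlib

/-!
# R253: rational bounds of the logarithm (helper395)

* `log_le_pade`  : `log x ≤ (x - 1) (x + 5) / (4 x + 2)` for `x > 0` (Padé [2/1]);
* `log_ge_pade`  : `(x - 1) (5 x + 1) / (x (2 x + 4)) ≤ log x` for `x > 0`;
* `log_le_pade_scale`, `log_ge_pade_scale` : the same with a reference point `x0`.
-/

set_option autoImplicit false

open Real Set

noncomputable section

namespace Crest.Agent.R253.LogP395

/-- auxiliary function -/
def F (x : ℝ) : ℝ := (x - 1) * (x + 5) / (4 * x + 2) - Real.log x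

lemma F_has {x : ℝ} (hx : 0 < x) : HasDerivAt F (4 * (x - 1) ^ 3 / (x * (4 * x + 2) ^ 2)) x := by
  have h2 : (4 * x + 2 : ℝ) ≠ 0 := by positivity
  have h1 : HasDerivAt (fun x : ℝ => (x - 1) * (x + 5)) (1 * (x + 5) + (x - 1) * 1) x :=
    ((hasDerivAt_id x).sub_const 1).mul ((hasDerivAt_id x).add_const 5)
  have h3 : HasDerivAt (fun x : ℝ => 4 * x + 2) (4 * 1) x :=
    ((hasDerivAt_id x).const_mul 4).add_const 2
  have h4 := (h1.div h3 h2).sub (Real.hasDerivAt_log hx.ne')
  refine h4.congr_deriv ?_
  field_simp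
  ring

/-- **upper Padé bound of the logarithm** -/
theorem log_le_pade {x : ℝ} (hx : 0 < x) : Real.log x ≤ (x - 1) * (x + 5) / (4 * x + 2) := by
  have hF1 : F 1 = 0 := by simp [F]
  have key : 0 ≤ F x := by
    rcases le_total 1 x with h | h
    · have hm : MonotoneOn F (Ici (1 : ℝ)) := by
        refine monotoneOn_of_deriv_nonneg (convex_Ici 1) ?_ ?_ ?_
        · exact fun y hy => (F_has (lt_of_lt_of_le one_pos hy)).continuousAt.continuousWithinAt
        · intro y hy
          rw [interior_Ici] at hy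
          exact (F_has (lt_trans one_pos hy)).differentiableAt.differentiableWithinAt
        · intro y hy
          rw [interior_Ici] at hy
          have hy0 : 0 < y := lt_trans one_pos hy
          rw [(F_has hy0).deriv]
          have : 0 ≤ y - 1 := sub_nonneg.2 (le_of_lt hy)
          positivity
      rw [← hF1]
      exact hm (mem_Ici.2 le_rfl) (mem_Ici.2 h) h
    · have hm : AntitoneOn F (Ioc (0 : ℝ) 1) := by
        refine antitoneOn_of_deriv_nonpos (convex_Ioc 0 1) ?_ ?_ ?_
        · exact fun y hy => (F_has hy.1).continuousAt.continuousWithinAt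
        · intro y hy
          rw [interior_Ioc] at hy
          exact (F_has hy.1).differentiableAt.differentiableWithinAt
        · intro y hy
          rw [interior_Ioc] at hy
          rw [(F_has hy.1).deriv]
          have h3 : (y - 1) ^ 3 ≤ 0 := by
            have : y - 1 ≤ 0 := by linarith [hy.2]
            nlinarith [sq_nonneg (y - 1)]
          have h4 : 0 < y * (4 * y + 2) ^ 2 := by
            have := hy.1; positivity
          exact div_nonpos_of_nonpos_of_nonneg (by linarith) h4.le
      rw [← hF1]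
      exact hm (mem_Ioc.2 ⟨hx, h⟩) (mem_Ioc.2 ⟨one_pos, le_rfl⟩) h
  unfold F at key
  linarith

/-- **lower Padé bound of the logarithm** -/
theorem log_ge_pade {x : ℝ} (hx : 0 < x) : (x - 1) * (5 * x + 1) / (x * (2 * x + 4)) ≤ Real.log x := by
  have h := log_le_pade (inv_pos.2 hx)
  rw [Real.log_inv] at h
  have e : (x⁻¹ - 1) * (x⁻¹ + 5) / (4 * x⁻¹ + 2) = -((x - 1) * (5 * x + 1) / (x * (2 * x + 4))) := by
    field_simp
    ring
  rw [e] at h
  linarith

theorem log_le_pade_scale {x0 x : ℝ} (h0 : 0 < x0) (hx : 0 < x) :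
    Real.log x ≤ Real.log x0 + (x - x0) * (x + 5 * x0) / (x0 * (4 * x + 2 * x0)) := by
  have h := log_le_pade (div_pos hx h0)
  rw [Real.log_div hx.ne' h0.ne'] at h
  have e : (x / x0 - 1) * (x / x0 + 5) / (4 * (x / x0) + 2) =
      (x - x0) * (x + 5 * x0) / (x0 * (4 * x + 2 * x0)) := by
    field_simp
  rw [e] at h
  linarith

theorem log_ge_pade_scale {x0 x : ℝ} (h0 : 0 < x0) (hx : 0 < x) :
    Real.log x0 + (x - x0) * (5 * x + x0) / (x * (2 * x + 4 * x0)) ≤ Real.log x := by
  have h := log_ge_pade (div_pos hx h0)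
  rw [Real.log_div hx.ne' h0.ne'] at h
  have e : (x / x0 - 1) * (5 * (x / x0) + 1) / ((x / x0) * (2 * (x / x0) + 4)) =
      (x - x0) * (5 * x + x0) / (x * (2 * x + 4 * x0)) := by
    field_simp
  rw [e] at h
  linarith

end Crest.Agent.R253.LogP395
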