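import Mathlib
import Crest.Agent.R253.LogP_395
import Crest.Agent.R253.TabF_167
import Crest.Agent.R253.FinTau_967

/-!
# Row 253, (L7): insurance copy of the scalar row inequality on `[0, ∞)` (helper967)

Generated: exact rational arithmetic, Bernstein certificates, Padé bound of the logarithm.
-/

set_option autoImplicit false
set_option maxHeartbeats 1000000

noncomputable section

namespace Crest.Agent.R253.FinT967

open Crest.Agent.R253.LogP395 Crest.Agent.R253.TabF167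

lemma log_div_ge {n d : ℝ} (hn : 0 < n) (hd : 0 < d) :
    (n - d) * (5 * n + d) / (n * (2 * n + 4 * d)) ≤ Real.log (n / d) := by
  have h := log_ge_pade (div_pos hn hd)
  have e : (n / d - 1) * (5 * (n / d) + 1) / ((n / d) * (2 * (n / d) + 4)) =
      (n - d) * (5 * n + d) / (n * (2 * n + 4 * d)) := by
    field_simp
  rw [e] at h
  exact h

lemma q1_2_na {x : ℝ} (h1 : 1 ≤ x) (h2 : x ≤ 2) : 0 < 17 * x + (-3) := by
  have ha : 0 ≤ x - 1 := by linarith
  have hb : 0 ≤ 2 - x := by linarith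
  have e : 17 * x + (-3) = 14 * (2 - x) ^ 1 + 31 * (x - 1) ^ 1 := by ring
  rw [e]
  rcases ha.eq_or_lt with h | h
  · have hb' : 0 < 2 - x := by linarith
    rw [← h]; positivity
  · positivity
lemma q1_2_num {x : ℝ} (h1 : 1 ≤ x) (h2 : x ≤ 2) : 0 ≤ (-126512640) * x ^ 6 + (-10065192703) * x ^ 5 + 32102209591 * x ^ 4 + 3316680731 * x ^ 3 + (-34253134923) * x ^ 2 + 14524621200 * x + (-1627732800) := by
  have ha : 0 ≤ x - 1 := by linarith
  have hb : 0 ≤ 2 - x := by linarith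
  have e : (-126512640) * x ^ 6 + (-10065192703) * x ^ 5 + 32102209591 * x ^ 4 + 3316680731 * x ^ 3 + (-34253134923) * x ^ 2 + 14524621200 * x + (-1627732800) = 3870938456 * (2 - x) ^ 6 + 56517823292 * (x - 1) ^ 1 * (2 - x) ^ 5 + 290285587806 * (x - 1) ^ 2 * (2 - x) ^ 4 + 701926226689 * (x - 1) ^ 3 * (2 - x) ^ 3 + 851057865787 * (x - 1) ^ 4 * (2 - x) ^ 2 + 487291648464 * (x - 1) ^ 5 * (2 - x) ^ 1 + 100394793756 * (x - 1) ^ 6 := by ring
  rw [e]; positivity
theorem q1_2 {x : ℝ} (h1 : 1 ≤ x) (h2 : x ≤ 2) :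
    (1/200) * ((x - 1) ^ 2 / (1 + x)) ≤ Real.log (1 - (3 * (x - 1) / (2 * (10 * x - 3)))) + ((3 * (x - 1) / (2 * (10 * x - 3))) + (3 * (x - 1) / (2 * (10 * x - 3))) * (x - 1) * ((363/1000) - (17/1250) * x) - (891/1280) * ((3 * (x - 1) / (2 * (10 * x - 3)))) ^ 2 * x - (23/20) * ((1 - (3 * (x - 1) / (2 * (10 * x - 3)))) * (x - 1) ^ 2 / (6 * (16 + x)))) := by
  have hn : 0 < (17 * x + (-3)) := q1_2_na h1 h2
  have hf0 : 0 < 10 * x - 3 := by linarith
  have h16 : 0 < 16 + x := by linarith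
  have h11 : 0 < 1 + x := by linarith
  have hd : 0 < (2 * (10 * x - 3)) := by positivity
  have hm : 0 < (57 * x + (-15)) := by nlinarith [hn, hd]
  have hg0 := hf0.ne'
  have hg16 := h16.ne'
  have hg11 := h11.ne'
  have hgn := hn.ne'
  have hgm := hm.ne'
  have hA : (1 - (3 * (x - 1) / (2 * (10 * x - 3)))) = (17 * x + (-3)) / (2 * (10 * x - 3)) := by
    generalize hu0 : 10 * x - 3 = u0 at hg0 ⊢
    field_simp
    subst hu0
    ring
  have hlog := log_div_ge hn hd
  have hN := q1_2_num h1 h2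
  have e2n : 2 * (17 * x + (-3)) + 4 * (2 * (10 * x - 3)) = 2 * (57 * x + (-15)) := by ring
  have key : ((17 * x + (-3)) - (2 * (10 * x - 3))) * (5 * (17 * x + (-3)) + (2 * (10 * x - 3))) / ((17 * x + (-3)) * (2 * (17 * x + (-3)) + 4 * (2 * (10 * x - 3)))) + ((3 * (x - 1) / (2 * (10 * x - 3))) + (3 * (x - 1) / (2 * (10 * x - 3))) * (x - 1) * ((363/1000) - (17/1250) * x) - (891/1280) * ((3 * (x - 1) / (2 * (10 * x - 3)))) ^ 2 * x - (23/20) * ((1 - (3 * (x - 1) / (2 * (10 * x - 3)))) * (x - 1) ^ 2 / (6 * (16 + x)))) - (1/200) * ((x - 1) ^ 2 / (1 + x)) = (x - 1) ^ 2 * (((-126512640) * x ^ 6 + (-10065192703) * x ^ 5 + 32102209591 * x ^ 4 + 3316680731 * x ^ 3 + (-34253134923) * x ^ 2 + 14524621200 * x + (-1627732800)) / 640000) / ((17 * x + (-3)) * (57 * x + (-15)) * (10 * x - 3) ^ 2 * (16 + x) * (1 + x)) := by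
    rw [e2n, hA]
    generalize hNA : (17 * x + (-3)) = nn at hgn ⊢
    generalize hMM : (57 * x + (-15)) = mm at hgm ⊢
    generalize hu0 : 10 * x - 3 = u0 at hg0 ⊢
    generalize hu16 : 16 + x = u16 at hg16 ⊢
    generalize hu11 : 1 + x = u11 at hg11 ⊢
    field_simp
    subst hNA hMM hu16 hu11
    subst hu0
    ring
  have h0 : 0 ≤ (x - 1) ^ 2 * (((-126512640) * x ^ 6 + (-10065192703) * x ^ 5 + 32102209591 * x ^ 4 + 3316680731 * x ^ 3 + (-34253134923) * x ^ 2 + 14524621200 * x + (-1627732800)) / 640000) / ((17 * x + (-3)) * (57 * x + (-15)) * (10 * x - 3) ^ 2 * (16 + x) * (1 + x)) := by positivity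
  rw [hA]
  rw [hA] at key
  linarith

lemma q2_5_na {x : ℝ} (h1 : 2 ≤ x) (h2 : x ≤ 5) : 0 < 5 * x ^ 2 + 4716 * x + (-927) := by
  have ha : 0 ≤ x - 2 := by linarith
  have hb : 0 ≤ 5 - x := by linarith
  have e : 5 * x ^ 2 + 4716 * x + (-927) = (8525/9) * (5 - x) ^ 2 + (31258/9) * (x - 2) ^ 1 * (5 - x) ^ 1 + (22778/9) * (x - 2) ^ 2 := by ring
  rw [e]
  rcases ha.eq_or_lt with h | h
  · have hb' : 0 < 5 - x := by linarith
    rw [← h]; positivity
  · positivity
lemma q2_5_num {x : ℝ} (h1 : 2 ≤ x) (h2 : x ≤ 5) : 0 ≤ (-36083520000) * x ^ 12 + (-34174196542625) * x ^ 11 + (-542004863955525) * x ^ 10 + 96449880058840 * x ^ 9 + 142674726391539120 * x ^ 8 + 1205529009816195418 * x ^ 7 + (-7320115509541629030) * x ^ 6 + 8126990121708502200 * x ^ 5 + 7167094740163260432 * x ^ 4 + (-4542538954587331257) * x ^ 3 + (-3328123622335550037) * x ^ 2 + 1957384559113751664 * x + (-241315108053750720) := by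
  have ha : 0 ≤ x - 2 := by linarith
  have hb : 0 ≤ 5 - x := by linarith
  have e : (-36083520000) * x ^ 12 + (-34174196542625) * x ^ 11 + (-542004863955525) * x ^ 10 + 96449880058840 * x ^ 9 + 142674726391539120 * x ^ 8 + 1205529009816195418 * x ^ 7 + (-7320115509541629030) * x ^ 6 + 8126990121708502200 * x ^ 5 + 7167094740163260432 * x ^ 4 + (-4542538954587331257) * x ^ 3 + (-3328123622335550037) * x ^ 2 + 1957384559113751664 * x + (-241315108053750720) = (5614125669860262500/59049) * (5 - x) ^ 12 + (97841419074652000000/59049) * (x - 2) ^ 1 * (5 - x) ^ 11 + (799506084732551507245/59049) * (x - 2) ^ 2 * (5 - x) ^ 10 + (4233401750091788559527/59049) * (x - 2) ^ 3 * (5 - x) ^ 9 + (5577251687879097294262/19683) * (x - 2) ^ 4 * (5 - x) ^ 8 + (17239510189962063988540/19683) * (x - 2) ^ 5 * (5 - x) ^ 7 + (41050150637285727562084/19683) * (x - 2) ^ 6 * (5 - x) ^ 6 + (72594315902208198574420/19683) * (x - 2) ^ 7 * (5 - x) ^ 5 + (91868584761508642235704/19683)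 * (x - 2) ^ 8 * (5 - x) ^ 4 + (239818470767335902606416/59049) * (x - 2) ^ 9 * (5 - x) ^ 3 + (135420468748041782210080/59049) * (x - 2) ^ 10 * (5 - x) ^ 2 + (44505711088534513092352/59049) * (x - 2) ^ 11 * (5 - x) ^ 1 + (6443350952387276211200/59049) * (x - 2) ^ 12 := by ring
  rw [e]; positivity
theorem q2_5 {x : ℝ} (h1 : 2 ≤ x) (h2 : x ≤ 5) :
    (1/200) * ((x - 1) ^ 2 / (1 + x)) ≤ Real.log (1 - (3 * (x - 1) / (2 * (10 * x - 3))) - (21 * (x - 2) / (25 * (x + 9)))) + ((3 * (x - 1) / (2 * (10 * x - 3))) + (3 * (x - 1) / (2 * (10 * x - 3))) * (x - 1) * ((363/1000) - (17/1250) * x) - (891/1280) * ((3 * (x - 1) / (2 * (10 * x - 3)))) ^ 2 * x + (111/200) * (21 * (x - 2) / (25 * (x + 9))) + (463/2000) * (21 * (x - 2) / (25 * (x + 9))) * x - (35/176) * ((21 * (x - 2) / (25 * (x + 9)))) ^ 2 * x - (23/20) * ((1 - (3 * (x - 1) / (2 * (10 * x - 3))) - (21 * (x - 2) / (25 * (x + 9)))) * (x - 1) ^ 2 / (6 * (16 + x)))) := by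
  have hn : 0 < (5 * x ^ 2 + 4716 * x + (-927)) := q2_5_na h1 h2
  have hf0 : 0 < 10 * x - 3 := by linarith
  have hf1 : 0 < x + 9 := by linarith
  have h16 : 0 < 16 + x := by linarith
  have h11 : 0 < 1 + x := by linarith
  have hd : 0 < (50 * (10 * x - 3) * (x + 9)) := by positivity
  have hm : 0 < (1005 * x ^ 2 + 13416 * x + (-3627)) := by nlinarith [hn, hd]
  have hg0 := hf0.ne'
  have hg1 := hf1.ne'
  have hg16 := h16.ne'
  have hg11 := h11.ne'
  have hgn := hn.ne'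
  have hgm := hm.ne'
  have hA : (1 - (3 * (x - 1) / (2 * (10 * x - 3))) - (21 * (x - 2) / (25 * (x + 9)))) = (5 * x ^ 2 + 4716 * x + (-927)) / (50 * (10 * x - 3) * (x + 9)) := by
    generalize hu0 : 10 * x - 3 = u0 at hg0 ⊢
    generalize hu1 : x + 9 = u1 at hg1 ⊢
    field_simp
    subst hu0
    subst hu1
    ring
  have hlog := log_div_ge hn hd
  have hN := q2_5_num h1 h2
  have e2n : 2 * (5 * x ^ 2 + 4716 * x + (-927)) + 4 * (50 * (10 * x - 3) * (x + 9)) = 2 * (1005 * x ^ 2 + 13416 * x + (-3627)) := by ring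
  have key : ((5 * x ^ 2 + 4716 * x + (-927)) - (50 * (10 * x - 3) * (x + 9))) * (5 * (5 * x ^ 2 + 4716 * x + (-927)) + (50 * (10 * x - 3) * (x + 9))) / ((5 * x ^ 2 + 4716 * x + (-927)) * (2 * (5 * x ^ 2 + 4716 * x + (-927)) + 4 * (50 * (10 * x - 3) * (x + 9)))) + ((3 * (x - 1) / (2 * (10 * x - 3))) + (3 * (x - 1) / (2 * (10 * x - 3))) * (x - 1) * ((363/1000) - (17/1250) * x) - (891/1280) * ((3 * (x - 1) / (2 * (10 * x - 3)))) ^ 2 * x + (111/200) * (21 * (x - 2) / (25 * (x + 9))) + (463/2000) * (21 * (x - 2) / (25 * (x + 9))) * x - (35/176) * ((21 * (x - 2) / (25 * (x + 9)))) ^ 2 * x - (23/20) * ((1 - (3 * (x - 1) / (2 * (10 * x - 3))) - (21 * (x - 2) / (25 * (x + 9)))) * (x - 1) ^ 2 / (6 * (16 + x)))) - (1/200) * ((x - 1) ^ 2 / (1 + x)) = (((-36083520000) * x ^ 12 + (-34174196542625) * x ^ 11 + (-542004863955525) * x ^ 10 + 96449880058840 * x ^ 9 + 142674726391539120 * x ^ 8 + 1205529009816195418 * x ^ 7 + (-7320115509541629030) *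 x ^ 6 + 8126990121708502200 * x ^ 5 + 7167094740163260432 * x ^ 4 + (-4542538954587331257) * x ^ 3 + (-3328123622335550037) * x ^ 2 + 1957384559113751664 * x + (-241315108053750720)) / 35200000) / ((5 * x ^ 2 + 4716 * x + (-927)) * (1005 * x ^ 2 + 13416 * x + (-3627)) * (10 * x - 3) ^ 2 * (x + 9) ^ 2 * (16 + x) * (1 + x)) := by
    rw [e2n, hA]
    generalize hNA : (5 * x ^ 2 + 4716 * x + (-927)) = nn at hgn ⊢
    generalize hMM : (1005 * x ^ 2 + 13416 * x + (-3627)) = mm at hgm ⊢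
    generalize hu0 : 10 * x - 3 = u0 at hg0 ⊢
    generalize hu1 : x + 9 = u1 at hg1 ⊢
    generalize hu16 : 16 + x = u16 at hg16 ⊢
    generalize hu11 : 1 + x = u11 at hg11 ⊢
    field_simp
    subst hNA hMM hu16 hu11
    subst hu0
    subst hu1
    ring
  have h0 : 0 ≤ (((-36083520000) * x ^ 12 + (-34174196542625) * x ^ 11 + (-542004863955525) * x ^ 10 + 96449880058840 * x ^ 9 + 142674726391539120 * x ^ 8 + 1205529009816195418 * x ^ 7 + (-7320115509541629030) * x ^ 6 + 8126990121708502200 * x ^ 5 + 7167094740163260432 * x ^ 4 + (-4542538954587331257) * x ^ 3 + (-3328123622335550037) * x ^ 2 + 1957384559113751664 * x + (-241315108053750720)) / 35200000) / ((5 * x ^ 2 + 4716 * x + (-927)) * (1005 * x ^ 2 + 13416 * x + (-3627)) * (10 * x - 3) ^ 2 * (x + 9) ^ 2 * (16 + x) * (1 + x)) := by positivity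
  rw [hA]
  rw [hA] at key
  linarith

lemma q5_11_na {x : ℝ} (h1 : 5 ≤ x) (h2 : x ≤ 11) : 0 < 5 * x ^ 2 + 4716 * x + (-927) := by
  have ha : 0 ≤ x - 5 := by linarith
  have hb : 0 ≤ 11 - x := by linarith
  have e : 5 * x ^ 2 + 4716 * x + (-927) = (11389/18) * (11 - x) ^ 2 + (18538/9) * (x - 5) ^ 1 * (11 - x) ^ 1 + (25777/18) * (x - 5) ^ 2 := by ring
  rw [e]
  rcases ha.eq_or_lt with h | h
  · have hb' : 0 < 11 - x := by linarith
    rw [← h]; positivity
  · positivity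
lemma q5_11_num {x : ℝ} (h1 : 5 ≤ x) (h2 : x ≤ 11) : 0 ≤ (-18572400000) * x ^ 12 + (-16938889750625) * x ^ 11 + 141962348482875 * x ^ 10 + 8684810035759000 * x ^ 9 + 160762626758838960 * x ^ 8 + 911648226213839578 * x ^ 7 + (-8355748126733161830) * x ^ 6 + 10751512607354915640 * x ^ 5 + 6844643045369492112 * x ^ 4 + (-6584886664276545657) * x ^ 3 + (-2011588451724831957) * x ^ 2 + 1660484971296416304 * x + (-218537851770025920) := by
  have ha : 0 ≤ x - 5 := by linarith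
  have hb : 0 ≤ 11 - x := by linarith
  have e : (-18572400000) * x ^ 12 + (-16938889750625) * x ^ 11 + 141962348482875 * x ^ 10 + 8684810035759000 * x ^ 9 + 160762626758838960 * x ^ 8 + 911648226213839578 * x ^ 7 + (-8355748126733161830) * x ^ 6 + 10751512607354915640 * x ^ 5 + 6844643045369492112 * x ^ 4 + (-6584886664276545657) * x ^ 3 + (-2011588451724831957) * x ^ 2 + 1660484971296416304 * x + (-218537851770025920) = (6292334914440699425/236196) * (11 - x) ^ 12 + (296199779416868974913/472392) * (x - 5) ^ 1 * (11 - x) ^ 11 + (12562956523099260449381/1889568) * (x - 5) ^ 2 * (11 - x) ^ 10 + (79346600569231601951989/1889568) * (x - 5) ^ 3 * (11 - x) ^ 9 + (110806978431951243510029/629856) * (x - 5) ^ 4 * (11 - x) ^ 8 + (324358132752901585074599/629856) * (x - 5) ^ 5 * (11 - x) ^ 7 + (680150143332772132291511/629856) * (x - 5) ^ 6 * (11 - x) ^ 6 + (1029245948319336312702737/629856) * (x - 5) ^ 7 * (11 - x) ^ 5 + (1115369137540772216924603/629856)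 * (x - 5) ^ 8 * (11 - x) ^ 4 + (2531981080031172270304327/1889568) * (x - 5) ^ 9 * (11 - x) ^ 3 + (634820028846228084596731/944784) * (x - 5) ^ 10 * (11 - x) ^ 2 + (47337790504120752661747/236196) * (x - 5) ^ 11 * (11 - x) ^ 1 + (1587340033205643942665/59049) * (x - 5) ^ 12 := by ring
  rw [e]; positivity
theorem q5_11 {x : ℝ} (h1 : 5 ≤ x) (h2 : x ≤ 11) :
    (1/200) * ((x - 1) ^ 2 / (1 + x)) ≤ Real.log (1 - (3 * (x - 1) / (2 * (10 * x - 3))) - (21 * (x - 2) / (25 * (x + 9)))) + ((3 * (x - 1) / (2 * (10 * x - 3))) + (3 * (x - 1) / (2 * (10 * x - 3))) * (x - 1) * ((33/100) - (7/1000) * x) - (891/1280) * ((3 * (x - 1) / (2 * (10 * x - 3)))) ^ 2 * x + (111/200) * (21 * (x - 2) / (25 * (x + 9))) + (463/2000) * (21 * (x - 2) / (25 * (x + 9))) * x - (35/176) * ((21 * (x - 2) / (25 * (x + 9)))) ^ 2 * x - (23/20) * ((1 - (3 * (x - 1) / (2 * (10 * x - 3))) - (21 * (x - 2) / (25 * (x + 9)))) * (x - 1) ^ 2 / (6 * (16 + x)))) := by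
  have hn : 0 < (5 * x ^ 2 + 4716 * x + (-927)) := q5_11_na h1 h2
  have hf0 : 0 < 10 * x - 3 := by linarith
  have hf1 : 0 < x + 9 := by linarith
  have h16 : 0 < 16 + x := by linarith
  have h11 : 0 < 1 + x := by linarith
  have hd : 0 < (50 * (10 * x - 3) * (x + 9)) := by positivity
  have hm : 0 < (1005 * x ^ 2 + 13416 * x + (-3627)) := by nlinarith [hn, hd]
  have hg0 := hf0.ne'
  have hg1 := hf1.ne'
  have hg16 := h16.ne'
  have hg11 := h11.ne'
  have hgn := hn.ne'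
  have hgm := hm.ne'
  have hA : (1 - (3 * (x - 1) / (2 * (10 * x - 3))) - (21 * (x - 2) / (25 * (x + 9)))) = (5 * x ^ 2 + 4716 * x + (-927)) / (50 * (10 * x - 3) * (x + 9)) := by
    generalize hu0 : 10 * x - 3 = u0 at hg0 ⊢
    generalize hu1 : x + 9 = u1 at hg1 ⊢
    field_simp
    subst hu0
    subst hu1
    ring
  have hlog := log_div_ge hn hd
  have hN := q5_11_num h1 h2
  have e2n : 2 * (5 * x ^ 2 + 4716 * x + (-927)) + 4 * (50 * (10 * x - 3) * (x + 9)) = 2 * (1005 * x ^ 2 + 13416 * x + (-3627)) := by ring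
  have key : ((5 * x ^ 2 + 4716 * x + (-927)) - (50 * (10 * x - 3) * (x + 9))) * (5 * (5 * x ^ 2 + 4716 * x + (-927)) + (50 * (10 * x - 3) * (x + 9))) / ((5 * x ^ 2 + 4716 * x + (-927)) * (2 * (5 * x ^ 2 + 4716 * x + (-927)) + 4 * (50 * (10 * x - 3) * (x + 9)))) + ((3 * (x - 1) / (2 * (10 * x - 3))) + (3 * (x - 1) / (2 * (10 * x - 3))) * (x - 1) * ((33/100) - (7/1000) * x) - (891/1280) * ((3 * (x - 1) / (2 * (10 * x - 3)))) ^ 2 * x + (111/200) * (21 * (x - 2) / (25 * (x + 9))) + (463/2000) * (21 * (x - 2) / (25 * (x + 9))) * x - (35/176) * ((21 * (x - 2) / (25 * (x + 9)))) ^ 2 * x - (23/20) * ((1 - (3 * (x - 1) / (2 * (10 * x - 3))) - (21 * (x - 2) / (25 * (x + 9)))) * (x - 1) ^ 2 / (6 * (16 + x)))) - (1/200) * ((x - 1) ^ 2 / (1 + x)) = (((-18572400000) * x ^ 12 + (-16938889750625) * x ^ 11 + 141962348482875 * x ^ 10 + 8684810035759000 * x ^ 9 + 160762626758838960 * x ^ 8 + 911648226213839578 * x ^ 7 + (-8355748126733161830) * x ^ 6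 + 10751512607354915640 * x ^ 5 + 6844643045369492112 * x ^ 4 + (-6584886664276545657) * x ^ 3 + (-2011588451724831957) * x ^ 2 + 1660484971296416304 * x + (-218537851770025920)) / 35200000) / ((5 * x ^ 2 + 4716 * x + (-927)) * (1005 * x ^ 2 + 13416 * x + (-3627)) * (10 * x - 3) ^ 2 * (x + 9) ^ 2 * (16 + x) * (1 + x)) := by
    rw [e2n, hA]
    generalize hNA : (5 * x ^ 2 + 4716 * x + (-927)) = nn at hgn ⊢
    generalize hMM : (1005 * x ^ 2 + 13416 * x + (-3627)) = mm at hgm ⊢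
    generalize hu0 : 10 * x - 3 = u0 at hg0 ⊢
    generalize hu1 : x + 9 = u1 at hg1 ⊢
    generalize hu16 : 16 + x = u16 at hg16 ⊢
    generalize hu11 : 1 + x = u11 at hg11 ⊢
    field_simp
    subst hNA hMM hu16 hu11
    subst hu0
    subst hu1
    ring
  have h0 : 0 ≤ (((-18572400000) * x ^ 12 + (-16938889750625) * x ^ 11 + 141962348482875 * x ^ 10 + 8684810035759000 * x ^ 9 + 160762626758838960 * x ^ 8 + 911648226213839578 * x ^ 7 + (-8355748126733161830) * x ^ 6 + 10751512607354915640 * x ^ 5 + 6844643045369492112 * x ^ 4 + (-6584886664276545657) * x ^ 3 + (-2011588451724831957) * x ^ 2 + 1660484971296416304 * x + (-218537851770025920)) / 35200000) / ((5 * x ^ 2 + 4716 * x + (-927)) * (1005 * x ^ 2 + 13416 * x + (-3627)) * (10 * x - 3) ^ 2 * (x + 9) ^ 2 * (16 + x) * (1 + x)) := by positivity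
  rw [hA]
  rw [hA] at key
  linarith

lemma q11_60_na {x : ℝ} (h1 : 11 ≤ x) (h2 : x ≤ 60) : 0 < 5 * x ^ 2 + 4716 * x + (-927) := by
  have ha : 0 ≤ x - 11 := by linarith
  have hb : 0 ≤ 60 - x := by linarith
  have e : 5 * x ^ 2 + 4716 * x + (-927) = (51554/2401) * (60 - x) ^ 2 + (339582/2401) * (x - 11) ^ 1 * (60 - x) ^ 1 + (300033/2401) * (x - 11) ^ 2 := by ring
  rw [e]
  rcases ha.eq_or_lt with h | h
  · have hb' : 0 < 60 - x := by linarith
    rw [← h]; positivity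
  · positivity
lemma q11_60_num {x : ℝ} (h1 : 11 ≤ x) (h2 : x ≤ 60) : 0 ≤ (-10612800000) * x ^ 12 + (-9157723390625) * x ^ 11 + 400363013554875 * x ^ 10 + 10253514578051800 * x ^ 9 + 131283588205514160 * x ^ 8 + 534750175316524378 * x ^ 7 + (-9152521779021577830) * x ^ 6 + 13452600263889030840 * x ^ 5 + 6285590103493738512 * x ^ 4 + (-8598520132941033657) * x ^ 3 + (-650698923690505557) * x ^ 2 + 1348352348615451504 * x + (-194380155711529920) := by
  have ha : 0 ≤ x - 11 := by linarith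
  have hb : 0 ≤ 60 - x := by linarith
  have e : (-10612800000) * x ^ 12 + (-9157723390625) * x ^ 11 + 400363013554875 * x ^ 10 + 10253514578051800 * x ^ 9 + 131283588205514160 * x ^ 8 + 534750175316524378 * x ^ 7 + (-9152521779021577830) * x ^ 6 + 13452600263889030840 * x ^ 5 + 6285590103493738512 * x ^ 4 + (-8598520132941033657) * x ^ 3 + (-650698923690505557) * x ^ 2 + 1348352348615451504 * x + (-194380155711529920) = (56510917485952147390402560/191581231380566414401) * (60 - x) ^ 12 + (2924376843198752727260155392/191581231380566414401) * (x - 11) ^ 1 * (60 - x) ^ 11 + (67678938990373256244384503744/191581231380566414401) * (x - 11) ^ 2 * (60 - x) ^ 10 + (924107739769771169758862015344/191581231380566414401) * (x - 11) ^ 3 * (60 - x) ^ 9 + (8265891195135072270683092047088/191581231380566414401) * (x - 11) ^ 4 * (60 - x) ^ 8 + (50811023339215664638245556006892/191581231380566414401) * (x - 11) ^ 5 * (60 - x) ^ 7 + (31253859243644211803701465189908/27368747340080916343)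 * (x - 11) ^ 6 * (60 - x) ^ 6 + (658765247444823862357298547057684/191581231380566414401) * (x - 11) ^ 7 * (60 - x) ^ 5 + (1356257881053002193466939872535764/191581231380566414401) * (x - 11) ^ 8 * (60 - x) ^ 4 + (1811558333736929585624314110808023/191581231380566414401) * (x - 11) ^ 9 * (60 - x) ^ 3 + (1405857539636138025419033427023007/191581231380566414401) * (x - 11) ^ 10 * (60 - x) ^ 2 + (482403461872127617817431044761304/191581231380566414401) * (x - 11) ^ 11 * (60 - x) ^ 1 + (13205823177621392126062025163120/191581231380566414401) * (x - 11) ^ 12 := by ring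
  rw [e]; positivity
theorem q11_60 {x : ℝ} (h1 : 11 ≤ x) (h2 : x ≤ 60) :
    (1/200) * ((x - 1) ^ 2 / (1 + x)) ≤ Real.log (1 - (3 * (x - 1) / (2 * (10 * x - 3))) - (21 * (x - 2) / (25 * (x + 9)))) + ((3 * (x - 1) / (2 * (10 * x - 3))) + (3 * (x - 1) / (2 * (10 * x - 3))) * (x - 1) * ((59/200) - (1/250) * x) - (891/1280) * ((3 * (x - 1) / (2 * (10 * x - 3)))) ^ 2 * x + (111/200) * (21 * (x - 2) / (25 * (x + 9))) + (463/2000) * (21 * (x - 2) / (25 * (x + 9))) * x - (35/176) * ((21 * (x - 2) / (25 * (x + 9)))) ^ 2 * x - (23/20) * ((1 - (3 * (x - 1) / (2 * (10 * x - 3))) - (21 * (x - 2) / (25 * (x + 9)))) * (x - 1) ^ 2 / (6 * (16 + x)))) := by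
  have hn : 0 < (5 * x ^ 2 + 4716 * x + (-927)) := q11_60_na h1 h2
  have hf0 : 0 < 10 * x - 3 := by linarith
  have hf1 : 0 < x + 9 := by linarith
  have h16 : 0 < 16 + x := by linarith
  have h11 : 0 < 1 + x := by linarith
  have hd : 0 < (50 * (10 * x - 3) * (x + 9)) := by positivity
  have hm : 0 < (1005 * x ^ 2 + 13416 * x + (-3627)) := by nlinarith [hn, hd]
  have hg0 := hf0.ne'
  have hg1 := hf1.ne'
  have hg16 := h16.ne'
  have hg11 := h11.ne'
  have hgn := hn.ne'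
  have hgm := hm.ne'
  have hA : (1 - (3 * (x - 1) / (2 * (10 * x - 3))) - (21 * (x - 2) / (25 * (x + 9)))) = (5 * x ^ 2 + 4716 * x + (-927)) / (50 * (10 * x - 3) * (x + 9)) := by
    generalize hu0 : 10 * x - 3 = u0 at hg0 ⊢
    generalize hu1 : x + 9 = u1 at hg1 ⊢
    field_simp
    subst hu0
    subst hu1
    ring
  have hlog := log_div_ge hn hd
  have hN := q11_60_num h1 h2
  have e2n : 2 * (5 * x ^ 2 + 4716 * x + (-927)) + 4 * (50 * (10 * x - 3) * (x + 9)) = 2 * (1005 * x ^ 2 + 13416 * x + (-3627)) := by ring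
  have key : ((5 * x ^ 2 + 4716 * x + (-927)) - (50 * (10 * x - 3) * (x + 9))) * (5 * (5 * x ^ 2 + 4716 * x + (-927)) + (50 * (10 * x - 3) * (x + 9))) / ((5 * x ^ 2 + 4716 * x + (-927)) * (2 * (5 * x ^ 2 + 4716 * x + (-927)) + 4 * (50 * (10 * x - 3) * (x + 9)))) + ((3 * (x - 1) / (2 * (10 * x - 3))) + (3 * (x - 1) / (2 * (10 * x - 3))) * (x - 1) * ((59/200) - (1/250) * x) - (891/1280) * ((3 * (x - 1) / (2 * (10 * x - 3)))) ^ 2 * x + (111/200) * (21 * (x - 2) / (25 * (x + 9))) + (463/2000) * (21 * (x - 2) / (25 * (x + 9))) * x - (35/176) * ((21 * (x - 2) / (25 * (x + 9)))) ^ 2 * x - (23/20) * ((1 - (3 * (x - 1) / (2 * (10 * x - 3))) - (21 * (x - 2) / (25 * (x + 9)))) * (x - 1) ^ 2 / (6 * (16 + x)))) - (1/200) * ((x - 1) ^ 2 / (1 + x)) = (((-10612800000) * x ^ 12 + (-9157723390625) * x ^ 11 + 400363013554875 * x ^ 10 + 10253514578051800 * x ^ 9 + 131283588205514160 * x ^ 8 + 534750175316524378 * x ^ 7 + (-9152521779021577830) * x ^ 6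 + 13452600263889030840 * x ^ 5 + 6285590103493738512 * x ^ 4 + (-8598520132941033657) * x ^ 3 + (-650698923690505557) * x ^ 2 + 1348352348615451504 * x + (-194380155711529920)) / 35200000) / ((5 * x ^ 2 + 4716 * x + (-927)) * (1005 * x ^ 2 + 13416 * x + (-3627)) * (10 * x - 3) ^ 2 * (x + 9) ^ 2 * (16 + x) * (1 + x)) := by
    rw [e2n, hA]
    generalize hNA : (5 * x ^ 2 + 4716 * x + (-927)) = nn at hgn ⊢
    generalize hMM : (1005 * x ^ 2 + 13416 * x + (-3627)) = mm at hgm ⊢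
    generalize hu0 : 10 * x - 3 = u0 at hg0 ⊢
    generalize hu1 : x + 9 = u1 at hg1 ⊢
    generalize hu16 : 16 + x = u16 at hg16 ⊢
    generalize hu11 : 1 + x = u11 at hg11 ⊢
    field_simp
    subst hNA hMM hu16 hu11
    subst hu0
    subst hu1
    ring
  have h0 : 0 ≤ (((-10612800000) * x ^ 12 + (-9157723390625) * x ^ 11 + 400363013554875 * x ^ 10 + 10253514578051800 * x ^ 9 + 131283588205514160 * x ^ 8 + 534750175316524378 * x ^ 7 + (-9152521779021577830) * x ^ 6 + 13452600263889030840 * x ^ 5 + 6285590103493738512 * x ^ 4 + (-8598520132941033657) * x ^ 3 + (-650698923690505557) * x ^ 2 + 1348352348615451504 * x + (-194380155711529920)) / 35200000) / ((5 * x ^ 2 + 4716 * x + (-927)) * (1005 * x ^ 2 + 13416 * x + (-3627)) * (10 * x - 3) ^ 2 * (x + 9) ^ 2 * (16 + x) * (1 + x)) := by positivity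
  rw [hA]
  rw [hA] at key
  linarith


lemma log4_25 : -(15 / 8 : ℝ) ≤ Real.log (4 / 25) := by
  have h := log_ge_pade (x := (2 / 5 : ℝ)) (by norm_num)
  have e : Real.log (4 / 25) = 2 * Real.log (2 / 5) := by
    rw [show (4 / 25 : ℝ) = (2 / 5) ^ 2 by norm_num, Real.log_pow]
    push_cast
    ring
  rw [e]
  norm_num at h ⊢
  linarith

theorem q60 {x : ℝ} (h1 : 60 ≤ x) :
    (1/200) * ((x - 1) ^ 2 / (1 + x)) ≤ Real.log (4 / 25) + ((111/200) * (21 / 25) +
      (463/2000) * (21 / 25) * x - (35/176) * (21 / 25) ^ 2 * x -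
      (23/20) * ((4 / 25) * (x - 1) ^ 2 / (6 * (16 + x)))) := by
  have hl := log4_25
  have e1 : (x - 1) ^ 2 / (1 + x) ≤ x - 3 + 4 / 61 := by
    rw [div_le_iff₀ (by linarith)]
    nlinarith
  have e2 : (4 / 25) * (x - 1) ^ 2 / (6 * (16 + x)) ≤ (4 / 150) * (x - 18 + 289 / 76) := by
    rw [div_le_iff₀ (by linarith)]
    nlinarith
  nlinarith [hl, e1, e2]

lemma Phi_eq {x u v a e : ℝ} (hx : 0 ≤ x) (hu : b1 x = u) (hv : b2 x = v) (ha : al x = a)
    (he : ep x = e) :
    Phi x = Real.log (1 - u - v) + (u + u * (x - 1) * (a - e * x) - (891/1280) * u ^ 2 * x +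
      (111/200) * v + (463/2000) * v * x - (35/176) * v ^ 2 * x -
      (23/20) * ((1 - u - v) * (x - 1) ^ 2 / (6 * (16 + x)))) := by
  have h16 : (16 + x) ≠ 0 := by positivity
  have h := FinTau967.loss_bracket hx (1 - u - v)
  unfold Phi A r
  rw [hu, hv, ha, he, h]
  have e3 : (1 - u - v) * (x - 1) ^ 2 / (6 * (16 + x)) = 1 / 6 * ((1 - u - v) * (x - 1) ^ 2 / (16 + x)) := by
    field_simp
  rw [e3]
  ring

/-- **(L7)**, insurance copy -/
theorem L7 (x : ℝ) (hx : 0 ≤ x) : 1 / 200 * ((1 - x) ^ 2 / (1 + x)) ≤ Phi x := by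
  have e0 : (1 - x) ^ 2 = (x - 1) ^ 2 := by ring
  rcases le_total x 1 with h1 | h1
  · have h := FinTau967.row01b (β := 3 / 50) (a := 363 / 1000) (e := 136 / 10000) (k0 := 0)
      (k1 := 891 / 1280) (l := 23 / 120) (c := 1 / 200) (by norm_num) (by norm_num) (by norm_num)
      (by norm_num) (by norm_num) hx h1
    rw [Phi_eq hx (b1_le1 h1) (b2_le2 (by linarith)) (al_5 (by linarith)) (ep_5 (by linarith)), e0]
    have h16 : (16 + x) ≠ 0 := by positivity
    have e3 : (1 - -(3 / 50) * (1 - x) - 0) * (x - 1) ^ 2 / (6 * (16 + x)) =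
        1 / 6 * ((1 + 3 / 50 * (1 - x)) * (x - 1) ^ 2 / (16 + x)) := by
      field_simp
      ring
    have e1 : (1 - -(3 / 50) * (1 - x) - 0 : ℝ) = 1 + 3 / 50 * (1 - x) := by ring
    rw [e3, e1]
    linarith
  have eb1 : (3 / 20 * (x - 1) / (x - 3 / 10) : ℝ) = 3 * (x - 1) / (2 * (10 * x - 3)) := by
    have h2 : x - 3 / 10 ≠ 0 := by
      have : 0 < x - 3 / 10 := by linarith
      exact this.ne'
    have h3 : 2 * (10 * x - 3) ≠ 0 := by
      have : 0 < 2 * (10 * x - 3) := by linarith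
      exact this.ne'
    rw [div_eq_div_iff h2 h3]
    ring
  rcases le_total x 2 with h2 | h2
  · have h := q1_2 h1 h2
    rw [Phi_eq hx (b1_mid h1 (by linarith)) (b2_le2 h2) (al_5 (by linarith)) (ep_5 (by linarith)),
      e0, eb1]
    norm_num at h ⊢
    linarith
  have eb2 : (21 / 25 * (x - 2) / (x + 9) : ℝ) = 21 * (x - 2) / (25 * (x + 9)) := by
    have h3 : x + 9 ≠ 0 := by positivity
    have h4 : 25 * (x + 9) ≠ 0 := by positivity
    rw [div_eq_div_iff h3 h4]
    ring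
  rcases le_total x 5 with h3 | h3
  · have h := q2_5 h2 h3
    rw [Phi_eq hx (b1_mid h1 (by linarith)) (b2_mid h2 (by linarith)) (al_5 (by linarith))
      (ep_5 (by linarith)), e0, eb1, eb2]
    norm_num at h ⊢
    linarith
  rcases h3.eq_or_lt with h3' | h3'
  · subst h3'
    have h := q2_5 (x := 5) (by norm_num) le_rfl
    rw [Phi_eq hx (b1_mid h1 (by norm_num)) (b2_mid h2 (by norm_num)) (al_5 le_rfl)
      (ep_5 le_rfl)]
    norm_num at h ⊢
    linarith
  rcases le_total x 11 with h4 | h4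
  · have h := q5_11 h3 h4
    rw [Phi_eq hx (b1_mid h1 (by linarith)) (b2_mid h2 (by linarith)) (al_11 h3' h4)
      (ep_11 h3' h4), e0, eb1, eb2]
    norm_num at h ⊢
    linarith
  rcases h4.eq_or_lt with h4' | h4'
  · subst h4'
    have h := q5_11 (x := 11) (by norm_num) le_rfl
    rw [Phi_eq hx (b1_mid h1 (by norm_num)) (b2_mid h2 (by norm_num)) (al_11 h3' le_rfl)
      (ep_11 h3' le_rfl)]
    norm_num at h ⊢
    linarith
  rcases le_or_gt x 60 with h5 | h5
  · have h := q11_60 h4 h5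
    rw [Phi_eq hx (b1_mid h1 h5) (b2_mid h2 h5) (al_60 h4' h5) (ep_60 h4' h5), e0, eb1, eb2]
    norm_num at h ⊢
    linarith
  · have h := q60 h5.le
    rw [Phi_eq hx (b1_far h5) (b2_far h5) (al_far h5) (ep_far h5), e0]
    have e1 : (1 - 0 - 21 / 25 : ℝ) = 4 / 25 := by norm_num
    rw [e1]
    linarith

end Crest.Agent.R253.FinT967
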