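import Crest.Agent.R253.FinDefs_505
import Crest.Agent.R253.FrameT_321
import Crest.Agent.R253.EqT3_593
import Crest.Agent.R253.EqE_747
import Crest.Agent.R253.EqEasy_505

/-!
Row 253 (S0391), helper505: the final assembly `MainN m → ApproxN m → S0391`.
-/

set_option autoImplicit false

open MeasureTheory ProbabilityTheory Real Set Filter Topology
open scoped ContDiff

noncomputable section

namespace Crest.Agent.R253.Fin505

open Crest.Agent.R238.Gap Crest.Agent.R238.GapPoinc Crest.Agent.R238.GapPc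
open Crest.Agent.R253.Meh74
open Crest.Agent.R253.Frame321 (Zf)
open Crest.Agent.R253.SpecField321 (hs MF)
open Crest.Agent.R253.SpecCalc999 (Mat)
open Crest.Agent.R253.ChVar56 (Push Gp)
open Crest.Agent.R253.Lim140 Crest.Agent.R253.Cpt435
open Crest.GeometryTopology.Isotropic

variable {n : ℕ}

theorem Mar_nonneg (M : Fld n) : 0 ≤ Mar M :=
  add_nonneg (integral_nonneg fun _ => SpecField321.hs_nonneg _) (SpecField321.hs_nonneg _)

theorem Tk_symm {M : Fld n} {lo hi : ℝ} (hM : MF M lo hi) (k i j : Fin n) :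
    Tk M k i j = Tk M k j i := by
  unfold Tk
  simp only [Matrix.of_apply]
  rw [Frame321.Zf_symm hM i j]

/-- the weakest form of MAIN used by the assembly: nonnegativity, and `DFun → 0 ⟹ Mar → 0` -/
def MainQ (n : ℕ) : Prop :=
  (∀ (G : Fin n → E n → ℝ) (M N : Fld n) (V : E n → ℝ) (lo hi : ℝ), Dat G M N V lo hi → Nz M →
    0 ≤ DFun G M) ∧
  ∀ ε : ℝ, 0 < ε → ∃ δ : ℝ, 0 < δ ∧ ∀ (G : Fin n → E n → ℝ) (M N : Fld n) (V : E n → ℝ)
    (lo hi : ℝ), Dat G M N V lo hi → Nz M → DFun G M < δ → Mar M ≤ ε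

/-- MAIN with a truncated margin -/
def MainW (n : ℕ) : Prop := ∃ c : ℝ, 0 < c ∧ ∀ (G : Fin n → E n → ℝ) (M N : Fld n)
  (V : E n → ℝ) (lo hi : ℝ), Dat G M N V lo hi → Nz M → c * min 1 (Mar M) ≤ DFun G M

theorem MainN.toW (h : MainN n) : MainW n := by
  obtain ⟨c, hc, H⟩ := h
  exact ⟨c, hc, fun G M N V lo hi hD hz =>
    (mul_le_mul_of_nonneg_left (min_le_right _ _) hc.le).trans (H G M N V lo hi hD hz)⟩

theorem MainW.toQ (h : MainW n) : MainQ n := by
  obtain ⟨c, hc, H⟩ := h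
  refine ⟨fun G M N V lo hi hD hz => (mul_nonneg hc.le (le_min zero_le_one (Mar_nonneg M))).trans
    (H G M N V lo hi hD hz), fun ε hε => ⟨c * min 1 ε, by positivity,
      fun G M N V lo hi hD hz hlt => ?_⟩⟩
  have h1 := (H G M N V lo hi hD hz).trans_lt hlt
  have h2 := lt_of_mul_lt_mul_left h1 hc.le
  by_contra hcon
  push Not at hcon
  exact absurd h2 (not_lt.2 (min_le_min_left _ hcon.le))

/-- inequality -/
theorem DD_nonneg_of (hM : MainQ n) (hA : ApproxN n) {f : (Fin n → ℝ) → ℝ} (hf : LCD f) :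
    0 ≤ DD f := by
  refine (hA f hf).nonneg fun g hg => ?_
  obtain ⟨-, G, M, N, V, lo, hi, hD, hz, hP⟩ := hg
  rw [DD_eq hP]
  exact hM.1 G M N V lo hi hD hz

/-- equality -/
theorem ae_of_DD_eq_zero (hM : MainQ n) (hA : ApproxN n) {f : (Fin n → ℝ) → ℝ} (hf : LCD f)
    (h0 : DD f = 0) :
    ∃ (M : Matrix (Fin n) (Fin n) ℝ) (b : Fin n → ℝ), M.det ≠ 0 ∧
          f =ᵐ[volume] fun x => |M.det|⁻¹ *
            Set.indicator {y : Fin n → ℝ | ∀ i, 0 ≤ (M⁻¹.mulVec (y - b)) i}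
              (fun y => Real.exp (- ∑ i, (M⁻¹.mulVec (y - b)) i)) x := by
  obtain ⟨g, A, hG, hpos, hL1, hDD, hcov, hmean⟩ := hA f hf
  choose hl G M N V lo hi hD hz hP using hG
  rw [h0] at hDD
  have hmar : Tendsto (fun k => Mar (M k)) atTop (𝓝 0) := by
    rw [Metric.tendsto_atTop]
    intro ε hε
    obtain ⟨δ, hδ, H⟩ := hM.2 (ε / 2) (by positivity)
    obtain ⟨K, hK⟩ := Metric.tendsto_atTop.1 hDD δ hδ
    refine ⟨K, fun k hk => ?_⟩
    have h1 := hK k hk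
    rw [Real.dist_eq, sub_zero, DD_eq (hP k)] at h1
    have h2 := H (G k) (M k) (N k) (V k) (lo k) (hi k) (hD k) (hz k)
      ((le_abs_self _).trans_lt h1)
    rw [Real.dist_eq, sub_zero, abs_of_nonneg (Mar_nonneg _)]
    linarith
  have h1 : Tendsto (fun k => ∫ x, hs (SpecField321.Mx (Zf (M k)) x - ∑ j, x j • Tk (M k) j)
      ∂(gam n)) atTop (𝓝 0) :=
    squeeze_zero (fun k => integral_nonneg fun _ => SpecField321.hs_nonneg _)
      (fun k => le_add_of_nonneg_right (SpecField321.hs_nonneg _)) hmar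
  have h2 : Tendsto (fun k => hs (1 - ∑ j, Tk (M k) j * Tk (M k) j)) atTop (𝓝 0) :=
    squeeze_zero (fun k => SpecField321.hs_nonneg _)
      (fun k => le_add_of_nonneg_left (integral_nonneg fun _ => SpecField321.hs_nonneg _)) hmar
  have hC1 : ∀ k i j, C1 (Zf (M k) i j) := fun k i j =>
    Frame321.c1_Zf (hD k).mf (hD k).lo_pos i j
  obtain ⟨φ, hφ, U, hU, -, hlim⟩ := EqT593.eq_tail (fun k => (hD k).ma.hd)
    (ζ := fun k x => SpecField321.Mx (Zf (M k)) x)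
    (fun k i j => (hC1 k i j).cont) (fun k i j => (hC1 k i j).g)
    (fun k x => (Frame321.mf_Zf (hD k).mf (hD k).lo_pos).h x)
    (fun k x i j => congrFun (congrFun (congrFun (Frame321.M_eq (hD k).mf (hD k).lo_pos) i) j) x)
    (T := fun k => Tk (M k)) (fun k => Tk_symm (hD k).mf) h1 h2
  exact EqE747.equality_close hf (fun k => (hpos k).det_pos.ne') hP hL1 hcov hmean
    ⟨φ, hφ, U, hU, hlim⟩

/-- **S0391 from the two inputs** -/
theorem S0391_ofQ (hM : MainQ n) (hA : ApproxN n)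
    (f : (Fin n → ℝ) → ℝ) (hf : Measurable f) (hf0 : ∀ x, 0 ≤ f x) (hf1 : ∫ x, f x = 1)
    (hfc : Convex ℝ {x | 0 < f x}) (hfl : ConcaveOn ℝ {x | 0 < f x} (fun x => Real.log (f x))) :
    (n : ℝ) + Real.log (densCov f).det / 2 ≤ diffEntropy f ∧
      (diffEntropy f = (n : ℝ) + Real.log (densCov f).det / 2 ↔
        ∃ (M : Matrix (Fin n) (Fin n) ℝ) (b : Fin n → ℝ), M.det ≠ 0 ∧
          f =ᵐ[volume] fun x => |M.det|⁻¹ *
            Set.indicator {y : Fin n → ℝ | ∀ i, 0 ≤ (M⁻¹.mulVec (y - b)) i}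
              (fun y => Real.exp (- ∑ i, (M⁻¹.mulVec (y - b)) i)) x) := by
  have hL : LCD f := LCD.of_S0391 f hf hf0 hf1 hfc hfl
  refine ⟨(DD_nonneg_iff f).1 (DD_nonneg_of hM hA hL), fun h => ?_, fun h => ?_⟩
  · exact ae_of_DD_eq_zero hM hA hL ((DD_eq_zero_iff f).2 h)
  · exact EqEasy505.equality_of_ae f h

/-- **S0391 from the two inputs** -/
theorem S0391_of (hM : MainN n) (hA : ApproxN n)
    (f : (Fin n → ℝ) → ℝ) (hf : Measurable f) (hf0 : ∀ x, 0 ≤ f x) (hf1 : ∫ x, f x = 1)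
    (hfc : Convex ℝ {x | 0 < f x}) (hfl : ConcaveOn ℝ {x | 0 < f x} (fun x => Real.log (f x))) :
    (n : ℝ) + Real.log (densCov f).det / 2 ≤ diffEntropy f ∧
      (diffEntropy f = (n : ℝ) + Real.log (densCov f).det / 2 ↔
        ∃ (M : Matrix (Fin n) (Fin n) ℝ) (b : Fin n → ℝ), M.det ≠ 0 ∧
          f =ᵐ[volume] fun x => |M.det|⁻¹ *
            Set.indicator {y : Fin n → ℝ | ∀ i, 0 ≤ (M⁻¹.mulVec (y - b)) i}
              (fun y => Real.exp (- ∑ i, (M⁻¹.mulVec (y - b)) i)) x) :=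
  S0391_ofQ hM.toW.toQ hA f hf hf0 hf1 hfc hfl

end Crest.Agent.R253.Fin505
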