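import Crest.Agent.R253.Frame_321

/-!
# R253: the exact `K`-form (helper321; identity of helper648)

For `Z = u(M) K u(M)` with a constant symmetric matrix `K` (not commuting with `M`).
-/

set_option autoImplicit false

open Matrix Filter Topology Set
open scoped ContDiff

noncomputable section

namespace Crest.Agent.R253.Frame321

open Crest.Agent.R253.SpecCalc999 Crest.Agent.R253.SpecField321 Crest.Agent.R253.Meh74
  Crest.Agent.R238.Gap

variable {m n : ℕ}

/-- quadratic form `⟨W v, v⟩` -/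
def qf (W : Mat m) (v : Fin m → ℝ) : ℝ := ∑ i, ∑ j, W i j * (v i * v j)

lemma qf_zero (W : Mat m) : qf W (fun _ => 0) = 0 := by
  unfold qf; simp

lemma qf_smul_left (c : ℝ) (W : Mat m) (v : Fin m → ℝ) : qf (c • W) v = c * qf W v := by
  unfold qf
  simp only [Matrix.smul_apply, smul_eq_mul, Finset.mul_sum, mul_assoc]

lemma qf_add_left (W W' : Mat m) (v : Fin m → ℝ) : qf (W + W') v = qf W v + qf W' v := by
  unfold qf
  simp only [Matrix.add_apply, add_mul, Finset.sum_add_distrib]

lemma qf_sub_left (W W' : Mat m) (v : Fin m → ℝ) : qf (W - W') v = qf W v - qf W' v := by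
  unfold qf
  simp only [Matrix.sub_apply, sub_mul, Finset.sum_sub_distrib]

lemma qf_one (v : Fin m → ℝ) : qf 1 v = ∑ i, v i ^ 2 := by
  unfold qf
  refine Finset.sum_congr rfl fun i _ => ?_
  rw [Finset.sum_eq_single i]
  · rw [Matrix.one_apply_eq]; ring
  · intro j _ hj; rw [Matrix.one_apply_ne (Ne.symm hj)]; ring
  · intro h; exact absurd (Finset.mem_univ _) h

lemma qf_mulVec (W : Mat m) (v : Fin m → ℝ) : qf W v = v ⬝ᵥ W.mulVec v := by
  unfold qf dotProduct
  refine Finset.sum_congr rfl fun i _ => ?_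
  rw [Matrix.mulVec, dotProduct, Finset.mul_sum]
  exact Finset.sum_congr rfl fun j _ => by ring

/-- rotated quadratic form -/
lemma qf_rot (K U : Mat m) (v : Fin m → ℝ) : qf (Uᵀ * K * U) v = qf K (U.mulVec v) := by
  rw [qf_mulVec, qf_mulVec, ← Matrix.mulVec_mulVec, ← Matrix.mulVec_mulVec,
    Matrix.dotProduct_mulVec, Matrix.vecMul_transpose]

/-- `rK = (e_b u[b,i] + e_a u[a,i]) / 2` -/
def rK (u u' : ℝ → ℝ) (e : Fin m → ℝ) (a b i : Fin m) : ℝ :=
  (e b * dd1 u u' (e b) (e i) + e a * dd1 u u' (e a) (e i)) / 2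

/-- `pK = u_i + rK` -/
def pK (u u' : ℝ → ℝ) (e : Fin m → ℝ) (a b i : Fin m) : ℝ := u (e i) + rK u u' e a b i

lemma rf_add (U : Mat m) (X Y : Fin m → Mat m) (k : Fin m) :
    rf U (fun c => X c + Y c) k = rf U X k + rf U Y k := by
  simp only [rf_eq]
  rw [← Finset.sum_add_distrib]
  refine Finset.sum_congr rfl fun c _ => ?_
  rw [Matrix.mul_add, Matrix.add_mul, smul_add]

lemma rf_sub (U : Mat m) (X Y : Fin m → Mat m) (k : Fin m) :
    rf U (fun c => X c - Y c) k = rf U X k - rf U Y k := by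
  simp only [rf_eq]
  rw [← Finset.sum_sub_distrib]
  refine Finset.sum_congr rfl fun c _ => ?_
  rw [Matrix.mul_sub, Matrix.sub_mul, smul_sub]

lemma rf_mul_const {U : Mat m} (h : U * Uᵀ = 1) (Y : Fin m → Mat m) (B : Mat m) (k : Fin m) :
    rf U (fun c => Y c * B) k = rf U Y k * (Uᵀ * B * U) := by
  simp only [rf_eq]
  rw [Matrix.sum_mul]
  refine Finset.sum_congr rfl fun c _ => ?_
  rw [Matrix.smul_mul]
  congr 1
  calc Uᵀ * (Y c * B) * U = Uᵀ * Y c * 1 * B * U := by
        rw [Matrix.mul_one]; simp only [Matrix.mul_assoc]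
    _ = _ := by rw [← h]; simp only [Matrix.mul_assoc]

lemma rf_const_mul {U : Mat m} (h : U * Uᵀ = 1) (Y : Fin m → Mat m) (B : Mat m) (k : Fin m) :
    rf U (fun c => B * Y c) k = (Uᵀ * B * U) * rf U Y k := by
  simp only [rf_eq]
  rw [Matrix.mul_sum]
  refine Finset.sum_congr rfl fun c _ => ?_
  rw [Matrix.mul_smul]
  congr 1
  calc Uᵀ * (B * Y c) * U = Uᵀ * B * 1 * Y c * U := by
        rw [Matrix.mul_one]; simp only [Matrix.mul_assoc]
    _ = _ := by rw [← h]; simp only [Matrix.mul_assoc]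

variable {A U N : Mat m} {e : Fin m → ℝ} {S : Fin m → Mat m}

lemma Fr.frame_cfc (h : Fr A U e) (f : ℝ → ℝ) :
    Uᵀ * (_root_.cfc f A) * U = Matrix.diagonal fun i => f (e i) := by
  rw [h.cfc]

lemma Sy.cyc {S : Fin m → Mat m} (h : Sy S) (a b c : Fin m) : S a b c = S c a b := by
  rw [h.s1 a b c, h.s2 b a c]

lemma Sy.s3 {S : Fin m → Mat m} (h : Sy S) (a b c : Fin m) : S c a b = S a c b := by
  rw [h.s1 a b c, h.s2 b a c, h.s1 b c a]

/-- **the exact `K`-form** -/
theorem K_form (h : Fr A U e) (he : ∀ i, e i ≠ 0) (hN : N * A = 1) (hS : Sy S)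
    (u u' : ℝ → ℝ) {K : Mat m} (hK : Kᵀ = K) :
    (∑ a, ∑ b, N a b * ip (DK u u' A (S b) * K * _root_.cfc u A +
        _root_.cfc u A * K * DK u u' A (S b)) (S a)) +
      (∑ i, ∑ j, (_root_.cfc u A * K * _root_.cfc u A) i j * Qm N S i j) =
    ∑ a, ∑ b, (qf (Uᵀ * K * U) (fun i => rf U S b i a * pK u u' e a b i) -
      qf (Uᵀ * K * U) (fun i => rf U S b i a * rK u u' e a b i)) / (e a * e b) := by
  have hT : Sy (rf U S) := hS.rf U
  set T := rf U S with hTdef
  set W := Uᵀ * K * U with hW
  have hWs : ∀ i j, W i j = W j i := by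
    intro i j
    have : Wᵀ = W := by
      rw [hW, Matrix.transpose_mul, Matrix.transpose_mul, Matrix.transpose_transpose, hK,
        Matrix.mul_assoc]
    calc W i j = Wᵀ j i := rfl
      _ = W j i := by rw [this]
  -- first sum
  have e1 : (∑ a, ∑ b, N a b * ip (DK u u' A (S b) * K * _root_.cfc u A +
        _root_.cfc u A * K * DK u u' A (S b)) (S a)) =
      ∑ a, ∑ b, ∑ i, ∑ j, 2 * (W i j * (T b i a * T b j a)) *
        (u (e j) * dd1 u u' (e b) (e i)) / e a := by
    rw [sum_N h.o' (Fr.inv_eq h he hN)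
      (fun b => DK u u' A (S b) * K * _root_.cfc u A + _root_.cfc u A * K * DK u u' A (S b)) S]
    refine Finset.sum_congr rfl fun a _ => ?_
    have f1 : rf U (fun b => DK u u' A (S b) * K * _root_.cfc u A +
        _root_.cfc u A * K * DK u u' A (S b)) a =
        rf U (fun b => DK u u' A (S b)) a * W * Matrix.diagonal (fun i => u (e i)) +
        Matrix.diagonal (fun i => u (e i)) * W * rf U (fun b => DK u u' A (S b)) a := by
      rw [rf_add, rf_mul_const h.o', rf_mul_const h.o', h.cfc]
      congr 1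
      have : (fun c => _root_.cfc u A * K * DK u u' A (S c)) =
          fun c => _root_.cfc u A * (K * DK u u' A (S c)) := by
        funext c; rw [Matrix.mul_assoc]
      rw [this, rf_const_mul h.o' (fun c => K * DK u u' A (S c)), rf_const_mul h.o', h.cfc, ← hW]
      exact (Matrix.mul_assoc _ _ _).symm
    rw [f1]
    have f2 : ∀ i j, (rf U (fun b => DK u u' A (S b)) a * W *
        Matrix.diagonal (fun i => u (e i))) i j =
        ∑ l, dd1 u u' (e i) (e l) * T a i l * W l j * u (e j) := by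
      intro i j
      rw [Matrix.mul_diagonal, Matrix.mul_apply, Finset.sum_mul]
      refine Finset.sum_congr rfl fun l _ => ?_
      rw [rf_DK h]
    have f3 : ∀ i j, (Matrix.diagonal (fun i => u (e i)) * W *
        rf U (fun b => DK u u' A (S b)) a) i j =
        ∑ l, dd1 u u' (e j) (e l) * T a j l * W l i * u (e i) := by
      intro i j
      rw [Matrix.mul_assoc, Matrix.diagonal_mul, Matrix.mul_apply, Finset.mul_sum]
      refine Finset.sum_congr rfl fun l _ => ?_
      rw [rf_DK h, dd1_comm u u' (e l) (e j), ← hTdef, hT.s1 l j a, hWs i l]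
      ring
    have f4 : ip (rf U (fun b => DK u u' A (S b)) a * W * Matrix.diagonal (fun i => u (e i)) +
        Matrix.diagonal (fun i => u (e i)) * W * rf U (fun b => DK u u' A (S b)) a) (T a) =
        2 * ∑ i, ∑ j, (∑ l, dd1 u u' (e i) (e l) * T a i l * W l j * u (e j)) * T a i j := by
      rw [ip_add_left]
      unfold ip
      simp only [f2, f3]
      have : (∑ i, ∑ j, (∑ l, dd1 u u' (e j) (e l) * T a j l * W l i * u (e i)) * T a i j) =
          ∑ i, ∑ j, (∑ l, dd1 u u' (e i) (e l) * T a i l * W l j * u (e j)) * T a i j := by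
        rw [Finset.sum_comm]
        refine Finset.sum_congr rfl fun i _ => Finset.sum_congr rfl fun j _ => ?_
        rw [hT.s1 j i a]
      rw [this]; ring
    rw [f4]
    have f5 : ∀ b, (∑ j, (∑ l, dd1 u u' (e b) (e l) * T a b l * W l j * u (e j)) * T a b j) =
        ∑ i, ∑ j, (W i j * (T b i a * T b j a)) * (u (e j) * dd1 u u' (e b) (e i)) := by
      intro b
      simp only [Finset.sum_mul]
      rw [Finset.sum_comm]
      refine Finset.sum_congr rfl fun i _ => Finset.sum_congr rfl fun j _ => ?_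
      have g1 : ∀ l, T a b l = T b l a := fun l => (hT.cyc b l a).symm
      rw [g1 i, g1 j]; ring
    simp only [f5, Finset.mul_sum]
    refine Finset.sum_congr rfl fun b _ => Finset.sum_congr rfl fun i _ =>
      Finset.sum_congr rfl fun j _ => ?_
    rw [div_eq_mul_inv]; ring
  -- second sum
  have e2 : (∑ i, ∑ j, (_root_.cfc u A * K * _root_.cfc u A) i j * Qm N S i j) =
      ∑ a, ∑ b, ∑ i, ∑ j, (W i j * (T b i a * T b j a)) * (u (e i) * u (e j)) / (e a * e b) := by
    rw [sum_Q h.o' (Fr.inv_eq h he hN)]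
    have f1 : Uᵀ * (_root_.cfc u A * K * _root_.cfc u A) * U =
        Matrix.diagonal (fun i => u (e i)) * W * Matrix.diagonal (fun i => u (e i)) := by
      rw [← h.cfc u, hW]
      calc Uᵀ * (_root_.cfc u A * K * _root_.cfc u A) * U
          = Uᵀ * _root_.cfc u A * 1 * K * 1 * _root_.cfc u A * U := by
            simp only [Matrix.mul_one, Matrix.mul_assoc]
        _ = _ := by rw [← h.o']; simp only [Matrix.mul_assoc]
    rw [f1]
    have f2 : ∀ i j, (Matrix.diagonal (fun i => u (e i)) * W *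
        Matrix.diagonal (fun i => u (e i))) i j = u (e i) * W i j * u (e j) := by
      intro i j
      rw [Matrix.mul_diagonal, Matrix.diagonal_mul]
    simp only [f2]
    have sw : ∀ F : Fin m → Fin m → Fin m → Fin m → ℝ,
        ∑ a, ∑ b, ∑ c, ∑ d, F a b c d = ∑ c, ∑ d, ∑ a, ∑ b, F a b c d := by
      intro F
      calc ∑ a, ∑ b, ∑ c, ∑ d, F a b c d = ∑ a, ∑ c, ∑ b, ∑ d, F a b c d :=
            Finset.sum_congr rfl fun a _ => Finset.sum_comm
        _ = ∑ c, ∑ a, ∑ b, ∑ d, F a b c d := Finset.sum_comm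
        _ = ∑ c, ∑ a, ∑ d, ∑ b, F a b c d :=
            Finset.sum_congr rfl fun c _ => Finset.sum_congr rfl fun a _ => Finset.sum_comm
        _ = ∑ c, ∑ d, ∑ a, ∑ b, F a b c d := Finset.sum_congr rfl fun c _ => Finset.sum_comm
    simp only [Finset.mul_sum]
    rw [sw]
    refine Finset.sum_congr rfl fun a _ => Finset.sum_congr rfl fun b _ =>
      Finset.sum_congr rfl fun i _ => Finset.sum_congr rfl fun j _ => ?_
    have g1 : ∀ l, T l a b = T b l a := fun l => hT.cyc l a b
    rw [← hTdef, g1 i, g1 j, div_eq_mul_inv, mul_inv]; ring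
  -- right side
  have e3 : ∀ a b, (qf W (fun i => T b i a * pK u u' e a b i) -
      qf W (fun i => T b i a * rK u u' e a b i)) / (e a * e b) =
      (∑ i, ∑ j, (W i j * (T b i a * T b j a)) * (u (e i) * u (e j)) / (e a * e b)) +
      ∑ i, ∑ j, 2 * (W i j * (T b i a * T b j a)) * (u (e j) * rK u u' e a b i) / (e a * e b) := by
    intro a b
    have s1 : (∑ i, ∑ j, 2 * (W i j * (T b i a * T b j a)) * (u (e j) * rK u u' e a b i) /
        (e a * e b)) = (∑ i, ∑ j, (W i j * (T b i a * T b j a)) * (u (e j) * rK u u' e a b i) /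
        (e a * e b)) + ∑ i, ∑ j, (W i j * (T b i a * T b j a)) * (u (e i) * rK u u' e a b j) /
        (e a * e b) := by
      have : (∑ i, ∑ j, (W i j * (T b i a * T b j a)) * (u (e i) * rK u u' e a b j) /
          (e a * e b)) = ∑ i, ∑ j, (W i j * (T b i a * T b j a)) * (u (e j) * rK u u' e a b i) /
          (e a * e b) := by
        rw [Finset.sum_comm]
        refine Finset.sum_congr rfl fun i _ => Finset.sum_congr rfl fun j _ => ?_
        rw [hWs j i]; ring
      rw [this, ← Finset.sum_add_distrib]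
      refine Finset.sum_congr rfl fun i _ => ?_
      rw [← Finset.sum_add_distrib]
      exact Finset.sum_congr rfl fun j _ => by ring
    rw [s1]
    unfold qf
    rw [← Finset.sum_sub_distrib, Finset.sum_div, ← Finset.sum_add_distrib,
      ← Finset.sum_add_distrib]
    refine Finset.sum_congr rfl fun i _ => ?_
    rw [← Finset.sum_sub_distrib, Finset.sum_div, ← Finset.sum_add_distrib,
      ← Finset.sum_add_distrib]
    refine Finset.sum_congr rfl fun j _ => ?_
    unfold pK
    ring
  simp only [e3, Finset.sum_add_distrib]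
  rw [e1, e2, add_comm]
  congr 1
  -- the cross terms
  have c1 : ∀ a b i j, 2 * (W i j * (T b i a * T b j a)) * (u (e j) * rK u u' e a b i) /
      (e a * e b) = (W i j * (T b i a * T b j a)) * (u (e j) * dd1 u u' (e b) (e i)) / e a +
      (W i j * (T b i a * T b j a)) * (u (e j) * dd1 u u' (e a) (e i)) / e b := by
    intro a b i j
    unfold rK
    field_simp [he a, he b]
  simp only [c1, Finset.sum_add_distrib]
  have c2 : (∑ a, ∑ b, ∑ i, ∑ j, (W i j * (T b i a * T b j a)) *
      (u (e j) * dd1 u u' (e a) (e i)) / e b) = ∑ a, ∑ b, ∑ i, ∑ j,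
      (W i j * (T b i a * T b j a)) * (u (e j) * dd1 u u' (e b) (e i)) / e a := by
    rw [Finset.sum_comm]
    refine Finset.sum_congr rfl fun a _ => Finset.sum_congr rfl fun b _ =>
      Finset.sum_congr rfl fun i _ => Finset.sum_congr rfl fun j _ => ?_
    have g1 : ∀ l, T a l b = T b l a := fun l => hT.s2 l b a
    rw [g1 i, g1 j]
  rw [c2, ← two_mul, Finset.mul_sum]
  refine Finset.sum_congr rfl fun a _ => ?_
  rw [Finset.mul_sum]
  refine Finset.sum_congr rfl fun b _ => ?_
  rw [Finset.mul_sum]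
  refine Finset.sum_congr rfl fun i _ => ?_
  rw [Finset.mul_sum]
  exact Finset.sum_congr rfl fun j _ => by ring

end Crest.Agent.R253.Frame321
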