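import Mathlib

/-!
# Row 253, E-route: the three point inequality (SI) (helper358; proof of 709, #28419 (II))

`av f a b` is the mean of `f` on the segment `[a,b]` (`= f a` for `a = b`), i.e. the divided
difference of a primitive of `f`.

* `cheb`   : Chebyshev's integral inequality in the form `0 ≤ ∫ ψ K` (`ψ`, `K` increasing, `∫ K = 0`).
* `si`     : for `ψ ≥ 0` increasing, continuous on `(0,∞)` and `a, b, c > 0`
  `Σ_pairs av (ψ/x²) ≤ (1/(2abc)) Σ_pairs (a+b) av ψ`.
* `si_sq`  : if `Σ_i F_i'² ≤ ψ/x²` then `Σ_pairs Σ_i (av F_i')² ≤ (1/(2abc)) Σ_pairs (a+b) av ψ`.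
* `si_prod`: if `f g ≤ ψ/x²`, `f`, `g` both decreasing, then `Σ_pairs av f · av g ≤ ...`.
* `si_easy`: `Σ_pairs av ψ /(ab) ≤ (1/(2abc)) Σ_pairs (a+b) av ψ` (747).
-/

set_option autoImplicit false

open Set MeasureTheory intervalIntegral

namespace Crest.Agent.R253.SI358

/-- the mean of `f` on the segment `[a,b]` -/
noncomputable def av (f : ℝ → ℝ) (a b : ℝ) : ℝ := ∫ u in (0 : ℝ)..1, f (a + u * (b - a))

theorem av_self (f : ℝ → ℝ) (a : ℝ) : av f a a = f a := by
  unfold av; simp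

theorem av_comm (f : ℝ → ℝ) (a b : ℝ) : av f a b = av f b a := by
  unfold av
  have h := intervalIntegral.integral_comp_sub_left (a := (0:ℝ)) (b := 1)
    (fun u => f (a + u * (b - a))) 1
  simp only [sub_self, sub_zero] at h
  rw [← h]
  refine intervalIntegral.integral_congr fun u _ => ?_
  have h2 : a + (1 - u) * (b - a) = b + u * (a - b) := by ring
  simp only [h2]

theorem av_eq (f : ℝ → ℝ) {a b : ℝ} (hab : a ≠ b) : av f a b = (∫ x in a..b, f x) / (b - a) := by
  unfold av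
  have h := intervalIntegral.integral_comp_mul_add (a := (0:ℝ)) (b := 1) f
    (sub_ne_zero.2 hab.symm) a
  have e : ∀ u : ℝ, f (a + u * (b - a)) = f ((b - a) * u + a) := fun u => by
    congr 1; ring
  simp only [e]
  rw [h]
  simp only [mul_zero, zero_add, mul_one, sub_add_cancel, smul_eq_mul]
  rw [div_eq_inv_mul]

/-- Chebyshev -/
theorem cheb {a c : ℝ} (hac : a ≤ c) {K ψ : ℝ → ℝ} (hK : MonotoneOn K (Icc a c))
    (hψ : MonotoneOn ψ (Icc a c)) (hc : ContinuousOn ψ (Icc a c))
    (h0 : ∫ x in a..c, K x = 0) : 0 ≤ ∫ x in a..c, ψ x * K x := by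
  classical
  have hKi : IntervalIntegrable K volume a c := by
    apply MonotoneOn.intervalIntegrable; rwa [uIcc_of_le hac]
  have hPi : IntervalIntegrable (fun x => ψ x * K x) volume a c :=
    hKi.continuousOn_mul (by rwa [uIcc_of_le hac])
  -- the sign change
  obtain ⟨x1, hx1, hneg, hpos⟩ : ∃ x1 ∈ Icc a c, (∀ x ∈ Icc a c, x < x1 → K x ≤ 0) ∧
      ∀ x ∈ Icc a c, x1 < x → 0 ≤ K x := by
    by_cases hS : ({x ∈ Icc a c | K x < 0}).Nonempty
    · have hb : BddAbove {x ∈ Icc a c | K x < 0} := ⟨c, fun x hx => hx.1.2⟩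
      obtain ⟨y0, hy0⟩ := hS
      refine ⟨sSup {x ∈ Icc a c | K x < 0}, ⟨hy0.1.1.trans (le_csSup hb hy0),
        csSup_le ⟨y0, hy0⟩ fun x hx => hx.1.2⟩, ?_, ?_⟩
      · intro x hx hlt
        obtain ⟨y, hy, hxy⟩ := exists_lt_of_lt_csSup ⟨y0, hy0⟩ hlt
        exact (hK hx hy.1 hxy.le).trans hy.2.le
      · intro x hx hlt
        by_contra hcon
        push Not at hcon
        exact absurd (le_csSup hb (show x ∈ {x ∈ Icc a c | K x < 0} from ⟨hx, hcon⟩)) (not_le.2 hlt)
    · refine ⟨a, ⟨le_rfl, hac⟩, fun x hx hlt => absurd hx.1 (not_le.2 hlt), fun x hx _ => ?_⟩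
      by_contra hcon
      push Not at hcon
      exact hS ⟨x, hx, hcon⟩
  have h1 : ∫ x in a..c, (ψ x - ψ x1) * K x = ∫ x in a..c, ψ x * K x := by
    have : ∫ x in a..c, (ψ x - ψ x1) * K x
        = (∫ x in a..c, ψ x * K x) - ∫ x in a..c, ψ x1 * K x := by
      rw [← intervalIntegral.integral_sub hPi (hKi.const_mul _)]
      refine intervalIntegral.integral_congr fun x _ => ?_
      ring
    rw [this, intervalIntegral.integral_const_mul, h0]; ring
  rw [← h1]
  refine intervalIntegral.integral_nonneg hac fun x hx => ?_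
  rcases lt_trichotomy x x1 with h | h | h
  · exact mul_nonneg_of_nonpos_of_nonpos (sub_nonpos.2 (hψ hx hx1 h.le)) (hneg x hx h)
  · rw [h, sub_self, zero_mul]
  · exact mul_nonneg (sub_nonneg.2 (hψ hx1 hx h.le)) (hpos x hx h)

theorem integral_inv_sq {a b : ℝ} (ha : 0 < a) (hab : a ≤ b) :
    ∫ x in a..b, 1 / x ^ 2 = 1 / a - 1 / b := by
  have hb : 0 < b := ha.trans_le hab
  have hd : ∀ x ∈ uIcc a b, HasDerivAt (fun x : ℝ => -x⁻¹) (1 / x ^ 2) x := by
    intro x hx
    rw [uIcc_of_le hab] at hx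
    have hx0 : x ≠ 0 := (ha.trans_le hx.1).ne'
    have := (hasDerivAt_inv hx0).neg
    refine this.congr_deriv ?_
    field_simp
  have hi : IntervalIntegrable (fun x : ℝ => 1 / x ^ 2) volume a b := by
    refine ContinuousOn.intervalIntegrable ?_
    rw [uIcc_of_le hab]
    intro x hx
    have hx0 : x ≠ 0 := (ha.trans_le hx.1).ne'
    exact (continuousAt_const.div (continuousAt_id.pow 2) (pow_ne_zero 2 hx0)).continuousWithinAt
  rw [intervalIntegral.integral_eq_sub_of_hasDerivAt hd hi]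
  rw [one_div, one_div]; ring

theorem intervalIntegrable_of_pos {f : ℝ → ℝ} (hf : ContinuousOn f (Ioi 0)) {a b : ℝ} (ha : 0 < a)
    (hb : 0 < b) : IntervalIntegrable f volume a b :=
  (hf.mono fun x hx => lt_of_lt_of_le (lt_min ha hb) hx.1).intervalIntegrable

theorem inv_sq_cont : ContinuousOn (fun x : ℝ => 1 / x ^ 2) (Ioi 0) := fun x hx =>
  (continuousAt_const.div (continuousAt_id.pow 2)
    (pow_ne_zero 2 (ne_of_gt hx))).continuousWithinAt

/-- generic case of the three point inequality -/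
theorem si_lt {ψ : ℝ → ℝ} (hm : MonotoneOn ψ (Ioi 0)) (hc : ContinuousOn ψ (Ioi 0)) {a b c : ℝ}
    (ha : 0 < a) (hab : a < b) (hbc : b < c) :
    av (fun x => ψ x / x ^ 2) a b + av (fun x => ψ x / x ^ 2) b c + av (fun x => ψ x / x ^ 2) a c
      ≤ 1 / (2 * a * b * c) * ((a + b) * av ψ a b + (b + c) * av ψ b c + (a + c) * av ψ a c) := by
  have hb : 0 < b := ha.trans hab
  have hc0 : 0 < c := hb.trans hbc
  have hac : a < c := hab.trans hbc
  have h1 : 0 < b - a := sub_pos.2 hab
  have h2 : 0 < c - b := sub_pos.2 hbc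
  have h3 : 0 < c - a := sub_pos.2 hac
  set α₁ : ℝ := (a + b) / (2 * a * b * c) / (b - a) + (a + c) / (2 * a * b * c) / (c - a) with hα₁
  set β₁ : ℝ := 1 / (b - a) + 1 / (c - a) with hβ₁
  set α₂ : ℝ := (b + c) / (2 * a * b * c) / (c - b) + (a + c) / (2 * a * b * c) / (c - a) with hα₂
  set β₂ : ℝ := 1 / (c - b) + 1 / (c - a) with hβ₂
  have hβ₁0 : 0 < β₁ := by positivity
  have hβ₂0 : 0 < β₂ := by positivity
  set K : ℝ → ℝ := fun x => if x ≤ b then α₁ - β₁ * (1 / x ^ 2) else α₂ - β₂ * (1 / x ^ 2) with hK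
  have hinv : ∀ x y : ℝ, 0 < x → x ≤ y → 1 / y ^ 2 ≤ 1 / x ^ 2 := fun x y hx hxy =>
    one_div_le_one_div_of_le (by positivity) (pow_le_pow_left₀ hx.le hxy 2)
  have hjump : α₁ - β₁ * (1 / b ^ 2) ≤ α₂ - β₂ * (1 / b ^ 2) := by
    have e : α₂ - β₂ * (1 / b ^ 2) - (α₁ - β₁ * (1 / b ^ 2)) =
        (b ^ 3 + a * c * (a + c - 3 * b)) / (a * b ^ 2 * c * ((c - b) * (b - a))) := by
      rw [hα₁, hα₂, hβ₁, hβ₂]
      field_simp
      ring
    have hnum : 0 ≤ b ^ 3 + a * c * (a + c - 3 * b) := by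
      have hs1 := Real.sq_sqrt ha.le
      have hs2 := Real.sq_sqrt hc0.le
      have hp1 := Real.sqrt_nonneg a
      have hp2 := Real.sqrt_nonneg c
      set p := √a
      set q := √c
      have h5 : 0 ≤ (b - p * q) ^ 2 * (b + 2 * (p * q)) :=
        mul_nonneg (sq_nonneg _) (by positivity)
      have h6 : 0 ≤ (p * q) ^ 2 * (p - q) ^ 2 := by positivity
      rw [← hs1, ← hs2]
      nlinarith [h5, h6]
    have : 0 ≤ α₂ - β₂ * (1 / b ^ 2) - (α₁ - β₁ * (1 / b ^ 2)) := by
      rw [e]; positivity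
    linarith
  have hKm : MonotoneOn K (Icc a c) := by
    intro x hx y hy hxy
    have hx0 : 0 < x := ha.trans_le hx.1
    have hi := hinv x y hx0 hxy
    simp only [hK]
    by_cases hyb : y ≤ b
    · rw [if_pos (hxy.trans hyb), if_pos hyb]
      nlinarith [mul_le_mul_of_nonneg_left hi hβ₁0.le]
    · rw [if_neg hyb]
      push Not at hyb
      by_cases hxb : x ≤ b
      · rw [if_pos hxb]
        have h5 := mul_le_mul_of_nonneg_left (hinv x b hx0 hxb) hβ₁0.le
        have h6 := mul_le_mul_of_nonneg_left (hinv b y hb hyb.le) hβ₂0.le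
        linarith
      · rw [if_neg hxb]
        nlinarith [mul_le_mul_of_nonneg_left hi hβ₂0.le]
  have hii : ∀ p q : ℝ, 0 < p → 0 < q → IntervalIntegrable (fun x : ℝ => 1 / x ^ 2) volume p q :=
    fun p q hp hq => intervalIntegrable_of_pos inv_sq_cont hp hq
  have hψi : ∀ p q : ℝ, 0 < p → 0 < q → IntervalIntegrable ψ volume p q :=
    fun p q hp hq => intervalIntegrable_of_pos hc hp hq
  have hqc : ContinuousOn (fun x => ψ x * (1 / x ^ 2)) (Ioi 0) := hc.mul inv_sq_cont
  have hqi : ∀ p q : ℝ, 0 < p → 0 < q →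
      IntervalIntegrable (fun x => ψ x * (1 / x ^ 2)) volume p q :=
    fun p q hp hq => intervalIntegrable_of_pos hqc hp hq
  -- split an integral against `K`
  have hKi : IntervalIntegrable K volume a c := by
    apply MonotoneOn.intervalIntegrable; rwa [uIcc_of_le hac.le]
  have hK1 : ∀ g : ℝ → ℝ, ContinuousOn g (Ioi 0) →
      ∫ x in a..c, g x * K x = (α₁ * (∫ x in a..b, g x) - β₁ * ∫ x in a..b, g x * (1 / x ^ 2)) +
        (α₂ * (∫ x in b..c, g x) - β₂ * ∫ x in b..c, g x * (1 / x ^ 2)) := by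
    intro g hg
    have hgK : ∀ p ∈ Icc a c, ∀ q ∈ Icc a c,
        IntervalIntegrable (fun x => g x * K x) volume p q := by
      intro p hp q hq
      have h5 : uIcc p q ⊆ Icc a c := uIcc_subset_Icc hp hq
      refine IntervalIntegrable.continuousOn_mul (hKi.mono_set ?_)
        (hg.mono fun x hx => ha.trans_le (h5 hx).1)
      rw [uIcc_of_le hac.le]; exact h5
    have hgi : ∀ p q : ℝ, 0 < p → 0 < q → IntervalIntegrable g volume p q :=
      fun p q hp hq => intervalIntegrable_of_pos hg hp hq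
    have hgqi : ∀ p q : ℝ, 0 < p → 0 < q →
        IntervalIntegrable (fun x => g x * (1 / x ^ 2)) volume p q :=
      fun p q hp hq => intervalIntegrable_of_pos (hg.mul inv_sq_cont) hp hq
    rw [← intervalIntegral.integral_add_adjacent_intervals
      (hgK a ⟨le_rfl, hac.le⟩ b ⟨hab.le, hbc.le⟩) (hgK b ⟨hab.le, hbc.le⟩ c ⟨hac.le, le_rfl⟩)]
    congr 1
    · have : ∫ x in a..b, g x * K x = ∫ x in a..b, (α₁ * g x - β₁ * (g x * (1 / x ^ 2))) := by
        refine intervalIntegral.integral_congr_ae (Filter.Eventually.of_forall fun x hx => ?_)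
        rw [uIoc_of_le hab.le] at hx
        simp only [hK, if_pos hx.2]; ring
      rw [this, intervalIntegral.integral_sub ((hgi a b ha hb).const_mul _)
        ((hgqi a b ha hb).const_mul _), intervalIntegral.integral_const_mul,
        intervalIntegral.integral_const_mul]
    · have : ∫ x in b..c, g x * K x = ∫ x in b..c, (α₂ * g x - β₂ * (g x * (1 / x ^ 2))) := by
        refine intervalIntegral.integral_congr_ae (Filter.Eventually.of_forall fun x hx => ?_)
        rw [uIoc_of_le hbc.le] at hx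
        simp only [hK, if_neg (not_le.2 hx.1)]; ring
      rw [this, intervalIntegral.integral_sub ((hgi b c hb hc0).const_mul _)
        ((hgqi b c hb hc0).const_mul _), intervalIntegral.integral_const_mul,
        intervalIntegral.integral_const_mul]
  have hzero : ∫ x in a..c, K x = 0 := by
    have h5 := hK1 (fun _ => 1) continuousOn_const
    simp only [one_mul, intervalIntegral.integral_const, smul_eq_mul, mul_one] at h5
    rw [h5, integral_inv_sq ha hab.le, integral_inv_sq hb hbc.le, hα₁, hα₂, hβ₁, hβ₂]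
    field_simp
    ring
  have hmain := cheb hac.le hKm (hm.mono fun x hx => ha.trans_le hx.1)
    (hc.mono fun x hx => ha.trans_le hx.1) hzero
  rw [hK1 ψ hc] at hmain
  rw [av_eq _ hab.ne, av_eq _ hbc.ne, av_eq _ hac.ne, av_eq _ hab.ne, av_eq _ hbc.ne,
    av_eq _ hac.ne]
  have e0 : ∀ x : ℝ, ψ x / x ^ 2 = ψ x * (1 / x ^ 2) := fun x => by ring
  simp only [e0]
  rw [← intervalIntegral.integral_add_adjacent_intervals (hψi a b ha hb) (hψi b c hb hc0),
    ← intervalIntegral.integral_add_adjacent_intervals (hqi a b ha hb) (hqi b c hb hc0)]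
  set I₁ := ∫ x in a..b, ψ x
  set I₂ := ∫ x in b..c, ψ x
  set J₁ := ∫ x in a..b, ψ x * (1 / x ^ 2)
  set J₂ := ∫ x in b..c, ψ x * (1 / x ^ 2)
  rw [← sub_nonneg]
  refine le_of_le_of_eq hmain ?_
  rw [hα₁, hα₂, hβ₁, hβ₂]
  field_simp
  ring

/-- `av` is continuous in the end points -/
theorem av_tendsto {f : ℝ → ℝ} (hf : ContinuousOn f (Ioi 0)) {a b : ℝ} (ha : 0 < a) (hb : 0 < b)
    {u v : ℝ → ℝ} (hu : Filter.Tendsto u (nhdsWithin 0 (Ioi 0)) (nhds a))
    (hv : Filter.Tendsto v (nhdsWithin 0 (Ioi 0)) (nhds b)) :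
    Filter.Tendsto (fun t => av f (u t) (v t)) (nhdsWithin 0 (Ioi 0)) (nhds (av f a b)) := by
  set δ := min a b / 2 with hδ
  have hδ0 : 0 < δ := by have := lt_min ha hb; positivity
  set g : ℝ → ℝ := fun x => f (max δ x) with hg
  have hgc : Continuous g := by
    refine hf.comp_continuous (by fun_prop) fun x => ?_
    exact lt_of_lt_of_le hδ0 (le_max_left _ _)
  have hG : Continuous fun p : ℝ × ℝ => av g p.1 p.2 := by
    unfold av
    refine intervalIntegral.continuous_parametric_intervalIntegral_of_continuous' ?_ 0 1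
    simp only [Function.uncurry_def]
    fun_prop
  have heq : ∀ p q : ℝ, δ ≤ p → δ ≤ q → av f p q = av g p q := by
    intro p q hp hq
    unfold av
    refine intervalIntegral.integral_congr fun t ht => ?_
    rw [uIcc_of_le zero_le_one] at ht
    have : δ ≤ p + t * (q - p) := by nlinarith [ht.1, ht.2]
    simp only [hg]
    rw [max_eq_right this]
  have h1 : Filter.Tendsto (fun t => av g (u t) (v t)) (nhdsWithin 0 (Ioi 0))
      (nhds (av g a b)) := (hG.tendsto (a, b)).comp (hu.prodMk_nhds hv)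
  have hda : δ < a := by
    have := min_le_left a b; rw [hδ]; linarith
  have hdb : δ < b := by
    have := min_le_right a b; rw [hδ]; linarith
  rw [heq a b hda.le hdb.le]
  refine h1.congr' ?_
  filter_upwards [hu.eventually (eventually_gt_nhds hda), hv.eventually (eventually_gt_nhds hdb)]
    with t h2 h3
  exact (heq _ _ (le_of_lt h2) (le_of_lt h3)).symm

/-- ordered case -/
theorem si_le {ψ : ℝ → ℝ} (hm : MonotoneOn ψ (Ioi 0)) (hc : ContinuousOn ψ (Ioi 0)) {a b c : ℝ}
    (ha : 0 < a) (hab : a ≤ b) (hbc : b ≤ c) :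
    av (fun x => ψ x / x ^ 2) a b + av (fun x => ψ x / x ^ 2) b c + av (fun x => ψ x / x ^ 2) a c
      ≤ 1 / (2 * a * b * c) * ((a + b) * av ψ a b + (b + c) * av ψ b c + (a + c) * av ψ a c) := by
  have hb : 0 < b := ha.trans_le hab
  have hc0 : 0 < c := hb.trans_le hbc
  have hqc : ContinuousOn (fun x => ψ x / x ^ 2) (Ioi 0) := by
    have := hc.mul inv_sq_cont
    refine this.congr fun x _ => ?_
    show ψ x / x ^ 2 = ψ x * (1 / x ^ 2)
    ring
  have hta : Filter.Tendsto (fun _ : ℝ => a) (nhdsWithin 0 (Ioi 0)) (nhds a) := tendsto_const_nhds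
  have htb : Filter.Tendsto (fun t : ℝ => b + t) (nhdsWithin 0 (Ioi 0)) (nhds b) := by
    have : Filter.Tendsto (fun t : ℝ => b + t) (nhds 0) (nhds (b + 0)) :=
      (continuous_const.add continuous_id).tendsto 0
    rw [add_zero] at this
    exact this.mono_left nhdsWithin_le_nhds
  have htc : Filter.Tendsto (fun t : ℝ => c + 2 * t) (nhdsWithin 0 (Ioi 0)) (nhds c) := by
    have : Filter.Tendsto (fun t : ℝ => c + 2 * t) (nhds 0) (nhds (c + 2 * 0)) := by
      have h : Continuous fun t : ℝ => c + 2 * t := by fun_prop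
      exact h.tendsto 0
    rw [mul_zero, add_zero] at this
    exact this.mono_left nhdsWithin_le_nhds
  have hL := ((av_tendsto hqc ha hb hta htb).add (av_tendsto hqc hb hc0 htb htc)).add
    (av_tendsto hqc ha hc0 hta htc)
  have hR := ((((tendsto_const_nhds (x := (2:ℝ))).mul hta).mul htb).mul htc)
  have hne : 2 * a * b * c ≠ 0 := by positivity
  have hR1 := (tendsto_const_nhds (x := (1:ℝ))).div hR hne
  have hR2 := (((hta.add htb).mul (av_tendsto hc ha hb hta htb)).add
    ((htb.add htc).mul (av_tendsto hc hb hc0 htb htc))).add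
    ((hta.add htc).mul (av_tendsto hc ha hc0 hta htc))
  refine le_of_tendsto_of_tendsto hL (hR1.mul hR2) ?_
  filter_upwards [self_mem_nhdsWithin] with t ht
  exact si_lt hm hc ha (by linarith [mem_Ioi.1 ht]) (by linarith [mem_Ioi.1 ht])

/-- **(SI), Lemma of 709**: all `a, b, c > 0` -/
theorem si {ψ : ℝ → ℝ} (hm : MonotoneOn ψ (Ioi 0)) (hc : ContinuousOn ψ (Ioi 0)) {a b c : ℝ}
    (ha : 0 < a) (hb : 0 < b) (hc0 : 0 < c) :
    av (fun x => ψ x / x ^ 2) a b + av (fun x => ψ x / x ^ 2) b c + av (fun x => ψ x / x ^ 2) a c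
      ≤ 1 / (2 * a * b * c) * ((a + b) * av ψ a b + (b + c) * av ψ b c + (a + c) * av ψ a c) := by
  rcases le_total a b with h1 | h1 <;> rcases le_total b c with h2 | h2 <;>
    rcases le_total a c with h3 | h3
  · exact si_le hm hc ha h1 h2
  · exact si_le hm hc ha h1 h2
  · have := si_le hm hc ha h3 h2
    rw [av_comm _ c b, av_comm _ c b] at this
    refine le_trans (le_of_eq ?_) (this.trans (le_of_eq ?_)) <;> ring
  · have := si_le hm hc hc0 h3 h1
    rw [av_comm _ c a, av_comm _ c a, av_comm _ c b, av_comm _ c b] at this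
    refine le_trans (le_of_eq ?_) (this.trans (le_of_eq ?_)) <;> ring
  · have := si_le hm hc hb h1 h3
    rw [av_comm _ b a, av_comm _ b a] at this
    refine le_trans (le_of_eq ?_) (this.trans (le_of_eq ?_)) <;> ring
  · have := si_le hm hc hb h2 h3
    rw [av_comm _ b a, av_comm _ b a, av_comm _ c a, av_comm _ c a] at this
    refine le_trans (le_of_eq ?_) (this.trans (le_of_eq ?_)) <;> ring
  · have := si_le hm hc hc0 h2 h1
    rw [av_comm _ c b, av_comm _ c b, av_comm _ b a, av_comm _ b a, av_comm _ c a,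
      av_comm _ c a] at this
    refine le_trans (le_of_eq ?_) (this.trans (le_of_eq ?_)) <;> ring
  · have := si_le hm hc hc0 h2 h1
    rw [av_comm _ c b, av_comm _ c b, av_comm _ b a, av_comm _ b a, av_comm _ c a,
      av_comm _ c a] at this
    refine le_trans (le_of_eq ?_) (this.trans (le_of_eq ?_)) <;> ring

/-! ### corollaries -/

theorem av_intervalIntegrable {f : ℝ → ℝ} (hf : ContinuousOn f (Ioi 0)) {a b : ℝ} (ha : 0 < a)
    (hb : 0 < b) : IntervalIntegrable (fun u => f (a + u * (b - a))) volume 0 1 := by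
  refine ContinuousOn.intervalIntegrable ?_
  rw [uIcc_of_le zero_le_one]
  refine hf.comp (by fun_prop) fun t ht => ?_
  rcases ht.1.eq_or_lt with h | h
  · rw [← h]; simpa using ha
  · have : a + t * (b - a) = (1 - t) * a + t * b := by ring
    rw [mem_Ioi, this]
    have h1 : 0 ≤ (1 - t) * a := mul_nonneg (by linarith [ht.2]) ha.le
    have h2 : 0 < t * b := mul_pos h hb
    linarith

theorem seg_pos {a b t : ℝ} (ha : 0 < a) (hb : 0 < b) (ht : t ∈ Icc (0:ℝ) 1) :
    0 < a + t * (b - a) := by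
  rcases ht.1.eq_or_lt with h | h
  · rw [← h]; simpa using ha
  · have : a + t * (b - a) = (1 - t) * a + t * b := by ring
    rw [this]
    have h1 : 0 ≤ (1 - t) * a := mul_nonneg (by linarith [ht.2]) ha.le
    have h2 : 0 < t * b := mul_pos h hb
    linarith

theorem av_mono {f g : ℝ → ℝ} (hf : ContinuousOn f (Ioi 0)) (hg : ContinuousOn g (Ioi 0))
    (h : ∀ x, 0 < x → f x ≤ g x) {a b : ℝ} (ha : 0 < a) (hb : 0 < b) : av f a b ≤ av g a b := by
  unfold av
  exact intervalIntegral.integral_mono_on zero_le_one (av_intervalIntegrable hf ha hb)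
    (av_intervalIntegrable hg ha hb) fun t ht => h _ (seg_pos ha hb ht)

theorem av_sum {ι : Type*} (s : Finset ι) {f : ι → ℝ → ℝ}
    (hf : ∀ i ∈ s, ContinuousOn (f i) (Ioi 0)) {a b : ℝ} (ha : 0 < a) (hb : 0 < b) :
    av (fun x => ∑ i ∈ s, f i x) a b = ∑ i ∈ s, av (f i) a b := by
  unfold av
  exact intervalIntegral.integral_finsetSum fun i hi => av_intervalIntegrable (hf i hi) ha hb

/-- `(av f)² ≤ av f²` -/
theorem av_sq_le {f : ℝ → ℝ} (hf : ContinuousOn f (Ioi 0)) {a b : ℝ} (ha : 0 < a) (hb : 0 < b) :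
    (av f a b) ^ 2 ≤ av (fun x => f x ^ 2) a b := by
  have hi := av_intervalIntegrable hf ha hb
  have hi2 := av_intervalIntegrable (f := fun x => f x ^ 2) (hf.pow 2) ha hb
  set m := av f a b with hm
  have h0 : 0 ≤ ∫ u in (0:ℝ)..1, (f (a + u * (b - a)) - m) ^ 2 :=
    intervalIntegral.integral_nonneg zero_le_one fun u _ => sq_nonneg _
  have h1 : ∫ u in (0:ℝ)..1, (f (a + u * (b - a)) - m) ^ 2
      = av (fun x => f x ^ 2) a b - 2 * m * m + m ^ 2 := by
    have e : ∀ u : ℝ, (f (a + u * (b - a)) - m) ^ 2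
        = (f (a + u * (b - a)) ^ 2 - 2 * m * f (a + u * (b - a))) + m ^ 2 := fun u => by ring
    simp only [e]
    rw [intervalIntegral.integral_add (hi2.sub (hi.const_mul _)) intervalIntegrable_const,
      intervalIntegral.integral_sub hi2 (hi.const_mul _), intervalIntegral.integral_const_mul]
    rw [show (∫ u in (0:ℝ)..1, f (a + u * (b - a))) = m from rfl]
    simp [av]
  rw [h1] at h0
  nlinarith

/-- Chebyshev for means: two decreasing functions -/
theorem av_mul_le_anti {f g : ℝ → ℝ} (hf : ContinuousOn f (Ioi 0)) (hg : ContinuousOn g (Ioi 0))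
    (hfm : AntitoneOn f (Ioi 0)) (hgm : AntitoneOn g (Ioi 0)) {a b : ℝ} (ha : 0 < a) (hb : 0 < b) :
    av f a b * av g a b ≤ av (fun x => f x * g x) a b := by
  wlog hab : a ≤ b generalizing a b
  · have := this hb ha (le_of_lt (not_le.1 hab))
    rwa [av_comm f, av_comm g, av_comm _ b a] at this
  have hfi := av_intervalIntegrable hf ha hb
  have hgi := av_intervalIntegrable hg ha hb
  have hfgi := av_intervalIntegrable (f := fun x => f x * g x) (hf.mul hg) ha hb
  set m := av g a b with hm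
  have hseg : ∀ s ∈ Icc (0:ℝ) 1, ∀ t ∈ Icc (0:ℝ) 1, s ≤ t →
      a + s * (b - a) ≤ a + t * (b - a) := fun s _ t _ hst => by
    have := mul_le_mul_of_nonneg_right hst (sub_nonneg.2 hab)
    linarith
  have hpi := (hfi.neg)
  have hcont : ∀ h : ℝ → ℝ, ContinuousOn h (Ioi 0) →
      ContinuousOn (fun u => h (a + u * (b - a))) (Icc 0 1) := fun h hh =>
    hh.comp (by fun_prop) fun t ht => seg_pos ha hb ht
  have h0 := cheb (a := 0) (c := 1) zero_le_one
    (K := fun u => -(g (a + u * (b - a)) - m)) (ψ := fun u => -f (a + u * (b - a)))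
    (fun s hs t ht hst => by
      have := hgm (mem_Ioi.2 (seg_pos ha hb hs)) (mem_Ioi.2 (seg_pos ha hb ht))
        (hseg s hs t ht hst)
      simp only; linarith)
    (fun s hs t ht hst => by
      have := hfm (mem_Ioi.2 (seg_pos ha hb hs)) (mem_Ioi.2 (seg_pos ha hb ht))
        (hseg s hs t ht hst)
      simp only; linarith)
    (hcont f hf).neg
    (by
      rw [intervalIntegral.integral_neg, intervalIntegral.integral_sub hgi intervalIntegrable_const,
        show (∫ u in (0:ℝ)..1, g (a + u * (b - a))) = m from rfl]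
      simp)
  have h1 : ∫ u in (0:ℝ)..1, -f (a + u * (b - a)) * -(g (a + u * (b - a)) - m)
      = av (fun x => f x * g x) a b - av f a b * m := by
    have e : ∀ u : ℝ, -f (a + u * (b - a)) * -(g (a + u * (b - a)) - m)
        = f (a + u * (b - a)) * g (a + u * (b - a)) - f (a + u * (b - a)) * m := fun u => by ring
    simp only [e]
    rw [intervalIntegral.integral_sub hfgi (hfi.mul_const _), intervalIntegral.integral_mul_const]
    rfl
  rw [h1] at h0
  linarith

section cor

variable {ψ : ℝ → ℝ} (hm : MonotoneOn ψ (Ioi 0)) (hc : ContinuousOn ψ (Ioi 0))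

include hm hc

/-- `Σ_i F_i'² ≤ ψ/x²` gives `Σ_pairs Σ_i F_i[a,b]² ≤ (1/(2abc)) Σ_pairs (a+b) φ[a,b]`
(`f i = F_i'`, `av ψ a b = φ[a,b]`) -/
theorem si_sq {ι : Type*} (s : Finset ι) {f : ι → ℝ → ℝ}
    (hf : ∀ i ∈ s, ContinuousOn (f i) (Ioi 0)) (h : ∀ x, 0 < x → ∑ i ∈ s, f i x ^ 2 ≤ ψ x / x ^ 2)
    {a b c : ℝ} (ha : 0 < a) (hb : 0 < b) (hc0 : 0 < c) :
    ∑ i ∈ s, (av (f i) a b ^ 2 + av (f i) b c ^ 2 + av (f i) a c ^ 2)
      ≤ 1 / (2 * a * b * c) * ((a + b) * av ψ a b + (b + c) * av ψ b c + (a + c) * av ψ a c) := by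
  refine le_trans ?_ (si hm hc ha hb hc0)
  have hqc : ContinuousOn (fun x => ψ x / x ^ 2) (Ioi 0) := by
    refine (hc.mul inv_sq_cont).congr fun x _ => ?_
    show ψ x / x ^ 2 = ψ x * (1 / x ^ 2)
    ring
  have hsq : ContinuousOn (fun x => ∑ i ∈ s, f i x ^ 2) (Ioi 0) :=
    continuousOn_finset_sum _ fun i hi => (hf i hi).pow 2
  have key : ∀ p q : ℝ, 0 < p → 0 < q →
      ∑ i ∈ s, av (f i) p q ^ 2 ≤ av (fun x => ψ x / x ^ 2) p q := fun p q hp hq =>
    calc ∑ i ∈ s, av (f i) p q ^ 2 ≤ ∑ i ∈ s, av (fun x => f i x ^ 2) p q :=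
          Finset.sum_le_sum fun i hi => av_sq_le (hf i hi) hp hq
      _ = av (fun x => ∑ i ∈ s, f i x ^ 2) p q :=
          (av_sum s (f := fun i x => f i x ^ 2) (fun i hi => (hf i hi).pow 2) hp hq).symm
      _ ≤ av (fun x => ψ x / x ^ 2) p q := av_mono hsq hqc h hp hq
  rw [Finset.sum_add_distrib, Finset.sum_add_distrib]
  exact add_le_add (add_le_add (key a b ha hb) (key b c hb hc0)) (key a c ha hc0)

/-- product form: `f g ≤ ψ/x²` with `f`, `g` both decreasing -/
theorem si_prod {f g : ℝ → ℝ} (hf : ContinuousOn f (Ioi 0)) (hg : ContinuousOn g (Ioi 0))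
    (hfm : AntitoneOn f (Ioi 0)) (hgm : AntitoneOn g (Ioi 0))
    (h : ∀ x, 0 < x → f x * g x ≤ ψ x / x ^ 2) {a b c : ℝ} (ha : 0 < a) (hb : 0 < b)
    (hc0 : 0 < c) :
    av f a b * av g a b + av f b c * av g b c + av f a c * av g a c
      ≤ 1 / (2 * a * b * c) * ((a + b) * av ψ a b + (b + c) * av ψ b c + (a + c) * av ψ a c) := by
  refine le_trans ?_ (si hm hc ha hb hc0)
  have hqc : ContinuousOn (fun x => ψ x / x ^ 2) (Ioi 0) := by
    refine (hc.mul inv_sq_cont).congr fun x _ => ?_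
    show ψ x / x ^ 2 = ψ x * (1 / x ^ 2)
    ring
  have key : ∀ p q : ℝ, 0 < p → 0 < q →
      av f p q * av g p q ≤ av (fun x => ψ x / x ^ 2) p q := fun p q hp hq =>
    (av_mul_le_anti hf hg hfm hgm hp hq).trans (av_mono (hf.mul hg) hqc h hp hq)
  exact add_le_add (add_le_add (key a b ha hb) (key b c hb hc0)) (key a c ha hc0)

omit hc in
/-- means of an increasing function are ordered -/
theorem av_le_av (hc : ContinuousOn ψ (Ioi 0)) {a b c : ℝ} (ha : 0 < a) (hb : 0 < b) (hc0 : 0 < c)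
    (hbc : b ≤ c) : av ψ a b ≤ av ψ a c := by
  unfold av
  refine intervalIntegral.integral_mono_on zero_le_one (av_intervalIntegrable hc ha hb)
    (av_intervalIntegrable hc ha hc0) fun t ht =>
      hm (mem_Ioi.2 (seg_pos ha hb ht)) (mem_Ioi.2 (seg_pos ha hc0 ht)) ?_
  have := mul_le_mul_of_nonneg_left hbc ht.1
  nlinarith

/-- the easy form (747): `Σ_pairs ψ[a,b]/(ab) ≤ (1/(2abc)) Σ_pairs (a+b) ψ[a,b]` -/
theorem si_easy {a b c : ℝ} (ha : 0 < a) (hb : 0 < b) (hc0 : 0 < c) :
    av ψ a b / (a * b) + av ψ b c / (b * c) + av ψ a c / (a * c)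
      ≤ 1 / (2 * a * b * c) * ((a + b) * av ψ a b + (b + c) * av ψ b c + (a + c) * av ψ a c) := by
  have h1 : 0 ≤ (b - c) * (av ψ a b - av ψ a c) := by
    rcases le_total b c with h | h
    · exact mul_nonneg_of_nonpos_of_nonpos (sub_nonpos.2 h)
        (sub_nonpos.2 (av_le_av hm hc ha hb hc0 h))
    · exact mul_nonneg (sub_nonneg.2 h) (sub_nonneg.2 (av_le_av hm hc ha hc0 hb h))
  have h2 : 0 ≤ (a - c) * (av ψ a b - av ψ b c) := by
    rw [av_comm _ a b]
    rcases le_total a c with h | h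
    · exact mul_nonneg_of_nonpos_of_nonpos (sub_nonpos.2 h)
        (sub_nonpos.2 (av_le_av hm hc hb ha hc0 h))
    · exact mul_nonneg (sub_nonneg.2 h) (sub_nonneg.2 (av_le_av hm hc hb hc0 ha h))
  have h3 : 0 ≤ (b - a) * (av ψ b c - av ψ a c) := by
    rw [av_comm _ b c, av_comm _ a c]
    rcases le_total b a with h | h
    · exact mul_nonneg_of_nonpos_of_nonpos (sub_nonpos.2 h)
        (sub_nonpos.2 (av_le_av hm hc hc0 hb ha h))
    · exact mul_nonneg (sub_nonneg.2 h) (sub_nonneg.2 (av_le_av hm hc hc0 ha hb h))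
  rw [← sub_nonneg]
  have e : 1 / (2 * a * b * c) * ((a + b) * av ψ a b + (b + c) * av ψ b c + (a + c) * av ψ a c) -
      (av ψ a b / (a * b) + av ψ b c / (b * c) + av ψ a c / (a * c)) =
      ((b - c) * (av ψ a b - av ψ a c) + (a - c) * (av ψ a b - av ψ b c) +
        (b - a) * (av ψ b c - av ψ a c)) / (2 * a * b * c) := by
    field_simp
    ring
  rw [e]
  positivity

end cor

end Crest.Agent.R253.SI358
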