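import Crest.Agent.R253.SlackPair_688
import Crest.Agent.R253.SI_358
import Crest.Agent.R253.SpecCalc_999

/-!
R253 (S1): the scalar functions of the E-route as functions of the eigenvalue `e = mu z`,
in the letters `dd1` (first divided difference with confluent value).

`zf` = inverse of `mu`, `uf = H0 ∘ zf` (`v` as a function of `e`), `kf = kk ∘ zf`,
`phif e = kf e ^ 2 / e = e * uf e ^ 2`.
-/

noncomputable section

open Real Set Filter Topology

namespace Crest.Agent.R253.ScalE688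

open Crest.Agent.R253.Mills37 Crest.Agent.R253.Slack688

local notation "dd1" => SpecCalc999.dd1

lemma mu_strictMono : StrictMono mu :=
  strictMono_of_hasDerivAt_pos mu_hasDerivAt mu_ee_pos

lemma lt_mu (z : ℝ) : z < mu z := by
  have := ee_pos z
  have := mu_eq z
  linarith

lemma mu_cont : Continuous mu := continuous_iff_continuousAt.2 fun z => (mu_hasDerivAt z).continuousAt

lemma ee_cont : Continuous ee := continuous_iff_continuousAt.2 fun z => (ee_hasDerivAt z).continuousAt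

lemma kk_cont : Continuous kk := continuous_iff_continuousAt.2 fun z => (kk_hasDerivAt z).continuousAt

lemma H0_cont : Continuous H0 := continuous_iff_continuousAt.2 fun z => (H0_has z).continuousAt

lemma aa_cont : Continuous aa := continuous_iff_continuousAt.2 fun z => (aa_has z).continuousAt

lemma mu_surj {e : ℝ} (he : 0 < e) : ∃ z, mu z = e := by
  have h1 : ∀ᶠ z in atBot, mu z < e := mu_tendsto_bot.eventually (gt_mem_nhds he)
  obtain ⟨a, ha⟩ := h1.exists
  have h2 : e ≤ mu e := (lt_mu e).le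
  obtain ⟨z, hz⟩ := intermediate_value_univ a e mu_cont ⟨ha.le, h2⟩
  exact ⟨z, hz⟩

/-- the inverse function of `mu` -/
def zf : ℝ → ℝ := Function.invFun mu

lemma zf_mu (z : ℝ) : zf (mu z) = z := Function.leftInverse_invFun mu_strictMono.injective z

lemma mu_zf {e : ℝ} (he : 0 < e) : mu (zf e) = e := by
  obtain ⟨z, rfl⟩ := mu_surj he
  rw [zf_mu]

lemma zf_lt {a b : ℝ} (ha : 0 < a) (hab : a < b) : zf a < zf b := by
  have h : mu (zf a) < mu (zf b) := by rwa [mu_zf ha, mu_zf (ha.trans hab)]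
  exact mu_strictMono.lt_iff_lt.1 h

lemma zf_le {a b : ℝ} (ha : 0 < a) (hab : a ≤ b) : zf a ≤ zf b := by
  rcases hab.eq_or_lt with h | h
  · rw [h]
  · exact (zf_lt ha h).le

lemma zf_strictMonoOn : StrictMonoOn zf (Ioi 0) := fun _ ha _ _ hab => zf_lt ha hab

lemma zf_inj {a b : ℝ} (ha : 0 < a) (hb : 0 < b) (h : zf a = zf b) : a = b := by
  rw [← mu_zf ha, ← mu_zf hb, h]

lemma zf_contAt {e : ℝ} (he : 0 < e) : ContinuousAt zf e := by
  refine zf_strictMonoOn.continuousAt_of_image_mem_nhds (Ioi_mem_nhds he) ?_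
  have : zf '' Ioi 0 = univ := by
    apply eq_univ_of_forall
    intro x
    exact ⟨mu x, mu_pos x, zf_mu x⟩
  rw [this]
  exact univ_mem

/-- `z'(e) = 1/(e s)` -/
def zf' (e : ℝ) : ℝ := 1 / (e * ee (zf e))

lemma zf_has {e : ℝ} (he : 0 < e) : HasDerivAt zf (zf' e) e := by
  have h := HasDerivAt.of_local_left_inverse (zf_contAt he) (mu_hasDerivAt (zf e))
    (mul_pos (mu_pos _) (ee_pos _)).ne' (by
      filter_upwards [Ioi_mem_nhds he] with x hx
      exact mu_zf hx)
  rw [mu_zf he] at h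
  rwa [zf', one_div]

lemma zf'_pos {e : ℝ} (he : 0 < e) : 0 < zf' e := by
  have := ee_pos (zf e)
  unfold zf'; positivity

lemma zf_contOn : ContinuousOn zf (Ioi 0) := fun _ he => (zf_contAt he).continuousWithinAt

lemma zf'_contOn : ContinuousOn zf' (Ioi 0) := by
  have h : ContinuousOn (fun e => ee (zf e)) (Ioi 0) := ee_cont.comp_continuousOn zf_contOn
  refine continuousOn_const.div (continuousOn_id.mul h) fun e he => ?_
  exact (mul_pos he (ee_pos _)).ne'

/-- chain rule for a function of `z` -/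
lemma comp_has {f f' : ℝ → ℝ} (hf : ∀ z, HasDerivAt f (f' z) z) {e : ℝ} (he : 0 < e) :
    HasDerivAt (fun e => f (zf e)) (f' (zf e) * zf' e) e :=
  (hf (zf e)).comp e (zf_has he)

lemma comp_contOn {f : ℝ → ℝ} (hf : Continuous f) : ContinuousOn (fun e => f (zf e)) (Ioi 0) :=
  hf.comp_continuousOn zf_contOn

/-- chain rule for divided differences -/
lemma dd1_comp {f f' : ℝ → ℝ} {a b : ℝ} (ha : 0 < a) (hb : 0 < b) :
    dd1 (fun e => f (zf e)) (fun e => f' (zf e) * zf' e) a b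
      = dd1 f f' (zf a) (zf b) * dd1 zf zf' a b := by
  by_cases h : a = b
  · subst h; simp [SpecCalc999.dd1]
  · have hz : zf a ≠ zf b := fun h' => h (zf_inj ha hb h')
    have h1 : a - b ≠ 0 := sub_ne_zero.2 h
    have h2 : zf a - zf b ≠ 0 := sub_ne_zero.2 hz
    simp only [SpecCalc999.dd1, if_neg h, if_neg hz]
    field_simp

/-- `v` as a function of `e` -/
def uf (e : ℝ) : ℝ := H0 (zf e)
def uf' (e : ℝ) : ℝ := aa (zf e) * zf' e

lemma uf_has {e : ℝ} (he : 0 < e) : HasDerivAt uf (uf' e) e := comp_has H0_has he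

lemma uf_pos (e : ℝ) : 0 < uf e := H0_pos _

lemma dd1_uf {a b : ℝ} (ha : 0 < a) (hb : 0 < b) :
    dd1 uf uf' a b = dd1 H0 aa (zf a) (zf b) * dd1 zf zf' a b := dd1_comp ha hb

/-- `k` as a function of `e` -/
def kf (e : ℝ) : ℝ := kk (zf e)
/-- `k'(e) = 1/s` -/
def kf' (e : ℝ) : ℝ := mu (zf e) * zf' e

lemma kf_has {e : ℝ} (he : 0 < e) : HasDerivAt kf (kf' e) e := comp_has kk_hasDerivAt he

lemma kf'_eq {e : ℝ} (he : 0 < e) : kf' e = 1 / ee (zf e) := by
  have h := ee_pos (zf e)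
  rw [kf', mu_zf he, zf']
  field_simp

lemma kf_eq {e : ℝ} (he : 0 < e) : kf e = e * uf e := by
  rw [kf, uf, H0, mu_zf he]
  field_simp

lemma dd1_kf {a b : ℝ} (ha : 0 < a) (hb : 0 < b) :
    dd1 kf kf' a b = dd1 kk mu (zf a) (zf b) * dd1 zf zf' a b := dd1_comp ha hb

/-- `ψ = v (1 + v') / s` -/
def psi (z : ℝ) : ℝ := H0 z * (1 + aa z) / ee z

lemma psi_pos (z : ℝ) : 0 < psi z := by
  have h1 := H0_pos z
  have h2 := aa_pos z
  have h3 := ee_pos z
  unfold psi; positivity

lemma psi_mono : Monotone psi := by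
  intro x y hxy
  have h1 := H0_pos x
  have h2 := aa_pos x
  have h3 := ee_pos x
  have h3' := ee_pos y
  have h4 : H0 x ≤ H0 y := H0_strictMono.monotone hxy
  have h5 : aa x ≤ aa y := aa_strictMono.monotone hxy
  have h6 := ee_anti hxy
  have h7 : 0 < H0 y := H0_pos y
  have h8 : 0 < aa y := aa_pos y
  unfold psi
  apply div_le_div₀ (by positivity) _ h3' h6
  exact mul_le_mul h4 (by linarith) (by positivity) h7.le

lemma psi_cont : Continuous psi := by
  unfold psi
  exact (H0_cont.mul (continuous_const.add aa_cont)).div ee_cont ee_ne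

/-- `φ(e) = k²/e` -/
def phif (e : ℝ) : ℝ := kf e ^ 2 / e
def phif' (e : ℝ) : ℝ := psi (zf e)

lemma phif_eq {e : ℝ} (he : 0 < e) : phif e = e * uf e ^ 2 := by
  rw [phif, kf_eq he]
  field_simp

lemma phif_has {e : ℝ} (he : 0 < e) : HasDerivAt phif (phif' e) e := by
  have h := ((kf_has he).pow 2).div (hasDerivAt_id e) he.ne'
  refine HasDerivAt.congr_deriv (f := phif) h ?_
  have h1 := ee_pos (zf e)
  have h2 := mu_zf he
  rw [kf'_eq he]
  simp only [phif', psi, kf, aa, H0, id, Pi.pow_apply, h2]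
  field_simp
  norm_num
  ring

lemma phif'_mono : MonotoneOn phif' (Ioi 0) := fun _ ha _ _ hab => psi_mono (zf_le ha hab)

lemma phif'_contOn : ContinuousOn phif' (Ioi 0) := comp_contOn psi_cont

/-- `av` of SI_358 is `dd1` of a primitive -/
lemma av_dd1 {f f' : ℝ → ℝ} (hf : ∀ e, 0 < e → HasDerivAt f (f' e) e)
    (hc : ContinuousOn f' (Ioi 0)) {a b : ℝ} (ha : 0 < a) (hb : 0 < b) :
    SI358.av f' a b = dd1 f f' a b := by
  by_cases h : a = b
  · subst h; rw [SI358.av_self]; simp [SpecCalc999.dd1]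
  · rw [SI358.av_eq _ h, SpecCalc999.dd1_comm, SpecCalc999.dd1, if_neg (Ne.symm h)]
    congr 1
    refine intervalIntegral.integral_eq_sub_of_hasDerivAt (fun x hx => hf x ?_)
      (SI358.intervalIntegrable_of_pos hc ha hb)
    exact lt_of_lt_of_le (lt_min ha hb) hx.1

theorem cheb_dd1 {a b c : ℝ} (ha : 0 < a) (hb : 0 < b) (hc : 0 < c) :
    dd1 phif phif' a b / (a * b) + dd1 phif phif' b c / (b * c) + dd1 phif phif' a c / (a * c)
      ≤ 1 / (2 * a * b * c) * ((a + b) * dd1 phif phif' a b + (b + c) * dd1 phif phif' b c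
        + (a + c) * dd1 phif phif' a c) := by
  have h := SI358.si_easy phif'_mono phif'_contOn ha hb hc
  rw [av_dd1 (fun e he => phif_has he) phif'_contOn ha hb,
    av_dd1 (fun e he => phif_has he) phif'_contOn hb hc,
    av_dd1 (fun e he => phif_has he) phif'_contOn ha hc] at h
  exact h

/-- (195 (1)) -/
theorem pair_id {a b : ℝ} (ha : 0 < a) (hb : 0 < b) :
    dd1 phif phif' a b / (a * b) + dd1 uf uf' a b ^ 2 = dd1 kf kf' a b ^ 2 / (a * b) := by
  by_cases h : a = b
  · subst h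
    simp only [SpecCalc999.dd1, if_true]
    have h1 := ee_pos (zf a)
    have h2 := mu_zf ha
    rw [kf'_eq ha, phif', psi, uf', zf', aa]
    field_simp
    ring
  · have h1 : a - b ≠ 0 := sub_ne_zero.2 h
    simp only [SpecCalc999.dd1, if_neg h, phif_eq ha, phif_eq hb, kf_eq ha, kf_eq hb]
    field_simp
    ring

/-- the pair slack `rho` of 195 -/
def rho (x y : ℝ) : ℝ := dd1 kk mu x y ^ 2 / (mu x * mu y) - 1

lemma rho_self (x : ℝ) : rho x x = 0 := by
  have := mu_ne x
  simp only [rho, SpecCalc999.dd1, if_true]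
  field_simp
  ring

lemma rho_comm (x y : ℝ) : rho x y = rho y x := by
  rw [rho, rho, SpecCalc999.dd1_comm, mul_comm (mu x)]

theorem pair_rho {a b : ℝ} (ha : 0 < a) (hb : 0 < b) :
    dd1 phif phif' a b / (a * b) - (dd1 zf zf' a b ^ 2 - dd1 uf uf' a b ^ 2)
      = dd1 zf zf' a b ^ 2 * rho (zf a) (zf b) := by
  have h1 := pair_id ha hb
  have h2 : dd1 phif phif' a b / (a * b) - (dd1 zf zf' a b ^ 2 - dd1 uf uf' a b ^ 2)
      = dd1 kf kf' a b ^ 2 / (a * b) - dd1 zf zf' a b ^ 2 := by linarith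
  rw [h2, dd1_kf ha hb, rho, mu_zf ha, mu_zf hb]
  ring

/-- **(SI) with the full slack**, all arguments. -/
theorem SI_e {a b c : ℝ} (ha : 0 < a) (hb : 0 < b) (hc : 0 < c) :
    (dd1 zf zf' a b ^ 2 * rho (zf a) (zf b) + dd1 zf zf' b c ^ 2 * rho (zf b) (zf c)
      + dd1 zf zf' a c ^ 2 * rho (zf a) (zf c))
      + ((dd1 zf zf' a b ^ 2 - dd1 uf uf' a b ^ 2) + (dd1 zf zf' b c ^ 2 - dd1 uf uf' b c ^ 2)
        + (dd1 zf zf' a c ^ 2 - dd1 uf uf' a c ^ 2))
      ≤ 1 / (2 * a * b * c) * ((a + b) * dd1 phif phif' a b + (b + c) * dd1 phif phif' b c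
        + (a + c) * dd1 phif phif' a c) := by
  have h := cheb_dd1 ha hb hc
  have h1 := pair_rho ha hb
  have h2 := pair_rho hb hc
  have h3 := pair_rho ha hc
  linarith

/-- `rho ≥ (1/12) s(max)² (x-y)²`, in particular `rho ≥ 0`. -/
theorem rho_ge {x y : ℝ} (hxy : y ≤ x) : 1 / 12 * ee x ^ 2 * (x - y) ^ 2 ≤ rho x y := by
  rcases hxy.eq_or_lt with h | h
  · subst h; rw [rho_self]; simp
  · have h0 : 0 < x - y := sub_pos.2 h
    have h1 := pair_slack hxy
    have h2 : (1 / mu y - 1 / mu x) * (kk x ^ 2 / mu x - kk y ^ 2 / mu y)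
        - ((x - y) ^ 2 - (H0 x - H0 y) ^ 2) = (x - y) ^ 2 * rho x y := by
      have e1 : x ≠ y := h.ne'
      have e2 : x - y ≠ 0 := h0.ne'
      have e3 := mu_ne x
      have e4 := mu_ne y
      simp only [rho, SpecCalc999.dd1, if_neg e1, H0]
      field_simp
      ring
    rw [h2] at h1
    have h3 : (x - y) ^ 2 * (1 / 12 * ee x ^ 2 * (x - y) ^ 2) ≤ (x - y) ^ 2 * rho x y := by
      calc _ = 1 / 12 * ee x ^ 2 * (x - y) ^ 4 := by ring
        _ ≤ _ := h1
    exact le_of_mul_le_mul_left h3 (by positivity)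

theorem rho_nonneg (x y : ℝ) : 0 ≤ rho x y := by
  rcases le_total y x with h | h
  · exact le_trans (by positivity) (rho_ge h)
  · rw [rho_comm]; exact le_trans (by positivity) (rho_ge h)

theorem SI_e0 {a b c : ℝ} (ha : 0 < a) (hb : 0 < b) (hc : 0 < c) :
    ((dd1 zf zf' a b ^ 2 - dd1 uf uf' a b ^ 2) + (dd1 zf zf' b c ^ 2 - dd1 uf uf' b c ^ 2)
        + (dd1 zf zf' a c ^ 2 - dd1 uf uf' a c ^ 2))
      ≤ 1 / (2 * a * b * c) * ((a + b) * dd1 phif phif' a b + (b + c) * dd1 phif phif' b c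
        + (a + c) * dd1 phif phif' a c) := by
  have h := SI_e ha hb hc
  have h1 := mul_nonneg (sq_nonneg (dd1 zf zf' a b)) (rho_nonneg (zf a) (zf b))
  have h2 := mul_nonneg (sq_nonneg (dd1 zf zf' b c)) (rho_nonneg (zf b) (zf c))
  have h3 := mul_nonneg (sq_nonneg (dd1 zf zf' a c)) (rho_nonneg (zf a) (zf c))
  linarith

end Crest.Agent.R253.ScalE688
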