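import Crest.Agent.R253.Frame_321
import Crest.Agent.R253.Spine_973
import Crest.Agent.R253.ScalE_688
import Crest.Agent.R253.Jord_192

/-!
# R253: the pointwise energy inequality (helper321)

`RR(1) ≥ Σ |∂_c ζ|² - Σ |∂_c U|² + Σ_c slk ρ (∂_c ζ)` for `ζ = z(M)`, `U = v(ζ)`.
-/

set_option autoImplicit false

open Matrix Filter Topology Set
open scoped ContDiff

noncomputable section

namespace Crest.Agent.R253.Frame321

open Crest.Agent.R253.SpecCalc999 Crest.Agent.R253.SpecField321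
  Crest.Agent.R238.Gap
open Crest.Agent.R253.Meh74 hiding ip

open Crest.Agent.R253.ScalE688 (zf zf' uf uf' phif phif' rho zf_has uf_has phif_has phif_eq SI_e)
open Crest.Agent.R253.Jord192 (slk)

variable {m n : ℕ}

lemma dd1_congr {f f' g g' : ℝ → ℝ} {a b : ℝ} (ha : f a = g a) (hb : f b = g b)
    (ha' : f' a = g' a) : dd1 f f' a b = dd1 g g' a b := by
  unfold dd1
  rw [ha, hb, ha']

lemma dd1_phif {a b : ℝ} (ha : 0 < a) (hb : 0 < b) :
    dd1 (fun t => t * (uf t * uf t)) (fun t => uf t * uf t + t * (uf' t * uf t + uf t * uf' t)) a b =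
      dd1 phif phif' a b := by
  refine dd1_congr ?_ ?_ ?_
  · rw [phif_eq ha]; ring
  · rw [phif_eq hb]; ring
  · have h1 : HasDerivAt (fun t => t * (uf t * uf t))
        (1 * (uf a * uf a) + a * (uf' a * uf a + uf a * uf' a)) a :=
      (hasDerivAt_id a).mul ((uf_has ha).mul (uf_has ha))
    have h2 : HasDerivAt (fun t => t * (uf t * uf t)) (phif' a) a := by
      refine (phif_has ha).congr_of_eventuallyEq ?_
      filter_upwards [Ioi_mem_nhds ha] with t ht
      rw [phif_eq ht]; ring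
    have := h1.unique h2
    simp only [one_mul] at this
    exact this

/-- orthogonal invariance in the derivative index -/
lemma sum_rf_sq {U : Mat m} (h : U * Uᵀ = 1) (X : Fin m → Mat m) (i j : Fin m) :
    ∑ k, rf U X k i j ^ 2 = ∑ c, (Uᵀ * X c * U) i j ^ 2 := by
  have e1 : ∀ k, rf U X k i j = ∑ c, U c k * (Uᵀ * X c * U) i j := by
    intro k
    rw [rf_eq, Matrix.sum_apply]
    exact Finset.sum_congr rfl fun c _ => by rw [Matrix.smul_apply, smul_eq_mul]
  set Y : Fin m → ℝ := fun c => (Uᵀ * X c * U) i j with hY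
  have e2 : ∀ k, rf U X k i j ^ 2 = ∑ c, ∑ d, (U c k * U d k) * (Y c * Y d) := by
    intro k
    rw [e1, pow_two, Finset.sum_mul_sum]
    exact Finset.sum_congr rfl fun c _ => Finset.sum_congr rfl fun d _ => by ring
  simp only [e2]
  have e3 : ∀ c d, ∑ k, U c k * U d k = if c = d then (1 : ℝ) else 0 := by
    intro c d
    have h3 := congrFun (congrFun h c) d
    rw [Matrix.mul_apply, Matrix.one_apply] at h3
    rw [← h3]
    exact Finset.sum_congr rfl fun k _ => by rw [Matrix.transpose_apply]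
  rw [Finset.sum_comm]
  refine Finset.sum_congr rfl fun c _ => ?_
  rw [Finset.sum_comm]
  simp only [← Finset.sum_mul, e3, ite_mul, one_mul, zero_mul, Finset.sum_ite_eq,
    Finset.mem_univ, if_true]
  rw [hY]; ring

lemma SS_rf {U : Mat m} (h : U * Uᵀ = 1) (F : Fin m → Fin m → ℝ) (X : Fin m → Mat m) :
    SS (fun i j _ => F i j) (rf U X) = ∑ c, ∑ i, ∑ j, F i j * (Uᵀ * X c * U) i j ^ 2 := by
  unfold SS
  rw [Finset.sum_comm]
  have e1 : (∑ c, ∑ i, ∑ j, F i j * (Uᵀ * X c * U) i j ^ 2) =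
      ∑ i, ∑ j, F i j * ∑ c, (Uᵀ * X c * U) i j ^ 2 := by
    rw [Finset.sum_comm]
    refine Finset.sum_congr rfl fun i _ => ?_
    rw [Finset.sum_comm]
    exact Finset.sum_congr rfl fun j _ => by rw [Finset.mul_sum]
  rw [e1]
  refine Finset.sum_congr rfl fun i _ => ?_
  rw [Finset.sum_comm]
  refine Finset.sum_congr rfl fun j _ => ?_
  rw [← sum_rf_sq h, Finset.mul_sum]

variable {A U N : Mat m} {e : Fin m → ℝ} {S : Fin m → Mat m}

/-- **the energy inequality at a point** -/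
theorem energy_pt (h : Fr A U e) (he : ∀ i, 0 < e i) (hN : N * A = 1) (hS : Sy S) :
    (∑ c, hs (DK zf zf' A (S c))) - (∑ c, hs (DK uf uf' A (S c))) +
      (∑ c, slk rho U (fun i => zf (e i)) (DK zf zf' A (S c))) ≤
    (∑ a, ∑ b, N a b * ip (DK (fun t => uf t * uf t) (fun t => uf' t * uf t + uf t * uf' t) A (S b))
        (S a)) +
      (∑ i, ∑ j, (_root_.cfc (fun t => uf t * uf t) A) i j * Qm N S i j) := by
  have he' : ∀ i, e i ≠ 0 := fun i => (he i).ne'
  rw [spec_form3 h he' hN hS, sum_DK_sq3 h hS, sum_DK_sq3 h hS]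
  have e1 : (∑ c, slk rho U (fun i => zf (e i)) (DK zf zf' A (S c))) =
      SS (fun i j _ => rho (zf (e i)) (zf (e j)) * dd1 zf zf' (e i) (e j) ^ 2) (rf U S) := by
    rw [SS_rf h.o']
    refine Finset.sum_congr rfl fun c _ => ?_
    unfold slk
    refine Finset.sum_congr rfl fun i _ => Finset.sum_congr rfl fun j _ => ?_
    rw [DK_frame h]; ring
  rw [SS_pairs (hS.rf U)] at e1
  rw [e1, SS_sub, SS_add]
  refine SS_mono (fun i j k => ?_) _
  have h1 := SI_e (he i) (he j) (he k)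
  unfold tri
  rw [dd1_phif (he i) (he j), dd1_phif (he j) (he k), dd1_phif (he i) (he k)]
  have e2 : ((e i + e j) * dd1 phif phif' (e i) (e j) + (e j + e k) * dd1 phif phif' (e j) (e k) +
      (e i + e k) * dd1 phif phif' (e i) (e k)) / (2 * e i * e j * e k) / 3 =
      (1 / (2 * e i * e j * e k) * ((e i + e j) * dd1 phif phif' (e i) (e j) +
        (e j + e k) * dd1 phif phif' (e j) (e k) + (e i + e k) * dd1 phif phif' (e i) (e k))) / 3 := by
    ring
  rw [e2]
  linarith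

/-! ### binding to the fields of the spine -/

section field

variable {M Nn : Fld n} {G : Fin n → E n → ℝ} {V : E n → ℝ} {lo hi : ℝ}

/-- `ζ = z(M)` entrywise -/
def Zf (M : Fld n) : Fld n := fun i j x => _root_.cfc zf (Mx M x) i j
/-- `U = v(z(M))` entrywise -/
def Uf (M : Fld n) : Fld n := fun i j x => _root_.cfc uf (Mx M x) i j
/-- the family `c ↦ ∂_c M` at `x` -/
def dM (M : Fld n) (x : E n) (c : Fin n) : Mat n := Mx (fun a b => pd c (M a b)) x

lemma Mx_Zf (M : Fld n) (x : E n) : Mx (Zf M) x = _root_.cfc zf (Mx M x) := rfl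
lemma Mx_Uf (M : Fld n) (x : E n) : Mx (Uf M) x = _root_.cfc uf (Mx M x) := rfl

lemma zf_hasOn (hlo : 0 < lo) : ∀ x ∈ Icc lo hi, HasDerivAt zf (zf' x) x :=
  fun _ hx => zf_has (lt_of_lt_of_le hlo hx.1)
lemma uf_hasOn (hlo : 0 < lo) : ∀ x ∈ Icc lo hi, HasDerivAt uf (uf' x) x :=
  fun _ hx => uf_has (lt_of_lt_of_le hlo hx.1)

lemma zf'_contOn' (hlo : 0 < lo) : ContinuousOn zf' (Icc lo hi) :=
  Crest.Agent.R253.ScalE688.zf'_contOn.mono fun _ hx => lt_of_lt_of_le hlo hx.1

lemma uf'_contOn' (hlo : 0 < lo) : ContinuousOn uf' (Icc lo hi) := by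
  have h1 : ContinuousOn (fun e => Crest.Agent.R253.Slack688.aa (zf e)) (Icc lo hi) :=
    (Crest.Agent.R253.ScalE688.comp_contOn Crest.Agent.R253.ScalE688.aa_cont).mono
      fun _ hx => lt_of_lt_of_le hlo hx.1
  exact h1.mul (zf'_contOn' hlo)

lemma c1_Zf (hM : MF M lo hi) (hlo : 0 < lo) (i j : Fin n) : C1 (Zf M i j) :=
  c1_cfc hM (zf_hasOn hlo) (zf'_contOn' hlo) i j
lemma c1_Uf (hM : MF M lo hi) (hlo : 0 < lo) (i j : Fin n) : C1 (Uf M i j) :=
  c1_cfc hM (uf_hasOn hlo) (uf'_contOn' hlo) i j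

lemma dM_Zf (hM : MF M lo hi) (hlo : 0 < lo) (x : E n) (c : Fin n) :
    dM (Zf M) x c = DK zf zf' (Mx M x) (dM M x c) := by
  ext i j
  exact pd_cfc hM (zf_hasOn hlo) x i j c
lemma dM_Uf (hM : MF M lo hi) (hlo : 0 < lo) (x : E n) (c : Fin n) :
    dM (Uf M) x c = DK uf uf' (Mx M x) (dM M x c) := by
  ext i j
  exact pd_cfc hM (uf_hasOn hlo) x i j c

lemma sy_dM (h : HD G M) (x : E n) : Sy (dM M x) := by
  constructor
  · intro a b c
    change pd c (M a b) x = pd c (M b a) x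
    rw [h.s a b]
  · intro a b c
    change pd c (M a b) x = pd b (M a c) x
    rw [h.t a b c]

lemma dh2_eq (A : Fld n) (x : E n) : dh2 A x = ∑ c, hs (dM A x c) := by
  unfold dh2 hs dM
  symm
  rw [Finset.sum_comm]
  refine Finset.sum_congr rfl fun i _ => ?_
  rw [Finset.sum_comm]
  rfl

lemma cfc_symm {A : Mat n} (hA : A.IsHermitian) (f : ℝ → ℝ) (i j : Fin n) :
    _root_.cfc f A i j = _root_.cfc f A j i := by
  obtain ⟨U, hU⟩ := exists_fr hA
  have h1 : (_root_.cfc f A)ᵀ = _root_.cfc f A := by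
    have e : _root_.cfc f A = U * Matrix.diagonal (fun i => f (hA.eigenvalues i)) * Uᵀ := by
      rw [← hU.cfc f]
      calc _root_.cfc f A = (U * Uᵀ) * _root_.cfc f A * (U * Uᵀ) := by
            rw [hU.o', Matrix.one_mul, Matrix.mul_one]
        _ = _ := by simp only [Matrix.mul_assoc]
    rw [e, Matrix.transpose_mul, Matrix.transpose_mul, Matrix.transpose_transpose,
      Matrix.diagonal_transpose, Matrix.mul_assoc]
  calc _root_.cfc f A i j = (_root_.cfc f A)ᵀ j i := rfl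
    _ = _ := by rw [h1]

lemma Zf_symm (hM : MF M lo hi) (i j : Fin n) : Zf M i j = Zf M j i := by
  funext x; exact cfc_symm (hM.h x) _ i j
lemma Uf_symm (hM : MF M lo hi) (i j : Fin n) : Uf M i j = Uf M j i := by
  funext x; exact cfc_symm (hM.h x) _ i j

lemma inv_mx (h : MA G M Nn V) (x : E n) : Mx Nn x * Mx M x = 1 := by
  ext i j
  rw [Matrix.mul_apply, Matrix.one_apply]
  exact h.inv x i j

/-- the multiplier `U²` -/
lemma UKU_dl (hM : MF M lo hi) (i j : Fin n) (x : E n) :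
    UKU (Uf M) dl i j x = _root_.cfc (fun t => uf t * uf t) (Mx M x) i j := by
  have h1 : _root_.cfc (fun t => uf t * uf t) (Mx M x) =
      _root_.cfc uf (Mx M x) * _root_.cfc uf (Mx M x) := by
    obtain ⟨U, hU⟩ := exists_fr (hM.h x)
    apply conj_inj hU.o'
    have e : Uᵀ * (_root_.cfc uf (Mx M x) * _root_.cfc uf (Mx M x)) * U =
        (Uᵀ * _root_.cfc uf (Mx M x) * U) * (Uᵀ * _root_.cfc uf (Mx M x) * U) := by
      calc Uᵀ * (_root_.cfc uf (Mx M x) * _root_.cfc uf (Mx M x)) * U =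
            Uᵀ * _root_.cfc uf (Mx M x) * (U * Uᵀ) * _root_.cfc uf (Mx M x) * U := by
              rw [hU.o', Matrix.mul_one]; simp only [Matrix.mul_assoc]
        _ = _ := by simp only [Matrix.mul_assoc]
    rw [e, hU.cfc, hU.cfc, Matrix.diagonal_mul_diagonal]
  rw [h1, Matrix.mul_apply]
  unfold UKU dl
  refine Finset.sum_congr rfl fun p _ => ?_
  simp only [mul_ite, mul_one, mul_zero, ite_mul, zero_mul, Finset.sum_ite_eq, Finset.mem_univ,
    if_true]
  rfl

lemma pd_UKU_dl (hM : MF M lo hi) (hlo : 0 < lo) (i j b : Fin n) (x : E n) :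
    pd b (UKU (Uf M) dl i j) x =
      DK (fun t => uf t * uf t) (fun t => uf' t * uf t + uf t * uf' t) (Mx M x) (dM M x b) i j := by
  rw [pd_UKU (fun i j => c1_Uf hM hlo i j), DK_mul (hM.h x), Matrix.add_apply, Matrix.mul_apply,
    Matrix.mul_apply, ← Finset.sum_add_distrib]
  refine Finset.sum_congr rfl fun p _ => ?_
  have e1 : ∀ a c, pd b (Uf M a c) x = DK uf uf' (Mx M x) (dM M x b) a c := fun a c =>
    pd_cfc hM (uf_hasOn hlo) x a c b
  simp only [e1]
  unfold dl
  simp only [mul_ite, mul_one, mul_zero, ite_mul, zero_mul, Finset.sum_add_distrib,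
    Finset.sum_ite_eq, Finset.mem_univ, if_true]
  rfl

/-- **the pointwise energy inequality** -/
theorem RR1_ge (h : MA G M Nn V) (hM : MF M lo hi) (hlo : 0 < lo) (x : E n) {U : Mat n}
    {e : Fin n → ℝ} (hU : Fr (Mx M x) U e) :
    dh2 (Zf M) x - dh2 (Uf M) x + (∑ c, slk rho U (fun i => zf (e i)) (dM (Zf M) x c)) ≤
      RR M Nn (Uf M) dl x := by
  have he : ∀ i, 0 < e i := fun i => lt_of_lt_of_le hlo (hM.s x (hU.mem_spec i)).1
  have h1 := energy_pt hU he (inv_mx h x) (sy_dM h.hd x)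
  have e1 : RR M Nn (Uf M) dl x = (∑ a, ∑ b, Mx Nn x a b * ip (DK (fun t => uf t * uf t)
      (fun t => uf' t * uf t + uf t * uf' t) (Mx M x) (dM M x b)) (dM M x a)) +
      (∑ i, ∑ j, (_root_.cfc (fun t => uf t * uf t) (Mx M x)) i j *
        Qm (Mx Nn x) (dM M x) i j) := by
    unfold RR
    congr 1
    · simp only [pd_UKU_dl hM hlo]
      have sw : ∀ F : Fin n → Fin n → Fin n → Fin n → ℝ,
          ∑ a, ∑ b, ∑ c, ∑ d, F a b c d = ∑ c, ∑ d, ∑ a, ∑ b, F a b c d := by
        intro F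
        calc ∑ a, ∑ b, ∑ c, ∑ d, F a b c d = ∑ a, ∑ c, ∑ b, ∑ d, F a b c d :=
              Finset.sum_congr rfl fun a _ => Finset.sum_comm
          _ = ∑ c, ∑ a, ∑ b, ∑ d, F a b c d := Finset.sum_comm
          _ = ∑ c, ∑ a, ∑ d, ∑ b, F a b c d :=
              Finset.sum_congr rfl fun c _ => Finset.sum_congr rfl fun a _ => Finset.sum_comm
          _ = ∑ c, ∑ d, ∑ a, ∑ b, F a b c d := Finset.sum_congr rfl fun c _ => Finset.sum_comm
      rw [sw]
      refine Finset.sum_congr rfl fun a _ => Finset.sum_congr rfl fun b _ => ?_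
      unfold ip
      rw [Finset.mul_sum]
      refine Finset.sum_congr rfl fun i _ => ?_
      rw [Finset.mul_sum]
      refine Finset.sum_congr rfl fun j _ => ?_
      rw [← mul_assoc]
      rfl
    · refine Finset.sum_congr rfl fun i _ => Finset.sum_congr rfl fun j _ => ?_
      rw [UKU_dl hM]
      rfl
  rw [e1, dh2_eq, dh2_eq]
  simp only [dM_Zf hM hlo, dM_Uf hM hlo]
  exact h1

/-- the slack function -/
def Slk (M Nn : Fld n) (x : E n) : ℝ := RR M Nn (Uf M) dl x - dh2 (Zf M) x + dh2 (Uf M) x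

lemma cg_Slk (h : MA G M Nn V) (hM : MF M lo hi) (hlo : 0 < lo) : CG (Slk M Nn) :=
  ((cg_RR h (fun i j => c1_Uf hM hlo i j) dl).sub (cg_dh2 fun i j => c1_Zf hM hlo i j)).add
    (cg_dh2 fun i j => c1_Uf hM hlo i j)

theorem slk_le (h : MA G M Nn V) (hM : MF M lo hi) (hlo : 0 < lo) (x : E n) {U : Mat n}
    {e : Fin n → ℝ} (hU : Fr (Mx M x) U e) :
    (∑ c, slk rho U (fun i => zf (e i)) (dM (Zf M) x c)) ≤ Slk M Nn x := by
  have := RR1_ge h hM hlo x hU
  unfold Slk
  linarith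

theorem Slk_nonneg (h : MA G M Nn V) (hM : MF M lo hi) (hlo : 0 < lo) (x : E n) :
    0 ≤ Slk M Nn x := by
  obtain ⟨U, hU⟩ := exists_fr (hM.h x)
  refine le_trans ?_ (slk_le h hM hlo x hU)
  refine Finset.sum_nonneg fun c _ => ?_
  unfold slk
  exact Finset.sum_nonneg fun i _ => Finset.sum_nonneg fun j _ =>
    mul_nonneg (Crest.Agent.R253.ScalE688.rho_nonneg _ _) (sq_nonneg _)

lemma RR1_eq (x : E n) : RR M Nn (Uf M) dl x = dh2 (Zf M) x - dh2 (Uf M) x + Slk M Nn x := by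
  unfold Slk; ring

end field

end Crest.Agent.R253.Frame321
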