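import Crest.Agent.R253.SpecField_321
import Crest.Agent.R253.MAI_74

/-!
# R253: the eigenframe bookkeeping (helper321)

Matrix fields `M` with third derivative tensor, rotated to an eigenframe of `M(x)`.
-/

set_option autoImplicit false

open Matrix Filter Topology Set
open scoped ContDiff

noncomputable section

namespace Crest.Agent.R253.Frame321

open Crest.Agent.R253.SpecCalc999 Crest.Agent.R253.SpecField321 Crest.Agent.R253.Meh74
  Crest.Agent.R238.Gap

variable {m n : ℕ}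

/-! ### the Hilbert–Schmidt inner product -/

/-- `⟨X, Y⟩ = Σ X_ij Y_ij` -/
def ip (X Y : Mat m) : ℝ := ∑ i, ∑ j, X i j * Y i j

lemma ip_eq (X Y : Mat m) : ip X Y = (Xᵀ * Y).trace := by
  unfold ip
  rw [Matrix.trace, Finset.sum_comm]
  refine Finset.sum_congr rfl fun j _ => ?_
  rw [Matrix.diag_apply, Matrix.mul_apply]
  exact Finset.sum_congr rfl fun i _ => by rw [Matrix.transpose_apply]

lemma ip_comm (X Y : Mat m) : ip X Y = ip Y X := by
  unfold ip
  exact Finset.sum_congr rfl fun i _ => Finset.sum_congr rfl fun j _ => mul_comm _ _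

lemma ip_self (X : Mat m) : ip X X = hs X := by
  unfold ip hs
  exact Finset.sum_congr rfl fun i _ => Finset.sum_congr rfl fun j _ => by ring

lemma ip_smul_left (c : ℝ) (X Y : Mat m) : ip (c • X) Y = c * ip X Y := by
  unfold ip
  simp only [Matrix.smul_apply, smul_eq_mul, Finset.mul_sum, mul_assoc]

lemma ip_smul_right (c : ℝ) (X Y : Mat m) : ip X (c • Y) = c * ip X Y := by
  rw [ip_comm, ip_smul_left, ip_comm]

lemma ip_add_left (X X' Y : Mat m) : ip (X + X') Y = ip X Y + ip X' Y := by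
  unfold ip
  simp only [Matrix.add_apply, add_mul, Finset.sum_add_distrib]

lemma ip_add_right (X Y Y' : Mat m) : ip X (Y + Y') = ip X Y + ip X Y' := by
  rw [ip_comm, ip_add_left, ip_comm Y, ip_comm Y']

lemma ip_sum_left {ι : Type*} (s : Finset ι) (X : ι → Mat m) (Y : Mat m) :
    ip (∑ c ∈ s, X c) Y = ∑ c ∈ s, ip (X c) Y := by
  unfold ip
  simp only [Matrix.sum_apply, Finset.sum_mul]
  symm
  rw [Finset.sum_comm]
  refine Finset.sum_congr rfl fun i _ => ?_
  rw [Finset.sum_comm]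

lemma ip_sum_right {ι : Type*} (s : Finset ι) (X : Mat m) (Y : ι → Mat m) :
    ip X (∑ c ∈ s, Y c) = ∑ c ∈ s, ip X (Y c) := by
  rw [ip_comm, ip_sum_left]
  exact Finset.sum_congr rfl fun c _ => ip_comm _ _

lemma ip_conj {U : Mat m} (h : U * Uᵀ = 1) (X Y : Mat m) :
    ip (Uᵀ * X * U) (Uᵀ * Y * U) = ip X Y := by
  rw [ip_eq, ip_eq]
  have : (Uᵀ * X * U)ᵀ * (Uᵀ * Y * U) = Uᵀ * (Xᵀ * Y * U) := by
    rw [Matrix.transpose_mul, Matrix.transpose_mul, Matrix.transpose_transpose]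
    calc Uᵀ * (Xᵀ * U) * (Uᵀ * Y * U) = Uᵀ * (Xᵀ * (U * Uᵀ) * Y * U) := by
          simp only [Matrix.mul_assoc]
      _ = _ := by rw [h, Matrix.mul_one]
  rw [this, Matrix.trace_mul_comm, Matrix.mul_assoc, h, Matrix.mul_one]

/-! ### rotation of a family of matrices (the derivative index rotated too) -/

/-- the rotated family: `(rf U X k)_ij = Σ_abc U_ai U_bj U_ck (X c)_ab` -/
def rf (U : Mat m) (X : Fin m → Mat m) (k : Fin m) : Mat m := Uᵀ * (∑ c, U c k • X c) * U

lemma rf_eq (U : Mat m) (X : Fin m → Mat m) (k : Fin m) :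
    rf U X k = ∑ c, U c k • (Uᵀ * X c * U) := by
  unfold rf
  rw [Matrix.mul_sum, Matrix.sum_mul]
  exact Finset.sum_congr rfl fun c _ => by rw [Matrix.mul_smul, Matrix.smul_mul]

lemma rf_apply (U : Mat m) (X : Fin m → Mat m) (i j k : Fin m) :
    rf U X k i j = ∑ a, ∑ b, ∑ c, U a i * U b j * U c k * X c a b := by
  rw [rf_eq, Matrix.sum_apply]
  have e : ∀ c, (U c k • (Uᵀ * X c * U)) i j = ∑ a, ∑ b, U a i * U b j * U c k * X c a b := by
    intro c
    rw [Matrix.smul_apply, smul_eq_mul, Matrix.mul_apply, Finset.mul_sum]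
    simp only [Matrix.mul_apply, Matrix.transpose_apply, Finset.sum_mul, Finset.mul_sum]
    rw [Finset.sum_comm]
    exact Finset.sum_congr rfl fun a _ => Finset.sum_congr rfl fun b _ => by ring
  simp only [e]
  rw [Finset.sum_comm]
  exact Finset.sum_congr rfl fun a _ => Finset.sum_comm

/-- inverse rotation -/
lemma rf_inv {U : Mat m} (h : U * Uᵀ = 1) (X : Fin m → Mat m) (c : Fin m) :
    X c = U * (∑ k, U c k • rf U X k) * Uᵀ := by
  have e1 : ∑ k, U c k • rf U X k = Uᵀ * X c * U := by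
    simp only [rf_eq, Finset.smul_sum, smul_smul]
    rw [Finset.sum_comm]
    have e2 : ∀ d, ∑ k, (U c k * U d k) • (Uᵀ * X d * U) =
        (if c = d then (1 : ℝ) else 0) • (Uᵀ * X d * U) := by
      intro d
      rw [← Finset.sum_smul]
      congr 1
      have h3 := congrFun (congrFun h c) d
      rw [Matrix.mul_apply, Matrix.one_apply] at h3
      rw [← h3]
      exact Finset.sum_congr rfl fun k _ => by rw [Matrix.transpose_apply]
    simp only [e2, ite_smul, one_smul, zero_smul, Finset.sum_ite_eq, Finset.mem_univ, if_true]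
  rw [e1]
  calc X c = (U * Uᵀ) * X c * (U * Uᵀ) := by rw [h, Matrix.one_mul, Matrix.mul_one]
    _ = _ := by simp only [Matrix.mul_assoc]

lemma ip_rf {U : Mat m} (h : U * Uᵀ = 1) (X Y : Fin m → Mat m) (k : Fin m) :
    ip (rf U X k) (rf U Y k) = ∑ c, ∑ d, U c k * U d k * ip (X c) (Y d) := by
  unfold rf
  rw [ip_conj h, ip_sum_left]
  refine Finset.sum_congr rfl fun c _ => ?_
  rw [ip_sum_right]
  refine Finset.sum_congr rfl fun d _ => ?_
  rw [ip_smul_left, ip_smul_right]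
  ring

/-- `Σ_ab N_ab ⟨X_b, Y_a⟩` in the frame -/
theorem sum_N {U : Mat m} (h : U * Uᵀ = 1) {N : Mat m} {w : Fin m → ℝ}
    (hN : N = U * Matrix.diagonal w * Uᵀ) (X Y : Fin m → Mat m) :
    ∑ a, ∑ b, N a b * ip (X b) (Y a) = ∑ k, w k * ip (rf U X k) (rf U Y k) := by
  have e : ∀ a b, N a b = ∑ k, U a k * w k * U b k := by
    intro a b
    rw [hN, Matrix.mul_apply]
    simp only [Matrix.mul_diagonal, Matrix.transpose_apply]
  simp only [ip_rf h, e, Finset.mul_sum, Finset.sum_mul]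
  have e2 : ∀ F : Fin m → Fin m → Fin m → ℝ,
      ∑ a, ∑ b, ∑ k, F a b k = ∑ k, ∑ b, ∑ a, F a b k := by
    intro F
    calc ∑ a, ∑ b, ∑ k, F a b k = ∑ b, ∑ a, ∑ k, F a b k := Finset.sum_comm
      _ = ∑ b, ∑ k, ∑ a, F a b k := Finset.sum_congr rfl fun b _ => Finset.sum_comm
      _ = _ := Finset.sum_comm
  rw [e2]
  exact Finset.sum_congr rfl fun k _ => Finset.sum_congr rfl fun b _ =>
    Finset.sum_congr rfl fun a _ => by ring

/-- `Σ_c ⟨X_c, Y_c⟩` in the frame -/
theorem sum_1 {U : Mat m} (h : U * Uᵀ = 1) (X Y : Fin m → Mat m) :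
    ∑ c, ip (X c) (Y c) = ∑ k, ip (rf U X k) (rf U Y k) := by
  have h1 := sum_N h (N := 1) (w := fun _ => 1) (by rw [Matrix.diagonal_one, Matrix.mul_one, h]) X Y
  simp only [Matrix.one_apply, ite_mul, one_mul, zero_mul, Finset.sum_ite_eq, Finset.mem_univ,
    if_true] at h1
  exact h1

/-- the `Q` matrix of a family -/
def Qm (N : Mat m) (S : Fin m → Mat m) (i j : Fin m) : ℝ :=
  ∑ a, ∑ b, ∑ c, ∑ d, N a c * S j c d * N d b * S i a b

lemma Qm_eq (N : Mat m) (S : Fin m → Mat m) (i j : Fin m) :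
    Qm N S i j = ip (S i) (N * S j * N) := by
  unfold Qm ip
  refine Finset.sum_congr rfl fun a _ => Finset.sum_congr rfl fun b _ => ?_
  rw [Matrix.mul_apply, Finset.mul_sum]
  simp only [Matrix.mul_apply, Finset.sum_mul, Finset.mul_sum]
  rw [Finset.sum_comm]
  exact Finset.sum_congr rfl fun d _ => Finset.sum_congr rfl fun c _ => by ring

/-- `tr (Z Q)` in the frame -/
theorem sum_Q {U : Mat m} (h : U * Uᵀ = 1) {N : Mat m} {w : Fin m → ℝ}
    (hN : N = U * Matrix.diagonal w * Uᵀ) (Z : Mat m) (S : Fin m → Mat m) :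
    ∑ i, ∑ j, Z i j * Qm N S i j =
      ∑ i, ∑ j, (Uᵀ * Z * U) i j *
        ∑ k, ∑ l, w k * w l * rf U S i k l * rf U S j k l := by
  have hU' : Uᵀ * U = 1 := mul_eq_one_comm.1 h
  have e1 : ∀ i j, Qm N S i j = ∑ p, ∑ q, U i p * U j q *
      ∑ k, ∑ l, w k * w l * rf U S p k l * rf U S q k l := by
    intro i j
    rw [Qm_eq]
    have hS : ∀ c, S c = U * (∑ k, U c k • rf U S k) * Uᵀ := rf_inv h S
    have e2 : N * S j * N = U * (Matrix.diagonal w * (∑ q, U j q • rf U S q) * Matrix.diagonal w) * Uᵀ := by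
      rw [hN, hS j]
      calc U * Matrix.diagonal w * Uᵀ * (U * (∑ k, U j k • rf U S k) * Uᵀ) * (U * Matrix.diagonal w * Uᵀ)
          = U * Matrix.diagonal w * (Uᵀ * U) * (∑ k, U j k • rf U S k) * (Uᵀ * U) * Matrix.diagonal w * Uᵀ := by
            simp only [Matrix.mul_assoc]
        _ = _ := by rw [hU', Matrix.mul_one, Matrix.mul_one]; simp only [Matrix.mul_assoc]
    have h2 : Uᵀᵀ * Uᵀ = 1 := by rw [Matrix.transpose_transpose]; exact h
    have h3 : Uᵀ * Uᵀᵀ = 1 := by rw [Matrix.transpose_transpose]; exact hU'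
    have e3 : ∀ X Y : Mat m, ip (U * X * Uᵀ) (U * Y * Uᵀ) = ip X Y := by
      intro X Y
      have := ip_conj (U := Uᵀ) h3 X Y
      rwa [Matrix.transpose_transpose] at this
    rw [e2, hS i, e3, ip_sum_left]
    refine Finset.sum_congr rfl fun p _ => ?_
    rw [ip_smul_left, Matrix.mul_sum, Matrix.sum_mul, ip_sum_right, Finset.mul_sum]
    refine Finset.sum_congr rfl fun q _ => ?_
    rw [Matrix.mul_smul, Matrix.smul_mul, ip_smul_right, ← mul_assoc]
    congr 1
    unfold ip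
    refine Finset.sum_congr rfl fun k _ => Finset.sum_congr rfl fun l _ => ?_
    rw [Matrix.mul_diagonal, Matrix.diagonal_mul]
    ring
  simp only [e1]
  have e4 : ∀ p q, (Uᵀ * Z * U) p q = ∑ i, ∑ j, Z i j * (U i p * U j q) := by
    intro p q
    rw [Matrix.mul_apply]
    simp only [Matrix.mul_apply, Matrix.transpose_apply, Finset.sum_mul]
    rw [Finset.sum_comm]
    exact Finset.sum_congr rfl fun i _ => Finset.sum_congr rfl fun j _ => by ring
  simp only [e4]
  set G : Fin m → Fin m → ℝ := fun p q => ∑ k, ∑ l, w k * w l * rf U S p k l * rf U S q k l with hG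
  have sw : ∀ F : Fin m → Fin m → Fin m → Fin m → ℝ,
      ∑ a, ∑ b, ∑ c, ∑ d, F a b c d = ∑ c, ∑ d, ∑ a, ∑ b, F a b c d := by
    intro F
    calc ∑ a, ∑ b, ∑ c, ∑ d, F a b c d = ∑ a, ∑ c, ∑ b, ∑ d, F a b c d :=
          Finset.sum_congr rfl fun a _ => Finset.sum_comm
      _ = ∑ c, ∑ a, ∑ b, ∑ d, F a b c d := Finset.sum_comm
      _ = ∑ c, ∑ a, ∑ d, ∑ b, F a b c d :=
          Finset.sum_congr rfl fun c _ => Finset.sum_congr rfl fun a _ => Finset.sum_comm
      _ = ∑ c, ∑ d, ∑ a, ∑ b, F a b c d := Finset.sum_congr rfl fun c _ => Finset.sum_comm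
  have l1 : ∑ i, ∑ j, Z i j * ∑ p, ∑ q, U i p * U j q * G p q =
      ∑ i, ∑ j, ∑ p, ∑ q, Z i j * (U i p * U j q) * G p q := by
    refine Finset.sum_congr rfl fun i _ => Finset.sum_congr rfl fun j _ => ?_
    rw [Finset.mul_sum]
    refine Finset.sum_congr rfl fun p _ => ?_
    rw [Finset.mul_sum]
    exact Finset.sum_congr rfl fun q _ => by ring
  have l2 : ∑ p, ∑ q, (∑ i, ∑ j, Z i j * (U i p * U j q)) * G p q =
      ∑ p, ∑ q, ∑ i, ∑ j, Z i j * (U i p * U j q) * G p q := by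
    refine Finset.sum_congr rfl fun p _ => Finset.sum_congr rfl fun q _ => ?_
    rw [Finset.sum_mul]
    refine Finset.sum_congr rfl fun i _ => ?_
    rw [Finset.sum_mul]
  rw [l1, l2, sw]

lemma Fr.inv_eq {A U N : Mat m} {s : Fin m → ℝ} (h : Fr A U s) (hs : ∀ i, s i ≠ 0)
    (hN : N * A = 1) : N = U * Matrix.diagonal (fun i => (s i)⁻¹) * Uᵀ := by
  have h1 : A * (U * Matrix.diagonal (fun i => (s i)⁻¹) * Uᵀ) = 1 := by
    rw [h.eq]
    calc U * Matrix.diagonal s * Uᵀ * (U * Matrix.diagonal (fun i => (s i)⁻¹) * Uᵀ)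
        = U * (Matrix.diagonal s * (Uᵀ * U) * Matrix.diagonal (fun i => (s i)⁻¹)) * Uᵀ := by
          simp only [Matrix.mul_assoc]
      _ = U * 1 * Uᵀ := by
          rw [h.o, Matrix.mul_one, Matrix.diagonal_mul_diagonal]
          congr 2
          rw [← Matrix.diagonal_one]
          congr 1; funext i; exact mul_inv_cancel₀ (hs i)
      _ = 1 := by rw [Matrix.mul_one, h.o']
  calc N = N * (A * (U * Matrix.diagonal (fun i => (s i)⁻¹) * Uᵀ)) := by rw [h1, Matrix.mul_one]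
    _ = _ := by rw [← Matrix.mul_assoc, hN, Matrix.one_mul]

/-! ### fully symmetric tensors -/

/-- the family `S c = (T_abc)_ab` comes from a fully symmetric tensor -/
structure Sy (S : Fin m → Mat m) : Prop where
  s1 : ∀ a b c, S c a b = S c b a
  s2 : ∀ a b c, S c a b = S b a c

lemma Sy.rf {S : Fin m → Mat m} (h : Sy S) (U : Mat m) : Sy (rf U S) := by
  constructor
  · intro i j k
    rw [rf_apply, rf_apply, Finset.sum_comm]
    refine Finset.sum_congr rfl fun a _ => Finset.sum_congr rfl fun b _ =>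
      Finset.sum_congr rfl fun c _ => ?_
    rw [h.s1]; ring
  · intro i j k
    rw [rf_apply, rf_apply]
    refine Finset.sum_congr rfl fun a _ => ?_
    rw [Finset.sum_comm]
    refine Finset.sum_congr rfl fun b _ => Finset.sum_congr rfl fun c _ => ?_
    rw [h.s2 a c b]; ring

/-! ### the frame sums at a point -/

variable {A U N : Mat m} {e : Fin m → ℝ} {S : Fin m → Mat m}

lemma rf_DK (h : Fr A U e) (f f' : ℝ → ℝ) (S : Fin m → Mat m) (i j k : Fin m) :
    rf U (fun c => DK f f' A (S c)) k i j = dd1 f f' (e i) (e j) * rf U S k i j := by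
  unfold rf
  have : ∑ c, U c k • DK f f' A (S c) = DK f f' A (∑ c, U c k • S c) := by
    rw [DK_sum]
    exact Finset.sum_congr rfl fun c _ => (DK_smul _ _ _ _ _).symm
  rw [this, DK_frame h]

/-- `Σ_k |D_k F(M)|²` -/
theorem sum_DK_sq (h : Fr A U e) (f f' : ℝ → ℝ) (S : Fin m → Mat m) :
    ∑ c, hs (DK f f' A (S c)) = ∑ k, ∑ i, ∑ j, (dd1 f f' (e i) (e j)) ^ 2 * rf U S k i j ^ 2 := by
  have h1 := sum_1 h.o' (fun c => DK f f' A (S c)) (fun c => DK f f' A (S c))
  simp only [ip_self] at h1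
  rw [h1]
  refine Finset.sum_congr rfl fun k _ => ?_
  unfold hs
  refine Finset.sum_congr rfl fun i _ => Finset.sum_congr rfl fun j _ => ?_
  rw [rf_DK h]; ring

/-- `Σ_ab N_ab ⟨D_b f(M), D_a M⟩` -/
theorem sum_N_DK (h : Fr A U e) (he : ∀ i, e i ≠ 0) (hN : N * A = 1) (f f' : ℝ → ℝ)
    (S : Fin m → Mat m) :
    ∑ a, ∑ b, N a b * ip (DK f f' A (S b)) (S a) =
      ∑ k, ∑ i, ∑ j, dd1 f f' (e i) (e j) / e k * rf U S k i j ^ 2 := by
  rw [sum_N h.o' (Fr.inv_eq h he hN) (fun b => DK f f' A (S b)) S]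
  refine Finset.sum_congr rfl fun k _ => ?_
  unfold ip
  rw [Finset.mul_sum]
  refine Finset.sum_congr rfl fun i _ => ?_
  rw [Finset.mul_sum]
  refine Finset.sum_congr rfl fun j _ => ?_
  rw [rf_DK h]
  rw [div_eq_mul_inv]; ring

/-- `tr (f(M) Q)` -/
theorem sum_Q_spec (h : Fr A U e) (he : ∀ i, e i ≠ 0) (hN : N * A = 1) (f : ℝ → ℝ)
    (S : Fin m → Mat m) :
    ∑ i, ∑ j, (_root_.cfc f A) i j * Qm N S i j =
      ∑ k, ∑ i, ∑ j, f (e k) / (e i * e j) * rf U S k i j ^ 2 := by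
  rw [sum_Q h.o' (Fr.inv_eq h he hN), h.cfc]
  refine Finset.sum_congr rfl fun i _ => ?_
  rw [Finset.sum_eq_single i]
  · rw [Matrix.diagonal_apply_eq, Finset.mul_sum]
    refine Finset.sum_congr rfl fun k _ => ?_
    rw [Finset.mul_sum]
    refine Finset.sum_congr rfl fun l _ => ?_
    rw [div_eq_mul_inv, mul_inv]; ring
  · intro j _ hj
    rw [Matrix.diagonal_apply_ne _ (Ne.symm hj), zero_mul]
  · intro hh; exact absurd (Finset.mem_univ _) hh

/-- weighted sums `Σ_ijk F_ijk τ_ijk²`, `τ_ijk = S k i j` -/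
def SS (F : Fin m → Fin m → Fin m → ℝ) (S : Fin m → Mat m) : ℝ :=
  ∑ k, ∑ i, ∑ j, F i j k * S k i j ^ 2

lemma SS_add (F G : Fin m → Fin m → Fin m → ℝ) (S : Fin m → Mat m) :
    SS F S + SS G S = SS (fun i j k => F i j k + G i j k) S := by
  unfold SS
  simp only [← Finset.sum_add_distrib, add_mul]

lemma SS_sub (F G : Fin m → Fin m → Fin m → ℝ) (S : Fin m → Mat m) :
    SS F S - SS G S = SS (fun i j k => F i j k - G i j k) S := by
  unfold SS
  simp only [← Finset.sum_sub_distrib, sub_mul]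

lemma SS_smul (c : ℝ) (F : Fin m → Fin m → Fin m → ℝ) (S : Fin m → Mat m) :
    c * SS F S = SS (fun i j k => c * F i j k) S := by
  unfold SS
  simp only [Finset.mul_sum, mul_assoc]

lemma SS_congr {F G : Fin m → Fin m → Fin m → ℝ} (h : ∀ i j k, F i j k = G i j k)
    (S : Fin m → Mat m) : SS F S = SS G S := by
  unfold SS
  simp only [h]

lemma SS_mono {F G : Fin m → Fin m → Fin m → ℝ} (h : ∀ i j k, F i j k ≤ G i j k)
    (S : Fin m → Mat m) : SS F S ≤ SS G S := by
  unfold SS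
  exact Finset.sum_le_sum fun k _ => Finset.sum_le_sum fun i _ => Finset.sum_le_sum fun j _ =>
    mul_le_mul_of_nonneg_right (h i j k) (sq_nonneg _)

lemma SS_nonneg {F : Fin m → Fin m → Fin m → ℝ} (h : ∀ i j k, 0 ≤ F i j k)
    (S : Fin m → Mat m) : 0 ≤ SS F S := by
  unfold SS
  exact Finset.sum_nonneg fun k _ => Finset.sum_nonneg fun i _ => Finset.sum_nonneg fun j _ =>
    mul_nonneg (h i j k) (sq_nonneg _)

lemma SS_12 (hS : Sy S) (F : Fin m → Fin m → Fin m → ℝ) :
    SS F S = SS (fun i j k => F j i k) S := by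
  unfold SS
  refine Finset.sum_congr rfl fun k _ => ?_
  rw [Finset.sum_comm]
  refine Finset.sum_congr rfl fun i _ => Finset.sum_congr rfl fun j _ => ?_
  rw [hS.s1 j i k]

lemma SS_23 (hS : Sy S) (F : Fin m → Fin m → Fin m → ℝ) :
    SS F S = SS (fun i j k => F i k j) S := by
  unfold SS
  calc ∑ k, ∑ i, ∑ j, F i j k * S k i j ^ 2
      = ∑ i, ∑ k, ∑ j, F i j k * S k i j ^ 2 := Finset.sum_comm
    _ = ∑ i, ∑ j, ∑ k, F i j k * S k i j ^ 2 := Finset.sum_congr rfl fun i _ => Finset.sum_comm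
    _ = ∑ i, ∑ k, ∑ j, F i k j * S j i k ^ 2 := rfl
    _ = ∑ k, ∑ i, ∑ j, F i k j * S j i k ^ 2 := Finset.sum_comm
    _ = _ := by
        refine Finset.sum_congr rfl fun k _ => Finset.sum_congr rfl fun i _ =>
          Finset.sum_congr rfl fun j _ => ?_
        rw [hS.s2 i k j]

lemma SS_13 (hS : Sy S) (F : Fin m → Fin m → Fin m → ℝ) :
    SS F S = SS (fun i j k => F k j i) S := by
  rw [SS_12 hS, SS_23 hS, SS_12 hS]

/-- average over the three pairs -/
lemma SS_pairs (hS : Sy S) (F : Fin m → Fin m → Fin m → ℝ) :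
    SS F S = SS (fun i j k => (F i j k + F j k i + F i k j) / 3) S := by
  have h1 : SS F S = SS (fun i j k => F j k i) S := by
    rw [SS_23 hS]; rw [SS_12 hS]
  have h2 : SS F S = SS (fun i j k => F i k j) S := SS_23 hS F
  have h3 : SS (fun i j k => (F i j k + F j k i + F i k j) / 3) S =
      (1 / 3 : ℝ) * (SS F S + SS (fun i j k => F j k i) S + SS (fun i j k => F i k j) S) := by
    rw [SS_add, SS_add, SS_smul]
    exact SS_congr (fun i j k => by ring) S
  rw [h3, ← h1, ← h2]; ring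

/-- pointwise identity behind the `C`-form -/
lemma dd1_phi (f f' : ℝ → ℝ) {a b c : ℝ} (ha : a ≠ 0) (hb : b ≠ 0) (hc : c ≠ 0) :
    dd1 f f' a b / c + (f a / (b * c) + f b / (a * c)) / 2 =
      (a + b) * dd1 (fun t => t * f t) (fun t => f t + t * f' t) a b / (2 * a * b * c) := by
  have h1 := dd1_mul' (fun t => t) (fun _ => 1) f f' a b
  have h2 : dd1 (fun t => t * f t) (fun t => f t + t * f' t) a b = f b + a * dd1 f f' a b := by
    have e : (fun t => f t + t * f' t) = fun t => 1 * f t + t * f' t := by funext t; ring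
    rw [e, h1, dd1_id]; ring
  rw [h2]
  have h3 := SpecCalc999.dd1_mul f f' a b
  have h4 : f a = f b + dd1 f f' a b * (a - b) := by linarith
  rw [h4]
  field_simp
  ring

/-- **the `C`-form for a spectral multiplier `Z = f(M)`**:
`M^{ab}⟨D_a Z, D_b M⟩ + tr ZQ = Σ τ_ijk² (e_i+e_j) φ[e_i,e_j] / (2 e_i e_j e_k)`, `φ = e f(e)`. -/
theorem spec_form (h : Fr A U e) (he : ∀ i, e i ≠ 0) (hN : N * A = 1) (hS : Sy S)
    (f f' : ℝ → ℝ) :
    (∑ a, ∑ b, N a b * ip (DK f f' A (S b)) (S a)) +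
      (∑ i, ∑ j, (_root_.cfc f A) i j * Qm N S i j) =
    SS (fun i j k => (e i + e j) * dd1 (fun t => t * f t) (fun t => f t + t * f' t) (e i) (e j) /
      (2 * e i * e j * e k)) (rf U S) := by
  have hR : Sy (rf U S) := hS.rf U
  rw [sum_N_DK h he hN, sum_Q_spec h he hN]
  have h2 : (∑ k, ∑ i, ∑ j, f (e k) / (e i * e j) * rf U S k i j ^ 2) =
      SS (fun i j k => (f (e i) / (e j * e k) + f (e j) / (e i * e k)) / 2) (rf U S) := by
    have a1 : (∑ k, ∑ i, ∑ j, f (e k) / (e i * e j) * rf U S k i j ^ 2) =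
        SS (fun i j k => f (e k) / (e i * e j)) (rf U S) := rfl
    have a2 : SS (fun i j k => f (e k) / (e i * e j)) (rf U S) =
        SS (fun i j k => f (e i) / (e k * e j)) (rf U S) := SS_13 hR _
    have a3 : SS (fun i j k => f (e k) / (e i * e j)) (rf U S) =
        SS (fun i j k => f (e j) / (e i * e k)) (rf U S) := SS_23 hR _
    have a4 : SS (fun i j k => (f (e i) / (e j * e k) + f (e j) / (e i * e k)) / 2) (rf U S) =
        (1 / 2 : ℝ) * (SS (fun i j k => f (e i) / (e k * e j)) (rf U S) +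
          SS (fun i j k => f (e j) / (e i * e k)) (rf U S)) := by
      rw [SS_add, SS_smul]
      exact SS_congr (fun i j k => by rw [mul_comm (e k) (e j)]; ring) _
    rw [a1, a4, ← a2, ← a3]; ring
  rw [h2]
  have h3 : (∑ k, ∑ i, ∑ j, dd1 f f' (e i) (e j) / e k * rf U S k i j ^ 2) =
      SS (fun i j k => dd1 f f' (e i) (e j) / e k) (rf U S) := rfl
  rw [h3, SS_add]
  exact SS_congr (fun i j k => dd1_phi f f' (he i) (he j) (he k)) _

/-- the triple function `(1/2abc) Σ_pairs (a+b) φ[a,b]` -/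
def tri (φ φ' : ℝ → ℝ) (a b c : ℝ) : ℝ :=
  ((a + b) * dd1 φ φ' a b + (b + c) * dd1 φ φ' b c + (a + c) * dd1 φ φ' a c) / (2 * a * b * c)

/-- `spec_form`, symmetrised: `(1/3) Σ τ_ijk² (1/2abc) Σ_pairs (a+b) φ[a,b]` -/
theorem spec_form3 (h : Fr A U e) (he : ∀ i, e i ≠ 0) (hN : N * A = 1) (hS : Sy S)
    (f f' : ℝ → ℝ) :
    (∑ a, ∑ b, N a b * ip (DK f f' A (S b)) (S a)) +
      (∑ i, ∑ j, (_root_.cfc f A) i j * Qm N S i j) =
    SS (fun i j k => tri (fun t => t * f t) (fun t => f t + t * f' t) (e i) (e j) (e k) / 3)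
      (rf U S) := by
  rw [spec_form h he hN hS, SS_pairs (hS.rf U)]
  refine SS_congr (fun i j k => ?_) _
  unfold tri
  ring

/-- `Σ_k |D_k F(M)|²`, symmetrised over the pairs -/
theorem sum_DK_sq3 (h : Fr A U e) (hS : Sy S) (f f' : ℝ → ℝ) :
    ∑ c, hs (DK f f' A (S c)) =
      SS (fun i j k => ((dd1 f f' (e i) (e j)) ^ 2 + (dd1 f f' (e j) (e k)) ^ 2 +
        (dd1 f f' (e i) (e k)) ^ 2) / 3) (rf U S) := by
  rw [sum_DK_sq h]
  exact SS_pairs (hS.rf U) _

end Crest.Agent.R253.Frame321
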