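import Crest.Agent.R253.LogP_395

/-!
# Row 253, (L7): the frozen table of helper655 (three pieces), all real-variable lines

`b₁ = -(3/40)(1-x)` on `[0,1]`, `(x-1)/10` on `[1,2]`, `1/10` beyond;
`b₂ = 0` on `[0,2]`, `(5/8)(x-2)/(x+4)` beyond; `A = 1 - b₁ - b₂`; `r = 17/(16+x)`.
-/

set_option autoImplicit false

noncomputable section

namespace Crest.Agent.R253.G655

def b1 (x : ℝ) : ℝ := if x ≤ 1 then -(3 / 40 * (1 - x)) else if x ≤ 2 then (x - 1) / 10 else 1 / 10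
def b2 (x : ℝ) : ℝ := if x ≤ 2 then 0 else 5 / 8 * ((x - 2) / (x + 4))
def A (x : ℝ) : ℝ := 1 - b1 x - b2 x
def r (x : ℝ) : ℝ := 17 / (16 + x)
/-- parabola `α + γ z - ε z²` below `h` in the row `x` -/
def al (x : ℝ) : ℝ := if x ≤ 12 then 7 / 20 else if x ≤ 60 then 113 / 500 else 0
def ep (x : ℝ) : ℝ := if x ≤ 12 then 1 / 100 else if x ≤ 60 then 1 / 500 else 0

/-- near part `f₁` (= `TrC80.nf b1 al ep (7/10) (3/20) (7/2) 0 (9/64)`) -/
def f1 (x : ℝ) : ℝ := b1 x + b1 x * (x - 1) * (al x - ep x * x) -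
  ((7 / 10) / 2 + (3 / 20) / 2) * (b1 x ^ 2 * x) - (7 / 2) / 2 * (0 * b1 x ^ 2 + 9 / 64 * (b1 x ^ 2 * x))
/-- far part `f₂` (EO_629 with `a = 29/50, e = 1/100, ε = 1/8, κ = 1/4, θ₁ = 27/100, θ = 3/7`) -/
def f2 (x : ℝ) : ℝ := 29 / 50 * b2 x + (5 / 16 - 1 / 100 - (1 + 1 / 8) * (1 / 4) ^ 2) * (b2 x * x) -
  (27 / 100) / 2 * (b2 x ^ 2 * x) - (1 + 1 / 8) * (1 / 4) ^ 2 / (4 * (3 / 7)) * (b2 x ^ 2 * x)
/-- loss `f₃` (DualR with `1/q₀ = 109/100`, `lam = 1/8`) -/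
def f3 (x : ℝ) : ℝ := 109 / 100 * (1 / 6 * (A x * (1 - r x) ^ 2 * x) +
  (1 / 8) / 12 * (A x * (1 - r x * x) ^ 2))

lemma r_id {x : ℝ} (hx : 0 ≤ x) : f3 x = 109 / 100 * (A x * (x - 1) ^ 2 / (6 * (16 + x))) := by
  unfold f3 r
  have h : (16 + x) ≠ 0 := by positivity
  field_simp
  ring

lemma A_pos {x : ℝ} (hx : 0 ≤ x) : 11 / 40 < A x := by
  unfold A b1 b2
  split_ifs with h1 h2 h2
  · linarith
  · exact absurd (h1.trans (by norm_num)) h2
  · linarith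
  · have h4 : (x - 2) / (x + 4) < 1 := by
      rw [div_lt_one (by linarith)]; linarith
    linarith

/-! ### (G) -/

lemma g01 {x : ℝ} (h0 : 0 ≤ x) (h1 : x ≤ 1) :
    1 / 300 * ((1 - x) ^ 2 / (1 + x)) ≤ Real.log (A x) + f1 x + f2 x - f3 x := by
  rw [r_id h0]
  have e1 : b1 x = -(3 / 40 * (1 - x)) := by unfold b1; rw [if_pos h1]
  have e2 : b2 x = 0 := by unfold b2; rw [if_pos (h1.trans (by norm_num))]
  have e3 : al x = 7 / 20 := by unfold al; rw [if_pos (h1.trans (by norm_num))]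
  have e4 : ep x = 1 / 100 := by unfold ep; rw [if_pos (h1.trans (by norm_num))]
  have eA : A x = 1 + 3 / 40 * (1 - x) := by unfold A; rw [e1, e2]; ring
  have hy : 0 ≤ 3 / 40 * (1 - x) := by linarith [mul_nonneg (by norm_num : (0:ℝ) ≤ 3 / 40) (sub_nonneg.2 h1)]
  have hlog : 3 / 40 * (1 - x) - (3 / 40 * (1 - x)) ^ 2 / 2 ≤ Real.log (1 + 3 / 40 * (1 - x)) := by
    refine le_trans ?_ (Real.le_log_one_add_of_nonneg hy)
    rw [le_div_iff₀ (by linarith)]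
    nlinarith [pow_nonneg hy 3]
  rw [eA]
  unfold f1 f2
  rw [e1, e2, e3, e4]
  have q1 : (1 - x) ^ 2 / (1 + x) ≤ (1 - x) ^ 2 := div_le_self (sq_nonneg _) (by linarith)
  have q2 : (1 + 3 / 40 * (1 - x)) * (x - 1) ^ 2 / (6 * (16 + x)) ≤
      (1 + 3 / 40 * (1 - x)) * (x - 1) ^ 2 / 96 := by
    apply div_le_div_of_nonneg_left _ (by norm_num) (by linarith)
    positivity
  have hu : 0 ≤ 1 - x := by linarith
  nlinarith [mul_nonneg (sq_nonneg (1 - x)) h0, mul_nonneg (sq_nonneg (1 - x)) hu,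
    mul_nonneg (mul_nonneg (sq_nonneg (1 - x)) h0) hu, sq_nonneg (1 - x)]

lemma g12 {x : ℝ} (h1 : 1 < x) (h2 : x ≤ 2) :
    1 / 300 * ((1 - x) ^ 2 / (1 + x)) ≤ Real.log (A x) + f1 x + f2 x - f3 x := by
  rw [r_id (by linarith)]
  have e1 : b1 x = (x - 1) / 10 := by unfold b1; rw [if_neg (not_le.2 h1), if_pos h2]
  have e2 : b2 x = 0 := by unfold b2; rw [if_pos h2]
  have e3 : al x = 7 / 20 := by unfold al; rw [if_pos (h2.trans (by norm_num))]
  have e4 : ep x = 1 / 100 := by unfold ep; rw [if_pos (h2.trans (by norm_num))]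
  have eA : A x = (11 - x) / 10 := by unfold A; rw [e1, e2]; ring
  have hlog := LogP395.log_ge_pade (x := (11 - x) / 10) (by linarith)
  rw [eA]
  unfold f1 f2
  rw [e1, e2, e3, e4]
  have key : ((38917800 * (x - 1) ^ 2 * (2 - x) ^ 5 + 189552060 * (x - 1) ^ 3 * (2 - x) ^ 4 + 356084086 * (x - 1) ^ 4 * (2 - x) ^ 3 + 320861497 * (x - 1) ^ 5 * (2 - x) ^ 2 + 137169612 * (x - 1) ^ 6 * (2 - x) ^ 1 + 21754980 * (x - 1) ^ 7 * (2 - x) ^ 0) / 384000) / ((11 - x) * (31 - x) * (16 + x) * (1 + x)) ≤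
      ((11 - x) / 10 - 1) * (5 * ((11 - x) / 10) + 1) / ((11 - x) / 10 * (2 * ((11 - x) / 10) + 4)) +
      ((x - 1) / 10 + (x - 1) / 10 * (x - 1) * (7 / 20 - 1 / 100 * x) -
      ((7 / 10) / 2 + (3 / 20) / 2) * (((x - 1) / 10) ^ 2 * x) - (7 / 2) / 2 * (0 * ((x - 1) / 10) ^ 2 + 9 / 64 * (((x - 1) / 10) ^ 2 * x))) -
      109 / 100 * ((11 - x) / 10 * (x - 1) ^ 2 / (6 * (16 + x))) - 1 / 300 * ((1 - x) ^ 2 / (1 + x)) := by
    apply le_of_eq
    have d1 : 11 - x ≠ 0 := by linarith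
    have d2 : 31 - x ≠ 0 := by linarith
    have d3 : 16 + x ≠ 0 := by linarith
    have d4 : 1 + x ≠ 0 := by linarith
    have d5 : (2 * ((11 - x) / 10) + 4) = (31 - x) / 5 := by ring
    rw [d5]
    field_simp
    ring
  have pos : 0 ≤ ((38917800 * (x - 1) ^ 2 * (2 - x) ^ 5 + 189552060 * (x - 1) ^ 3 * (2 - x) ^ 4 + 356084086 * (x - 1) ^ 4 * (2 - x) ^ 3 + 320861497 * (x - 1) ^ 5 * (2 - x) ^ 2 + 137169612 * (x - 1) ^ 6 * (2 - x) ^ 1 + 21754980 * (x - 1) ^ 7 * (2 - x) ^ 0) / 384000) / ((11 - x) * (31 - x) * (16 + x) * (1 + x)) := by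
    have ha : 0 ≤ x - 1 := by linarith
    have hb : 0 ≤ 2 - x := by linarith
    have d1 : 0 < 11 - x := by linarith
    have d2 : 0 < 31 - x := by linarith
    have d3 : 0 < 16 + x := by linarith
    have d4 : 0 < 1 + x := by linarith
    positivity
  linarith

lemma g212 {x : ℝ} (h1 : 2 < x) (h2 : x ≤ 12) :
    1 / 300 * ((1 - x) ^ 2 / (1 + x)) ≤ Real.log (A x) + f1 x + f2 x - f3 x := by
  rw [r_id (by linarith)]
  have e1 : b1 x = 1 / 10 := by unfold b1; rw [if_neg (by linarith), if_neg (by linarith)]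
  have e2 : b2 x = 5 / 8 * ((x - 2) / (x + 4)) := by unfold b2; rw [if_neg (by linarith)]
  have e3 : al x = 7 / 20 := by unfold al; rw [if_pos h2]
  have e4 : ep x = 1 / 100 := by unfold ep; rw [if_pos h2]
  have hx4 : x + 4 ≠ 0 := by linarith
  have eA : A x = (11 * x + 194) / (40 * (x + 4)) := by
    unfold A; rw [e1, e2]; field_simp; ring
  have hlog := LogP395.log_ge_pade (x := (11 * x + 194) / (40 * (x + 4)))
    (div_pos (by linarith) (by linarith))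
  have elog : ((11 * x + 194) / (40 * (x + 4)) - 1) * (5 * ((11 * x + 194) / (40 * (x + 4))) + 1) /
      ((11 * x + 194) / (40 * (x + 4)) * (2 * ((11 * x + 194) / (40 * (x + 4))) + 4)) =
      -((29 * x - 34) * (95 * x + 1130)) / ((11 * x + 194) * (182 * x + 1028)) := by
    have d1 : 11 * x + 194 ≠ 0 := by linarith
    have d2 : 182 * x + 1028 ≠ 0 := by linarith
    have d5 : 2 * ((11 * x + 194) / (40 * (x + 4))) + 4 = (182 * x + 1028) / (40 * (x + 4)) := by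
      field_simp; ring
    rw [d5]
    field_simp
    ring
  rw [elog] at hlog
  rw [eA]
  unfold f1 f2
  rw [e1, e2, e3, e4]
  have key : ((45111126528 * (x - 2) ^ 0 * (12 - x) ^ 8 + 752880469248 * (x - 2) ^ 1 * (12 - x) ^ 7 + 13221679477392 * (x - 2) ^ 2 * (12 - x) ^ 6 + 118241322683112 * (x - 2) ^ 3 * (12 - x) ^ 5 + 521602326085275 * (x - 2) ^ 4 * (12 - x) ^ 4 + 1240262243674708 * (x - 2) ^ 5 * (12 - x) ^ 3 + 1622756006828513 * (x - 2) ^ 6 * (12 - x) ^ 2 + 1089764522056532 * (x - 2) ^ 7 * (12 - x) ^ 1 + 287552005365892 * (x - 2) ^ 8 * (12 - x) ^ 0) / 1920000000000) / ((11 * x + 194) * (182 * x + 1028) * (x + 4) * (x + 4) * (16 + x) * (1 + x)) ≤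
      -((29 * x - 34) * (95 * x + 1130)) / ((11 * x + 194) * (182 * x + 1028)) +
      (1 / 10 + 1 / 10 * (x - 1) * (7 / 20 - 1 / 100 * x) -
      ((7 / 10) / 2 + (3 / 20) / 2) * ((1 / 10) ^ 2 * x) - (7 / 2) / 2 * (0 * (1 / 10) ^ 2 + 9 / 64 * ((1 / 10) ^ 2 * x))) +
      (29 / 50 * (5 / 8 * ((x - 2) / (x + 4))) + (5 / 16 - 1 / 100 - (1 + 1 / 8) * (1 / 4) ^ 2) * (5 / 8 * ((x - 2) / (x + 4)) * x) -
      (27 / 100) / 2 * ((5 / 8 * ((x - 2) / (x + 4))) ^ 2 * x) - (1 + 1 / 8) * (1 / 4) ^ 2 / (4 * (3 / 7)) * ((5 / 8 * ((x - 2) / (x + 4))) ^ 2 * x)) -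
      109 / 100 * ((11 * x + 194) / (40 * (x + 4)) * (x - 1) ^ 2 / (6 * (16 + x))) - 1 / 300 * ((1 - x) ^ 2 / (1 + x)) := by
    apply le_of_eq
    have d1 : 11 * x + 194 ≠ 0 := by linarith
    have d2 : 182 * x + 1028 ≠ 0 := by linarith
    have d3 : 16 + x ≠ 0 := by linarith
    have d4 : 1 + x ≠ 0 := by linarith
    field_simp
    ring
  have pos : 0 ≤ ((45111126528 * (x - 2) ^ 0 * (12 - x) ^ 8 + 752880469248 * (x - 2) ^ 1 * (12 - x) ^ 7 + 13221679477392 * (x - 2) ^ 2 * (12 - x) ^ 6 + 118241322683112 * (x - 2) ^ 3 * (12 - x) ^ 5 + 521602326085275 * (x - 2) ^ 4 * (12 - x) ^ 4 + 1240262243674708 * (x - 2) ^ 5 * (12 - x) ^ 3 + 1622756006828513 * (x - 2) ^ 6 * (12 - x) ^ 2 + 1089764522056532 * (x - 2) ^ 7 * (12 - x) ^ 1 + 287552005365892 * (x - 2) ^ 8 * (12 - x) ^ 0) / 1920000000000) / ((11 * x + 194) * (182 * x + 1028) * (x + 4) * (x + 4) * (16 + x) * (1 + x)) := by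
    have ha : 0 ≤ x - 2 := by linarith
    have hb : 0 ≤ 12 - x := by linarith
    have d1 : 0 < 11 * x + 194 := by linarith
    have d2 : 0 < 182 * x + 1028 := by linarith
    have d3 : 0 < 16 + x := by linarith
    have d4 : 0 < 1 + x := by linarith
    have d5 : 0 < x + 4 := by linarith
    positivity
  linarith

lemma g1260 {x : ℝ} (h1 : 12 < x) (h2 : x ≤ 60) :
    1 / 300 * ((1 - x) ^ 2 / (1 + x)) ≤ Real.log (A x) + f1 x + f2 x - f3 x := by
  rw [r_id (by linarith)]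
  have e1 : b1 x = 1 / 10 := by unfold b1; rw [if_neg (by linarith), if_neg (by linarith)]
  have e2 : b2 x = 5 / 8 * ((x - 2) / (x + 4)) := by unfold b2; rw [if_neg (by linarith)]
  have e3 : al x = 113 / 500 := by unfold al; rw [if_neg (by linarith), if_pos h2]
  have e4 : ep x = 1 / 500 := by unfold ep; rw [if_neg (by linarith), if_pos h2]
  have hx4 : x + 4 ≠ 0 := by linarith
  have eA : A x = (11 * x + 194) / (40 * (x + 4)) := by
    unfold A; rw [e1, e2]; field_simp; ring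
  have hlog := LogP395.log_ge_pade (x := (11 * x + 194) / (40 * (x + 4)))
    (div_pos (by linarith) (by linarith))
  have elog : ((11 * x + 194) / (40 * (x + 4)) - 1) * (5 * ((11 * x + 194) / (40 * (x + 4))) + 1) /
      ((11 * x + 194) / (40 * (x + 4)) * (2 * ((11 * x + 194) / (40 * (x + 4))) + 4)) =
      -((29 * x - 34) * (95 * x + 1130)) / ((11 * x + 194) * (182 * x + 1028)) := by
    have d1 : 11 * x + 194 ≠ 0 := by linarith
    have d2 : 182 * x + 1028 ≠ 0 := by linarith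
    have d5 : 2 * ((11 * x + 194) / (40 * (x + 4))) + 4 = (182 * x + 1028) / (40 * (x + 4)) := by
      field_simp; ring
    rw [d5]
    field_simp
    ring
  rw [elog] at hlog
  rw [eA]
  unfold f1 f2
  rw [e1, e2, e3, e4]
  have key : ((1436566216825657 * (x - 12) ^ 0 * (60 - x) ^ 8 + 45505686250299824 * (x - 12) ^ 1 * (60 - x) ^ 7 + 610933289413543012 * (x - 12) ^ 2 * (60 - x) ^ 6 + 4533797909160670304 * (x - 12) ^ 3 * (60 - x) ^ 5 + 20271619550726796670 * (x - 12) ^ 4 * (60 - x) ^ 4 + 55536025756136471408 * (x - 12) ^ 5 * (60 - x) ^ 3 + 89820921461155742836 * (x - 12) ^ 6 * (60 - x) ^ 2 + 76262707689094999808 * (x - 12) ^ 7 * (60 - x) ^ 1 + 24319168107074250481 * (x - 12) ^ 8 * (60 - x) ^ 0) / 3381513651486720000) / ((11 * x + 194) * (182 * x + 1028) * (x + 4) * (x + 4) * (16 + x) * (1 + x)) ≤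
      -((29 * x - 34) * (95 * x + 1130)) / ((11 * x + 194) * (182 * x + 1028)) +
      (1 / 10 + 1 / 10 * (x - 1) * (113 / 500 - 1 / 500 * x) -
      ((7 / 10) / 2 + (3 / 20) / 2) * ((1 / 10) ^ 2 * x) - (7 / 2) / 2 * (0 * (1 / 10) ^ 2 + 9 / 64 * ((1 / 10) ^ 2 * x))) +
      (29 / 50 * (5 / 8 * ((x - 2) / (x + 4))) + (5 / 16 - 1 / 100 - (1 + 1 / 8) * (1 / 4) ^ 2) * (5 / 8 * ((x - 2) / (x + 4)) * x) -
      (27 / 100) / 2 * ((5 / 8 * ((x - 2) / (x + 4))) ^ 2 * x) - (1 + 1 / 8) * (1 / 4) ^ 2 / (4 * (3 / 7)) * ((5 / 8 * ((x - 2) / (x + 4))) ^ 2 * x)) -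
      109 / 100 * ((11 * x + 194) / (40 * (x + 4)) * (x - 1) ^ 2 / (6 * (16 + x))) - 1 / 300 * ((1 - x) ^ 2 / (1 + x)) := by
    apply le_of_eq
    have d1 : 11 * x + 194 ≠ 0 := by linarith
    have d2 : 182 * x + 1028 ≠ 0 := by linarith
    have d3 : 16 + x ≠ 0 := by linarith
    have d4 : 1 + x ≠ 0 := by linarith
    field_simp
    ring
  have pos : 0 ≤ ((1436566216825657 * (x - 12) ^ 0 * (60 - x) ^ 8 + 45505686250299824 * (x - 12) ^ 1 * (60 - x) ^ 7 + 610933289413543012 * (x - 12) ^ 2 * (60 - x) ^ 6 + 4533797909160670304 * (x - 12) ^ 3 * (60 - x) ^ 5 + 20271619550726796670 * (x - 12) ^ 4 * (60 - x) ^ 4 + 55536025756136471408 * (x - 12) ^ 5 * (60 - x) ^ 3 + 89820921461155742836 * (x - 12) ^ 6 * (60 - x) ^ 2 + 76262707689094999808 * (x - 12) ^ 7 * (60 - x) ^ 1 + 24319168107074250481 * (x - 12) ^ 8 * (60 - x) ^ 0) / 3381513651486720000) / ((11 * x + 194) * (182 * x + 1028) * (x + 4) * (x + 4) *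 (16 + x) * (1 + x)) := by
    have ha : 0 ≤ x - 12 := by linarith
    have hb : 0 ≤ 60 - x := by linarith
    have d1 : 0 < 11 * x + 194 := by linarith
    have d2 : 0 < 182 * x + 1028 := by linarith
    have d3 : 0 < 16 + x := by linarith
    have d4 : 0 < 1 + x := by linarith
    have d5 : 0 < x + 4 := by linarith
    positivity
  linarith

lemma g60 {x : ℝ} (h1 : 60 < x) :
    1 / 300 * ((1 - x) ^ 2 / (1 + x)) ≤ Real.log (A x) + f1 x + f2 x - f3 x := by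
  rw [r_id (by linarith)]
  have e1 : b1 x = 1 / 10 := by unfold b1; rw [if_neg (by linarith), if_neg (by linarith)]
  have e2 : b2 x = 5 / 8 * ((x - 2) / (x + 4)) := by unfold b2; rw [if_neg (by linarith)]
  have e3 : al x = 0 := by unfold al; rw [if_neg (by linarith), if_neg (by linarith)]
  have e4 : ep x = 0 := by unfold ep; rw [if_neg (by linarith), if_neg (by linarith)]
  have hx4 : x + 4 ≠ 0 := by linarith
  have eA : A x = (11 * x + 194) / (40 * (x + 4)) := by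
    unfold A; rw [e1, e2]; field_simp; ring
  have hlog := LogP395.log_ge_pade (x := (11 * x + 194) / (40 * (x + 4)))
    (div_pos (by linarith) (by linarith))
  have elog : ((11 * x + 194) / (40 * (x + 4)) - 1) * (5 * ((11 * x + 194) / (40 * (x + 4))) + 1) /
      ((11 * x + 194) / (40 * (x + 4)) * (2 * ((11 * x + 194) / (40 * (x + 4))) + 4)) =
      -((29 * x - 34) * (95 * x + 1130)) / ((11 * x + 194) * (182 * x + 1028)) := by
    have d1 : 11 * x + 194 ≠ 0 := by linarith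
    have d2 : 182 * x + 1028 ≠ 0 := by linarith
    have d5 : 2 * ((11 * x + 194) / (40 * (x + 4))) + 4 = (182 * x + 1028) / (40 * (x + 4)) := by
      field_simp; ring
    rw [d5]
    field_simp
    ring
  rw [elog] at hlog
  rw [eA]
  unfold f1 f2
  rw [e1, e2, e3, e4]
  have key : ((500639964137122364672 * (x - 60) ^ 0 + 61408179258573614976 * (x - 60) ^ 1 + 3181410262662956816 * (x - 60) ^ 2 + 90488294704838384 * (x - 60) ^ 3 + 1529048215811624 * (x - 60) ^ 4 + 15372270818312 * (x - 60) ^ 5 + 85230814953 * (x - 60) ^ 6 + 201214013 * (x - 60) ^ 7) / 6144000) / ((11 * x + 194) * (182 * x + 1028) * (x + 4) * (x + 4) * (16 + x) * (1 + x)) ≤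
      -((29 * x - 34) * (95 * x + 1130)) / ((11 * x + 194) * (182 * x + 1028)) +
      (1 / 10 + 1 / 10 * (x - 1) * (0 - 0 * x) -
      ((7 / 10) / 2 + (3 / 20) / 2) * ((1 / 10) ^ 2 * x) - (7 / 2) / 2 * (0 * (1 / 10) ^ 2 + 9 / 64 * ((1 / 10) ^ 2 * x))) +
      (29 / 50 * (5 / 8 * ((x - 2) / (x + 4))) + (5 / 16 - 1 / 100 - (1 + 1 / 8) * (1 / 4) ^ 2) * (5 / 8 * ((x - 2) / (x + 4)) * x) -
      (27 / 100) / 2 * ((5 / 8 * ((x - 2) / (x + 4))) ^ 2 * x) - (1 + 1 / 8) * (1 / 4) ^ 2 / (4 * (3 / 7)) * ((5 / 8 * ((x - 2) / (x + 4))) ^ 2 * x)) -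
      109 / 100 * ((11 * x + 194) / (40 * (x + 4)) * (x - 1) ^ 2 / (6 * (16 + x))) - 1 / 300 * ((1 - x) ^ 2 / (1 + x)) := by
    apply le_of_eq
    have d1 : 11 * x + 194 ≠ 0 := by linarith
    have d2 : 182 * x + 1028 ≠ 0 := by linarith
    have d3 : 16 + x ≠ 0 := by linarith
    have d4 : 1 + x ≠ 0 := by linarith
    field_simp
    ring
  have pos : 0 ≤ ((500639964137122364672 * (x - 60) ^ 0 + 61408179258573614976 * (x - 60) ^ 1 + 3181410262662956816 * (x - 60) ^ 2 + 90488294704838384 * (x - 60) ^ 3 + 1529048215811624 * (x - 60) ^ 4 + 15372270818312 * (x - 60) ^ 5 + 85230814953 * (x - 60) ^ 6 + 201214013 * (x - 60) ^ 7) / 6144000) / ((11 * x + 194) * (182 * x + 1028) * (x + 4) * (x + 4) * (16 + x) * (1 + x)) := by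
    have ha : 0 ≤ x - 60 := by linarith
    have d1 : 0 < 11 * x + 194 := by linarith
    have d2 : 0 < 182 * x + 1028 := by linarith
    have d3 : 0 < 16 + x := by linarith
    have d4 : 0 < 1 + x := by linarith
    have d5 : 0 < x + 4 := by linarith
    positivity
  linarith

/-- **(G)**, with `mg x = (1-x)²/(1+x)` -/
theorem G (x : ℝ) (hx : 0 ≤ x) :
    1 / 300 * ((1 - x) ^ 2 / (1 + x)) ≤ Real.log (A x) + f1 x + f2 x - f3 x := by
  rcases le_or_gt x 1 with h | h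
  · exact g01 hx h
  rcases le_or_gt x 2 with h2 | h2
  · exact g12 h h2
  rcases le_or_gt x 12 with h3 | h3
  · exact g212 h2 h3
  rcases le_or_gt x 60 with h4 | h4
  · exact g1260 h3 h4
  · exact g60 h4

/-! ### (P), (H), (S), (K₁) -/

/-- `u` of the near part: `ρ = 3/8, κ = 1/2, bo = 1/10, θ₁ = 7/10, θ₃ = 1/5` -/
def u1 (x : ℝ) : ℝ := (3 / 8) ^ 2 / (2 * (7 / 10)) + 1 / 5 * (1 / 10) ^ 2 + (1 / 2) ^ 2 * max (b1 x) 0
/-- `h` of the near part: `θ₄ = 7/2, e₅ = 9/64, c₄ = 3/8` -/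
def h1 (x : ℝ) : ℝ :=
  b1 x * (x - 1) * ep x + (7 / 2) / 2 * (9 / 64) * b1 x ^ 2 + 1 / (2 * (7 / 2)) - 3 / 8 * b1 x
/-- `u` of the far part: `κ = 1/4, ε = 1/8, θ = 3/7` -/
def u2 (x : ℝ) : ℝ :=
  (1 / 16 + (1 + 1 / 8) * (1 / 4) ^ 2) * b2 x + (3 / 7) / 4 +
    (1 + 1 / 8) * (1 / 4) ^ 2 / (4 * (3 / 7)) * b2 x ^ 2
/-- `h` of the far part: `e = 1/100, θ₁ = 27/100` -/
def h2 (x : ℝ) : ℝ := -((3 / 8 - 1 / 100) * b2 x) + (1 / 4) ^ 2 / (2 * (27 / 100)) - 3 / 8 * (3 / 7)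
/-- `u` of the loss: `1/q₀ = 109/100, lam = 1/8, K₁ = 12/5` -/
def u3 (x : ℝ) : ℝ := 109 / 100 * (1 / 3 * A x + (1 / 8) / 12 * (12 / 5))
/-- `h` of the loss -/
def h3 (x : ℝ) : ℝ := -(109 / 100 * (1 / 3 * A x))

lemma b1_lo {x : ℝ} (h0 : 0 ≤ x) : -(3 / 40) ≤ b1 x := by
  unfold b1; split_ifs <;> linarith

lemma b1_hi (x : ℝ) : b1 x ≤ 1 / 10 := by
  unfold b1; split_ifs <;> linarith

lemma b1_x {x : ℝ} (h0 : 0 ≤ x) : 0 ≤ b1 x * (x - 1) := by
  unfold b1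
  split_ifs with h1 h2
  · nlinarith [mul_nonneg (sub_nonneg.2 h1) (sub_nonneg.2 h1)]
  · nlinarith [mul_self_nonneg (x - 1)]
  · have : 0 ≤ x - 1 := by linarith
    positivity

lemma b2_lo (x : ℝ) : 0 ≤ b2 x := by
  unfold b2
  split_ifs with h
  · exact le_rfl
  · have h2 : 0 ≤ x - 2 := by linarith
    have h4 : 0 < x + 4 := by linarith
    positivity

lemma b2_hi (x : ℝ) : b2 x ≤ 5 / 8 := by
  unfold b2
  split_ifs with h
  · norm_num
  · have h4 : (x - 2) / (x + 4) ≤ 1 := by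
      rw [div_le_one (by linarith)]; linarith
    linarith

/-- the term `b₁ (x-1) ε` of `h₁` -/
lemma b1_ep {x : ℝ} (h0 : 0 ≤ x) : b1 x * (x - 1) * ep x ≤ 3 / 4000 + (3 / 20) * max (b1 x) 0 := by
  have hb := b1_x h0
  unfold ep
  split_ifs with h1 h2
  · rcases le_or_gt x 1 with h | h
    · have e : b1 x = -(3 / 40 * (1 - x)) := by unfold b1; rw [if_pos h]
      have m : 0 ≤ max (b1 x) 0 := le_max_right _ _
      rw [e] at hb ⊢
      have : (1 - x) * (1 - x) ≤ 1 := by nlinarith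
      nlinarith [le_max_right (-(3 / 40 * (1 - x))) (0:ℝ)]
    · have p : 0 ≤ b1 x := by
        by_contra hn
        have : b1 x * (x - 1) < 0 := mul_neg_of_neg_of_pos (not_le.1 hn) (by linarith)
        linarith
      rw [max_eq_left p]
      nlinarith
  · have e : b1 x = 1 / 10 := by unfold b1; rw [if_neg (by linarith), if_neg (by linarith)]
    rw [e, max_eq_left (by norm_num)]
    linarith
  · have m : 0 ≤ max (b1 x) 0 := le_max_right _ _
    nlinarith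

/-- **(P)** -/
theorem P (x : ℝ) (hx : 0 ≤ x) : 1 / 300 ≤ 1 - u1 x - u2 x - u3 x := by
  have a1 := b1_lo hx
  have a2 := b1_hi x
  have a3 := b2_lo x
  have a4 := b2_hi x
  have m : max (b1 x) 0 ≤ 1 / 10 := max_le a2 (by norm_num)
  unfold u1 u2 u3 A
  nlinarith [mul_nonneg a3 (sub_nonneg.2 a4)]

/-- **(H)** -/
theorem H (x : ℝ) (hx : 0 ≤ x) :
    2 * (1 / 300) ≤ 2 * (1 - u1 x - u2 x - u3 x) - (1 + h1 x + h2 x + h3 x) := by
  have a1 := b1_lo hx
  have a2 := b1_hi x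
  have a3 := b2_lo x
  have a4 := b2_hi x
  have a5 := b1_ep hx
  have q : b2 x * b2 x ≤ 5 / 8 * b2 x := by nlinarith [mul_nonneg a3 (sub_nonneg.2 a4)]
  unfold u1 u2 u3 h1 h2 h3 A
  rcases le_or_gt (b1 x) 0 with h | h
  · rw [max_eq_right h] at a5 ⊢
    nlinarith [mul_nonneg (sub_nonneg.2 a1) (neg_nonneg.2 h)]
  · rw [max_eq_left h.le] at a5 ⊢
    nlinarith [mul_nonneg (sub_nonneg.2 a2) h.le]

/-- **(K₁)** -/
theorem K1 (x : ℝ) (hx : 0 ≤ x) : A x * (r x) ^ 2 * x ≤ 12 / 5 := by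
  have hr : (r x) ^ 2 = 289 / (16 + x) ^ 2 := by
    unfold r; rw [div_pow]; norm_num
  have hp : 0 < (16 + x) ^ 2 := by positivity
  have e : A x * (r x) ^ 2 * x = 289 * (A x * x) / (16 + x) ^ 2 := by
    rw [hr]; ring
  rw [e, div_le_iff₀ hp]
  unfold A b1 b2
  split_ifs with h1 h2 h2
  · nlinarith
  · exact absurd (h1.trans (by norm_num)) h2
  · nlinarith
  · have h4 : 0 < x + 4 := by linarith
    have e2 : (1 - 1 / 10 - 5 / 8 * ((x - 2) / (x + 4))) = (11 * x + 194) / (40 * (x + 4)) := by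
      field_simp; ring
    rw [e2]
    have e3 : 289 * ((11 * x + 194) / (40 * (x + 4)) * x) =
        289 * (11 * x + 194) * x / (40 * (x + 4)) := by ring
    rw [e3, div_le_iff₀ (by linarith)]
    have hx17 : 0 ≤ x + 17 := by linarith
    nlinarith [mul_nonneg hx17 (sq_nonneg (x - 29 / 4)), sq_nonneg (x - 8)]

/-- **(S)** -/
theorem S : ((1 / 20 : ℝ) / (2 * (3 / 20)) + (13 / 2000) / (1 / 5) + 1 / 10 * (13 / 500)) +
    (1 + 1 / (1 / 8)) * (13 / 500) * (5 / 8 + (5 / 8) ^ 2 / (4 * (3 / 7))) +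
    109 / 9 * (43 / 40 * (13 / 500) + 12 / 5 * (3 / 400)) ≤ 1 := by norm_num

lemma A_le {x : ℝ} (hx : 0 ≤ x) : A x ≤ 43 / 40 := by
  have a1 := b1_lo hx
  have a3 := b2_lo x
  unfold A; linarith

lemma A_split (x : ℝ) : 1 - A x = b1 x + b2 x := by unfold A; ring

end Crest.Agent.R253.G655
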