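import Crest.Agent.R253.EqB_435

/-!
# R253, Gaussian end, part A (helper435)

1-D: `g ≥ 0` on `ℝ` with `g(t) e^{t²/2}` log-concave and the moments `1, 0, 1` is the standard
Gaussian density.
-/

set_option autoImplicit false
open MeasureTheory Set Filter Topology ProbabilityTheory
open scoped ENNReal NNReal

namespace Crest.Agent.R253.Eq435

/-- standard Gaussian density -/
noncomputable def gph (t : ℝ) : ℝ := gaussianPDFReal 0 1 t

theorem gph_eq (t : ℝ) : gph t = (Real.sqrt (2 * Real.pi))⁻¹ * Real.exp (-(t ^ 2 / 2)) := by
  unfold gph gaussianPDFReal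
  simp only [NNReal.coe_one, mul_one, sub_zero]
  congr 2; ring

theorem gph_pos (t : ℝ) : 0 < gph t := gaussianPDFReal_pos 0 1 t one_ne_zero

theorem measurable_gph : Measurable gph := measurable_gaussianPDFReal 0 1

theorem integral_gph (F : ℝ → ℝ) : ∫ t, F t * gph t = ∫ t, F t ∂(gaussianReal 0 1) := by
  rw [integral_gaussianReal_eq_integral_smul one_ne_zero]
  congr 1; funext t; rw [smul_eq_mul, mul_comm]; rfl

theorem integrable_pow_gph (k : ℕ) : Integrable (fun t : ℝ => t ^ k * gph t) := by
  have h := integrable_rpow_mul_exp_neg_mul_sq (b := 1 / 2) (by norm_num) (s := k)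
    (by have : (0 : ℝ) ≤ k := Nat.cast_nonneg k
        linarith)
  have h1 : (fun t : ℝ => t ^ k * gph t) = fun t => (Real.sqrt (2 * Real.pi))⁻¹ *
      (t ^ (k : ℝ) * Real.exp (-(1 / 2) * t ^ 2)) := by
    funext t
    rw [gph_eq, Real.rpow_natCast]
    have : -(t ^ 2 / 2) = -(1 / 2) * t ^ 2 := by ring
    rw [this]; ring
  rw [h1]
  exact h.const_mul _

theorem moment0_gph : ∫ t : ℝ, t ^ 0 * gph t = 1 := by
  simp only [pow_zero, one_mul]
  exact integral_gaussianPDFReal_eq_one 0 one_ne_zero

theorem moment1_gph : ∫ t : ℝ, t ^ 1 * gph t = 0 := by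
  rw [integral_gph (fun t => t ^ 1)]
  simp only [pow_one]
  exact integral_id_gaussianReal

theorem moment2_gph : ∫ t : ℝ, t ^ 2 * gph t = 1 := by
  rw [integral_gph (fun t => t ^ 2)]
  have h1 : variance id (gaussianReal 0 1) = ((1 : ℝ≥0) : ℝ) := variance_id_gaussianReal
  rw [variance_of_integral_eq_zero aemeasurable_id (by simp)] at h1
  simpa using h1

theorem ae_eq_of_sign' {g e : ℝ → ℝ} {p : ℝ → ℝ} (hint : Integrable (fun t => p t * (g t - e t)))
    (h0 : ∫ t, p t * (g t - e t) = 0) (hs : ∀ t, 0 ≤ p t * (g t - e t))
    (hp : ∀ᵐ t, p t ≠ 0) : g =ᵐ[volume] e := by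
  have h1 : (fun t => p t * (g t - e t)) =ᵐ[volume] 0 :=
    (integral_eq_zero_iff_of_nonneg hs hint).mp h0
  filter_upwards [h1, hp] with t ht hpt
  simp only [Pi.zero_apply, mul_eq_zero] at ht
  rcases ht with h | h
  · exact absurd h hpt
  · linarith

/-- **1-D characterisation of the Gaussian** among strongly log-concave functions -/
theorem ae_eq_gph {g : ℝ → ℝ} (hg0 : ∀ t, 0 ≤ g t)
    (hlc : ∀ x y s r : ℝ, 0 < s → 0 < r → s + r = 1 →
      (g x * Real.exp (x ^ 2 / 2)) ^ s * (g y * Real.exp (y ^ 2 / 2)) ^ r ≤
        g (s * x + r * y) * Real.exp ((s * x + r * y) ^ 2 / 2))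
    (hint : ∀ k : ℕ, k ≤ 2 → Integrable (fun t => t ^ k * g t))
    (h0 : ∫ t, t ^ 0 * g t = 1) (h1 : ∫ t, t ^ 1 * g t = 0) (h2 : ∫ t, t ^ 2 * g t = 1) :
    g =ᵐ[volume] gph := by
  have hpoly : ∀ a b c : ℝ,
      Integrable (fun t => (a + b * t + c * t ^ 2) * (g t - gph t)) ∧
      ∫ t, (a + b * t + c * t ^ 2) * (g t - gph t) = 0 := by
    intro a b c
    have hk : ∀ k : ℕ, k ≤ 2 → Integrable (fun t => t ^ k * (g t - gph t)) ∧
        ∫ t, t ^ k * (g t - gph t) = 0 := by
      intro k hk
      have e1 := hint k hk
      have e2 := integrable_pow_gph k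
      have h3 : (fun t => t ^ k * (g t - gph t)) = fun t => t ^ k * g t - t ^ k * gph t := by
        funext t; ring
      rw [h3]
      refine ⟨e1.sub e2, ?_⟩
      rw [integral_sub e1 e2]
      interval_cases k
      · rw [h0, moment0_gph, sub_self]
      · rw [h1, moment1_gph, sub_self]
      · rw [h2, moment2_gph, sub_self]
    obtain ⟨i0, v0⟩ := hk 0 (by norm_num)
    obtain ⟨i1, v1⟩ := hk 1 (by norm_num)
    obtain ⟨i2, v2⟩ := hk 2 (by norm_num)
    have h3 : (fun t => (a + b * t + c * t ^ 2) * (g t - gph t)) = fun t =>
        (a * (t ^ 0 * (g t - gph t)) + b * (t ^ 1 * (g t - gph t))) +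
          c * (t ^ 2 * (g t - gph t)) := by
      funext t; ring
    rw [h3]
    have j0 := i0.const_mul a
    have j1 := i1.const_mul b
    have j2 := i2.const_mul c
    refine ⟨(j0.add j1).add j2, ?_⟩
    have a2 := integral_add (j0.add j1) j2
    have a3 := integral_add j0 j1
    simp only [Pi.add_apply] at a2 a3
    rw [a2, a3, integral_const_mul, integral_const_mul, integral_const_mul, v0, v1, v2]
    ring
  set P : Set ℝ := {t | gph t < g t} with hP
  have hsq : 0 < (Real.sqrt (2 * Real.pi))⁻¹ := by positivity
  have hiff : ∀ t, gph t < g t ↔ (Real.sqrt (2 * Real.pi))⁻¹ < g t * Real.exp (t ^ 2 / 2) := by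
    intro t
    rw [gph_eq]
    have he : 0 < Real.exp (t ^ 2 / 2) := Real.exp_pos _
    have h3 : Real.exp (-(t ^ 2 / 2)) * Real.exp (t ^ 2 / 2) = 1 := by
      rw [← Real.exp_add]; simp
    constructor
    · intro h
      have := mul_lt_mul_of_pos_right h he
      rwa [mul_assoc, h3, mul_one] at this
    · intro h
      by_contra hcon
      push Not at hcon
      have := mul_le_mul_of_nonneg_right hcon he.le
      rw [mul_assoc, h3, mul_one] at this
      linarith
  have hPconv : ∀ x ∈ P, ∀ y ∈ P, ∀ t, x < t → t < y → t ∈ P := by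
    intro x hx y hy t hxt hty
    have hxy : 0 < y - x := by linarith
    set s : ℝ := (y - t) / (y - x) with hs
    set r : ℝ := (t - x) / (y - x) with hr
    have hs0 : 0 < s := by apply div_pos <;> linarith
    have hr0 : 0 < r := by apply div_pos <;> linarith
    have hsr : s + r = 1 := by rw [hs, hr]; field_simp; ring
    have ht : s * x + r * y = t := by
      rw [hs, hr]; field_simp; ring
    have h1 := hlc x y s r hs0 hr0 hsr
    rw [ht] at h1
    rw [hP, mem_ofPred_eq, hiff]
    refine lt_of_lt_of_le ?_ h1
    have hgx := (hiff x).mp hx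
    have hgy := (hiff y).mp hy
    calc (Real.sqrt (2 * Real.pi))⁻¹
        = ((Real.sqrt (2 * Real.pi))⁻¹) ^ s * ((Real.sqrt (2 * Real.pi))⁻¹) ^ r := by
          rw [← Real.rpow_add hsq, hsr, Real.rpow_one]
      _ < _ := by
          apply mul_lt_mul''
          · exact Real.rpow_lt_rpow hsq.le hgx hs0
          · exact Real.rpow_lt_rpow hsq.le hgy hr0
          · positivity
          · positivity
  rcases P.eq_empty_or_nonempty with hemp | hne
  · obtain ⟨i1, v1⟩ := hpoly (-1) 0 0
    refine ae_eq_of_sign' i1 v1 ?_ ?_
    · intro t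
      have h1 : g t ≤ gph t := by
        by_contra hcon
        push Not at hcon
        have : t ∈ P := hcon
        rw [hemp] at this
        exact this
      apply mul_nonneg_of_nonpos_of_nonpos <;> nlinarith
    · exact ae_of_all _ fun t => by norm_num
  · by_cases hbelow : BddBelow P
    · set b := sInf P with hb
      have hlt_b : ∀ t, t < b → g t ≤ gph t := by
        intro t htb
        by_contra hcon
        push Not at hcon
        exact absurd (csInf_le hbelow hcon) (not_le.mpr htb)
      by_cases habove : BddAbove P
      · set c := sSup P with hc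
        have hbc : b ≤ c := by
          obtain ⟨t, ht⟩ := hne
          exact (csInf_le hbelow ht).trans (le_csSup habove ht)
        have hgt_c : ∀ t, c < t → g t ≤ gph t := by
          intro t htc
          by_contra hcon
          push Not at hcon
          exact absurd (le_csSup habove hcon) (not_le.mpr htc)
        have hmid : ∀ t, b < t → t < c → gph t ≤ g t := by
          intro t hbt htc
          obtain ⟨x, hx, hxt⟩ := exists_lt_of_csInf_lt hne hbt
          obtain ⟨y, hy, hty⟩ := exists_lt_of_lt_csSup hne htc
          exact le_of_lt (hPconv x hx y hy t hxt hty)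
        obtain ⟨i1, v1⟩ := hpoly (-(b * c)) (b + c) (-1)
        refine ae_eq_of_sign' i1 v1 ?_ ?_
        · intro t
          have hfac : -(b * c) + (b + c) * t + -1 * t ^ 2 = -((t - b) * (t - c)) := by ring
          rw [hfac]
          rcases lt_trichotomy t b with h | h | h
          · have h1 := hlt_b t h
            have h2 : 0 ≤ (b - t) * (c - t) := mul_nonneg (by linarith) (by linarith)
            apply mul_nonneg_of_nonpos_of_nonpos <;> nlinarith
          · rw [h]; simp
          · rcases lt_trichotomy t c with h' | h' | h'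
            · have h1 := hmid t h h'
              have h2 : 0 ≤ (t - b) * (c - t) := mul_nonneg (by linarith) (by linarith)
              apply mul_nonneg <;> nlinarith
            · rw [h']; simp
            · have h1 := hgt_c t h'
              have h2 : 0 ≤ (t - b) * (t - c) := mul_nonneg (by linarith) (by linarith)
              apply mul_nonneg_of_nonpos_of_nonpos <;> nlinarith
        · filter_upwards [ae_ne b, ae_ne c] with t h2 h3
          have hfac : -(b * c) + (b + c) * t + -1 * t ^ 2 = -((t - b) * (t - c)) := by ring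
          rw [hfac]
          exact neg_ne_zero.mpr (mul_ne_zero (sub_ne_zero.mpr h2) (sub_ne_zero.mpr h3))
      · have hgt_b : ∀ t, b < t → gph t ≤ g t := by
          intro t hbt
          obtain ⟨x, hx, hxt⟩ := exists_lt_of_csInf_lt hne hbt
          rw [not_bddAbove_iff] at habove
          obtain ⟨y, hy, hty⟩ := habove t
          exact le_of_lt (hPconv x hx y hy t hxt hty)
        obtain ⟨i1, v1⟩ := hpoly (-b) 1 0
        refine ae_eq_of_sign' i1 v1 ?_ ?_
        · intro t
          have hfac : -b + 1 * t + 0 * t ^ 2 = t - b := by ring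
          rw [hfac]
          rcases lt_trichotomy t b with h | h | h
          · have h1 := hlt_b t h
            apply mul_nonneg_of_nonpos_of_nonpos <;> linarith
          · rw [h]; simp
          · have h1 := hgt_b t h
            apply mul_nonneg <;> linarith
        · filter_upwards [ae_ne b] with t h2
          have hfac : -b + 1 * t + 0 * t ^ 2 = t - b := by ring
          rw [hfac]
          exact sub_ne_zero.mpr h2
    · by_cases habove : BddAbove P
      · set c := sSup P with hc
        have hgt_c : ∀ t, c < t → g t ≤ gph t := by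
          intro t htc
          by_contra hcon
          push Not at hcon
          exact absurd (le_csSup habove hcon) (not_le.mpr htc)
        have hlt_c : ∀ t, t < c → gph t ≤ g t := by
          intro t htc
          obtain ⟨y, hy, hty⟩ := exists_lt_of_lt_csSup hne htc
          rw [not_bddBelow_iff] at hbelow
          obtain ⟨x, hx, hxt⟩ := hbelow t
          exact le_of_lt (hPconv x hx y hy t hxt hty)
        obtain ⟨i1, v1⟩ := hpoly c (-1) 0
        refine ae_eq_of_sign' i1 v1 ?_ ?_
        · intro t
          have hfac : c + -1 * t + 0 * t ^ 2 = c - t := by ring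
          rw [hfac]
          rcases lt_trichotomy t c with h | h | h
          · have h1 := hlt_c t h
            apply mul_nonneg <;> linarith
          · rw [h]; simp
          · have h1 := hgt_c t h
            apply mul_nonneg_of_nonpos_of_nonpos <;> linarith
        · filter_upwards [ae_ne c] with t h2
          have hfac : c + -1 * t + 0 * t ^ 2 = c - t := by ring
          rw [hfac]
          exact sub_ne_zero.mpr (Ne.symm h2)
      · obtain ⟨i1, v1⟩ := hpoly 1 0 0
        refine ae_eq_of_sign' i1 v1 ?_ ?_
        · intro t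
          have hfac : (1 : ℝ) + 0 * t + 0 * t ^ 2 = 1 := by ring
          rw [hfac, one_mul]
          rw [not_bddBelow_iff] at hbelow
          rw [not_bddAbove_iff] at habove
          obtain ⟨x, hx, hxt⟩ := hbelow t
          obtain ⟨y, hy, hty⟩ := habove t
          have := hPconv x hx y hy t hxt hty
          have : gph t < g t := this
          linarith
        · exact ae_of_all _ fun t => by norm_num

end Crest.Agent.R253.Eq435
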