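import Crest.Agent.R253.GsA_435
import Crest.Agent.R253.EqC_435

/-!
# R253, Gaussian end, part B (helper435)

`SLC f G` with `densCov f * G = 1` forces `f` to be Gaussian; entropy.
-/

set_option autoImplicit false
open MeasureTheory Set Filter Topology Matrix ProbabilityTheory
open Crest.GeometryTopology.Isotropic
open scoped ENNReal NNReal

namespace Crest.Agent.R253.Eq435

open Crest.Agent.R253.EqEasy505 Crest.Agent.R253.Cpt435

variable {m : ℕ}

/-! ### log-concavity tools -/

theorem LogC_exp_neg_qf {H : Matrix (Fin m) (Fin m) ℝ} (hH : H.PosSemidef) :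
    LogC (fun x : Fin m → ℝ => Real.exp (-(qf H x / 2))) := by
  intro x y s r hs hr hsr
  simp only
  rw [← Real.exp_mul, ← Real.exp_mul, ← Real.exp_add]
  apply Real.exp_le_exp.mpr
  have h1 : qf H (s • x + r • y) = s ^ 2 * qf H x + 2 * (s * r * (x ⬝ᵥ H.mulVec y)) +
      r ^ 2 * qf H y := by
    rw [qf_add hH.isHermitian, qf_smul, qf_smul, mulVec_smul, dotProduct_smul, smul_dotProduct]
    simp only [smul_eq_mul]; ring
  have h2 : 0 ≤ qf H (x + (-1 : ℝ) • y) := qf_nonneg hH _
  rw [qf_add hH.isHermitian, qf_smul, mulVec_smul, dotProduct_smul] at h2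
  simp only [smul_eq_mul] at h2
  rw [h1]
  have hr' : r = 1 - s := by linarith
  have h3 : 0 ≤ s * r * (qf H x - 2 * (x ⬝ᵥ H.mulVec y) + qf H y) := by
    apply mul_nonneg (mul_nonneg hs.le hr.le)
    linarith
  subst hr'
  nlinarith

theorem qf_one (x : Fin m → ℝ) : qf (1 : Matrix (Fin m) (Fin m) ℝ) x = ∑ i, x i ^ 2 := by
  simp only [qf, one_mulVec, dotProduct]
  refine Finset.sum_congr rfl fun i _ => ?_
  ring

section marg

variable {n : ℕ}

/-- marginals of log-concave functions, general form -/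
theorem marg_logc_gen {h : (Fin (n + 1) → ℝ) → ℝ} (hm : Measurable h) (h0 : ∀ x, 0 ≤ h x)
    (hlc : LogC h) (i : Fin (n + 1))
    (hint : ∀ s, Integrable (fun y : Fin n → ℝ => h (i.insertNth s y)))
    (x y s r : ℝ) (hs : 0 < s) (hr : 0 < r) (hsr : s + r = 1) :
    marg h i x ^ s * marg h i y ^ r ≤ marg h i (s * x + r * y) := by
  have hmeas : ∀ z, Measurable (fun a : Fin n → ℝ => ENNReal.ofReal (h (i.insertNth z a))) :=
    fun z => (hm.comp (measurable_ins i z)).ennreal_ofReal
  have hnn : ∀ z, 0 ≤ marg h i z := fun z => integral_nonneg fun _ => h0 _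
  have hs' : 1 - r = s := by linarith
  have hPL := Lib.PrekopaLeindler.PL_pi n r hr (by linarith)
    (fun a => ENNReal.ofReal (h (i.insertNth x a)))
    (fun a => ENNReal.ofReal (h (i.insertNth y a)))
    (fun a => ENNReal.ofReal (h (i.insertNth (s * x + r * y) a)))
    (hmeas x) (hmeas y) (hmeas _) ?_
  · have hint' : ∀ z, ∫⁻ a : Fin n → ℝ, ENNReal.ofReal (h (i.insertNth z a)) =
        ENNReal.ofReal (marg h i z) := fun z =>
      (ofReal_integral_eq_lintegral_ofReal (hint z) (ae_of_all _ fun _ => h0 _)).symm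
    rw [hint', hint', hint', hs', ENNReal.ofReal_rpow_of_nonneg (hnn x) hs.le,
      ENNReal.ofReal_rpow_of_nonneg (hnn y) hr.le,
      ← ENNReal.ofReal_mul (Real.rpow_nonneg (hnn x) _)] at hPL
    exact (ENNReal.ofReal_le_ofReal_iff (hnn _)).mp hPL
  · intro a b
    simp only [hs']
    rw [ENNReal.ofReal_rpow_of_nonneg (h0 _) hs.le,
      ENNReal.ofReal_rpow_of_nonneg (h0 _) hr.le,
      ← ENNReal.ofReal_mul (Real.rpow_nonneg (h0 _) _)]
    apply ENNReal.ofReal_le_ofReal
    rw [ins_comb]
    exact hlc _ _ s r hs hr hsr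

/-- coordinate marginals of an isotropic state with `G = 1` are standard Gaussian -/
theorem marg_gauss {f : (Fin (n + 1) → ℝ) → ℝ}
    (hf : SLC f (1 : Matrix (Fin (n + 1)) (Fin (n + 1)) ℝ)) (i : Fin (n + 1))
    (h1 : ex f (fun x => x i) = 0) (h2 : ex f (fun x => x i ^ 2) = 1) :
    marg f i =ᵐ[volume] gph := by
  -- h x = f x * exp (x_i^2/2)
  set H : Matrix (Fin (n + 1)) (Fin (n + 1)) ℝ := 1 - vecMulVec (Pi.single i 1) (Pi.single i 1)
    with hH
  have hqH : ∀ x, qf H x = qf 1 x - x i ^ 2 := by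
    intro x
    simp only [qf, hH, sub_mulVec, dotProduct_sub, vecMulVec_mulVec, dotProduct_smul]
    simp [sq]
  have hHpsd : H.PosSemidef := by
    refine Matrix.PosSemidef.of_dotProduct_mulVec_nonneg ?_ ?_
    · refine IsHermitian.sub isHermitian_one ?_
      ext a b
      simp only [conjTranspose_apply, vecMulVec_apply, star_trivial]
      ring
    · intro x
      have h3 : star x ⬝ᵥ H.mulVec x = qf H x := by simp [qf]
      rw [h3, hqH, qf_one]
      have : x i ^ 2 ≤ ∑ j, x j ^ 2 :=
        Finset.single_le_sum (f := fun j => x j ^ 2) (fun j _ => sq_nonneg _) (Finset.mem_univ i)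
      linarith
  set h : (Fin (n + 1) → ℝ) → ℝ := fun x => f x * Real.exp (x i ^ 2 / 2) with hh
  have hlc : LogC h := by
    have h3 := LogC.mul (fun x => mul_nonneg (hf.nonneg x) (Real.exp_pos _).le)
      (fun x => (Real.exp_pos _).le) hf.slc (LogC_exp_neg_qf hHpsd)
    convert h3 using 2 with x
    rw [hh]
    simp only
    rw [mul_assoc, ← Real.exp_add]
    congr 2
    rw [hqH]; ring
  have hmeas : Measurable h := hf.meas.mul
    (Real.measurable_exp.comp (((measurable_pi_apply i).pow_const 2).div_const 2))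
  have h0 : ∀ x, 0 ≤ h x := fun x => mul_nonneg (hf.nonneg x) (Real.exp_pos _).le
  have hsec : ∀ s, (fun y : Fin n → ℝ => h (i.insertNth s y)) =
      fun y => f (i.insertNth s y) * Real.exp (s ^ 2 / 2) := by
    intro s; funext y; simp [hh]
  have hint : ∀ s, Integrable (fun y : Fin n → ℝ => h (i.insertNth s y)) := by
    intro s; rw [hsec]
    exact (integrable_ins hf.eb i s).mul_const _
  have hmarg : ∀ s, marg h i s = marg f i s * Real.exp (s ^ 2 / 2) := by
    intro s
    unfold marg
    rw [hsec, integral_mul_const]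
  apply ae_eq_gph (marg_nonneg hf.toLCD i)
  · intro x y s r hs hr hsr
    have := marg_logc_gen hmeas h0 hlc i hint x y s r hs hr hsr
    rw [hmarg, hmarg, hmarg] at this
    exact this
  · intro k _; exact (marg_moment hf.toLCD i k).1
  · rw [(marg_moment hf.toLCD i 0).2]; simpa using hf.ex_const 1
  · rw [(marg_moment hf.toLCD i 1).2]; simpa using h1
  · rw [(marg_moment hf.toLCD i 2).2]; simpa using h2

/-- Fubini, complex valued -/
theorem integral_fubiniC (F : (Fin (n + 1) → ℝ) → ℂ) (hF : Integrable F) (i : Fin (n + 1)) :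
    ∫ x, F x = ∫ s, ∫ y : Fin n → ℝ, F (i.insertNth s y) := by
  have hmp := volume_preserving_piFinSuccAbove (fun _ : Fin (n + 1) => ℝ) i
  set e := MeasurableEquiv.piFinSuccAbove (fun _ : Fin (n + 1) => ℝ) i with he
  have h1 : ∫ x, F x = ∫ p : ℝ × (Fin n → ℝ), F (i.insertNth p.1 p.2) := by
    have := hmp.symm.integral_comp e.symm.measurableEmbedding F
    rw [← this]
    rfl
  have h2 : Integrable (fun p : ℝ × (Fin n → ℝ) => F (i.insertNth p.1 p.2)) := by
    have := hmp.symm.integrable_comp_of_integrable hF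
    exact this
  have h3 : Integrable (fun p : ℝ × (Fin n → ℝ) => F (i.insertNth p.1 p.2))
      ((volume : Measure ℝ).prod (volume : Measure (Fin n → ℝ))) := h2
  rw [h1]
  exact integral_prod _ h3

/-- characteristic function along a coordinate direction -/
theorem char_coord {f : (Fin (n + 1) → ℝ) → ℝ}
    (hf : SLC f (1 : Matrix (Fin (n + 1)) (Fin (n + 1)) ℝ)) (i : Fin (n + 1))
    (h1 : ex f (fun x => x i) = 0) (h2 : ex f (fun x => x i ^ 2) = 1) (ρ : ℝ) :
    ∫ x, Complex.exp ((ρ * x i : ℝ) * Complex.I) * (f x : ℂ) =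
      Complex.exp (-(ρ ^ 2 / 2 : ℝ)) := by
  have hint : Integrable (fun x => Complex.exp ((ρ * x i : ℝ) * Complex.I) * (f x : ℂ)) := by
    refine (hf.integrable.norm).mono' ?_ (ae_of_all _ fun x => ?_)
    · apply AEStronglyMeasurable.mul
      · apply Measurable.aestronglyMeasurable
        fun_prop
      · exact (Complex.measurable_ofReal.comp hf.meas).aestronglyMeasurable
    · rw [norm_mul, Complex.norm_exp_ofReal_mul_I, one_mul, Complex.norm_real]
  rw [integral_fubiniC _ hint i]
  have h3 : (fun s : ℝ => ∫ y : Fin n → ℝ,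
      Complex.exp ((ρ * (i.insertNth s y : Fin (n + 1) → ℝ) i : ℝ) * Complex.I) *
        (f (i.insertNth s y) : ℂ)) =ᵐ[volume]
      fun s => Complex.exp ((ρ * s : ℝ) * Complex.I) * (gph s : ℂ) := by
    filter_upwards [marg_gauss hf i h1 h2] with s hs
    simp only [Fin.insertNth_apply_same]
    rw [integral_const_mul]
    congr 1
    rw [← hs]
    exact integral_ofReal
  rw [integral_congr_ae h3]
  have h4 := charFun_gaussianReal (μ := 0) (v := 1) ρ
  rw [charFun_apply_real, integral_gaussianReal_eq_integral_smul one_ne_zero] at h4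
  have h5 : ∀ s : ℝ, Complex.exp ((ρ * s : ℝ) * Complex.I) * (gph s : ℂ) =
      gaussianPDFReal 0 1 s • Complex.exp (ρ * s * Complex.I) := by
    intro s
    rw [Complex.real_smul, mul_comm]
    simp [gph]
  simp only [h5]
  rw [h4]
  congr 1
  push_cast
  ring

end marg

/-- change of variables, complex valued -/
theorem integral_affineC (F : (Fin m → ℝ) → ℂ) {M : Matrix (Fin m) (Fin m) ℝ} (hM : M.det ≠ 0)
    (b : Fin m → ℝ) : ∫ x, F x = ((|M.det| : ℝ) : ℂ) * ∫ u, F (b + M.mulVec u) := by
  have h1 := Real.map_matrix_volume_pi_eq_smul_volume_pi hM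
  have hU : IsUnit M.det := isUnit_iff_ne_zero.2 hM
  let e : (Fin m → ℝ) ≃ᵐ (Fin m → ℝ) :=
    { toFun := fun u => M.mulVec u
      invFun := fun u => M⁻¹.mulVec u
      left_inv := fun u => by
        simp only [Matrix.mulVec_mulVec, Matrix.nonsing_inv_mul M hU, Matrix.one_mulVec]
      right_inv := fun u => by
        simp only [Matrix.mulVec_mulVec, Matrix.mul_nonsing_inv M hU, Matrix.one_mulVec]
      measurable_toFun := by
        have : Continuous fun u : Fin m → ℝ => M.mulVec u := by fun_prop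
        exact this.measurable
      measurable_invFun := by
        have : Continuous fun u : Fin m → ℝ => M⁻¹.mulVec u := by fun_prop
        exact this.measurable }
  have h2 : ∫ u, F (b + M.mulVec u) = ∫ x, F (b + x) ∂(Measure.map e volume) := by
    rw [integral_map_equiv]; rfl
  have h3 : Measure.map e volume = ENNReal.ofReal (abs (M.det)⁻¹) • (volume : Measure (Fin m → ℝ)) := by
    rw [← h1]; rfl
  rw [h2, h3, integral_smul_measure, integral_add_left_eq_self,
    ENNReal.toReal_ofReal (abs_nonneg _), Complex.real_smul, ← mul_assoc, abs_inv]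
  have : ((|M.det| : ℝ) : ℂ) ≠ 0 := by
    exact_mod_cast abs_ne_zero.mpr hM
  rw [Complex.ofReal_inv, mul_inv_cancel₀ this, one_mul]

/-- an orthogonal matrix with prescribed column -/
theorem exists_orthogonal_col {n : ℕ} (v : Fin (n + 1) → ℝ) (hv : v ≠ 0) :
    ∃ (U : Matrix (Fin (n + 1)) (Fin (n + 1)) ℝ) (ρ : ℝ), Uᵀ * U = 1 ∧ ρ ^ 2 = ∑ i, v i ^ 2 ∧
      ∀ u, v ⬝ᵥ U.mulVec u = ρ * u 0 := by
  set w : EuclideanSpace ℝ (Fin (n + 1)) := WithLp.toLp 2 v with hw
  have hw0 : w ≠ 0 := by
    intro h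
    apply hv
    have := congrArg (WithLp.ofLp) h
    simpa [hw] using this
  set ρ : ℝ := ‖w‖ with hρ
  have hρ0 : 0 < ρ := norm_pos_iff.mpr hw0
  set e : EuclideanSpace ℝ (Fin (n + 1)) := ρ⁻¹ • w with he
  have hen : ‖e‖ = 1 := by
    rw [he, norm_smul, norm_inv, Real.norm_eq_abs, abs_of_pos hρ0, inv_mul_cancel₀ hρ0.ne']
  have horth : Orthonormal ℝ (({0} : Set (Fin (n + 1))).domRestrict (fun _ => e)) := by
    constructor
    · intro i; exact hen
    · intro i j hij
      exact absurd (Subsingleton.elim i j) hij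
  obtain ⟨b, hb⟩ := horth.exists_orthonormalBasis_extension_of_card_eq (by simp)
  have hb0 : b 0 = e := hb 0 (by simp)
  let Q : Matrix (Fin (n + 1)) (Fin (n + 1)) ℝ := Matrix.of fun i α => (b α) i
  have hQ : Qᵀ * Q = 1 := by
    ext α β
    have h1 := orthonormal_iff_ite.mp b.orthonormal α β
    rw [Matrix.mul_apply, Matrix.one_apply]
    simp only [Q, transpose_apply, of_apply]
    rw [← h1, EuclideanSpace.inner_eq_star_dotProduct]
    simp only [dotProduct, star_trivial]
    refine Finset.sum_congr rfl fun i _ => ?_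
    simp [mul_comm]
  refine ⟨Q, ρ, hQ, ?_, ?_⟩
  · rw [hρ, EuclideanSpace.norm_sq_eq]
    refine Finset.sum_congr rfl fun i _ => ?_
    simp [hw]
  · intro u
    have hvQ : v = ρ • (fun i => Q i 0) := by
      ext i
      simp only [Q, of_apply, Pi.smul_apply, smul_eq_mul]
      rw [hb0, he]
      simp only [PiLp.smul_apply, smul_eq_mul]
      rw [← mul_assoc, mul_inv_cancel₀ hρ0.ne', one_mul]
    have h1 : ∀ β, ∑ i, Q i 0 * Q i β = if (0 : Fin (n + 1)) = β then 1 else 0 := by
      intro β
      have := congrFun (congrFun hQ 0) β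
      rw [Matrix.mul_apply, Matrix.one_apply] at this
      simpa using this
    rw [hvQ, smul_dotProduct, smul_eq_mul]
    congr 1
    simp only [dotProduct, mulVec, Finset.mul_sum]
    rw [Finset.sum_comm]
    have h2 : ∀ β, ∑ i, Q i 0 * (Q i β * u β) = (if (0 : Fin (n + 1)) = β then 1 else 0) * u β := by
      intro β
      rw [← h1 β, Finset.sum_mul]
      refine Finset.sum_congr rfl fun i _ => ?_
      ring
    simp only [h2]
    simp

/-- product Gaussian density -/
noncomputable def gP (x : Fin m → ℝ) : ℝ := ∏ i, gph (x i)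

theorem measurable_gP : Measurable (gP : (Fin m → ℝ) → ℝ) := by
  unfold gP
  exact Finset.measurable_prod _ fun i _ => measurable_gph.comp (measurable_pi_apply i)

theorem gP_pos (x : Fin m → ℝ) : 0 < gP x := Finset.prod_pos fun i _ => gph_pos _

theorem integrable_gP : Integrable (gP : (Fin m → ℝ) → ℝ) := by
  unfold gP
  exact Integrable.fintype_prod (fun _ => integrable_gaussianPDFReal 0 1)

theorem char_gP (v : Fin m → ℝ) :
    ∫ x : Fin m → ℝ, Complex.exp ((v ⬝ᵥ x : ℝ) * Complex.I) * (gP x : ℂ) =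
      Complex.exp (-((∑ i, v i ^ 2) / 2 : ℝ)) := by
  have h1 : ∀ x : Fin m → ℝ, Complex.exp ((v ⬝ᵥ x : ℝ) * Complex.I) * (gP x : ℂ) =
      ∏ i, (Complex.exp ((v i * x i : ℝ) * Complex.I) * (gph (x i) : ℂ)) := by
    intro x
    rw [Finset.prod_mul_distrib, ← Complex.exp_sum]
    congr 1
    · congr 1
      rw [dotProduct]
      push_cast
      rw [Finset.sum_mul]
    · simp [gP]
  simp only [h1]
  have h2 := integral_fintype_prod_volume_eq_prod (𝕜 := ℂ) (fun (i : Fin m) (s : ℝ) =>
    Complex.exp ((v i * s : ℝ) * Complex.I) * (gph s : ℂ))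
  rw [h2]
  have h3 : ∀ i, ∫ s : ℝ, Complex.exp ((v i * s : ℝ) * Complex.I) * (gph s : ℂ) =
      Complex.exp (-(v i ^ 2 / 2 : ℝ)) := by
    intro i
    have h4 := charFun_gaussianReal (μ := 0) (v := 1) (v i)
    rw [charFun_apply_real, integral_gaussianReal_eq_integral_smul one_ne_zero] at h4
    have h5 : ∀ s : ℝ, Complex.exp ((v i * s : ℝ) * Complex.I) * (gph s : ℂ) =
        gaussianPDFReal 0 1 s • Complex.exp (v i * s * Complex.I) := by
      intro s
      rw [Complex.real_smul, mul_comm]
      simp [gph]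
    simp only [h5]
    rw [h4]
    congr 1
    push_cast
    ring
  simp only [h3]
  rw [← Complex.exp_sum]
  congr 1
  push_cast
  rw [Finset.sum_div, Finset.sum_neg_distrib]

end Crest.Agent.R253.Eq435
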