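/-
helper999, row 253.  The wrapper of the Bellman step, part A: matrix algebra.
* `trace_cfc_Sm_congr` : `tr f(A^{1/2} G A^{1/2})` is invariant under `A = T A' Tᵀ`, `G' = Tᵀ G T`.
* `exists_diagonalise` : simultaneous normalisation `A ↦ 1`, `G ↦ diag s`.
* `spectrum_Sm` : `S ≤ 1` from the Brascamp–Lieb inequality.
* `tendsto_trace_cfc_Sm` : continuity.
-/
import Crest.Agent.R253.Bell_999

set_option autoImplicit false
open Matrix Filter Topology

namespace Crest.Agent.R253.Wrap999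

open Crest.Agent.R253.SpecCalc999 Crest.Agent.R253.Jet999 Crest.Agent.R253.MJet999
open Crest.Agent.R253.Bell999

variable {m : ℕ}

lemma posDef_spectrum {A : Mat m} (hA : A.PosDef) : spectrum ℝ A ⊆ Set.Ioi 0 := by
  rw [hA.isHermitian.spectrum_real_eq_range_eigenvalues]
  rintro _ ⟨i, rfl⟩
  exact hA.eigenvalues_pos i

lemma posSemidef_spectrum {A : Mat m} (hA : A.PosSemidef) : spectrum ℝ A ⊆ Set.Ici 0 := by
  rw [hA.isHermitian.spectrum_real_eq_range_eigenvalues]
  rintro _ ⟨i, rfl⟩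
  exact hA.eigenvalues_nonneg i

lemma rt_mul_rt {A : Mat m} (hA : A.PosSemidef) : rt A * rt A = A :=
  sqrt_mul_sqrt hA.isHermitian (posSemidef_spectrum hA)

lemma rt_isHermitian (A : Mat m) : (rt A).IsHermitian := cfc_isHermitian _

lemma rt_transpose (A : Mat m) : (rt A)ᵀ = rt A := by
  have := rt_isHermitian A
  rwa [Matrix.IsHermitian, conjTranspose_eq_transpose_of_trivial] at this

lemma rt_det_ne {A : Mat m} (hA : A.PosDef) : (rt A).det ≠ 0 := by
  have h1 : (rt A).det * (rt A).det = A.det := by rw [← det_mul, rt_mul_rt hA.posSemidef]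
  intro h
  rw [h, zero_mul] at h1
  exact hA.det_pos.ne h1

lemma charpoly_Sm {A G : Mat m} (hA : A.PosSemidef) : (Sm A G).charpoly = (G * A).charpoly := by
  unfold Sm
  rw [Matrix.mul_assoc, charpoly_mul_comm, Matrix.mul_assoc, rt_mul_rt hA]

lemma charpoly_congr {A G A' G' T : Mat m} (hAA : A = T * A' * Tᵀ) (hGG : G' = Tᵀ * G * T) :
    (G' * A').charpoly = (G * A).charpoly := by
  rw [hGG, hAA]
  calc (Tᵀ * G * T * A').charpoly = (Tᵀ * (G * T * A')).charpoly := by
        simp only [Matrix.mul_assoc]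
    _ = ((G * T * A') * Tᵀ).charpoly := charpoly_mul_comm _ _
    _ = _ := by simp only [Matrix.mul_assoc]

/-- affine invariance of `tr f(S)` -/
theorem trace_cfc_Sm_congr {A G A' G' T : Mat m} (hA : A.PosSemidef) (hA' : A'.PosSemidef)
    (hG : G.IsHermitian) (hG' : G'.IsHermitian) (hAA : A = T * A' * Tᵀ) (hGG : G' = Tᵀ * G * T)
    (f : ℝ → ℝ) : (_root_.cfc f (Sm A' G')).trace = (_root_.cfc f (Sm A G)).trace := by
  have h1 := Sm_isHermitian (A := A) hG
  have h2 := Sm_isHermitian (A := A') hG'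
  have h3 : h2.eigenvalues = h1.eigenvalues := by
    rw [IsHermitian.eigenvalues_eq_eigenvalues_iff, charpoly_Sm hA, charpoly_Sm hA']
    exact charpoly_congr hAA hGG
  rw [trace_cfc h1, trace_cfc h2, h3]

/-- simultaneous normalisation -/
theorem exists_diagonalise {A G : Mat m} (hA : A.PosDef) (hG : G.IsHermitian) :
    ∃ (T : Mat m) (s : Fin m → ℝ), T.det ≠ 0 ∧ A = T * Tᵀ ∧ Tᵀ * G * T = diagonal s := by
  have hS := Sm_isHermitian (A := A) hG
  set U : Mat m := (hS.eigenvectorUnitary : Mat m) with hU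
  have hU1 : U * Uᵀ = 1 := by
    have := Unitary.mul_star_self_of_mem hS.eigenvectorUnitary.2
    rwa [star_eq_conjTranspose, conjTranspose_eq_transpose_of_trivial] at this
  have hU2 : Uᵀ * U = 1 := by
    have := Unitary.star_mul_self_of_mem hS.eigenvectorUnitary.2
    rwa [star_eq_conjTranspose, conjTranspose_eq_transpose_of_trivial] at this
  have hUdet : U.det ≠ 0 := by
    intro h
    have h1 := congrArg Matrix.det hU1
    rw [det_mul, h, zero_mul, det_one] at h1
    exact zero_ne_one h1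
  refine ⟨rt A * U, hS.eigenvalues, ?_, ?_, ?_⟩
  · rw [det_mul]; exact mul_ne_zero (rt_det_ne hA) hUdet
  · rw [transpose_mul, rt_transpose]
    calc A = rt A * rt A := (rt_mul_rt hA.posSemidef).symm
      _ = rt A * (U * Uᵀ) * rt A := by rw [hU1, Matrix.mul_one]
      _ = _ := by simp only [Matrix.mul_assoc]
  · have h1 := hS.conjStarAlgAut_star_eigenvectorUnitary
    rw [Unitary.conjStarAlgAut_star_apply, star_eq_conjTranspose,
      conjTranspose_eq_transpose_of_trivial] at h1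
    rw [transpose_mul, rt_transpose]
    have h2 : (diagonal (RCLike.ofReal ∘ hS.eigenvalues) : Mat m) = diagonal hS.eigenvalues := by
      congr 1
    rw [← h2, ← h1]
    simp only [Sm, Matrix.mul_assoc, hU]

/-- `S ≤ 1` and `S ≥ 0` from `GAG ≤ G` -/
theorem spectrum_Sm {A G : Mat m} (hA : A.PosSemidef) (hG : G.PosSemidef)
    (hBL : ∀ v : Fin m → ℝ, (G.mulVec v) ⬝ᵥ A.mulVec (G.mulVec v) ≤ v ⬝ᵥ G.mulVec v) :
    spectrum ℝ (Sm A G) ⊆ Set.Icc 0 1 := by
  have hS := Sm_isHermitian (A := A) hG.isHermitian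
  rw [hS.spectrum_real_eq_range_eigenvalues]
  rintro _ ⟨i, rfl⟩
  set lam := hS.eigenvalues i with hlam
  set v : Fin m → ℝ := ⇑(hS.eigenvectorBasis i) with hv
  have hev : (Sm A G).mulVec v = lam • v := hS.mulVec_eigenvectorBasis i
  have hvv : v ⬝ᵥ v = 1 := by
    have h1 := hS.eigenvectorBasis.orthonormal.1 i
    have h2 : inner ℝ (hS.eigenvectorBasis i) (hS.eigenvectorBasis i) = (1 : ℝ) := by
      rw [real_inner_self_eq_norm_sq, h1]; norm_num
    rw [EuclideanSpace.inner_eq_star_dotProduct] at h2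
    simpa using h2
  set w := (rt A).mulVec v with hw
  -- `v·S v = w·G w`
  have e1 : v ⬝ᵥ (Sm A G).mulVec v = w ⬝ᵥ G.mulVec w := by
    unfold Sm
    rw [← mulVec_mulVec, ← mulVec_mulVec, dotProduct_mulVec, ← mulVec_transpose, rt_transpose]
  have e2 : ((Sm A G).mulVec v) ⬝ᵥ ((Sm A G).mulVec v) =
      (G.mulVec w) ⬝ᵥ A.mulVec (G.mulVec w) := by
    have h3 : (Sm A G).mulVec v = (rt A).mulVec (G.mulVec w) := by
      unfold Sm
      rw [← mulVec_mulVec, ← mulVec_mulVec]
    rw [h3]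
    conv_rhs => rw [← rt_mul_rt hA]
    rw [← mulVec_mulVec, dotProduct_mulVec (G.mulVec w), ← mulVec_transpose, rt_transpose]
  rw [hev] at e1 e2
  simp only [dotProduct_smul, smul_dotProduct, hvv, smul_eq_mul, mul_one] at e1 e2
  have h1 := hBL w
  rw [← e1, ← e2] at h1
  have h2 : 0 ≤ w ⬝ᵥ G.mulVec w := by
    have := hG.dotProduct_mulVec_nonneg w
    simpa using this
  rw [← e1] at h2
  constructor
  · exact h2
  · by_contra hcon
    push Not at hcon
    nlinarith

/-- Gershgorin-type bound for the spectrum -/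
lemma spectrum_bound {A : Mat m} {C : ℝ} (hC : ∀ i j, |A i j| ≤ C) :
    spectrum ℝ A ⊆ Set.Icc (-(m * C)) (m * C) := by
  intro lam hlam
  rw [← Matrix.spectrum_toLin', ← Module.End.hasEigenvalue_iff_mem_spectrum] at hlam
  obtain ⟨k, hk⟩ := eigenvalue_mem_ball hlam
  rw [Metric.mem_closedBall, Real.dist_eq] at hk
  have h1 : ∑ j ∈ Finset.univ.erase k, ‖A k j‖ + |A k k| ≤ m * C := by
    have h2 : ∑ j ∈ Finset.univ.erase k, ‖A k j‖ + |A k k| = ∑ j, |A k j| := by
      rw [← Finset.sum_erase_add _ _ (Finset.mem_univ k)]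
      rfl
    rw [h2]
    calc ∑ j, |A k j| ≤ ∑ _j : Fin m, C := Finset.sum_le_sum fun j _ => hC k j
      _ = _ := by simp
  have h3 : |lam| ≤ m * C := by
    calc |lam| = |(lam - A k k) + A k k| := by congr 1; ring
      _ ≤ |lam - A k k| + |A k k| := abs_add_le _ _
      _ ≤ _ := by linarith
  exact abs_le.mp h3

lemma tendsto_matrix_mul {τ : Type*} {l : Filter τ} {S T : τ → Mat m} {A B : Mat m}
    (hS : ∀ i j, Tendsto (fun t => S t i j) l (𝓝 (A i j)))
    (hT : ∀ i j, Tendsto (fun t => T t i j) l (𝓝 (B i j))) (i j : Fin m) :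
    Tendsto (fun t => (S t * T t) i j) l (𝓝 ((A * B) i j)) := by
  simp only [Matrix.mul_apply]
  exact tendsto_finsetSum _ fun k _ => (hS i k).mul (hT k j)

/-- continuity of `tr f(S)` along entrywise convergence -/
theorem tendsto_trace_cfc_Sm {A G : ℕ → Mat m} {A0 G0 : Mat m}
    (hA : ∀ k, (A k).PosSemidef) (hG : ∀ k, (G k).PosSemidef) (hA0 : A0.PosSemidef)
    (hG0 : G0.PosSemidef)
    (hsp : ∀ k, spectrum ℝ (Sm (A k) (G k)) ⊆ Set.Icc 0 1)
    (hsp0 : spectrum ℝ (Sm A0 G0) ⊆ Set.Icc 0 1)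
    (hlA : ∀ i j, Tendsto (fun k => A k i j) atTop (𝓝 (A0 i j)))
    (hlG : ∀ i j, Tendsto (fun k => G k i j) atTop (𝓝 (G0 i j)))
    {f : ℝ → ℝ} (hf : ContinuousOn f (Set.Icc 0 1)) :
    Tendsto (fun k => (_root_.cfc f (Sm (A k) (G k))).trace) atTop
      (𝓝 (_root_.cfc f (Sm A0 G0)).trace) := by
  -- a uniform bound for the entries
  obtain ⟨C, hC0, hC⟩ : ∃ C : ℝ, (∀ i j, |A0 i j| ≤ C) ∧ ∀ᶠ k in atTop, ∀ i j, |A k i j| ≤ C := by
    refine ⟨∑ i, ∑ j, |A0 i j| + 1, ?_, ?_⟩
    · intro i j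
      have h1 : |A0 i j| ≤ ∑ j, |A0 i j| :=
        Finset.single_le_sum (f := fun j => |A0 i j|) (fun _ _ => abs_nonneg _) (Finset.mem_univ j)
      have h2 : ∑ j, |A0 i j| ≤ ∑ i, ∑ j, |A0 i j| :=
        Finset.single_le_sum (f := fun i => ∑ j, |A0 i j|)
          (fun _ _ => Finset.sum_nonneg fun _ _ => abs_nonneg _) (Finset.mem_univ i)
      linarith
    · rw [eventually_all]; intro i
      rw [eventually_all]; intro j
      have h1 : |A0 i j| ≤ ∑ j, |A0 i j| :=
        Finset.single_le_sum (f := fun j => |A0 i j|) (fun _ _ => abs_nonneg _) (Finset.mem_univ j)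
      have h2 : ∑ j, |A0 i j| ≤ ∑ i, ∑ j, |A0 i j| :=
        Finset.single_le_sum (f := fun i => ∑ j, |A0 i j|)
          (fun _ _ => Finset.sum_nonneg fun _ _ => abs_nonneg _) (Finset.mem_univ i)
      have h3 : Tendsto (fun k => |A k i j|) atTop (𝓝 |A0 i j|) := (hlA i j).abs
      filter_upwards [h3.eventually (ge_mem_nhds (show |A0 i j| < |A0 i j| + 1 by linarith))]
        with k hk
      linarith
  have hrt : ∀ i j, Tendsto (fun k => rt (A k) i j) atTop (𝓝 (rt A0 i j)) := by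
    intro i j
    refine tendsto_cfc_entry (isCompact_Icc (a := -(m * C)) (b := m * C))
      Real.continuous_sqrt.continuousOn ?_ hA0.isHermitian (spectrum_bound hC0) hlA i j
    filter_upwards [hC] with k hk using ⟨(hA k).isHermitian, spectrum_bound hk⟩
  have hSm : ∀ i j, Tendsto (fun k => Sm (A k) (G k) i j) atTop (𝓝 (Sm A0 G0 i j)) := by
    intro i j
    exact tendsto_matrix_mul (fun i j => tendsto_matrix_mul hrt hlG i j) hrt i j
  have hfin : ∀ i j, Tendsto (fun k => (_root_.cfc f (Sm (A k) (G k))) i j) atTop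
      (𝓝 ((_root_.cfc f (Sm A0 G0)) i j)) := fun i j =>
    tendsto_cfc_entry isCompact_Icc hf
      (Eventually.of_forall fun k => ⟨Sm_isHermitian (hG k).isHermitian, hsp k⟩)
      (Sm_isHermitian hG0.isHermitian) hsp0 hSm i j
  unfold Matrix.trace
  exact tendsto_finsetSum _ fun i _ => hfin i i

end Crest.Agent.R253.Wrap999
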