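/-
helper999, row 253.  The wrapper of the Bellman step, part B: the functional
`Dl f p G = h(p) - (1/2) log det Cov p - tr f(S)`, its affine invariance, the existence of a minimiser
on the class `SLC`, and the second order condition at a minimiser in normal position.
-/
import Crest.Agent.R253.WrapA_999
import Crest.Agent.R253.CptH_435

set_option autoImplicit false
open Matrix Filter Topology MeasureTheory Set
open Crest.GeometryTopology.Isotropic

namespace Crest.Agent.R253.Wrap999

open Crest.Agent.R253.SpecCalc999 Crest.Agent.R253.Jet999 Crest.Agent.R253.MJet999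
open Crest.Agent.R253.Bell999 Crest.Agent.R253.Cpt435

variable {m : ℕ}

/-- the Bellman functional -/
noncomputable def Dl (f : ℝ → ℝ) (p : (Fin m → ℝ) → ℝ) (G : Mat m) : ℝ :=
  diffEntropy p - (1 / 2) * Real.log (densCov p).det - (_root_.cfc f (Sm (densCov p) G)).trace

lemma SLC_spec {p : (Fin m → ℝ) → ℝ} {G : Mat m} (h : SLC p G) :
    spectrum ℝ (Sm (densCov p) G) ⊆ Icc 0 1 :=
  spectrum_Sm h.toLCD.densCov_posDef.posSemidef h.psd fun v => by
    have := h.brascamp_lieb v
    simpa [qf] using this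

/-- affine invariance of the functional -/
theorem Dl_aff (f : ℝ → ℝ) {p : (Fin m → ℝ) → ℝ} {G : Mat m} (h : SLC p G)
    {T : Mat m} (hT : T.det ≠ 0) (b : Fin m → ℝ) :
    Dl f (aff p T b) (Tᵀ * G * T) = Dl f p G := by
  have hg : SLC (aff p T b) (Tᵀ * G * T) := h.aff hT b
  have h1 := diffEntropy_aff h.toLCD hT b
  have h2 := densCov_aff h.toLCD hT b
  have h3 : Real.log (densCov p).det =
      2 * Real.log |T.det| + Real.log (densCov (aff p T b)).det := by
    rw [h2, det_mul, det_mul, det_transpose]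
    have hd := hg.toLCD.densCov_det_pos
    rw [mul_comm, ← mul_assoc, Real.log_mul (mul_ne_zero hT hT) hd.ne', ← sq, Real.log_pow,
      Real.log_abs]
    norm_num
  have h4 := trace_cfc_Sm_congr (A := densCov p) (A' := densCov (aff p T b)) (T := T)
    h.toLCD.densCov_posDef.posSemidef hg.toLCD.densCov_posDef.posSemidef
    h.psd.isHermitian hg.psd.isHermitian h2 rfl f
  unfold Dl
  rw [h4, h1, h3]
  ring

/-- normal position: `A = 1`, `G` diagonal with entries in `[0,1]` -/
theorem exists_position {p : (Fin m → ℝ) → ℝ} {G : Mat m} (h : SLC p G) :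
    ∃ (T : Mat m) (s : Fin m → ℝ), T.det ≠ 0 ∧ SLC (aff p T 0) (diagonal s) ∧
      densCov (aff p T 0) = 1 ∧ (∀ i, s i ∈ Icc (0 : ℝ) 1) ∧ Tᵀ * G * T = diagonal s := by
  obtain ⟨T, s, hT, hA, hG⟩ := exists_diagonalise h.toLCD.densCov_posDef h.psd.isHermitian
  have hg : SLC (aff p T 0) (Tᵀ * G * T) := h.aff hT 0
  have h2 := densCov_aff h.toLCD hT 0
  have hcov : densCov (aff p T 0) = 1 := by
    have hU : IsUnit T.det := isUnit_iff_ne_zero.mpr hT
    have hUt : IsUnit Tᵀ.det := by rw [det_transpose]; exact hU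
    have h3 : T * densCov (aff p T 0) * Tᵀ = T * 1 * Tᵀ := by
      rw [← h2, Matrix.mul_one]; exact hA
    have h4 : T * densCov (aff p T 0) = T * 1 := by
      have := congrArg (fun X => X * (Tᵀ)⁻¹) h3
      simpa [Matrix.mul_nonsing_inv_cancel_right _ _ hUt] using this
    have := congrArg (fun X => T⁻¹ * X) h4
    simpa [Matrix.nonsing_inv_mul_cancel_left _ _ hU, Matrix.nonsing_inv_mul _ hU] using this
  rw [hG] at hg
  refine ⟨T, s, hT, hg, hcov, ?_, hG⟩
  have hsp := SLC_spec hg
  rw [hcov] at hsp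
  have h1 : Sm (1 : Mat m) (diagonal s) = diagonal s := by
    unfold Sm rt
    have : (_root_.cfc Real.sqrt (1 : Mat m)) = 1 := by
      have h := cfc_one ℝ (1 : Mat m)
      have h5 : _root_.cfc Real.sqrt (1 : Mat m) = Matrix.diagonal (fun _ => Real.sqrt 1) := by
        rw [← Matrix.diagonal_one]; exact cfc_diagonal _ _
      rw [h5, Real.sqrt_one, Matrix.diagonal_one]
    rw [this, Matrix.one_mul, Matrix.mul_one]
  rw [h1] at hsp
  intro i
  apply hsp
  rw [_root_.spectrum_diagonal]
  exact ⟨i, rfl⟩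

/-- **existence of a minimiser** -/
theorem exists_min {f : ℝ → ℝ} (hf : ContinuousOn f (Icc 0 1))
    (hne : ∃ (p : (Fin m → ℝ) → ℝ) (G : Mat m), SLC p G) :
    ∃ (p : (Fin m → ℝ) → ℝ) (G : Mat m), SLC p G ∧
      ∀ (p' : (Fin m → ℝ) → ℝ) (G' : Mat m), SLC p' G' → Dl f p G ≤ Dl f p' G' := by
  set V : Set ℝ := {v | ∃ (p : (Fin m → ℝ) → ℝ) (G : Mat m), SLC p G ∧ Dl f p G = v} with hV
  have hseq : IsSeqCompact V := by
    intro v hv
    choose p G hSLC hD using hv
    choose T b hT hNF using fun n => (hSLC n).toLCD.exists_normal_form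
    set g : ℕ → (Fin m → ℝ) → ℝ := fun n => aff (p n) (T n) (b n) with hg
    set G' : ℕ → Mat m := fun n => (T n)ᵀ * G n * T n with hG'
    have hgN : ∀ n, NF (g n) := hNF
    have hgS : ∀ n, SLC (g n) (G' n) := fun n => (hSLC n).aff (hT n) (b n)
    have hgD : ∀ n, Dl f (g n) (G' n) = v n := fun n => by
      rw [← hD n]; exact Dl_aff f (hSLC n) (hT n) (b n)
    obtain ⟨φ, hφ, f0, H, hf0, hf0S, hlimG, hae⟩ := SLC.selection g G' hgN hgS
    refine ⟨Dl f f0 H, ⟨f0, H, hf0S, rfl⟩, φ, hφ, ?_⟩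
    have hN' : ∀ k, NF (g (φ k)) := fun k => hgN _
    have e1 := NF.tendsto_diffEntropy hN' hae
    have e2 : ∀ i j, Tendsto (fun k => densCov (g (φ k)) i j) atTop (𝓝 (densCov f0 i j)) :=
      fun i j => NF.tendsto_densCov hN' hf0.toLCD hae i j
    have e3 : Tendsto (fun k => (densCov (g (φ k))).det) atTop (𝓝 (densCov f0).det) :=
      ((continuous_id.matrix_det).tendsto (densCov f0)).comp
        (tendsto_pi_nhds.2 fun i => tendsto_pi_nhds.2 fun j => e2 i j)
    have e4 : Tendsto (fun k => Real.log (densCov (g (φ k))).det) atTop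
        (𝓝 (Real.log (densCov f0).det)) :=
      e3.log hf0.toLCD.densCov_det_pos.ne'
    have e5 := tendsto_trace_cfc_Sm (A := fun k => densCov (g (φ k))) (G := fun k => G' (φ k))
      (A0 := densCov f0) (G0 := H)
      (fun k => (hN' k).toLCD.densCov_posDef.posSemidef) (fun k => (hgS (φ k)).psd)
      hf0.toLCD.densCov_posDef.posSemidef hf0S.psd (fun k => SLC_spec (hgS (φ k)))
      (SLC_spec hf0S) e2 hlimG hf
    have e6 : Tendsto (fun k => Dl f (g (φ k)) (G' (φ k))) atTop (𝓝 (Dl f f0 H)) :=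
      (e1.sub (e4.const_mul (1 / 2))).sub e5
    refine e6.congr fun k => ?_
    rw [Function.comp_apply, ← hgD]
  have hcomp : IsCompact V := hseq.isCompact
  have hVne : V.Nonempty := by
    obtain ⟨p, G, h⟩ := hne
    exact ⟨_, p, G, h, rfl⟩
  obtain ⟨v, ⟨p, G, h, rfl⟩, hlb⟩ := hcomp.exists_isLeast hVne
  exact ⟨p, G, h, fun p' G' h' => hlb ⟨p', G', h', rfl⟩⟩

lemma jet_of_T2 {φ : ℝ → ℝ} {a b c : ℝ} (h : T2 φ a b c) :
    Jet2 (𝓝[≠] (0 : ℝ)) (fun t => t) φ a b c := by
  unfold T2 at h
  unfold Jet2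
  refine (h.mono nhdsWithin_le_nhds).congr_left fun t => ?_
  ring

lemma tendsto_id_punctured : Tendsto (fun t : ℝ => t) (𝓝[≠] (0 : ℝ)) (𝓝 0) := nhdsWithin_le_nhds

/-- second order condition at a minimiser in normal position -/
theorem second_order {f f' f'' : ℝ → ℝ} {p : (Fin m → ℝ) → ℝ} {s : Fin m → ℝ}
    (h : SLC p (diagonal s)) (hA : densCov p = 1) (hs : ∀ i, s i ∈ Icc (0 : ℝ) 1)
    (hf : ContinuousOn f (Icc 0 1)) (hp : ∀ i, Peano2 f f' f'' (Icc 0 1) (s i))
    (hmin : ∀ (p' : (Fin m → ℝ) → ℝ) (G' : Mat m), SLC p' G' → Dl f p (diagonal s) ≤ Dl f p' G')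
    (a : Fin m) :
    (1 - s a) * f' (s a) ≤ (1 / 4) * (∑ i, ∑ j, densM3 p i j a ^ 2)
      - (1 / 2) * (∑ i, ∑ j, s i * s j * dd1 f' f'' (s i) (s j) * densM3 p i j a ^ 2) := by
  set u : Fin m → ℝ := Pi.single a 1 with hu
  set M : Mat m := Matrix.of fun i j => densM3 p i j a with hM
  have hMu : ∀ i j, Mu p u i j = densM3 p i j a := by
    intro i j
    unfold Mu
    rw [Finset.sum_eq_single a]
    · simp [hu]
    · intro b _ hb; simp [hu, Pi.single_eq_of_ne hb]
    · intro h; exact absurd (Finset.mem_univ _) h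
  have hAu : ∀ i, Au p u i = u i := by
    intro i; unfold Au; rw [hA, one_mulVec]
  have hr := tendsto_id_punctured
  -- jets
  have jA : MJet2 (𝓝[≠] (0 : ℝ)) (fun t => t) (fun t => densCov (tl p u t)) 1 M (-(Eaa a)) := by
    intro i j
    have h1 := jet_of_T2 (T2_densCov_tl h u i j)
    refine h1.congr (fun t => rfl) (by rw [hA]) (hMu i j) ?_
    rw [hAu, hAu]
    simp only [Matrix.neg_apply, Eaa, Matrix.diagonal_apply, hu, Pi.single_apply]
    by_cases hia : i = a
    · subst hia
      by_cases hij : i = j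
      · subst hij; simp
      · have : ¬ j = i := fun h => hij h.symm
        simp [hij, this]
    · simp [hia]
  have jG : MJet2 (𝓝[≠] (0 : ℝ)) (fun t => t) (fun t => tlG (diagonal s) u t) (diagonal s) 0
      (Eaa a) := by
    intro i j
    have h1 : Jet2 (𝓝[≠] (0 : ℝ)) (fun t => t)
        (fun t : ℝ => (diagonal s : Mat m) i j + (Eaa a : Mat m) i j * t ^ 2)
        ((diagonal s : Mat m) i j + (Eaa a : Mat m) i j * 0) (0 + (Eaa a : Mat m) i j * 0)
        (0 + (Eaa a : Mat m) i j * 1) :=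
      (Jet2.const _).add (Jet2.self_sq.const_mul _)
    refine h1.congr (fun t => ?_) (by ring) (by simp) (by ring)
    simp only [tlG, Matrix.add_apply, Matrix.smul_apply, vecMulVec_apply, smul_eq_mul]
    have : (Eaa a : Mat m) i j = u i * u j := by
      simp only [Eaa, Matrix.diagonal_apply, hu, Pi.single_apply]
      by_cases hia : i = a
      · subst hia
        by_cases hij : i = j
        · subst hij; simp
        · have : ¬ j = i := fun h => hij h.symm
          simp [hij, this]
      · simp [hia]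
    rw [this]; ring
  have jh : Jet2 (𝓝[≠] (0 : ℝ)) (fun t => t) (fun t => diffEntropy (tl p u t)) (diffEntropy p)
      (-(∫ x, cl p u x * (p x * Real.log (p x)))) (-(1 / 2)) := by
    refine (jet_of_T2 (T2_diffEntropy_tl h u)).congr (fun t => rfl) rfl rfl ?_
    rw [hA, one_mulVec]
    simp [hu, neg_div]
  have hev : ∀ᶠ t in 𝓝[≠] (0 : ℝ), SLC (tl p u t) (tlG (diagonal s) u t) :=
    nhdsWithin_le_nhds (h.tl u)
  have hM' : ∀ i j, M i j = M j i := by
    intro i j
    simp only [hM, Matrix.of_apply]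
    rw [← hMu, ← hMu]; exact Mu_symm p u i j
  have key := bell_jet hr jA jG (hev.mono fun t ht => densCov_symm _)
    (hev.mono fun t ht => ht.psd.isHermitian) hM' hs (hev.mono fun t ht => SLC_spec ht) hf hp jh
  have key2 := (key.const_mul (-1))
  have h0 : diffEntropy p - ∑ i, f (s i) = Dl f p (diagonal s) := by
    unfold Dl
    rw [hA, det_one, Real.log_one, mul_zero, sub_zero]
    congr 1
    have h1 : Sm (1 : Mat m) (diagonal s) = diagonal s := by
      unfold Sm rt
      have h5 : _root_.cfc Real.sqrt (1 : Mat m) = 1 := by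
        rw [← Matrix.diagonal_one, cfc_diagonal, Real.sqrt_one]
      rw [h5, Matrix.one_mul, Matrix.mul_one]
    rw [h1, cfc_diagonal]
    simp [Matrix.trace]
  have hmx := Jet2.max_principle key2 (by
    filter_upwards [hev] with t ht
    have h1 := hmin _ _ ht
    rw [← h0] at h1
    unfold Dl at h1
    linarith)
  have h2 := hmx.2
  simp only [hM, Matrix.of_apply] at h2
  linarith

end Crest.Agent.R253.Wrap999
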