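/-
helper999, row 253.  The wrapper of the Bellman step, part C: from the scalar functions of the truncated
Gaussian and the tensor inequality at a normalised state to
`h(p) ≥ m + (1/2) log det Cov p + tr l(S)`.
-/
import Crest.Agent.R253.WrapB_999

set_option autoImplicit false
open Matrix Filter Topology MeasureTheory Set
open Crest.GeometryTopology.Isotropic

namespace Crest.Agent.R253.Wrap999

open Crest.Agent.R253.SpecCalc999 Crest.Agent.R253.Jet999 Crest.Agent.R253.MJet999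
open Crest.Agent.R253.Bell999 Crest.Agent.R253.Cpt435

variable {m : ℕ}

/-- scalar data of the Bellman function -/
structure Scal where
  l : ℝ → ℝ
  l1 : ℝ → ℝ
  l2 : ℝ → ℝ
  q : ℝ → ℝ
  k2 : ℝ → ℝ

/-- the scalar facts used by the wrapper -/
structure Scal.Good (D : Scal) : Prop where
  l_zero : D.l 0 = 0
  l_one : D.l 1 = (1 / 2) * Real.log (2 * Real.pi * Real.exp 1) - 1
  l_cont : ContinuousOn D.l (Icc 0 1)
  l_peano : ∀ s ∈ Ico (0 : ℝ) 1, Peano2 D.l D.l1 D.l2 (Icc 0 1) s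
  q_pos : ∀ s ∈ Ico (0 : ℝ) 1, 0 < D.q s
  pair : ∀ s ∈ Ico (0 : ℝ) 1, ∀ t ∈ Ico (0 : ℝ) 1,
    1 / 4 - s * t * dd1 D.l1 D.l2 s t / 2 ≤ D.q s * D.q t
  step : ∀ lam ∈ Ioo (0 : ℝ) 1, ∀ s ∈ Icc (0 : ℝ) 1,
    D.k2 s * D.q (lam * s) ^ 2 ≤ (1 - s) * (lam * D.l1 (lam * s) + (1 - lam))

/-- the tensor inequality needed at a normalised state (weakest form: one direction `a`) -/
def BellHyp (D : Scal) (m : ℕ) : Prop :=
  ∀ (p : (Fin m → ℝ) → ℝ) (s : Fin m → ℝ), SLC p (diagonal s) → densCov p = 1 →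
    (∀ i, s i ∈ Icc (0 : ℝ) 1) → (∃ i, s i < 1) → ∀ lam ∈ Ioo (0 : ℝ) 1,
      ∃ a, s a < 1 ∧ ∑ j, ∑ k, D.q (lam * s j) * D.q (lam * s k) * densM3 p j k a ^ 2 ≤
        D.k2 (s a) * D.q (lam * s a) ^ 2

/-- the Gaussian end: at `S = 1` the entropy is (at least) the Gaussian one -/
def GaussEnd (m : ℕ) : Prop :=
  ∀ p : (Fin m → ℝ) → ℝ, SLC p 1 → densCov p = 1 →
    (m : ℝ) * ((1 / 2) * Real.log (2 * Real.pi * Real.exp 1)) ≤ diffEntropy p

/-- control form of the tensor inequality implies `BellHyp` -/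
theorem bellHyp_of_control {D : Scal} (hD : D.Good)
    (H : ∀ (p : (Fin m → ℝ) → ℝ) (s : Fin m → ℝ), SLC p (diagonal s) → densCov p = 1 →
      (∀ i, s i ∈ Icc (0 : ℝ) 1) → (∃ i, s i < 1) → ∀ lam ∈ Ioo (0 : ℝ) 1,
      ∃ c : Fin m → ℝ, (∀ i, 0 < c i) ∧
        ∑ a, c a * ∑ j, ∑ k, D.q (lam * s j) * D.q (lam * s k) * densM3 p j k a ^ 2 ≤
          ∑ a, c a * (D.k2 (s a) * D.q (lam * s a) ^ 2)) : BellHyp D m := by
  intro p s h hA hs hex lam hlam
  obtain ⟨c, hc, hle⟩ := H p s h hA hs hex lam hlam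
  by_contra hcon
  push Not at hcon
  have hmem : ∀ i, lam * s i ∈ Ico (0 : ℝ) 1 := fun i =>
    ⟨mul_nonneg hlam.1.le (hs i).1, by
      calc lam * s i ≤ lam * 1 := mul_le_mul_of_nonneg_left (hs i).2 hlam.1.le
        _ < 1 := by linarith [hlam.2]⟩
  have h1 : ∀ a, D.k2 (s a) * D.q (lam * s a) ^ 2 ≤
      ∑ j, ∑ k, D.q (lam * s j) * D.q (lam * s k) * densM3 p j k a ^ 2 := by
    intro a
    rcases (hs a).2.lt_or_eq with hlt | heq
    · exact (hcon a hlt).le
    · have h2 := hD.step lam hlam (s a) (hs a)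
      rw [heq, sub_self, zero_mul] at h2
      rw [heq]
      refine h2.trans (Finset.sum_nonneg fun j _ => Finset.sum_nonneg fun k _ => ?_)
      exact mul_nonneg (mul_nonneg (hD.q_pos _ (hmem j)).le (hD.q_pos _ (hmem k)).le) (sq_nonneg _)
  obtain ⟨i0, hi0⟩ := hex
  have h3 : ∑ a, c a * (D.k2 (s a) * D.q (lam * s a) ^ 2) <
      ∑ a, c a * ∑ j, ∑ k, D.q (lam * s j) * D.q (lam * s k) * densM3 p j k a ^ 2 := by
    refine Finset.sum_lt_sum (fun a _ => mul_le_mul_of_nonneg_left (h1 a) (hc a).le)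
      ⟨i0, Finset.mem_univ _, mul_lt_mul_of_pos_left (hcon i0 hi0) (hc i0)⟩
  linarith

section main

variable {D : Scal}

/-- the regularised Bellman function -/
noncomputable def fl (D : Scal) (lam x : ℝ) : ℝ := D.l (lam * x) + 2 * (1 - lam) * x

noncomputable def fl1 (D : Scal) (lam x : ℝ) : ℝ := lam * D.l1 (lam * x) + 2 * (1 - lam)

noncomputable def fl2 (D : Scal) (lam x : ℝ) : ℝ := lam ^ 2 * D.l2 (lam * x)

lemma mem_Icc_of {lam x : ℝ} (hlam : lam ∈ Ioo (0 : ℝ) 1) (hx : x ∈ Icc (0 : ℝ) 1) :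
    lam * x ∈ Ico (0 : ℝ) 1 :=
  ⟨mul_nonneg hlam.1.le hx.1, by
    calc lam * x ≤ lam * 1 := mul_le_mul_of_nonneg_left hx.2 hlam.1.le
      _ < 1 := by linarith [hlam.2]⟩

lemma fl_cont (hD : D.Good) {lam : ℝ} (hlam : lam ∈ Ioo (0 : ℝ) 1) :
    ContinuousOn (fl D lam) (Icc 0 1) := by
  unfold fl
  refine ContinuousOn.add ?_ (by fun_prop)
  exact hD.l_cont.comp (by fun_prop) fun x hx => Ico_subset_Icc_self (mem_Icc_of hlam hx)

lemma fl_peano (hD : D.Good) {lam : ℝ} (hlam : lam ∈ Ioo (0 : ℝ) 1) {s : ℝ}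
    (hs : s ∈ Icc (0 : ℝ) 1) : Peano2 (fl D lam) (fl1 D lam) (fl2 D lam) (Icc 0 1) s := by
  have h1 := hD.l_peano (lam * s) (mem_Icc_of hlam hs)
  have ht : Tendsto (fun x => lam * x) (𝓝[Icc 0 1] s) (𝓝[Icc 0 1] (lam * s)) := by
    refine tendsto_nhdsWithin_iff.2 ⟨?_, ?_⟩
    · have : Continuous fun x : ℝ => lam * x := by fun_prop
      exact (this.tendsto s).mono_left nhdsWithin_le_nhds
    · filter_upwards [self_mem_nhdsWithin] with x hx
      exact Ico_subset_Icc_self (mem_Icc_of hlam hx)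
  have h2 := h1.comp_tendsto ht
  unfold Peano2
  have h3 : (fun x => fl D lam x - fl D lam s - fl1 D lam s * (x - s) -
      fl2 D lam s / 2 * (x - s) ^ 2) = ((fun x => D.l x - D.l (lam * s) -
        D.l1 (lam * s) * (x - lam * s) - D.l2 (lam * s) / 2 * (x - lam * s) ^ 2) ∘
        fun x => lam * x) := by
    funext x
    simp only [fl, fl1, fl2, Function.comp_apply]
    ring
  rw [h3]
  refine h2.trans_isBigO ?_
  have h4 : ((fun x : ℝ => (x - lam * s) ^ 2) ∘ fun x => lam * x) =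
      fun x => lam ^ 2 * (x - s) ^ 2 := by
    funext x; simp only [Function.comp_apply]; ring
  rw [h4]
  exact Asymptotics.isBigO_const_mul_self _ _ _

lemma fl_dd1 {lam : ℝ} (hlam : lam ∈ Ioo (0 : ℝ) 1) (s t : ℝ) :
    dd1 (fl1 D lam) (fl2 D lam) s t = lam ^ 2 * dd1 D.l1 D.l2 (lam * s) (lam * t) := by
  unfold dd1
  by_cases hst : s = t
  · subst hst; simp [fl2]
  · have h1 : lam * s ≠ lam * t := fun h => hst (mul_left_cancel₀ hlam.1.ne' h)
    simp only [hst, h1, if_false]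
    have h2 : s - t ≠ 0 := sub_ne_zero.mpr hst
    have h3 := hlam.1.ne'
    simp only [fl1]
    field_simp
    ring

/-- **lower bound for the regularised functional** -/
theorem Dl_lower (hD : D.Good) (hB : BellHyp D m) (hGE : GaussEnd m) {lam : ℝ}
    (hlam : lam ∈ Ioo (0 : ℝ) 1) {p : (Fin m → ℝ) → ℝ} {G : Mat m} (hp : SLC p G) :
    (m : ℝ) * ((1 / 2) * Real.log (2 * Real.pi * Real.exp 1) - D.l lam - 2 * (1 - lam)) ≤
      Dl (fl D lam) p G := by
  obtain ⟨p0, G0, h0, hmin⟩ := exists_min (fl_cont hD hlam) ⟨p, G, hp⟩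
  obtain ⟨T, s, hT, h1, hcov, hs, hG⟩ := exists_position h0
  have hval : Dl (fl D lam) (aff p0 T 0) (diagonal s) = Dl (fl D lam) p0 G0 := by
    rw [← hG]; exact Dl_aff _ h0 hT 0
  have hmin' : ∀ (p' : (Fin m → ℝ) → ℝ) (G' : Mat m), SLC p' G' →
      Dl (fl D lam) (aff p0 T 0) (diagonal s) ≤ Dl (fl D lam) p' G' := fun p' G' h' => by
    rw [hval]; exact hmin p' G' h'
  refine le_trans ?_ (hmin' p G hp)
  set p1 := aff p0 T 0 with hp1
  -- all `s i = 1`
  have hall : ∀ i, s i = 1 := by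
    by_contra hcon
    push Not at hcon
    obtain ⟨i0, hi0⟩ := hcon
    have hi0' : s i0 < 1 := lt_of_le_of_ne (hs i0).2 hi0
    obtain ⟨a, ha, hle⟩ := hB p1 s h1 hcov hs ⟨i0, hi0'⟩ lam hlam
    have h2 := second_order h1 hcov hs (fl_cont hD hlam) (fun i => fl_peano hD hlam (hs i)) hmin' a
    have h3 : (1 / 4) * (∑ i, ∑ j, densM3 p1 i j a ^ 2)
        - (1 / 2) * (∑ i, ∑ j, s i * s j * dd1 (fl1 D lam) (fl2 D lam) (s i) (s j) *
          densM3 p1 i j a ^ 2) ≤
        ∑ j, ∑ k, D.q (lam * s j) * D.q (lam * s k) * densM3 p1 j k a ^ 2 := by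
      simp only [Finset.mul_sum]
      rw [← Finset.sum_sub_distrib]
      refine Finset.sum_le_sum fun i _ => ?_
      rw [← Finset.sum_sub_distrib]
      refine Finset.sum_le_sum fun j _ => ?_
      rw [fl_dd1 hlam]
      have h4 := hD.pair (lam * s i) (mem_Icc_of hlam (hs i)) (lam * s j) (mem_Icc_of hlam (hs j))
      have h5 := mul_le_mul_of_nonneg_right h4 (sq_nonneg (densM3 p1 i j a))
      calc 1 / 4 * densM3 p1 i j a ^ 2 - 1 / 2 * (s i * s j *
            (lam ^ 2 * dd1 D.l1 D.l2 (lam * s i) (lam * s j)) * densM3 p1 i j a ^ 2)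
          = (1 / 4 - lam * s i * (lam * s j) * dd1 D.l1 D.l2 (lam * s i) (lam * s j) / 2) *
            densM3 p1 i j a ^ 2 := by ring
        _ ≤ _ := h5
    have h6 := hD.step lam hlam (s a) (hs a)
    have h7 : (1 - s a) * fl1 D lam (s a) ≤
        (1 - s a) * (lam * D.l1 (lam * s a) + (1 - lam)) := by linarith
    unfold fl1 at h7
    have h8 : 0 < (1 - s a) * (1 - lam) := mul_pos (by linarith) (by linarith [hlam.2])
    nlinarith
  have hs1 : (diagonal s : Mat m) = 1 := by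
    have : s = fun _ => 1 := funext hall
    rw [this, Matrix.diagonal_one]
  rw [hs1] at h1 ⊢
  have h2 := hGE p1 h1 hcov
  have h3 : (_root_.cfc (fl D lam) (Sm (1 : Mat m) (1 : Mat m))).trace =
      m * (D.l lam + 2 * (1 - lam)) := by
    have h5 : _root_.cfc Real.sqrt (1 : Mat m) = 1 := by
      rw [← Matrix.diagonal_one, cfc_diagonal, Real.sqrt_one]
    have h4 : Sm (1 : Mat m) 1 = Matrix.diagonal fun _ => 1 := by
      unfold Sm rt
      rw [h5, Matrix.one_mul, Matrix.mul_one, Matrix.diagonal_one]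
    rw [h4, cfc_diagonal]
    simp [Matrix.trace, fl, mul_add]
  unfold Dl
  rw [hcov, h3, det_one, Real.log_one]
  linarith

/-- **the Bellman inequality on the class** -/
theorem bellman (hD : D.Good) (hB : BellHyp D m) (hGE : GaussEnd m)
    {p : (Fin m → ℝ) → ℝ} {G : Mat m} (hp : SLC p G) : (m : ℝ) ≤ Dl D.l p G := by
  have hS := Sm_isHermitian (A := densCov p) hp.psd.isHermitian
  have hspec : ∀ i, hS.eigenvalues i ∈ Icc (0 : ℝ) 1 := fun i =>
    SLC_spec hp (hS.eigenvalues_mem_spectrum_real i)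
  have h1 : Tendsto (fun lam : ℝ => D.l lam) (𝓝[<] 1) (𝓝 (D.l 1)) := by
    have h2 : Tendsto D.l (𝓝[Icc 0 1] 1) (𝓝 (D.l 1)) := hD.l_cont 1 ⟨zero_le_one, le_rfl⟩
    refine h2.mono_left ?_
    have h3 : Ioo (0 : ℝ) 1 ∈ 𝓝[<] (1 : ℝ) := Ioo_mem_nhdsLT zero_lt_one
    rw [← nhdsWithin_inter_of_mem h3]
    exact nhdsWithin_mono _ fun x hx => ⟨hx.1.1.le, hx.1.2.le⟩
  have h2 : ∀ i, Tendsto (fun lam : ℝ => fl D lam (hS.eigenvalues i)) (𝓝[<] 1)
      (𝓝 (D.l (hS.eigenvalues i))) := by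
    intro i
    set x := hS.eigenvalues i with hx
    have h3 : Tendsto (fun lam : ℝ => lam * x) (𝓝[<] 1) (𝓝[Icc 0 1] x) := by
      refine tendsto_nhdsWithin_iff.2 ⟨?_, ?_⟩
      · have : Continuous fun lam : ℝ => lam * x := by fun_prop
        have h4 := (this.tendsto 1).mono_left (nhdsWithin_le_nhds (s := Iio (1 : ℝ)))
        rwa [one_mul] at h4
      · have h3 : Ioo (0 : ℝ) 1 ∈ 𝓝[<] (1 : ℝ) := Ioo_mem_nhdsLT zero_lt_one
        filter_upwards [h3] with lam hlam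
        exact Ico_subset_Icc_self (mem_Icc_of hlam (hspec i))
    have h4 : Tendsto (fun lam : ℝ => D.l (lam * x)) (𝓝[<] 1) (𝓝 (D.l x)) :=
      (hD.l_cont x (hspec i)).tendsto.comp h3
    have h5 : Tendsto (fun lam : ℝ => 2 * (1 - lam) * x) (𝓝[<] 1) (𝓝 0) := by
      have : Continuous fun lam : ℝ => 2 * (1 - lam) * x := by fun_prop
      have h6 := (this.tendsto 1).mono_left (nhdsWithin_le_nhds (s := Iio (1 : ℝ)))
      simpa using h6
    have h6 := h4.add h5
    rw [add_zero] at h6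
    exact h6
  have h3 : Tendsto (fun lam => Dl (fl D lam) p G) (𝓝[<] 1) (𝓝 (Dl D.l p G)) := by
    unfold Dl
    simp only [trace_cfc hS]
    exact tendsto_const_nhds.sub (tendsto_finsetSum _ fun i _ => h2 i)
  have h4 : Tendsto (fun lam : ℝ => (m : ℝ) * ((1 / 2) * Real.log (2 * Real.pi * Real.exp 1) -
      D.l lam - 2 * (1 - lam))) (𝓝[<] 1) (𝓝 ((m : ℝ) * ((1 / 2) *
        Real.log (2 * Real.pi * Real.exp 1) - D.l 1 - 0))) := by
    refine Tendsto.const_mul _ ((tendsto_const_nhds.sub h1).sub ?_)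
    have : Continuous fun lam : ℝ => 2 * (1 - lam) := by fun_prop
    have h6 := (this.tendsto 1).mono_left (nhdsWithin_le_nhds (s := Iio (1 : ℝ)))
    simpa using h6
  rw [hD.l_one] at h4
  have h5 : (m : ℝ) * ((1 / 2) * Real.log (2 * Real.pi * Real.exp 1) -
      ((1 / 2) * Real.log (2 * Real.pi * Real.exp 1) - 1) - 0) = m := by ring
  rw [h5] at h4
  refine le_of_tendsto_of_tendsto h4 h3 ?_
  have h7 : Ioo (0 : ℝ) 1 ∈ 𝓝[<] (1 : ℝ) := Ioo_mem_nhdsLT zero_lt_one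
  filter_upwards [h7] with lam hlam
  exact Dl_lower hD hB hGE hlam hp

lemma Dl_zero (hD : D.Good) (p : (Fin m → ℝ) → ℝ) :
    Dl D.l p 0 = diffEntropy p - (1 / 2) * Real.log (densCov p).det := by
  unfold Dl Sm
  rw [Matrix.mul_zero, Matrix.zero_mul]
  have h1 : (0 : Mat m) = Matrix.diagonal fun _ => 0 := by simp
  rw [h1, cfc_diagonal]
  simp [Matrix.trace, hD.l_zero]

/-- **the entropy inequality** -/
theorem entropy_ge (hD : D.Good) (hB : BellHyp D m) (hGE : GaussEnd m)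
    {p : (Fin m → ℝ) → ℝ} (hp : LCD p) :
    (m : ℝ) + Real.log (densCov p).det / 2 ≤ diffEntropy p := by
  have h1 := bellman hD hB hGE (SLC.of_LCD hp)
  rw [Dl_zero hD] at h1
  linarith

/-- second order information at a case of equality, `Cov = 1` -/
theorem equality_second_order (hD : D.Good) (hB : BellHyp D m) (hGE : GaussEnd m)
    {p : (Fin m → ℝ) → ℝ} (hp : LCD p) (hcov : densCov p = 1) (heq : diffEntropy p = m)
    (a : Fin m) : 4 * D.l1 0 ≤ ∑ i, ∑ j, densM3 p i j a ^ 2 := by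
  have h0 : SLC p (diagonal fun _ => 0) := by
    have : (diagonal fun _ => 0 : Mat m) = 0 := by simp
    rw [this]; exact SLC.of_LCD hp
  have h1 := second_order (f := D.l) (f' := D.l1) (f'' := D.l2) h0 hcov
    (fun _ => ⟨le_rfl, zero_le_one⟩) hD.l_cont
    (fun _ => hD.l_peano 0 ⟨le_rfl, zero_lt_one⟩) (fun p' G' h' => by
      have h2 := bellman hD hB hGE h'
      have h3 : (diagonal fun _ => 0 : Mat m) = 0 := by simp
      rw [h3, Dl_zero hD, hcov, det_one, Real.log_one, heq]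
      linarith) a
  simp at h1
  linarith

end main

end Crest.Agent.R253.Wrap999
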