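import Crest.Agent.R253.GsB_435
import Crest.Agent.R253.WrapC_999

/-!
# R253, Gaussian end, part C (helper435)

`SLC f 1` with `densCov f = 1` forces `f` to be standard Gaussian (up to translation), hence
`diffEntropy f = (m/2) log (2 π e)`; in particular helper999's `GaussEnd m`.
-/

set_option autoImplicit false
open MeasureTheory Set Filter Topology Matrix ProbabilityTheory
open Crest.GeometryTopology.Isotropic
open scoped ENNReal NNReal

namespace Crest.Agent.R253.Eq435

open Crest.Agent.R253.EqEasy505 Crest.Agent.R253.Cpt435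

variable {m : ℕ}

theorem ex_of_iso {f : (Fin m → ℝ) → ℝ} (hf : LCD f) (h0 : densMean f = 0) (h1 : densCov f = 1)
    (i : Fin m) : ex f (fun x => x i) = 0 ∧ ex f (fun x => x i ^ 2) = 1 := by
  have e0 : ex f (fun x => x i) = 0 := by rw [← densMean_eq, h0]; rfl
  refine ⟨e0, ?_⟩
  have := densCov_raw hf i i
  rw [h0, h1] at this
  simp only [one_apply_eq, Pi.zero_apply, mul_zero, sub_zero] at this
  rw [this]
  congr 1
  funext x
  ring

/-- the characteristic function -/
theorem char_all {f : (Fin m → ℝ) → ℝ} (hf : SLC f (1 : Matrix (Fin m) (Fin m) ℝ))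
    (h0 : densMean f = 0) (h1 : densCov f = 1) (v : Fin m → ℝ) :
    ∫ x, Complex.exp ((v ⬝ᵥ x : ℝ) * Complex.I) * (f x : ℂ) =
      Complex.exp (-((∑ i, v i ^ 2) / 2 : ℝ)) := by
  by_cases hv : v = 0
  · subst hv
    have := hf.int1
    simp only [zero_dotProduct, Complex.ofReal_zero, zero_mul, Complex.exp_zero, one_mul,
      Pi.zero_apply]
    have e : ∫ x, (f x : ℂ) = ((∫ x, f x : ℝ) : ℂ) := integral_ofReal
    rw [e, this]
    simp
  · rcases m with _ | n
    · exact absurd (Subsingleton.elim v 0) hv
    · obtain ⟨U, ρ, hU, hρ, hdot⟩ := exists_orthogonal_col v hv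
      have hdet : U.det ^ 2 = 1 := by
        have := congrArg det hU
        rw [det_mul, det_transpose, det_one] at this
        rw [sq]; exact this
      have hdet0 : U.det ≠ 0 := by
        intro h; rw [h] at hdet; norm_num at hdet
      have habs : |U.det| = 1 := by
        rw [← Real.sqrt_sq_eq_abs, hdet, Real.sqrt_one]
      have hg : SLC (aff f U 0) (1 : Matrix (Fin (n + 1)) (Fin (n + 1)) ℝ) := by
        have := hf.aff hdet0 0
        rwa [Matrix.mul_one, hU] at this
      have hmean : densMean (aff f U 0) = 0 := by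
        have := densMean_aff hf.toLCD hdet0 0
        rw [h0, zero_add] at this
        have h2 := congrArg (Uᵀ.mulVec) this
        rw [mulVec_mulVec, hU, one_mulVec, mulVec_zero] at h2
        exact h2.symm
      have hcov : densCov (aff f U 0) = 1 := by
        have := densCov_aff hf.toLCD hdet0 0
        rw [h1] at this
        calc densCov (aff f U 0) = (Uᵀ * U) * densCov (aff f U 0) * (Uᵀ * U) := by
              rw [hU, Matrix.one_mul, Matrix.mul_one]
          _ = Uᵀ * (U * densCov (aff f U 0) * Uᵀ) * U := by simp only [Matrix.mul_assoc]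
          _ = 1 := by rw [← this, Matrix.mul_one, hU]
      obtain ⟨e1, e2⟩ := ex_of_iso hg.toLCD hmean hcov 0
      have h3 := char_coord hg 0 e1 e2 ρ
      rw [integral_affineC _ hdet0 0, habs]
      simp only [zero_add, hdot]
      rw [← hρ, ← h3]
      simp [Cpt435.aff, habs]

/-- isotropic states with `G = 1` are standard Gaussian -/
theorem ae_eq_gP {f : (Fin m → ℝ) → ℝ} (hf : SLC f (1 : Matrix (Fin m) (Fin m) ℝ))
    (h0 : densMean f = 0) (h1 : densCov f = 1) : f =ᵐ[volume] gP := by
  have hfi := hf.integrable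
  have hmf : Measurable fun x => ENNReal.ofReal (f x) := hf.meas.ennreal_ofReal
  have hmg : Measurable fun x : Fin m → ℝ => ENNReal.ofReal (gP x) :=
    measurable_gP.ennreal_ofReal
  have : IsFiniteMeasure ((volume : Measure (Fin m → ℝ)).withDensity
      fun x => ENNReal.ofReal (f x)) := isFiniteMeasure_withDensity_ofReal hfi.2
  have : IsFiniteMeasure ((volume : Measure (Fin m → ℝ)).withDensity
      fun x => ENNReal.ofReal (gP x)) := isFiniteMeasure_withDensity_ofReal integrable_gP.2
  have key : (volume : Measure (Fin m → ℝ)).withDensity (fun x => ENNReal.ofReal (f x)) =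
      (volume : Measure (Fin m → ℝ)).withDensity (fun x => ENNReal.ofReal (gP x)) := by
    apply Measure.ext_of_charFunDual
    funext L
    rw [charFunDual_apply, charFunDual_apply,
      integral_withDensity_eq_integral_toReal_smul hmf (ae_of_all _ fun _ => ENNReal.ofReal_lt_top),
      integral_withDensity_eq_integral_toReal_smul hmg (ae_of_all _ fun _ => ENNReal.ofReal_lt_top)]
    set v : Fin m → ℝ := fun i => L (Pi.single i 1) with hv
    have hL : ∀ x : Fin m → ℝ, L x = v ⬝ᵥ x := by
      intro x
      conv_lhs => rw [← Finset.univ_sum_single x]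
      rw [map_sum, dotProduct]
      refine Finset.sum_congr rfl fun i _ => ?_
      have : Pi.single i (x i) = x i • (Pi.single i 1 : Fin m → ℝ) := by
        rw [← Pi.single_smul, smul_eq_mul, mul_one]
      rw [this, map_smul, smul_eq_mul, mul_comm]
    have e1 := char_all hf h0 h1 v
    have e2 := char_gP v
    have e3 : (fun x => (ENNReal.ofReal (f x)).toReal • Complex.exp (L x * Complex.I)) =
        fun x => Complex.exp ((v ⬝ᵥ x : ℝ) * Complex.I) * (f x : ℂ) := by
      funext x
      rw [ENNReal.toReal_ofReal (hf.nonneg x), hL, Complex.real_smul, mul_comm]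
    have e4 : (fun x => (ENNReal.ofReal (gP x)).toReal • Complex.exp (L x * Complex.I)) =
        fun x => Complex.exp ((v ⬝ᵥ x : ℝ) * Complex.I) * (gP x : ℂ) := by
      funext x
      rw [ENNReal.toReal_ofReal (gP_pos x).le, hL, Complex.real_smul, mul_comm]
    rw [e3, e4, e1, e2]
  rw [withDensity_eq_iff_of_sigmaFinite hmf.aemeasurable hmg.aemeasurable] at key
  filter_upwards [key] with x hx
  exact (ENNReal.ofReal_eq_ofReal_iff (hf.nonneg x) (gP_pos x).le).mp hx

theorem log_gph (t : ℝ) : Real.log (gph t) = -(1 / 2) * Real.log (2 * Real.pi) - t ^ 2 / 2 := by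
  have h2pi : (0 : ℝ) < 2 * Real.pi := by positivity
  rw [gph_eq, Real.log_mul (inv_ne_zero (Real.sqrt_ne_zero'.mpr h2pi)) (Real.exp_pos _).ne',
    Real.log_inv, Real.log_exp, Real.log_sqrt h2pi.le]
  ring

theorem log_gP (x : Fin m → ℝ) :
    Real.log (gP x) = ∑ i, (-(1 / 2) * Real.log (2 * Real.pi) - x i ^ 2 / 2) := by
  unfold gP
  rw [Real.log_prod (fun i _ => (gph_pos _).ne')]
  exact Finset.sum_congr rfl fun i _ => log_gph _

theorem diffEntropy_gauss0 {f : (Fin m → ℝ) → ℝ} (hf : SLC f (1 : Matrix (Fin m) (Fin m) ℝ))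
    (h0 : densMean f = 0) (h1 : densCov f = 1) :
    diffEntropy f = (m : ℝ) * ((1 / 2) * Real.log (2 * Real.pi * Real.exp 1)) := by
  have h2pi : (0 : ℝ) < 2 * Real.pi := by positivity
  have hae := ae_eq_gP hf h0 h1
  have h2 : ∫ x, f x * Real.log (f x) =
      ex f (fun x => ∑ i, (-(1 / 2) * Real.log (2 * Real.pi) - x i ^ 2 / 2)) := by
    unfold ex
    apply integral_congr_ae
    filter_upwards [hae] with x hx
    rw [mul_comm]
    congr 1
    rw [← log_gP, hx]
  have hPB : ∀ i : Fin m, PB (fun x : Fin m → ℝ => x i ^ 2 / 2) := by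
    intro i
    have := ((PB.coord (m := m) i).mul (PB.coord i)).mul (PB.const (1 / 2 : ℝ))
    convert this using 2 with x
    ring
  have h3 : ex f (fun x => ∑ i, (-(1 / 2) * Real.log (2 * Real.pi) - x i ^ 2 / 2)) =
      ∑ i : Fin m, (-(1 / 2) * Real.log (2 * Real.pi) - 1 / 2) := by
    rw [ex_sum _ hf.eb (fun i _ => (PB.const _).sub (hPB i))]
    refine Finset.sum_congr rfl fun i _ => ?_
    rw [ex_sub hf.eb (PB.const _) (hPB i), hf.ex_const]
    congr 1
    have h4 : (fun x : Fin m → ℝ => x i ^ 2 / 2) = fun x => (1 / 2) * x i ^ 2 := by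
      funext x; ring
    rw [h4, ex_const_mul, (ex_of_iso hf.toLCD h0 h1 i).2]
    ring
  unfold diffEntropy
  rw [h2, h3, Finset.sum_const, Finset.card_univ, Fintype.card_fin, nsmul_eq_mul,
    Real.log_mul h2pi.ne' (Real.exp_pos _).ne', Real.log_exp]
  ring

/-- entropy of `SLC f 1` states with identity covariance -/
theorem diffEntropy_gauss {f : (Fin m → ℝ) → ℝ} (hf : SLC f (1 : Matrix (Fin m) (Fin m) ℝ))
    (h1 : densCov f = 1) :
    diffEntropy f = (m : ℝ) * ((1 / 2) * Real.log (2 * Real.pi * Real.exp 1)) := by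
  have hdet : (1 : Matrix (Fin m) (Fin m) ℝ).det ≠ 0 := by simp
  have hg : SLC (aff f 1 (densMean f)) (1 : Matrix (Fin m) (Fin m) ℝ) := by
    have := hf.aff hdet (densMean f)
    simpa using this
  have hmean : densMean (aff f 1 (densMean f)) = 0 := by
    have := densMean_aff hf.toLCD hdet (densMean f)
    rw [one_mulVec] at this
    exact left_eq_add.mp this
  have hcov : densCov (aff f 1 (densMean f)) = 1 := by
    have := densCov_aff hf.toLCD hdet (densMean f)
    rw [h1] at this
    simpa using this.symm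
  rw [diffEntropy_aff hf.toLCD hdet (densMean f), diffEntropy_gauss0 hg hmean hcov]
  simp

/-- the Gaussian end of the Bellman argument -/
theorem gaussEnd (m : ℕ) : Wrap999.GaussEnd m := by
  intro p hp h1
  exact (diffEntropy_gauss hp h1).ge

end Crest.Agent.R253.Eq435
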