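import Mathlib

/-!
# Row 253, B-form ledger: a lower bound of `E h(z)` by the second moment (helper253)

`hbar_par`: if `h z ≥ 1/(z²+3)` for `z ≤ 0` and `h z ≥ 1/2 - 1/(2(z²+7/2))` for `z ≥ 0`, then for
every `X ≥ 0` there is a parabola `a + b z - ε z² ≤ h z` (all `z`) with `1/√(X+12) ≤ a - ε X`.
So for every law with `E z = 0`, `E z² ≤ X`: `E h(z) ≥ 1/√(X+12)`; the same for the spectral law of a
unit vector (operator form).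
-/

set_option autoImplicit false

namespace Crest.Agent.R253.HBar253

/-- the polynomial inequality of the right side -/
theorem poly1 {v y : ℝ} (hv : 1.89 ≤ v) :
    0 ≤ 3.5 * v * (v - 1 + 2 * y) ^ 2 - (v + 3) ^ 2 * (2 * v * y - v * y ^ 2 - 0.5) := by
  have hA2 : 0 < v * (14 + (v + 3) ^ 2) := by positivity
  have hd : 0 ≤ 4 * (14 + (v + 3) ^ 2) * (3.5 * v * (v - 1) ^ 2 + 0.5 * (v + 3) ^ 2)
      - v * (-2 * v ^ 2 + 2 * v - 32) ^ 2 := by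
    obtain ⟨p, rfl⟩ : ∃ p : ℝ, v = 1.89 + p := ⟨v - 1.89, by ring⟩
    have hp : 0 ≤ p := by linarith
    have e : 4 * (14 + (1.89 + p + 3) ^ 2) * (3.5 * (1.89 + p) * (1.89 + p - 1) ^ 2
        + 0.5 * (1.89 + p + 3) ^ 2) - (1.89 + p) * (-2 * (1.89 + p) ^ 2 + 2 * (1.89 + p) - 32) ^ 2
        = 4 * (14 + (1.89 + p + 3) ^ 2) * (3.5 * (1.89 + p) * (1.89 + p - 1) ^ 2
        + 0.5 * (1.89 + p + 3) ^ 2) - (1.89 + p) * (-2 * (1.89 + p) ^ 2 + 2 * (1.89 + p) - 32) ^ 2 :=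
      rfl
    ring_nf
    nlinarith [pow_nonneg hp 2, pow_nonneg hp 3, pow_nonneg hp 4, pow_nonneg hp 5]
  have key : 4 * (v * (14 + (v + 3) ^ 2)) *
      (3.5 * v * (v - 1 + 2 * y) ^ 2 - (v + 3) ^ 2 * (2 * v * y - v * y ^ 2 - 0.5))
      = (2 * (v * (14 + (v + 3) ^ 2)) * y + v * (-2 * v ^ 2 + 2 * v - 32)) ^ 2
        + v * (4 * (14 + (v + 3) ^ 2) * (3.5 * v * (v - 1) ^ 2 + 0.5 * (v + 3) ^ 2)
      - v * (-2 * v ^ 2 + 2 * v - 32) ^ 2) := by ring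
  have h0 : 0 ≤ 4 * (v * (14 + (v + 3) ^ 2)) *
      (3.5 * v * (v - 1 + 2 * y) ^ 2 - (v + 3) ^ 2 * (2 * v * y - v * y ^ 2 - 0.5)) := by
    rw [key]
    have hv0 : 0 ≤ v := by linarith
    positivity
  exact nonneg_of_mul_nonneg_right h0 (by positivity)

theorem poly2 {u z : ℝ} (hu : 0 < u) (hu2 : 1.89 ≤ u ^ 2) (hz : 0 ≤ z) :
    (u ^ 2 + 3) ^ 3 ≤ ((u ^ 3 + u - 2 * z) ^ 2 + (u ^ 2 + 3) ^ 2) * (z ^ 2 + 3.5) := by
  rcases le_total (u ^ 2 + 3) (z ^ 2 + 3.5) with h | h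
  · have h1 : (u ^ 2 + 3) ^ 2 * (u ^ 2 + 3) ≤ (u ^ 2 + 3) ^ 2 * (z ^ 2 + 3.5) :=
      mul_le_mul_of_nonneg_left h (by positivity)
    nlinarith [mul_nonneg (sq_nonneg (u ^ 3 + u - 2 * z)) (by positivity : (0:ℝ) ≤ z ^ 2 + 3.5)]
  · -- z = u (1 - y)
    obtain ⟨y, rfl⟩ : ∃ y : ℝ, z = u * (1 - y) := ⟨1 - z / u, by field_simp; ring⟩
    have h1 := poly1 (y := y) hu2
    have e : ((u ^ 3 + u - 2 * (u * (1 - y))) ^ 2 + (u ^ 2 + 3) ^ 2) * ((u * (1 - y)) ^ 2 + 3.5)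
        - (u ^ 2 + 3) ^ 3
        = (3.5 * u ^ 2 * (u ^ 2 - 1 + 2 * y) ^ 2
            - (u ^ 2 + 3) ^ 2 * (2 * u ^ 2 * y - u ^ 2 * y ^ 2 - 0.5))
          + u ^ 2 * (u ^ 2 - 1 + 2 * y) ^ 2 * (u * (1 - y)) ^ 2 := by ring
    have h2 : 0 ≤ u ^ 2 * (u ^ 2 - 1 + 2 * y) ^ 2 * (u * (1 - y)) ^ 2 := by positivity
    linarith

/-- left half -/
theorem left {u z : ℝ} (hu : 0 < u) (hu2 : 1.89 ≤ u ^ 2) (hz : z ≤ 0) :
    1 / (u ^ 2 + 3) + 2 * u / (u ^ 2 + 3) ^ 2 * (z + u) - 2 / (u ^ 2 + 3) ^ 3 * (z + u) ^ 2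
      ≤ 1 / (z ^ 2 + 3) := by
  have hs : 0 < u ^ 2 + 3 := by positivity
  have hz3 : 0 < z ^ 2 + 3 := by positivity
  have e : 1 / (z ^ 2 + 3) - (1 / (u ^ 2 + 3) + 2 * u / (u ^ 2 + 3) ^ 2 * (z + u)
      - 2 / (u ^ 2 + 3) ^ 3 * (z + u) ^ 2)
      = (z + u) ^ 2 * ((u ^ 2 + 3) * (u ^ 2 - 3 - 2 * u * z) + 2 * (z ^ 2 + 3))
        / ((z ^ 2 + 3) * (u ^ 2 + 3) ^ 3) := by
    field_simp
    ring
  have h1 : 0 ≤ (u ^ 2 + 3) * (u ^ 2 - 3 - 2 * u * z) + 2 * (z ^ 2 + 3) := by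
    have : 0 ≤ -(u * z) := by nlinarith
    nlinarith [sq_nonneg z, mul_nonneg hs.le this]
  have h2 : 0 ≤ 1 / (z ^ 2 + 3) - (1 / (u ^ 2 + 3) + 2 * u / (u ^ 2 + 3) ^ 2 * (z + u)
      - 2 / (u ^ 2 + 3) ^ 3 * (z + u) ^ 2) := by
    rw [e]; positivity
  linarith

/-- right half -/
theorem right {u z : ℝ} (hu : 0 < u) (hu2 : 1.89 ≤ u ^ 2) (hz : 0 ≤ z) :
    1 / (u ^ 2 + 3) + 2 * u / (u ^ 2 + 3) ^ 2 * (z + u) - 2 / (u ^ 2 + 3) ^ 3 * (z + u) ^ 2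
      ≤ 1 / 2 - 1 / (2 * (z ^ 2 + 3.5)) := by
  have hs : 0 < u ^ 2 + 3 := by positivity
  have hz3 : 0 < z ^ 2 + 3.5 := by positivity
  have e : 1 / 2 - 1 / (2 * (z ^ 2 + 3.5)) - (1 / (u ^ 2 + 3) + 2 * u / (u ^ 2 + 3) ^ 2 * (z + u)
      - 2 / (u ^ 2 + 3) ^ 3 * (z + u) ^ 2)
      = (((u ^ 3 + u - 2 * z) ^ 2 + (u ^ 2 + 3) ^ 2) * (z ^ 2 + 3.5) - (u ^ 2 + 3) ^ 3)
        / (2 * (u ^ 2 + 3) ^ 3 * (z ^ 2 + 3.5)) := by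
    field_simp
    ring
  have h1 := poly2 hu hu2 hz
  have h2 : 0 ≤ 1 / 2 - 1 / (2 * (z ^ 2 + 3.5)) - (1 / (u ^ 2 + 3)
      + 2 * u / (u ^ 2 + 3) ^ 2 * (z + u) - 2 / (u ^ 2 + 3) ^ 3 * (z + u) ^ 2) := by
    rw [e]
    exact div_nonneg (by linarith) (by positivity)
  linarith

/-- **the parabola below `h`** -/
theorem hbar_par {h : ℝ → ℝ} (h1 : ∀ z ≤ 0, 1 / (z ^ 2 + 3) ≤ h z)
    (h2 : ∀ z, 0 ≤ z → 1 / 2 - 1 / (2 * (z ^ 2 + 3.5)) ≤ h z) {X : ℝ} (hX : 0 ≤ X) :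
    ∃ a b ε : ℝ, 0 < ε ∧ (∀ z, a + b * z - ε * z ^ 2 ≤ h z) ∧ 1 / √(X + 12) ≤ a - ε * X := by
  set s : ℝ := √(2 * (X + 12)) with hsdef
  have hs2 : s ^ 2 = 2 * (X + 12) := Real.sq_sqrt (by linarith)
  have hs0 : 0 ≤ s := Real.sqrt_nonneg _
  have hs : 4.89 ≤ s := by
    apply Real.le_sqrt_of_sq_le
    norm_num; linarith
  set u : ℝ := √(s - 3) with hudef
  have hu2 : u ^ 2 = s - 3 := Real.sq_sqrt (by linarith)
  have hu : 0 < u := Real.sqrt_pos.2 (by linarith)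
  have hu3 : 1.89 ≤ u ^ 2 := by rw [hu2]; linarith
  have hsu : u ^ 2 + 3 = s := by rw [hu2]; ring
  have hspos : 0 < s := by linarith
  refine ⟨1 / s + 2 * u / s ^ 2 * u - 2 / s ^ 3 * u ^ 2, 2 * u / s ^ 2 - 4 * u / s ^ 3, 2 / s ^ 3,
    by positivity, ?_, ?_⟩
  · intro z
    have e : 1 / s + 2 * u / s ^ 2 * u - 2 / s ^ 3 * u ^ 2 + (2 * u / s ^ 2 - 4 * u / s ^ 3) * z
        - 2 / s ^ 3 * z ^ 2
        = 1 / s + 2 * u / s ^ 2 * (z + u) - 2 / s ^ 3 * (z + u) ^ 2 := by ring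
    rw [e]
    rcases le_total z 0 with hz | hz
    · have := left hu hu3 hz
      rw [hsu] at this
      exact this.trans (h1 z hz)
    · have := right hu hu3 hz
      rw [hsu] at this
      exact this.trans (h2 z hz)
  · have hY : √(X + 12) = s / √2 := by
      rw [hsdef, Real.sqrt_mul (by norm_num : (0:ℝ) ≤ 2)]
      have : (√2 : ℝ) ≠ 0 := by positivity
      field_simp
    have hXs : X = s ^ 2 / 2 - 12 := by linarith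
    have e2 : 1 / s + 2 * u / s ^ 2 * u - 2 / s ^ 3 * u ^ 2 - 2 / s ^ 3 * X
        = (2 * s ^ 2 - 8 * s + 30) / s ^ 3 := by
      have e3 : 1 / s + 2 * u / s ^ 2 * u - 2 / s ^ 3 * u ^ 2 - 2 / s ^ 3 * X
          = 1 / s + 2 / s ^ 2 * u ^ 2 - 2 / s ^ 3 * u ^ 2 - 2 / s ^ 3 * X := by ring
      rw [e3, hu2, hXs]
      field_simp
      ring
    rw [e2, hY]
    have hr : √2 ≤ (1.4143 : ℝ) := by
      rw [show (1.4143 : ℝ) = √(1.4143 ^ 2) by rw [Real.sqrt_sq (by norm_num)]]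
      exact Real.sqrt_le_sqrt (by norm_num)
    have e4 : 1 / (s / √2) = √2 * s ^ 2 / s ^ 3 := by
      have : (√2 : ℝ) ≠ 0 := by positivity
      field_simp
    rw [e4]
    apply div_le_div_of_nonneg_right _ (by positivity)
    nlinarith [mul_le_mul_of_nonneg_right hr (sq_nonneg s), sq_nonneg (s - 6.83)]

end Crest.Agent.R253.HBar253
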