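import Crest.Agent.R253.Mills_37
import Crest.Agent.R253.HBar_253

/-!
# Row 253: sharp rational lower bounds of Sampford's quotient `gg = (1 - μe)/(1 - ze)` and of
`h = H0' + H0 H0''` (helper253)

* `gg_low_left`  : `1/(z²+3) ≤ gg z` for `z ≤ 0`;
* `gg_low_right` : `1/2 - 1/(2(z²+7/2)) ≤ gg z` for `z ≥ 0`;
* `gg_le_hh`     : `gg z ≤ hh z := H0' z + H0 z * H0'' z` for all `z`;
* `hh_par`, `gg_par` : the parabolas below `hh`, `gg` with `1/√(X+12) ≤ a - ε X`.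
-/

set_option autoImplicit false

open MeasureTheory Set Filter Topology Real

namespace Crest.Agent.R253.HLow253

open Crest.Agent.R253.Mills37

noncomputable section

lemma pos_of_mul_pos_left253 {a b : ℝ} (h : 0 < a * b) (ha : 0 < a) : 0 < b :=
  (mul_pos_iff_of_pos_left ha).1 h

/-! ### values at zero -/

lemma Q_zero : Q 0 = 1 / 2 := by
  have := Q_neg 0
  rw [neg_zero] at this
  linarith

lemma ee_zero_sq : ee 0 ^ 2 = 2 / π := by
  unfold ee mu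
  rw [Q_zero, sub_zero]
  unfold ph
  have h1 : rexp (-(0:ℝ) ^ 2 / 2) = 1 := by norm_num
  have h1' : rexp (-((0:ℝ) ^ 2) / 2) = 1 := by norm_num
  rw [h1', mul_one, div_pow, inv_pow, Real.sq_sqrt (by positivity)]
  have : π ≠ 0 := Real.pi_ne_zero
  field_simp

lemma ee_zero_sq_lt : ee 0 ^ 2 < 0.63664 := by
  rw [ee_zero_sq, div_lt_iff₀ Real.pi_pos]
  have := Real.pi_gt_d4
  linarith

lemma ee_zero_lt : ee 0 < 0.798 := by
  have h1 := ee_zero_sq_lt
  have h2 := ee_pos 0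
  nlinarith

lemma cc_ww (z : ℝ) : cc z = ww z - ee z ^ 2 := by
  unfold cc ww; rw [mu_eq]; ring

/-! ### the left half: `z ≤ 0` -/

/-- `P1 = (z²+2) w - (z²+3) e²` -/
def P1 (z : ℝ) : ℝ := (z ^ 2 + 2) * ww z - (z ^ 2 + 3) * ee z ^ 2

lemma P1_hasDerivAt (z : ℝ) : HasDerivAt P1
    ((2 * ee z + z) * P1 z - z * (3 * (mu z * ee z) - 2)) z := by
  have h1 : HasDerivAt (fun z : ℝ => z ^ 2 + 2) (2 * z) z := by
    simpa using (hasDerivAt_pow 2 z).add_const (2:ℝ)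
  have h2 : HasDerivAt (fun z : ℝ => z ^ 2 + 3) (2 * z) z := by
    simpa using (hasDerivAt_pow 2 z).add_const (3:ℝ)
  have := (h1.mul (ww_hasDerivAt z)).sub (h2.mul ((ee_hasDerivAt z).pow 2))
  refine this.congr_deriv ?_
  unfold P1 ww cc
  rw [mu_eq]
  simp only [Pi.pow_apply]
  norm_num
  ring

lemma mu_ee_strictMono : StrictMono (fun z => mu z * ee z) := by
  have h : ∀ z, HasDerivAt (fun z => mu z * ee z) (mu z * ss z) z := by
    intro z
    have := (cc_hasDerivAt z).const_sub 1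
    have e : (fun z => mu z * ee z) = (fun z => 1 - cc z) := by
      ext z; unfold cc; ring
    rw [e]
    refine this.congr_deriv ?_
    ring
  exact strictMono_of_hasDerivAt_pos h (fun z => mul_pos (mu_pos z) (ss_pos z))

lemma mu_ee_zero : mu 0 * ee 0 = ee 0 ^ 2 := by
  rw [mu_eq]; ring

lemma P1_zero : 0 < P1 0 := by
  unfold P1 ww
  have := ee_zero_sq_lt
  nlinarith

lemma P1_nonneg {z : ℝ} (hz : z ≤ 0) : 0 ≤ P1 z := by
  have hd : ∀ x : ℝ, HasDerivAt (fun x => -P1 (-x))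
      ((2 * ee (-x) + -x) * P1 (-x) - (-x) * (3 * (mu (-x) * ee (-x)) - 2)) x := by
    intro x
    have h1 := P1_hasDerivAt (-x)
    have h2 := (h1.comp x (hasDerivAt_neg x)).neg
    refine h2.congr_deriv ?_
    ring
  have := image_le_of_deriv_right_lt_deriv_boundary (f := fun x => -P1 (-x))
    (f' := fun x => (2 * ee (-x) + -x) * P1 (-x) - (-x) * (3 * (mu (-x) * ee (-x)) - 2))
    (a := 0) (b := -z) (B := fun _ => 0) (B' := fun _ => 0)
    (fun x _ => (hd x).continuousAt.continuousWithinAt)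
    (fun x _ => (hd x).hasDerivWithinAt)
    (by simpa using P1_zero.le) (fun x => hasDerivAt_const x _)
    (fun x hx hxe => by
      have h3 : P1 (-x) = 0 := by simpa using hxe
      have hx0 : 0 < x := by
        rcases hx.1.lt_or_eq with h | h
        · exact h
        · exfalso
          rw [← h, neg_zero] at h3
          exact P1_zero.ne' h3
      have h4 : mu (-x) * ee (-x) < mu 0 * ee 0 := mu_ee_strictMono (by linarith)
      rw [mu_ee_zero] at h4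
      have h5 := ee_zero_sq_lt
      show (2 * ee (-x) + -x) * P1 (-x) - (-x) * (3 * (mu (-x) * ee (-x)) - 2) < 0
      rw [h3]
      nlinarith)
  have h4 := this (x := -z) ⟨by linarith, le_rfl⟩
  simpa using h4

theorem gg_low_left {z : ℝ} (hz : z ≤ 0) : 1 / (z ^ 2 + 3) ≤ gg z := by
  have h := P1_nonneg hz
  unfold P1 at h
  unfold gg
  rw [div_le_div_iff₀ (by positivity) (ww_pos z), cc_ww]
  nlinarith

/-! ### the right half: `z ≥ 0` -/

/-- `P2 = w - (z²+7/2) s` -/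
def P2 (z : ℝ) : ℝ := ww z - (z ^ 2 + 7 / 2) * ss z

/-- the source term -/
def N2 (z : ℝ) : ℝ :=
  3 * z * ee z ^ 2 - (z ^ 4 / 2 + 5 / 4 * z ^ 2 + 1 / 2) * ee z + z ^ 3 / 2 + z / 4

lemma P2_hasDerivAt (z : ℝ) : HasDerivAt P2
    ((2 * ee z + 3 / 2 * z) * P2 z - N2 z) z := by
  have h2 : HasDerivAt (fun z : ℝ => z ^ 2 + 7 / 2) (2 * z) z := by
    simpa using (hasDerivAt_pow 2 z).add_const (7 / 2:ℝ)
  have := (ww_hasDerivAt z).sub (h2.mul (ss_hasDerivAt z))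
  refine this.congr_deriv ?_
  unfold P2 N2 ww cc ss
  rw [mu_eq]
  ring

lemma N2_pos {z : ℝ} (hz : 0.4 ≤ z) : 0 < N2 z := by
  have hz0 : 0 < z := by linarith
  have ht : 0.16 ≤ z ^ 2 := by nlinarith
  rcases le_total (z ^ 2) 2 with h | h
  · -- discriminant
    have hid : 12 * z * N2 z = (6 * z * ee z - (z ^ 4 / 2 + 5 / 4 * z ^ 2 + 1 / 2)) ^ 2
        + (6 * (z ^ 2) ^ 2 + 3 * z ^ 2 - ((z ^ 2) ^ 2 / 2 + 5 / 4 * z ^ 2 + 1 / 2) ^ 2) := by
      unfold N2; ring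
    have hd : 0 < 6 * (z ^ 2) ^ 2 + 3 * z ^ 2 - ((z ^ 2) ^ 2 / 2 + 5 / 4 * z ^ 2 + 1 / 2) ^ 2 := by
      generalize z ^ 2 = t at ht h
      nlinarith [mul_nonneg (sub_nonneg.2 ht) (sub_nonneg.2 h),
        mul_nonneg (mul_nonneg (sub_nonneg.2 ht) (sub_nonneg.2 h)) (by linarith : (0:ℝ) ≤ t),
        mul_nonneg (mul_nonneg (sub_nonneg.2 ht) (sub_nonneg.2 h)) (sq_nonneg t)]
    have h1 : 0 < 12 * z * N2 z := by
      rw [hid]
      have := sq_nonneg (6 * z * ee z - (z ^ 4 / 2 + 5 / 4 * z ^ 2 + 1 / 2))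
      linarith
    exact pos_of_mul_pos_left253 h1 (by positivity)
  · -- `e < (3+z²)/(z(5+z²))`
    have he := ee_lt2 z
    have he0 := ee_pos z
    set e := ee z with hedef
    have hA : 0 < z ^ 3 + 5 * z := by positivity
    -- d = (3+z²) - (z³+5z) e > 0
    set d := (3 + z ^ 2) - (z ^ 3 + 5 * z) * e with hd
    have hd0 : 0 < d := by linarith
    have hid : (z ^ 3 + 5 * z) ^ 2 * N2 z
        = z * (3 * z ^ 2 / 2 + 39 / 2)
          + d * (z ^ 3 + 5 * z) * ((z ^ 4 / 2 + 5 / 4 * z ^ 2 + 1 / 2))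
          - 6 * z * (3 + z ^ 2) * d + 3 * z * d ^ 2 := by
      unfold N2
      rw [← hedef, hd]
      ring
    have h2 : 6 * z * (3 + z ^ 2) * d ≤ d * (z ^ 3 + 5 * z) * ((z ^ 4 / 2 + 5 / 4 * z ^ 2 + 1 / 2)) := by
      have h3 : 6 * (3 + z ^ 2) ≤ (z ^ 2 + 5) * (z ^ 4 / 2 + 5 / 4 * z ^ 2 + 1 / 2) := by
        have e4 : z ^ 4 = z ^ 2 * z ^ 2 := by ring
        rw [e4]
        generalize z ^ 2 = t at ht h
        nlinarith [mul_nonneg (sub_nonneg.2 h) (by linarith : (0:ℝ) ≤ t),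
          mul_nonneg (sub_nonneg.2 h) (sq_nonneg t)]
      have h4 : 0 ≤ z * d := by positivity
      nlinarith [mul_le_mul_of_nonneg_left h3 h4]
    have h5 : 0 < (z ^ 3 + 5 * z) ^ 2 * N2 z := by
      rw [hid]
      have : 0 < z * (3 * z ^ 2 / 2 + 39 / 2) := by positivity
      have : 0 ≤ 3 * z * d ^ 2 := by positivity
      linarith
    exact pos_of_mul_pos_left253 h5 (by positivity)

/-- the explicit supersolution on `[0, 2/5]` -/
def EE2 (z : ℝ) : ℝ := 0.798 - 0.356 * z + 0.1 * z ^ 2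

lemma ee_le_EE2 {z : ℝ} (hz : 0 ≤ z) (hz' : z ≤ 0.4) : ee z ≤ EE2 z := by
  have hB : ∀ x : ℝ, HasDerivAt EE2 (-0.356 + 0.2 * x) x := by
    intro x
    have := (((hasDerivAt_id x).const_mul (0.356:ℝ)).const_sub 0.798).add
      ((hasDerivAt_pow 2 x).const_mul (0.1:ℝ))
    refine this.congr_deriv ?_
    norm_num
    ring
  have := image_le_of_deriv_right_lt_deriv_boundary (f := ee)
    (f' := fun x => mu x * ee x - 1) (a := 0) (b := 0.4) (B := EE2)
    (B' := fun x => -0.356 + 0.2 * x)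
    (fun x _ => (ee_hasDerivAt x).continuousAt.continuousWithinAt)
    (fun x _ => (ee_hasDerivAt x).hasDerivWithinAt)
    (by have := ee_zero_lt; unfold EE2; linarith) hB
    (fun x hx hxe => by
      have h0 : 0 ≤ x := hx.1
      have h1 : 0 ≤ 0.4 - x := by linarith [hx.2]
      show mu x * ee x - 1 < -0.356 + 0.2 * x
      rw [mu_eq, hxe]
      unfold EE2
      nlinarith [mul_nonneg h0 h1, mul_nonneg (mul_nonneg h0 h1) h0,
        mul_nonneg (mul_nonneg h0 h1) h1, mul_nonneg (mul_nonneg h0 h1) (mul_nonneg h0 h1),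
        mul_nonneg (mul_nonneg h0 h1) (mul_nonneg h0 h0),
        mul_nonneg (mul_nonneg h0 h1) (mul_nonneg h1 h1), mul_nonneg h1 h1, mul_nonneg h0 h0])
  exact this ⟨hz, hz'⟩

lemma P2_pos_near {z : ℝ} (hz : 0 ≤ z) (hz' : z ≤ 0.4) : 0 < P2 z := by
  have h1 := ee_le_EE2 hz hz'
  have h2 := ee_pos z
  have h3 : P2 z = (z ^ 2 + 9 / 2) - (z ^ 2 + 9 / 2) * z * ee z - (2 * z ^ 2 + 7) * ee z ^ 2 := by
    unfold P2 ww ss; ring
  have h4 : ee z ^ 2 ≤ EE2 z ^ 2 := by nlinarith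
  have h5 : 0 < (z ^ 2 + 9 / 2) - (z ^ 2 + 9 / 2) * z * EE2 z - (2 * z ^ 2 + 7) * EE2 z ^ 2 := by
    unfold EE2
    have h1 : 0 ≤ 0.4 - z := by linarith
    nlinarith [mul_nonneg hz h1, mul_nonneg (mul_nonneg hz h1) hz,
        mul_nonneg (mul_nonneg hz h1) h1, mul_nonneg (mul_nonneg hz h1) (mul_nonneg hz h1),
        mul_nonneg (mul_nonneg hz h1) (mul_nonneg hz hz),
        mul_nonneg (mul_nonneg hz h1) (mul_nonneg h1 h1), mul_nonneg h1 h1, mul_nonneg hz hz,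
        pow_nonneg hz 3, pow_nonneg hz 4, pow_nonneg hz 5, pow_nonneg hz 6]
  rw [h3]
  have h6 : (z ^ 2 + 9 / 2) * z * ee z ≤ (z ^ 2 + 9 / 2) * z * EE2 z :=
    mul_le_mul_of_nonneg_left h1 (by positivity)
  have h7 : (2 * z ^ 2 + 7) * ee z ^ 2 ≤ (2 * z ^ 2 + 7) * EE2 z ^ 2 :=
    mul_le_mul_of_nonneg_left h4 (by positivity)
  linarith

lemma ss_lt {z : ℝ} (hz : 0 < z) : z ^ 2 * (z ^ 2 + 5) ^ 2 * ss z < 2 * z ^ 2 + 18 := by
  have he := ee_lt2 z
  have he0 := ee_pos z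
  have hA : 0 < z ^ 3 + 5 * z := by positivity
  have h1 : ((z ^ 3 + 5 * z) * ee z) ^ 2 < (3 + z ^ 2) ^ 2 := by
    have : 0 < (z ^ 3 + 5 * z) * ee z := by positivity
    nlinarith
  have h2 : z ^ 2 * (z ^ 2 + 5) ^ 2 * ss z = 2 * ((z ^ 3 + 5 * z) * ee z) ^ 2
      + z ^ 2 * (z ^ 2 + 5) * ((z ^ 3 + 5 * z) * ee z) - z ^ 2 * (z ^ 2 + 5) ^ 2 := by
    unfold ss; ring
  rw [h2]
  have h3 : z ^ 2 * (z ^ 2 + 5) * ((z ^ 3 + 5 * z) * ee z) ≤ z ^ 2 * (z ^ 2 + 5) * (3 + z ^ 2) :=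
    mul_le_mul_of_nonneg_left he.le (by positivity)
  nlinarith

lemma P2_tendsto : Tendsto P2 atTop (𝓝 0) := by
  have hw : Tendsto ww atTop (𝓝 0) := by
    have h : Tendsto (fun z : ℝ => (z⁻¹) * (z * ww z)) atTop (𝓝 (0 * 0)) :=
      tendsto_inv_atTop_zero.mul ww_tendsto_top
    rw [zero_mul] at h
    refine h.congr' ?_
    filter_upwards [eventually_gt_atTop 0] with z hz
    field_simp
  have h18 : Tendsto (fun z : ℝ => 18 / z) atTop (𝓝 0) := by
    have := (tendsto_inv_atTop_zero (𝕜 := ℝ)).const_mul 18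
    simpa [div_eq_mul_inv] using this
  have hs : Tendsto (fun z => (z ^ 2 + 7 / 2) * ss z) atTop (𝓝 0) := by
    refine squeeze_zero' ?_ ?_ h18
    · filter_upwards with z
      have := ss_pos z
      positivity
    · filter_upwards [eventually_ge_atTop 1] with z hz
      have hz0 : 0 < z := by linarith
      have h1 := ss_lt hz0
      have h2 := ss_pos z
      rw [le_div_iff₀ hz0]
      -- (t+3.5) s z ≤ 4.5 t s z ≤ 4.5 z (2t+18)/(t+5)² ≤ 18
      have ht : 1 ≤ z ^ 2 := by nlinarith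
      have h3 : (z ^ 2 + 7 / 2) * ss z * z * (z ^ 2 + 5) ^ 2
          ≤ 9 / 2 * (2 * z ^ 2 + 18) * z := by
        have h4 : (z ^ 2 + 7 / 2) ≤ 9 / 2 * z ^ 2 := by linarith
        have h5 : (z ^ 2 + 7 / 2) * (ss z * z * (z ^ 2 + 5) ^ 2)
            ≤ 9 / 2 * z ^ 2 * (ss z * z * (z ^ 2 + 5) ^ 2) :=
          mul_le_mul_of_nonneg_right h4 (by positivity)
        nlinarith [mul_le_mul_of_nonneg_right h1.le hz0.le]
      have h6 : 9 / 2 * (2 * z ^ 2 + 18) * z ≤ 18 * (z ^ 2 + 5) ^ 2 := by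
        have h7 : z ≤ z ^ 2 + 5 := by nlinarith
        have h8 : 9 / 2 * (2 * z ^ 2 + 18) ≤ 18 * (z ^ 2 + 5) := by nlinarith
        calc 9 / 2 * (2 * z ^ 2 + 18) * z ≤ 18 * (z ^ 2 + 5) * (z ^ 2 + 5) :=
              mul_le_mul h8 h7 hz0.le (by positivity)
          _ = _ := by ring
      have h9 : 0 < (z ^ 2 + 5) ^ 2 := by positivity
      exact le_of_mul_le_mul_right (h3.trans h6) h9
  have := hw.sub hs
  rw [sub_zero] at this
  exact this

lemma P2_pos_far {z : ℝ} (hz : 0.4 ≤ z) : 0 < P2 z := by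
  refine pos_of_ode_top (c := fun z => 2 * ee z + 3 / 2 * z) (N := N2) (z0 := 0.4)
    (fun x _ => P2_hasDerivAt x) ?_ (fun x hx => N2_pos hx) P2_tendsto z hz
  intro x hx
  have := ee_pos x
  have : 0 < x := by linarith
  positivity

theorem gg_low_right {z : ℝ} (hz : 0 ≤ z) : 1 / 2 - 1 / (2 * (z ^ 2 + 3.5)) ≤ gg z := by
  have h : 0 < P2 z := by
    rcases le_total z 0.4 with h | h
    · exact P2_pos_near hz h
    · exact P2_pos_far h
  unfold P2 at h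
  rw [ss_eq] at h
  unfold gg
  have hw := ww_pos z
  have e : 1 / 2 - 1 / (2 * (z ^ 2 + 3.5)) = (z ^ 2 + 2.5) / (2 * (z ^ 2 + 3.5)) := by
    field_simp
    ring
  rw [e, div_le_div_iff₀ (by positivity) hw]
  nlinarith

/-! ### `h = H0' + H0 H0''` -/

/-- `h = H0' + H0 H0''` (= `a² + c H0²` in the letters of the B-form ledger) -/
def hh (z : ℝ) : ℝ := (1 - ee z * H0 z) + H0 z * (ww z * H0 z - ee z)

lemma gg_le_hh (z : ℝ) : gg z ≤ hh z := by
  have hw := ww_pos z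
  unfold gg hh
  rw [div_le_iff₀ hw, cc_ww]
  nlinarith [sq_nonneg (ww z * H0 z - ee z)]

theorem gg_par {X : ℝ} (hX : 0 ≤ X) :
    ∃ a b ε : ℝ, 0 < ε ∧ (∀ z, a + b * z - ε * z ^ 2 ≤ gg z) ∧ 1 / √(X + 12) ≤ a - ε * X :=
  HBar253.hbar_par (fun _ hz => gg_low_left hz) (fun _ hz => gg_low_right hz) hX

theorem hh_par {X : ℝ} (hX : 0 ≤ X) :
    ∃ a b ε : ℝ, 0 < ε ∧ (∀ z, a + b * z - ε * z ^ 2 ≤ hh z) ∧ 1 / √(X + 12) ≤ a - ε * X := by
  obtain ⟨a, b, ε, h1, h2, h3⟩ := gg_par hX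
  exact ⟨a, b, ε, h1, fun z => (h2 z).trans (gg_le_hh z), h3⟩

end

end Crest.Agent.R253.HLow253
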