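import Crest.Agent.R253.TrI_80
import Crest.Agent.R253.HLow_253

/-!
# Row 253, B-form ledger, (L3): row inequalities against the law of `ζ` (helper253)

Letters of `TrI_80`: `S = MTm ζ`, `SW b g ζ = E tr b(S) g(ζ)`, `HW w ζ = E tr w(S) η ηᵀ`.

* `rows` : `α(τ) + β(τ) z - ε(τ) z² ≤ Σ_j w_j(τ) f_j(z)` for all `τ ≥ 0`, `z` gives
  `tr (α - ε x)(S) - HW ε ≤ Σ_j SW w_j f_j` (any signs; ONE parabola per eigenvalue).
* `main_term` : `tr (w (α - ε x))(S) - HW (w ε) ≤ SW w h`, `w ≥ 0`, `α + β z - ε z² ≤ h`.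
* `main_term_b` : the same in the letters of `lamI`.
* `par_s` : for `s ≥ 4.89`, `(3s²-8s+6)/s³ + β z - (2/s³) z² ≤ gg ≤ hh`.
* `main_par`, `main_par_b` : with these.
-/

set_option autoImplicit false

open MeasureTheory ProbabilityTheory Set Filter Topology Matrix
open scoped ContDiff

noncomputable section

namespace Crest.Agent.R253.HBarOp253

open Crest.Agent.R238.Gap Crest.Agent.R253.SpecCalc999 Crest.Agent.R253.Meh74
  Crest.Agent.R253.SpecField321 Crest.Agent.R253.S3 Crest.Agent.R253.LamB301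
  Crest.Agent.R253.LamI301 Crest.Agent.R253.TrC80
open Crest.Agent.R253.DualP973 (Tm ef Lx MTm Mx_eq dk_eq c1_ef)
open Crest.Agent.R253.HFn741 (hh)

variable {n : ℕ}

/-- `b(S) ((1 - S) X) = - w(S) X`, `w x = b x (x - 1)` -/
theorem wt_eq {S : Mat n} (hS : S.IsHermitian) (b : ℝ → ℝ) (X : Mat n) :
    _root_.cfc b S * ((1 - S) * X) = -(_root_.cfc (fun x => b x * (x - 1)) S * X) := by
  have e : _root_.cfc b S * (1 - S) = -_root_.cfc (fun x => b x * (x - 1)) S := by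
    conv_lhs => rw [← cfc_one' hS]
    rw [show _root_.cfc (fun _ : ℝ => (1 : ℝ)) S - S =
      _root_.cfc (fun _ : ℝ => (1 : ℝ)) S - _root_.cfc (fun x : ℝ => x) S by
        rw [TrC80.cfc_id'' hS], cfc_sub' hS, cfc_mul' hS]
    have h2 : _root_.cfc (fun x => b x * (x - 1)) S =
        (-1 : ℝ) • _root_.cfc (fun x => b x * (1 - x)) S := by
      rw [cfc_smul' hS]
      congr 1
      funext x
      ring
    rw [h2, neg_smul, one_smul, neg_neg]
  rw [← Matrix.mul_assoc, e, Matrix.neg_mul]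

/-- diagonal entries of `g(A)` in the frame `U`, through the frame `V` of `A` -/
lemma mixed {A U V : Mat n} {a : Fin n → ℝ} (hV : Fr A V a) (g : ℝ → ℝ) (i : Fin n) :
    (Uᵀ * _root_.cfc g A * U) i i = ∑ j, g (a j) * (Vᵀ * U) j i ^ 2 := by
  have e1 : Uᵀ * _root_.cfc g A * U =
      (Vᵀ * U)ᵀ * (Vᵀ * _root_.cfc g A * V) * (Vᵀ * U) := by
    rw [Matrix.transpose_mul, Matrix.transpose_transpose]
    calc Uᵀ * _root_.cfc g A * U = Uᵀ * 1 * _root_.cfc g A * 1 * U := by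
          rw [Matrix.mul_one, Matrix.mul_one]
      _ = Uᵀ * (V * Vᵀ) * _root_.cfc g A * (V * Vᵀ) * U := by rw [hV.o']
      _ = _ := by simp only [Matrix.mul_assoc]
  rw [e1, hV.cfc, Matrix.mul_apply]
  refine Finset.sum_congr rfl fun j _ => ?_
  rw [Matrix.mul_diagonal, Matrix.transpose_apply]
  ring

/-- pointwise: one matrix `A`, frame of `S` -/
theorem point_rows {ι : Type*} (t : Finset ι) {S A : Mat n} {lo hi : ℝ} (hS : S.PosSemidef)
    (hA : A.IsHermitian) (hsp : spectrum ℝ A ⊆ Icc lo hi) {w f : ι → ℝ → ℝ} {α β ε : ℝ → ℝ}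
    (hm : ∀ τ, 0 ≤ τ → ∀ z ∈ Icc lo hi, α τ + β τ * z - ε τ * z ^ 2 ≤ ∑ j ∈ t, w j τ * f j z) :
    TR α S + (_root_.cfc β S * _root_.cfc (fun z : ℝ => z) A).trace
      - (_root_.cfc ε S * _root_.cfc (fun z : ℝ => z ^ 2) A).trace
      ≤ ∑ j ∈ t, (_root_.cfc (w j) S * _root_.cfc (f j) A).trace := by
  obtain ⟨U, hU⟩ := exists_fr hS.isHermitian
  obtain ⟨V, hV⟩ := exists_fr hA
  have e : ∑ j ∈ t, (_root_.cfc (w j) S * _root_.cfc (f j) A).trace
      = ∑ i, ∑ l, (∑ j ∈ t, w j (hS.isHermitian.eigenvalues i) * f j (hA.eigenvalues l))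
          * (Vᵀ * U) l i ^ 2 := by
    have h1 : ∀ j, (_root_.cfc (w j) S * _root_.cfc (f j) A).trace
        = ∑ i, ∑ l, w j (hS.isHermitian.eigenvalues i) * f j (hA.eigenvalues l)
          * (Vᵀ * U) l i ^ 2 := by
      intro j
      rw [tr_mul_frame hU]
      refine Finset.sum_congr rfl fun i _ => ?_
      rw [mixed hV, Finset.mul_sum]
      exact Finset.sum_congr rfl fun l _ => by ring
    rw [Finset.sum_congr rfl fun j _ => h1 j, Finset.sum_comm]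
    refine Finset.sum_congr rfl fun i _ => ?_
    rw [Finset.sum_comm]
    exact Finset.sum_congr rfl fun l _ => by rw [Finset.sum_mul]
  rw [e, tr_mul_frame hU, tr_mul_frame hU, TR_frame hU, ← Finset.sum_add_distrib,
    ← Finset.sum_sub_distrib]
  refine Finset.sum_le_sum fun i _ => ?_
  set τ := hS.isHermitian.eigenvalues i with hτ
  have hτ0 : 0 ≤ τ := spec_nonneg hS (hU.mem_spec i)
  have h1 := mixed (U := U) hV (fun _ => 1) i
  have e1 : _root_.cfc (fun _ : ℝ => (1:ℝ)) A = 1 := cfc_one' hA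
  rw [e1, Matrix.mul_one, hU.o, Matrix.one_apply_eq] at h1
  rw [mixed hV, mixed hV]
  have h5 : α τ = ∑ l, α τ * (1 * (Vᵀ * U) l i ^ 2) := by
    rw [← Finset.mul_sum, ← h1, mul_one]
  rw [h5, Finset.mul_sum, Finset.mul_sum, ← Finset.sum_add_distrib, ← Finset.sum_sub_distrib]
  refine Finset.sum_le_sum fun l _ => ?_
  have hz := hm τ hτ0 (hA.eigenvalues l) (hsp (hV.mem_spec l))
  nlinarith [mul_le_mul_of_nonneg_right hz (sq_nonneg ((Vᵀ * U) l i))]

section field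

variable {ζ : Fld n} {lo hi : ℝ}

/-- `SW_sq` for weights of any sign -/
theorem SW_sq' (hζ : MF ζ lo hi) (h0 : ∀ i j, EE (ζ i j) = 0) (b : ℝ → ℝ) :
    SW b (fun z => z ^ 2) ζ = TR (fun x => b x * x) (MTm ζ) + HW b ζ := by
  have hS := (ts hζ).herm
  have hg : ContinuousOn (fun z : ℝ => z ^ 2) (Icc lo hi) := by fun_prop
  have eb : b = fun x => (|b x| + b x) + (-1) * |b x| := by funext x; ring
  have h1 := SW_sq hζ h0 (b := fun x => |b x| + b x)
    (fun x _ => by have := neg_abs_le (b x); linarith)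
  have h2 := SW_sq hζ h0 (b := fun x => |b x|) (fun x _ => abs_nonneg _)
  have h3 : SW b (fun z => z ^ 2) ζ
      = SW (fun x => |b x| + b x) (fun z => z ^ 2) ζ + (-1) * SW (fun x => |b x|) (fun z => z ^ 2) ζ := by
    conv_lhs => rw [eb]
    rw [SW_add_b hζ (fun x => |b x| + b x) (fun x => (-1) * |b x|) hg,
      SW_smul_b hζ (-1) (fun x => |b x|)]
  have h4 : HW b ζ = HW (fun x => |b x| + b x) ζ + (-1) * HW (fun x => |b x|) ζ := by
    conv_lhs => rw [eb]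
    rw [HW_add hζ (fun x => |b x| + b x) (fun x => (-1) * |b x|), HW_smul hζ (-1) (fun x => |b x|)]
  have h5 : TR (fun x => b x * x) (MTm ζ) = TR (fun x => (|b x| + b x) * x) (MTm ζ)
      + (-1) * TR (fun x => |b x| * x) (MTm ζ) := by
    rw [← TR_smul hS, ← TR_add hS]
    congr 1
    funext x
    ring
  rw [h3, h4, h5, h1, h2]
  ring

/-- **row inequalities against the law of `ζ`** -/
theorem rows {ι : Type*} (t : Finset ι) (hζ : MF ζ lo hi) (h0 : ∀ i j, EE (ζ i j) = 0)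
    {w f : ι → ℝ → ℝ} {α β ε : ℝ → ℝ} (hf : ∀ j ∈ t, ContinuousOn (f j) (Icc lo hi))
    (hm : ∀ τ, 0 ≤ τ → ∀ z ∈ Icc lo hi, α τ + β τ * z - ε τ * z ^ 2 ≤ ∑ j ∈ t, w j τ * f j z) :
    TR (fun τ => α τ - ε τ * τ) (MTm ζ) - HW ε ζ ≤ ∑ j ∈ t, SW (w j) (f j) ζ := by
  have hS : (MTm ζ).PosSemidef := (ts hζ).psd
  have hid : ContinuousOn (fun z : ℝ => z) (Icc lo hi) := continuousOn_id
  have hsq : ContinuousOn (fun z : ℝ => z ^ 2) (Icc lo hi) := by fun_prop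
  have c1 := cg_SW hζ β hid
  have c2 := cg_SW hζ ε hsq
  have c3 : CG fun x => ∑ j ∈ t, (_root_.cfc (w j) (MTm ζ) * _root_.cfc (f j) (Mx ζ x)).trace :=
    CG.sum fun j hj => cg_SW hζ (w j) (hf j hj)
  have hE := EE_mono (((cg_const (TR α (MTm ζ))).add c1).sub c2) c3
    fun x => point_rows t hS (hζ.h x) (hζ.s x) hm
  rw [EE_sub ((cg_const _).add c1) c2, EE_add (cg_const _) c1, EE_const,
    EE_sum fun j hj => cg_SW hζ (w j) (hf j hj)] at hE
  have h1 : EE (fun x => (_root_.cfc β (MTm ζ) * _root_.cfc (fun z => z) (Mx ζ x)).trace) = 0 :=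
    SW_id hζ h0 β
  have h2 : EE (fun x => (_root_.cfc ε (MTm ζ) * _root_.cfc (fun z => z ^ 2) (Mx ζ x)).trace)
      = TR (fun x => ε x * x) (MTm ζ) + HW ε ζ := SW_sq' hζ h0 ε
  rw [h1, h2, add_zero] at hE
  have h3 : TR (fun τ => α τ - ε τ * τ) (MTm ζ)
      = TR α (MTm ζ) - TR (fun x => ε x * x) (MTm ζ) := TR_sub hS.isHermitian α (fun x => ε x * x)
  rw [h3]
  unfold SW
  linarith

/-- upper version -/
theorem rows_le {ι : Type*} (t : Finset ι) (hζ : MF ζ lo hi) (h0 : ∀ i j, EE (ζ i j) = 0)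
    {w f : ι → ℝ → ℝ} {α β ε : ℝ → ℝ} (hf : ∀ j ∈ t, ContinuousOn (f j) (Icc lo hi))
    (hm : ∀ τ, 0 ≤ τ → ∀ z ∈ Icc lo hi, ∑ j ∈ t, w j τ * f j z ≤ α τ + β τ * z + ε τ * z ^ 2) :
    ∑ j ∈ t, SW (w j) (f j) ζ ≤ TR (fun τ => α τ + ε τ * τ) (MTm ζ) + HW ε ζ := by
  have hS : (MTm ζ).PosSemidef := (ts hζ).psd
  have h := rows t hζ h0 (w := fun j x => (-1) * w j x) (f := f) (α := fun x => (-1) * α x)
    (β := fun x => (-1) * β x) (ε := ε) hf (fun τ hτ z hz => by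
      have h1 := hm τ hτ z hz
      have h2 : ∑ j ∈ t, (-1) * w j τ * f j z = -∑ j ∈ t, w j τ * f j z := by
        rw [← Finset.sum_neg_distrib]
        exact Finset.sum_congr rfl fun j _ => by ring
      rw [h2]
      linarith)
  have h3 : ∑ j ∈ t, SW (fun x => (-1) * w j x) (f j) ζ = -∑ j ∈ t, SW (w j) (f j) ζ := by
    rw [← Finset.sum_neg_distrib]
    exact Finset.sum_congr rfl fun j _ => by rw [SW_smul_b hζ (-1) (w j) (f j)]; ring
  have h4 : TR (fun τ => (-1) * α τ - ε τ * τ) (MTm ζ)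
      = (-1) * TR (fun τ => α τ + ε τ * τ) (MTm ζ) := by
    rw [← TR_smul hS.isHermitian]
    congr 1
    funext x
    ring
  rw [h3, h4] at h
  linarith

/-- **(L3)** the main term with per-eigenvalue parabolas -/
theorem main_term (hζ : MF ζ lo hi) (h0 : ∀ i j, EE (ζ i j) = 0) {h w α β ε : ℝ → ℝ}
    (hh : ContinuousOn h (Icc lo hi)) (hw : ∀ τ, 0 ≤ τ → 0 ≤ w τ)
    (hm : ∀ τ, 0 ≤ τ → ∀ z ∈ Icc lo hi, α τ + β τ * z - ε τ * z ^ 2 ≤ h z) :
    TR (fun τ => w τ * (α τ - ε τ * τ)) (MTm ζ) - HW (fun τ => w τ * ε τ) ζ ≤ SW w h ζ := by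
  have h1 := rows (Finset.univ : Finset Unit) hζ h0 (w := fun _ => w) (f := fun _ => h)
    (α := fun τ => w τ * α τ) (β := fun τ => w τ * β τ) (ε := fun τ => w τ * ε τ)
    (fun _ _ => hh) (fun τ hτ z hz => by
      have h2 := mul_le_mul_of_nonneg_left (hm τ hτ z hz) (hw τ hτ)
      simp only [Finset.univ_unique, Finset.sum_singleton]
      linarith)
  simp only [Finset.univ_unique, Finset.sum_singleton] at h1
  refine le_trans (le_of_eq ?_) h1
  congr 2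
  funext τ
  ring

/-- the main term of `lamI` is `SW` of the weight `b(x)(x-1)` -/
theorem main_eq (hζ : MF ζ lo hi) (b h : ℝ → ℝ) :
    -TE (fun x => _root_.cfc b (MTm ζ) * ((1 - MTm ζ) * sf h ζ x))
      = SW (fun x => b x * (x - 1)) h ζ := by
  have hS := (ts hζ).herm
  have e : TE (fun x => _root_.cfc b (MTm ζ) * ((1 - MTm ζ) * sf h ζ x))
      = -TE (fun x => _root_.cfc (fun x => b x * (x - 1)) (MTm ζ) * sf h ζ x) := by
    rw [TE_congr fun x => wt_eq hS b (sf h ζ x)]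
    have : (fun x => -(_root_.cfc (fun x => b x * (x - 1)) (MTm ζ) * sf h ζ x))
        = fun x => (-1 : ℝ) • (_root_.cfc (fun x => b x * (x - 1)) (MTm ζ) * sf h ζ x) := by
      funext x
      rw [neg_smul, one_smul]
    rw [this, TE_smul]
    ring
  rw [e, neg_neg]
  rfl

end field

/-! ### the parabola family of `hh` -/

/-- **the family of parabolas**, parameter `s ≥ 4.89` -/
theorem par_s {s : ℝ} (hs : 4.89 ≤ s) :
    ∃ β : ℝ, ∀ z, (3 * s ^ 2 - 8 * s + 6) / s ^ 3 + β * z - 2 / s ^ 3 * z ^ 2 ≤ Mills37.gg z := by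
  have hu : 0 < √(s - 3) := Real.sqrt_pos.2 (by linarith)
  have hu2 : √(s - 3) ^ 2 = s - 3 := Real.sq_sqrt (by linarith)
  set u := √(s - 3) with hudef
  have hu3 : 1.89 ≤ u ^ 2 := by rw [hu2]; linarith
  have hsu : u ^ 2 + 3 = s := by rw [hu2]; ring
  have hspos : 0 < s := by linarith
  refine ⟨2 * u / s ^ 2 - 4 * u / s ^ 3, fun z => ?_⟩
  have e : (3 * s ^ 2 - 8 * s + 6) / s ^ 3 + (2 * u / s ^ 2 - 4 * u / s ^ 3) * z - 2 / s ^ 3 * z ^ 2
      = 1 / s + 2 * u / s ^ 2 * (z + u) - 2 / s ^ 3 * (z + u) ^ 2 := by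
    have e1 : 1 / s + 2 * u / s ^ 2 * (z + u) - 2 / s ^ 3 * (z + u) ^ 2
        = 1 / s + 2 / s ^ 2 * u ^ 2 - 2 / s ^ 3 * u ^ 2 + (2 * u / s ^ 2 - 4 * u / s ^ 3) * z
          - 2 / s ^ 3 * z ^ 2 := by ring
    rw [e1, hu2]
    field_simp
    ring
  rw [e]
  rcases le_total z 0 with hz | hz
  · have := HBar253.left hu hu3 hz
    rw [hsu] at this
    exact this.trans (HLow253.gg_low_left hz)
  · have := HBar253.right hu hu3 hz
    rw [hsu] at this
    exact this.trans (HLow253.gg_low_right hz)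

lemma hh_eq_hh (z : ℝ) : HLow253.hh z = hh z := rfl

/-- the same for `hh` -/
theorem par_s_hh {s : ℝ} (hs : 4.89 ≤ s) :
    ∃ β : ℝ, ∀ z, (3 * s ^ 2 - 8 * s + 6) / s ^ 3 + β * z - 2 / s ^ 3 * z ^ 2 ≤ hh z := by
  obtain ⟨β, h⟩ := par_s hs
  exact ⟨β, fun z => (h z).trans (by rw [← hh_eq_hh]; exact HLow253.gg_le_hh z)⟩

lemma H0_cont : Continuous Mills37.H0 :=
  continuous_iff_continuousAt.2 fun z => (Mills37.H0_hasDerivAt z).continuousAt

lemma ee_cont : Continuous Mills37.ee :=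
  continuous_iff_continuousAt.2 fun z => (Mills37.ee_hasDerivAt z).continuousAt

lemma ww_cont : Continuous Mills37.ww :=
  continuous_iff_continuousAt.2 fun z => (Mills37.ww_hasDerivAt z).continuousAt

lemma hh_cont : Continuous hh := by
  unfold HFn741.hh
  exact aa_cont.add (H0_cont.mul ((ww_cont.mul H0_cont).sub ee_cont))

section par

variable {ζ : Fld n} {lo hi : ℝ}

/-- **(L3), explicit**: `a(τ) - ε(τ) τ = (3 s² - 8 s + 6 - 2 τ)/s³`, `ε = 2/s³`, `s = s(τ) ≥ 4.89` -/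
theorem main_par (hζ : MF ζ lo hi) (h0 : ∀ i j, EE (ζ i j) = 0) {w s : ℝ → ℝ}
    (hw : ∀ τ, 0 ≤ τ → 0 ≤ w τ) (hs : ∀ τ, 0 ≤ τ → 4.89 ≤ s τ) :
    TR (fun τ => w τ * ((3 * s τ ^ 2 - 8 * s τ + 6 - 2 * τ) / s τ ^ 3)) (MTm ζ)
      - HW (fun τ => w τ * (2 / s τ ^ 3)) ζ ≤ SW w hh ζ := by
  classical
  have hβ : ∀ τ, ∃ β : ℝ, 0 ≤ τ → ∀ z, (3 * s τ ^ 2 - 8 * s τ + 6) / s τ ^ 3 + β * z
      - 2 / s τ ^ 3 * z ^ 2 ≤ hh z := by
    intro τ
    by_cases hτ : 0 ≤ τ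
    · obtain ⟨β, h⟩ := par_s_hh (hs τ hτ)
      exact ⟨β, fun _ => h⟩
    · exact ⟨0, fun h => absurd h hτ⟩
  choose β hβ' using hβ
  have h := main_term hζ h0 (h := hh) (w := w)
    (α := fun τ => (3 * s τ ^ 2 - 8 * s τ + 6) / s τ ^ 3) (β := β) (ε := fun τ => 2 / s τ ^ 3)
    hh_cont.continuousOn hw (fun τ hτ z _ => hβ' τ hτ z)
  refine le_trans (le_of_eq ?_) h
  congr 2
  funext τ
  ring

end par

end Crest.Agent.R253.HBarOp253
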