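import Crest.Agent.R253.V3s_718

/-!
# Row 253: `h < 1/2` (helper718)
-/

set_option autoImplicit false

open Set

noncomputable section

namespace Crest.Agent.R253.HL718

open Crest.Agent.R253.Mills37 Crest.Agent.R253.HFn741 Crest.Agent.R253.V2451
  Crest.Agent.R253.Slack688

lemma mid {z : ℝ} (h1 : -(9 / 8) ≤ z) (h2 : z < 65 / 8) :
    0 < -(z + ee z) ^ 2 + 4 * (ee z * (z + ee z) * kk z) - 2 * (1 - z * ee z) * kk z ^ 2 := by
  have h := Ham741.ham (fuel := 8) (n := 4)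
    (G := [(-1, 2, 0, 0), (-2, 1, 1, 0), (-1, 0, 2, 0), (4, 1, 1, 1), (4, 0, 2, 1),
      (-2, 0, 0, 2), (2, 1, 1, 2)])
    (lo := -18) (hi := 130) (by decide +kernel) (by decide +kernel) (by norm_num) (by norm_num)
    (z := z) (by push_cast; linarith) (by push_cast; linarith)
  simp only [Ham741.evG] at h
  push_cast at h
  nlinarith [h]

lemma of_sq {z : ℝ} (h : bb2 z ^ 2 < (ww z - 2 * cc z) / 2) : hh z < 1 / 2 := by
  have hw := ww_pos z
  have e1 : cc z = ww z - ee z ^ 2 := by unfold cc ww; rw [mu_eq]; ring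
  have e2 : ww z * (1 / 2 - hh z) = (ww z - 2 * cc z) / 2 - bb2 z ^ 2 := by
    rw [hh_eq', e1]; unfold bb2; ring
  have : 0 < ww z * (1 / 2 - hh z) := by rw [e2]; linarith
  have := (mul_pos_iff_of_pos_left hw).1 this
  linarith

/-- **`h < 1/2`** -/
theorem hh_lt (z : ℝ) : hh z < 1 / 2 := by
  have he := ee_pos z
  have hm := mu_pos z
  have hb := bb2_pos z
  rcases lt_or_ge z (-(9 / 8)) with h1 | h1
  · apply of_sq
    have h2 := bb2_lt z
    have h3 : -z < ee z := by have := mu_eq z; linarith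
    have h4 : cc z < 1 := by unfold cc; nlinarith [mul_pos hm he]
    have h5 : 1 + 81 / 64 < ww z := by unfold ww; nlinarith
    nlinarith
  · rcases lt_or_ge z (65 / 8) with h2 | h2
    · have h := mid h1 h2
      have h3 := mu_H0 z
      have h4 : mu z ^ 2 * (1 - 2 * hh z) =
          -(z + ee z) ^ 2 + 4 * (ee z * (z + ee z) * kk z) - 2 * (1 - z * ee z) * kk z ^ 2 := by
        rw [hh_eq', ← h3, ← mu_eq]; unfold ww; ring
      rw [← h4] at h
      have := (mul_pos_iff_of_pos_left (by positivity : (0:ℝ) < mu z ^ 2)).1 h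
      linarith
    · apply of_sq
      have hz : (8 : ℝ) ≤ z := by linarith
      have h3 := V3s718.H0_le hz
      have h5 := ee_gt2 z
      have h7 := ww_pos z
      have hD : 0 < z ^ 4 + 9 * z ^ 2 + 8 := by positivity
      have hz2 : (64 : ℝ) ≤ z ^ 2 := by nlinarith
      have e1 : cc z = ww z - ee z ^ 2 := by unfold cc ww; rw [mu_eq]; ring
      -- upper bound of `v''`
      have a1 : (z ^ 4 + 9 * z ^ 2 + 8) * ww z ≤ 2 * z ^ 2 + 8 := by
        unfold ww; nlinarith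
      have a2 : (z ^ 4 + 9 * z ^ 2 + 8) * bb2 z ≤ 7 / 10 * z ^ 2 := by
        have a3 : (z ^ 4 + 9 * z ^ 2 + 8) * bb2 z =
          ((z ^ 4 + 9 * z ^ 2 + 8) * ww z) * H0 z - (z ^ 4 + 9 * z ^ 2 + 8) * ee z := by
          unfold bb2; ring
        have a4 : ((z ^ 4 + 9 * z ^ 2 + 8) * ww z) * H0 z ≤ (2 * z ^ 2 + 8) * (87 / 20 + (z - 8) / 2) :=
          mul_le_mul a1 h3 (H0_pos z).le (by positivity)
        rw [a3]
        nlinarith
      -- lower bound of `ss`
      have b1 : 2 * z ^ 4 + 10 * z ^ 2 - 64 ≤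
          (z ^ 4 + 9 * z ^ 2 + 8) ^ 2 * (ww z - 2 * cc z) := by
        have b2 : (z ^ 4 + 9 * z ^ 2 + 8) ^ 2 * (ww z - 2 * cc z) =
            2 * ((z ^ 4 + 9 * z ^ 2 + 8) * ee z) ^ 2 +
              z * (z ^ 4 + 9 * z ^ 2 + 8) * ((z ^ 4 + 9 * z ^ 2 + 8) * ee z) -
              (z ^ 4 + 9 * z ^ 2 + 8) ^ 2 := by
          rw [e1]; unfold ww; ring
        rw [b2]
        set X := (z ^ 4 + 9 * z ^ 2 + 8) * ee z with hX
        have hX0 : 0 < z ^ 3 + 7 * z := by positivity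
        have b3 : (z ^ 3 + 7 * z) ^ 2 ≤ X ^ 2 := pow_le_pow_left₀ hX0.le h5.le 2
        have b4 : z * (z ^ 4 + 9 * z ^ 2 + 8) * (z ^ 3 + 7 * z) ≤
            z * (z ^ 4 + 9 * z ^ 2 + 8) * X := mul_le_mul_of_nonneg_left h5.le (by positivity)
        nlinarith
      have c1 : ((z ^ 4 + 9 * z ^ 2 + 8) * bb2 z) ^ 2 ≤ (7 / 10 * z ^ 2) ^ 2 :=
        pow_le_pow_left₀ (by positivity) a2 2
      have c2 : (z ^ 4 + 9 * z ^ 2 + 8) ^ 2 * (bb2 z ^ 2) <
          (z ^ 4 + 9 * z ^ 2 + 8) ^ 2 * ((ww z - 2 * cc z) / 2) := by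
        nlinarith
      exact lt_of_mul_lt_mul_left c2 (by positivity)

end Crest.Agent.R253.HL718
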