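import Crest.Agent.R253.HPar_741
import Crest.Agent.R253.TabF_167

/-!
# Row 253: the minorants of `h` of the frozen table (helper741)

`hm` in the literal shape of `nearR`.
-/

noncomputable section

namespace Crest.Agent.R253.HPT741

open Crest.Agent.R253.HFn741 Crest.Agent.R253.HPar741 Crest.Agent.R253.TabF167

/-- the slopes of the three parabolas -/
def ga (x : ℝ) : ℝ :=
  if x ≤ 5 then 720 / 10000 else if x ≤ 11 then 650 / 10000 else if x ≤ 60 then 560 / 10000 else 0

theorem hm : ∀ x : ℝ, 0 ≤ x → ∀ z, al x + ga x * z - ep x * z ^ 2 ≤ hh z := by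
  intro x _ z
  rcases le_or_gt x 5 with h5 | h5
  · have h1 := par_a z
    rw [al_5 h5, ep_5 h5]
    simp only [ga, if_pos h5]
    linarith
  · rcases le_or_gt x 11 with h11 | h11
    · have h1 := par_d z
      rw [al_11 h5 h11, ep_11 h5 h11]
      simp only [ga, if_neg (not_le.2 h5), if_pos h11]
      linarith
    · rcases le_or_gt x 60 with h60 | h60
      · have h1 := par_f z
        rw [al_60 h11 h60, ep_60 h11 h60]
        simp only [ga, if_neg (not_le.2 h5), if_neg (not_le.2 h11), if_pos h60]
        linarith
      · have h1 := hh_pos z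
        rw [al_far h60, ep_far h60]
        simp only [ga, if_neg (not_le.2 h5), if_neg (not_le.2 h11), if_neg (not_le.2 h60)]
        linarith

end Crest.Agent.R253.HPT741
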