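import Crest.Agent.R253.HamT_741
import Crest.Agent.R253.HP_688

/-!
# Row 253 (helper150): the quadratic majorant of `(h - 9/25)²`

`hsq : (hh z - 9/25)² ≤ 6/10000 + z/1000 + 95/10000 z²`.
-/

set_option autoImplicit false

open Real

namespace Crest.Agent.R253.HSq150

open Crest.Agent.R253.Mills37 Crest.Agent.R253.Slack688 Crest.Agent.R253.V2451
  Crest.Agent.R253.HFn741 Crest.Agent.R253.Ham741 Crest.Agent.R253.HP688

/-- `h < 1/2 + 2/19 < .6053` -/
lemma hh_lt (z : ℝ) : hh z < 6053 / 10000 := by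
  have h1 := aa_lt z
  have h2 := bb2_lt_ee z
  have h3 := H0_pos z
  have h4 : hh z = aa z + H0 z * bb2 z := rfl
  have h5 : H0 z * bb2 z < H0 z * (2 / 19 * ee z) := mul_lt_mul_of_pos_left h2 h3
  have h6 : ee z * H0 z = 1 - aa z := by unfold aa; ring
  have h7 : H0 z * (2 / 19 * ee z) = 2 / 19 * (1 - aa z) := by rw [← h6]; ring
  rw [h4]
  rw [h7] at h5
  linarith

/-- `mu² h` as a polynomial in `z, e, k` -/
lemma mu_hh (z : ℝ) : (z + ee z) ^ 2 * hh z =
    (z + ee z) ^ 2 - 2 * ee z * kk z * (z + ee z) + (1 - z * ee z) * kk z ^ 2 := by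
  have h1 := mu_H0 z
  rw [mu_eq] at h1
  rw [hh_eq']
  have h2 : (z + ee z) ^ 2 * H0 z ^ 2 = kk z ^ 2 := by rw [← h1]; ring
  have h3 : (z + ee z) * H0 z = kk z := h1
  unfold ww
  linear_combination (1 - z * ee z) * h2 - 2 * ee z * (z + ee z) * h3

lemma mu_pos' (z : ℝ) : 0 < z + ee z := by rw [← mu_eq]; exact mu_pos z

lemma lowA {z : ℝ} (h1 : -(13 / 4) ≤ z) (h2 : z < 0) : 3651 / 10000 + 974 / 10000 * z < hh z := by
  have h := ham (fuel := 8) (n := 4) (G := [(6349, 2, 0, 0), (12698, 1, 1, 0), (6349, 0, 2, 0),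
    (-974, 3, 0, 0), (-1948, 2, 1, 0), (-974, 1, 2, 0), (-20000, 1, 1, 1), (-20000, 0, 2, 1),
    (10000, 0, 0, 2), (-10000, 1, 1, 2)]) (lo := -52) (hi := 0) (by decide +kernel)
    (by decide +kernel) (by norm_num) (by norm_num) (z := z) (by push_cast; linarith)
    (by push_cast; linarith)
  simp only [evG] at h
  push_cast at h
  have hm := mu_pos' z
  have hh1 := mu_hh z
  have h3 : 0 < (z + ee z) ^ 2 * (hh z - (3651 / 10000 + 974 / 10000 * z)) := by
    rw [mul_sub, hh1]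
    nlinarith [h]
  have h4 := (mul_pos_iff_of_pos_left (pow_pos hm 2)).1 h3
  linarith

lemma upB {z : ℝ} (h1 : -(1 / 4) ≤ z) (h2 : z < 5 / 2) : hh z < 374 / 1000 + 89 / 1000 * z := by
  have h := ham (fuel := 8) (n := 4) (G := [(-626, 2, 0, 0), (-1252, 1, 1, 0), (-626, 0, 2, 0),
    (89, 3, 0, 0), (178, 2, 1, 0), (89, 1, 2, 0), (2000, 1, 1, 1), (2000, 0, 2, 1),
    (-1000, 0, 0, 2), (1000, 1, 1, 2)]) (lo := -4) (hi := 40) (by decide +kernel)
    (by decide +kernel) (by norm_num) (by norm_num) (z := z) (by push_cast; linarith)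
    (by push_cast; linarith)
  simp only [evG] at h
  push_cast at h
  have hm := mu_pos' z
  have hh1 := mu_hh z
  have h3 : 0 < (z + ee z) ^ 2 * ((374 / 1000 + 89 / 1000 * z) - hh z) := by
    rw [mul_sub, hh1]
    nlinarith [h]
  have h4 := (mul_pos_iff_of_pos_left (pow_pos hm 2)).1 h3
  linarith

lemma upC {z : ℝ} (h1 : -(15 / 4) ≤ z) (h2 : z < -(1 / 4)) : hh z < 38 / 100 := by
  have h := ham (fuel := 8) (n := 4) (G := [(-31, 2, 0, 0), (-62, 1, 1, 0), (-31, 0, 2, 0),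
    (100, 1, 1, 1), (100, 0, 2, 1), (-50, 0, 0, 2), (50, 1, 1, 2)]) (lo := -60) (hi := -4)
    (by decide +kernel)
    (by decide +kernel) (by norm_num) (by norm_num) (z := z) (by push_cast; linarith)
    (by push_cast; linarith)
  simp only [evG] at h
  push_cast at h
  have hm := mu_pos' z
  have hh1 := mu_hh z
  have h3 : 0 < (z + ee z) ^ 2 * (38 / 100 - hh z) := by
    rw [mul_sub, hh1]
    nlinarith [h]
  have h4 := (mul_pos_iff_of_pos_left (pow_pos hm 2)).1 h3
  linarith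

/-- **(h square)** -/
theorem hsq (z : ℝ) : (hh z - 9 / 25) ^ 2 ≤ 6 / 10000 + z / 1000 + 95 / 10000 * z ^ 2 := by
  have hp := hh_pos z
  have hl := hh_lt z
  rcases lt_or_ge z (-(15 / 4)) with h1 | h1
  · have h2 : (hh z - 9 / 25) ^ 2 ≤ (9 / 25) ^ 2 := by nlinarith
    nlinarith
  rcases lt_or_ge z (-(13 / 4)) with h2 | h2
  · have a := hh_ge_neg (show z ≤ 0 by linarith)
    have h3 : (586 : ℝ) / 10000 ≤ 1 / (z ^ 2 + 3) := by
      rw [le_div_iff₀ (by positivity)]; nlinarith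
    have h4 : (hh z - 9 / 25) ^ 2 ≤ (3014 / 10000) ^ 2 := by nlinarith
    nlinarith
  have h1' := h1
  replace h1 := h2
  rcases lt_or_ge z (-(1 / 4)) with h2 | h2
  · have a := lowA h1 (by linarith)
    have b := upC h1' h2
    rcases le_total (9 / 25) (hh z) with h3 | h3
    · have : (hh z - 9 / 25) ^ 2 ≤ (2 / 100) ^ 2 := by nlinarith
      nlinarith [sq_nonneg (z + 1 / 19)]
    · have h4 : 0 ≤ 9 / 25 - hh z := by linarith
      have h5 : 9 / 25 - hh z ≤ -(51 / 10000) - 974 / 10000 * z := by linarith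
      have : (9 / 25 - hh z) ^ 2 ≤ (-(51 / 10000) - 974 / 10000 * z) ^ 2 :=
        pow_le_pow_left₀ h4 h5 2
      nlinarith [sq_nonneg z]
  rcases lt_or_ge z (5 / 2) with h3 | h3
  · have b := upB h2 h3
    rcases le_total (9 / 25) (hh z) with h4 | h4
    · have h5 : 0 ≤ hh z - 9 / 25 := by linarith
      have h6 : hh z - 9 / 25 ≤ 14 / 1000 + 89 / 1000 * z := by linarith
      have : (hh z - 9 / 25) ^ 2 ≤ (14 / 1000 + 89 / 1000 * z) ^ 2 :=
        pow_le_pow_left₀ h5 h6 2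
      nlinarith [sq_nonneg (z - 472 / 1000)]
    · rcases lt_or_ge z 0 with h5 | h5
      · have a := lowA h1 h5
        have h4' : 0 ≤ 9 / 25 - hh z := by linarith
        have h5 : 9 / 25 - hh z ≤ -(51 / 10000) - 974 / 10000 * z := by linarith
        have : (9 / 25 - hh z) ^ 2 ≤ (-(51 / 10000) - 974 / 10000 * z) ^ 2 :=
          pow_le_pow_left₀ h4' h5 2
        nlinarith [sq_nonneg z]
      · have h6 := hh_ge_const h5
        have h7 : hh z = 9 / 25 := le_antisymm h4 h6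
        rw [h7]
        nlinarith
  · have h2' : (hh z - 9 / 25) ^ 2 ≤ (2453 / 10000) ^ 2 := by
      have := hh_ge_const (show 0 ≤ z by linarith)
      nlinarith
    nlinarith

end Crest.Agent.R253.HSq150
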