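import Crest.Agent.R253.HLow_741

/-!
# Row 253: the left tail `z = -y`, `y ≥ 4`, of `v = H0`, `v'`, `v''` (helper741)
-/

open MeasureTheory Set Filter Topology Real

namespace Crest.Agent.R253.HTl741

open Crest.Agent.R253.Mills37 Crest.Agent.R253.Slack688 Crest.Agent.R253.V2451
open Crest.Agent.R253.HFn741

noncomputable section

lemma Q_negy (y : ℝ) : Q (-y) = 1 - Q y := Q_neg y

lemma one_sub_Q_pos (y : ℝ) : 0 < 1 - Q y := by
  have := Q_lt_one y; linarith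

lemma mu_neg' (y : ℝ) : mu (-y) = ph y / (1 - Q y) := by
  unfold mu; rw [ph_neg, Q_negy]

lemma kk_neg' (y : ℝ) : kk (-y) = -Real.log (1 - Q y) := by
  unfold kk; rw [Q_negy]

lemma inv_mu (y : ℝ) : 1 / mu y = Q y / ph y := by
  unfold mu; rw [one_div_div]

/-- `v(-y) ≤ 1 / μ(y)` -/
theorem H0_neg_le (y : ℝ) : H0 (-y) ≤ 1 / mu y := by
  have hq := one_sub_Q_pos y
  have hp := ph_pos y
  have h1 : -Real.log (1 - Q y) ≤ Q y / (1 - Q y) := by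
    have h := Real.log_le_sub_one_of_pos (inv_pos.2 hq)
    rw [Real.log_inv] at h
    have e : (1 - Q y)⁻¹ - 1 = Q y / (1 - Q y) := by field_simp; ring
    linarith
  unfold H0
  rw [mu_neg', kk_neg', inv_mu, div_le_div_iff₀ (by positivity) hp]
  have h2 : -Real.log (1 - Q y) * (1 - Q y) ≤ Q y := by
    have := mul_le_mul_of_nonneg_right h1 hq.le
    rwa [div_mul_cancel₀ _ hq.ne'] at this
  have e : Q y * (ph y / (1 - Q y)) = (Q y / (1 - Q y)) * ph y := by ring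
  rw [e]
  exact mul_le_mul_of_nonneg_right h1 hp.le

/-- `(1 - Q(y)) / μ(y) ≤ v(-y)` -/
theorem H0_neg_ge (y : ℝ) : (1 - Q y) * (1 / mu y) ≤ H0 (-y) := by
  have hq := one_sub_Q_pos y
  have hp := ph_pos y
  have h1 : Q y ≤ -Real.log (1 - Q y) := by
    have h := Real.log_le_sub_one_of_pos hq
    linarith
  unfold H0
  rw [mu_neg', kk_neg', inv_mu, div_div_eq_mul_div, ← mul_div_assoc]
  refine div_le_div_of_nonneg_right ?_ hp.le
  nlinarith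

lemma ph_anti {x y : ℝ} (hx : 0 ≤ x) (hxy : x ≤ y) : ph y ≤ ph x := by
  unfold ph
  refine mul_le_mul_of_nonneg_left (Real.exp_le_exp.2 ?_) (by positivity)
  nlinarith

lemma c0_lt : (√(2 * π))⁻¹ < 2 / 5 := by
  have h : (5 / 2 : ℝ) < √(2 * π) := by
    rw [Real.lt_sqrt (by norm_num)]
    have := Real.pi_gt_d4
    norm_num; linarith
  have h2 : (√(2 * π))⁻¹ < (5 / 2 : ℝ)⁻¹ := inv_strictAnti₀ (by norm_num) h
  rwa [show ((5 / 2 : ℝ))⁻¹ = 2 / 5 by norm_num] at h2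

/-- `y⁶ φ(y) ≤ 4/7` for `y ≥ 4` -/
theorem ph_le6 {y : ℝ} (hy : 4 ≤ y) : y ^ 6 * ph y ≤ 4 / 7 := by
  have hx : 0 ≤ (y ^ 2 - 16) / 2 := by nlinarith
  have h1 : 1 + (y ^ 2 - 16) / 2 + ((y ^ 2 - 16) / 2) ^ 2 / 2 + ((y ^ 2 - 16) / 2) ^ 3 / 6 ≤
      rexp ((y ^ 2 - 16) / 2) := by
    have := Real.sum_le_exp_of_nonneg hx 4
    simp [Finset.sum_range_succ, Nat.factorial] at this
    linarith
  have h8 : (2980 : ℝ) ≤ rexp 8 := by
    have h := Real.exp_one_gt_d9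
    have e : rexp 8 = rexp 1 ^ 8 := by rw [← Real.exp_nat_mul]; norm_num
    rw [e]
    have : (2.7182818283 : ℝ) ^ 8 ≤ rexp 1 ^ 8 := pow_le_pow_left₀ (by norm_num) h.le 8
    refine le_trans ?_ this
    norm_num
  have h2 : rexp (y ^ 2 / 2) = rexp 8 * rexp ((y ^ 2 - 16) / 2) := by
    rw [← Real.exp_add]; congr 1; ring
  have h3 : 7 / 10 * y ^ 6 ≤ rexp (y ^ 2 / 2) := by
    rw [h2]
    have h4 : 2980 * (1 + (y ^ 2 - 16) / 2 + ((y ^ 2 - 16) / 2) ^ 2 / 2 +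
        ((y ^ 2 - 16) / 2) ^ 3 / 6) ≤ rexp 8 * rexp ((y ^ 2 - 16) / 2) :=
      mul_le_mul h8 h1 (by positivity) (Real.exp_pos _).le
    refine le_trans ?_ h4
    obtain ⟨x, hxe⟩ : ∃ x, x = (y ^ 2 - 16) / 2 := ⟨_, rfl⟩
    have hy2 : y ^ 2 = 16 + 2 * x := by rw [hxe]; ring
    have e6 : y ^ 6 = (16 + 2 * x) ^ 3 := by rw [← hy2]; ring
    rw [e6, ← hxe]
    rw [← hxe] at hx
    nlinarith [mul_nonneg hx hx, mul_nonneg (mul_nonneg hx hx) hx]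
  unfold ph
  have e : rexp (-(y ^ 2) / 2) = (rexp (y ^ 2 / 2))⁻¹ := by
    rw [← Real.exp_neg]; congr 1; ring
  rw [e]
  have h5 := Real.exp_pos (y ^ 2 / 2)
  have h6 : y ^ 6 * (rexp (y ^ 2 / 2))⁻¹ ≤ 10 / 7 := by
    rw [← div_eq_mul_inv, div_le_iff₀ h5]
    linarith
  have h7 := c0_lt
  have h8 : 0 < (√(2 * π))⁻¹ := by positivity
  have h9 : 0 ≤ y ^ 6 * (rexp (y ^ 2 / 2))⁻¹ := by positivity
  calc y ^ 6 * ((√(2 * π))⁻¹ * (rexp (y ^ 2 / 2))⁻¹)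
      = (√(2 * π))⁻¹ * (y ^ 6 * (rexp (y ^ 2 / 2))⁻¹) := by ring
    _ ≤ 2 / 5 * (10 / 7) := mul_le_mul h7.le h6 h9 (by norm_num)
    _ = 4 / 7 := by norm_num

lemma mu_ge_self {y : ℝ} : y < mu y := by
  have := ee_pos y
  rw [mu_eq]; linarith

/-- `y⁷ Q(y) ≤ 4/7` -/
theorem Q_le7 {y : ℝ} (hy : 4 ≤ y) : y ^ 7 * Q y ≤ 4 / 7 := by
  have h1 := ph_le6 hy
  have h2 : y < mu y := mu_ge_self
  have hQ := Q_pos y
  have h3 : y * Q y ≤ ph y := by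
    unfold mu at h2
    rw [lt_div_iff₀ hQ] at h2
    exact h2.le
  calc y ^ 7 * Q y = y ^ 6 * (y * Q y) := by ring
    _ ≤ y ^ 6 * ph y := mul_le_mul_of_nonneg_left h3 (by positivity)
    _ ≤ 4 / 7 := h1

lemma Q_small {y : ℝ} (hy : 4 ≤ y) : Q y ≤ 1 / 25000 := by
  have h := Q_le7 hy
  have hQ := Q_pos y
  have h2 : (4 : ℝ) ^ 7 ≤ y ^ 7 := pow_le_pow_left₀ (by norm_num) hy 7
  nlinarith

/-- `y⁶ μ(-y) ≤ 3/5` -/
theorem mu_neg_le {y : ℝ} (hy : 4 ≤ y) : y ^ 6 * mu (-y) ≤ 3 / 5 := by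
  have h1 := ph_le6 hy
  have h2 := Q_small hy
  have h3 := one_sub_Q_pos y
  rw [mu_neg', ← mul_div_assoc, div_le_iff₀ h3]
  nlinarith

lemma ee_neg (y : ℝ) : ee (-y) = mu (-y) + y := by unfold ee; ring

lemma one_sub_yM (y : ℝ) : 1 - y * (1 / mu y) = ee y / mu y := by
  have := (mu_pos y).ne'
  have h := mu_eq y
  rw [eq_div_iff this]
  field_simp
  linarith

/-- `(ee y - μ(-y)) / μ(y) ≤ v'(-y)` -/
theorem aa_neg_ge {y : ℝ} (hy : 0 ≤ y) : (ee y - mu (-y)) * (1 / mu y) ≤ aa (-y) := by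
  have h1 := H0_neg_le y
  have h2 := one_sub_yM y
  have h3 := mu_pos (-y)
  have h4 := mu_pos y
  unfold aa
  rw [ee_neg]
  have h5 : (mu (-y) + y) * H0 (-y) ≤ (mu (-y) + y) * (1 / mu y) :=
    mul_le_mul_of_nonneg_left h1 (by linarith)
  have h6 : ee y / mu y = ee y * (1 / mu y) := by ring
  rw [h6] at h2
  nlinarith

/-- `v'(-y) ≤ ee y / μ(y) + Q(y)` -/
theorem aa_neg_le {y : ℝ} (hy : 0 ≤ y) : aa (-y) ≤ ee y * (1 / mu y) + Q y := by
  have h1 := H0_neg_ge y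
  have h2 := one_sub_yM y
  have h3 := mu_pos (-y)
  have h4 := mu_pos y
  have h7 := Q_pos y
  have h8 := one_sub_Q_pos y
  unfold aa
  rw [ee_neg]
  have h6 : ee y / mu y = ee y * (1 / mu y) := by ring
  rw [h6] at h2
  have h9 : 0 < 1 / mu y := by positivity
  have h10 : y * (1 / mu y) < 1 := by
    rw [mul_one_div, div_lt_one h4]; exact mu_ge_self
  have h5 : y * ((1 - Q y) * (1 / mu y)) ≤ (mu (-y) + y) * H0 (-y) := by
    refine mul_le_mul (by linarith) h1 (by positivity) (by linarith)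
  nlinarith

lemma ww_neg (y : ℝ) : ww (-y) = 1 + y ^ 2 + y * mu (-y) := by
  unfold ww; rw [ee_neg]; ring

lemma ww_mul_inv (y : ℝ) : (1 + y ^ 2) * (1 / mu y) - y = ww y * (1 / mu y) := by
  have h := (mu_pos y).ne'
  have h1 := mu_eq y
  unfold ww
  field_simp
  rw [h1]; ring

/-- `v''(-y) ≤ w(y) / μ(y)` -/
theorem bb2_neg_le {y : ℝ} (hy : 0 ≤ y) : bb2 (-y) ≤ ww y * (1 / mu y) := by
  have h1 := H0_neg_le y
  have h2 := ww_mul_inv y
  have h3 := mu_pos (-y)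
  have h4 := mu_pos y
  have h10 : y * (1 / mu y) < 1 := by
    rw [mul_one_div, div_lt_one h4]; exact mu_ge_self
  unfold bb2
  rw [ww_neg, ee_neg]
  have h5 : (1 + y ^ 2 + y * mu (-y)) * H0 (-y) ≤ (1 + y ^ 2 + y * mu (-y)) * (1 / mu y) :=
    mul_le_mul_of_nonneg_left h1 (by positivity)
  nlinarith

/-- lower bound of `v''(-y)` -/
theorem bb2_neg_ge {y : ℝ} (hy : 0 ≤ y) :
    ww y * (1 / mu y) - mu (-y) - (1 + y ^ 2) * Q y * (1 / mu y) ≤ bb2 (-y) := by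
  have h1 := H0_neg_ge y
  have h2 := ww_mul_inv y
  have h3 := mu_pos (-y)
  have h4 := mu_pos y
  have h7 := Q_pos y
  have h8 := one_sub_Q_pos y
  have h9 : 0 < 1 / mu y := by positivity
  have h10 : 0 ≤ y * mu (-y) * ((1 - Q y) * (1 / mu y)) := by positivity
  unfold bb2
  rw [ww_neg, ee_neg]
  have h5 : (1 + y ^ 2 + y * mu (-y)) * ((1 - Q y) * (1 / mu y)) ≤
      (1 + y ^ 2 + y * mu (-y)) * H0 (-y) :=
    mul_le_mul_of_nonneg_left h1 (by positivity)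
  nlinarith

end

end Crest.Agent.R253.HTl741
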