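import Crest.Agent.R253.HLow_741

/-!
# Row 253: certified piecewise polynomial enclosures of `ee` and `kk` (helper741)

A polynomial inequality `0 < G (z, ee z, kk z)` on a subinterval of `[-8, 64]` is proved by
`decide +kernel`.
-/

set_option autoImplicit false

open MeasureTheory Set Filter Topology Real

namespace Crest.Agent.R253.Ham741

open Crest.Agent.R253.Mills37 Crest.Agent.R253.HFn741

/-! ### integer polynomials on `[0, 1]` -/

def evp : List ℤ → ℝ → ℝ
  | [], _ => 0
  | c :: l, s => (c : ℝ) + s * evp l s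

def addp : List ℤ → List ℤ → List ℤ
  | [], m => m
  | a :: l, [] => a :: l
  | a :: l, b :: m => (a + b) :: addp l m

def smp (k : ℤ) : List ℤ → List ℤ
  | [] => []
  | a :: l => (k * a) :: smp k l

def mulp : List ℤ → List ℤ → List ℤ
  | [], _ => []
  | a :: l, m => addp (smp a m) (0 :: mulp l m)

def absum : List ℤ → ℤ
  | [] => 0
  | a :: l => (a.natAbs : ℤ) + absum l

def sump : List ℤ → ℤ
  | [] => 0
  | a :: l => a + sump l

def hdp : List ℤ → ℤ
  | [] => 0
  | a :: _ => a

def derp : List ℤ → List ℤ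
  | [] => []
  | _ :: l => addp l (0 :: derp l)

def dil : List ℤ → List ℤ
  | [] => []
  | a :: l => (2 ^ (l.length + 1) * a) :: dil l

/-- `(1 + s) t + ` shifted carry -/
def mul1 : ℤ → List ℤ → List ℤ
  | c, [] => [c]
  | c, a :: l => (c + a) :: mul1 a l

def shp : List ℤ → List ℤ
  | [] => []
  | a :: l => addp [a] (mul1 0 (shp l))

lemma evp_addp (l m : List ℤ) (s : ℝ) : evp (addp l m) s = evp l s + evp m s := by
  induction l generalizing m with
  | nil => simp [addp, evp]
  | cons a l ih =>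
    cases m with
    | nil => simp [addp, evp]
    | cons b m => simp only [addp, evp, ih]; push_cast; ring

lemma evp_smp (k : ℤ) (l : List ℤ) (s : ℝ) : evp (smp k l) s = k * evp l s := by
  induction l with
  | nil => simp [smp, evp]
  | cons a l ih => simp only [smp, evp, ih]; push_cast; ring

lemma evp_mulp (l m : List ℤ) (s : ℝ) : evp (mulp l m) s = evp l s * evp m s := by
  induction l with
  | nil => simp [mulp, evp]
  | cons a l ih => simp only [mulp, evp_addp, evp_smp, evp, ih]; push_cast; ring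

lemma evp_one (l : List ℤ) : evp l 1 = sump l := by
  induction l with
  | nil => simp [evp, sump]
  | cons a l ih => simp only [evp, sump, ih]; push_cast; ring

lemma evp_zero (l : List ℤ) : evp l 0 = hdp l := by
  cases l <;> simp [evp, hdp]

lemma natAbs_cast (a : ℤ) : ((a.natAbs : ℤ) : ℝ) = |(a : ℝ)| := by
  rw [Int.natCast_natAbs, Int.cast_abs]

lemma abs_evp_le (l : List ℤ) {s : ℝ} (h0 : 0 ≤ s) (h1 : s ≤ 1) : |evp l s| ≤ absum l := by
  induction l with
  | nil => simp [evp, absum]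
  | cons a l ih =>
    simp only [evp, absum]
    rw [Int.cast_add, natAbs_cast]
    have h2 : |s * evp l s| ≤ |evp l s| := by
      rw [abs_mul, abs_of_nonneg h0]
      exact mul_le_of_le_one_left (abs_nonneg _) h1
    calc |(a : ℝ) + s * evp l s| ≤ |(a : ℝ)| + |s * evp l s| := abs_add_le _ _
      _ ≤ |(a : ℝ)| + absum l := by linarith

lemma absum_nonneg (l : List ℤ) : (0 : ℝ) ≤ absum l :=
  (abs_nonneg _).trans (abs_evp_le l le_rfl zero_le_one)

lemma evp_has (l : List ℤ) (s : ℝ) : HasDerivAt (evp l) (evp (derp l) s) s := by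
  induction l with
  | nil => exact hasDerivAt_const s 0
  | cons a l ih =>
    have h : HasDerivAt (fun s => (a : ℝ) + s * evp l s) (1 * evp l s + s * evp (derp l) s) s :=
      ((hasDerivAt_id s).mul ih).const_add (a : ℝ)
    change HasDerivAt (fun s => (a : ℝ) + s * evp l s) _ s
    refine h.congr_deriv ?_
    simp only [derp, evp_addp, evp]
    push_cast; ring

lemma length_dil (l : List ℤ) : (dil l).length = l.length := by
  induction l with
  | nil => rfl
  | cons a l ih => simp [dil, ih]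

lemma evp_dil (l : List ℤ) (s : ℝ) : evp (dil l) s = 2 ^ l.length * evp l (s / 2) := by
  induction l with
  | nil => simp [dil, evp]
  | cons a l ih =>
    simp only [dil, evp, ih, List.length_cons]
    push_cast
    rw [pow_succ]; ring

lemma evp_mul1 (c : ℤ) (l : List ℤ) (s : ℝ) :
    evp (mul1 c l) s = c + (1 + s) * evp l s := by
  induction l generalizing c with
  | nil => simp [mul1, evp]
  | cons a l ih => simp only [mul1, evp, ih]; push_cast; ring

lemma evp_shp (l : List ℤ) (s : ℝ) : evp (shp l) s = evp l (s + 1) := by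
  induction l with
  | nil => simp [shp, evp]
  | cons a l ih =>
    simp only [shp, evp_addp, evp_mul1, ih, evp]
    push_cast; ring

/-! ### positivity on `[0, 1]` by bisection -/

def quick : List ℤ → ℤ → Bool
  | [], η => decide (η < 0)
  | [a], η => decide (η < a)
  | a :: b :: l, η => decide (η + absum l < a) && decide (η + absum l < a + b)

def posp : ℕ → List ℤ → ℤ → Bool
  | 0, p, η => quick p η
  | n + 1, p, η => quick p η ||
      (posp n (dil p) (2 ^ p.length * η) && posp n (shp (dil p)) (2 ^ p.length * η))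

lemma quick_sound {p : List ℤ} {η : ℤ} (h : quick p η = true) {s : ℝ} (h0 : 0 ≤ s) (h1 : s ≤ 1) :
    (η : ℝ) < evp p s := by
  match p, h with
  | [], h =>
    simp only [quick, decide_eq_true_eq] at h
    simp only [evp]; exact_mod_cast h
  | [a], h =>
    simp only [quick, decide_eq_true_eq] at h
    simp only [evp, mul_zero, add_zero]; exact_mod_cast h
  | a :: b :: l, h =>
    simp only [quick, Bool.and_eq_true, decide_eq_true_eq] at h
    obtain ⟨ha, hb⟩ := h
    have ha' : (η : ℝ) + absum l < a := by exact_mod_cast ha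
    have hb' : (η : ℝ) + absum l < a + b := by exact_mod_cast hb
    have h2 := abs_evp_le l h0 h1
    have h3 := absum_nonneg l
    have h4 := abs_le.1 h2
    simp only [evp]
    have h5 : -(absum l : ℝ) ≤ s ^ 2 * evp l s := by
      have h6 : s ^ 2 ≤ 1 := by nlinarith
      have h7 : 0 ≤ s ^ 2 := sq_nonneg s
      nlinarith
    have h8 : (η : ℝ) + absum l < a + s * b := by
      have e : (a : ℝ) + s * b = (1 - s) * a + s * (a + b) := by ring
      rw [e]
      rcases h0.lt_or_eq with h0' | h0'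
      · have := mul_lt_mul_of_pos_left hb' h0'
        have := mul_le_mul_of_nonneg_left ha'.le (sub_nonneg.2 h1)
        nlinarith
      · rw [← h0']; linarith
    nlinarith

lemma posp_sound {n : ℕ} {p : List ℤ} {η : ℤ} (h : posp n p η = true) {s : ℝ} (h0 : 0 ≤ s)
    (h1 : s ≤ 1) : (η : ℝ) < evp p s := by
  induction n generalizing p η s with
  | zero => exact quick_sound h h0 h1
  | succ n ih =>
    simp only [posp, Bool.or_eq_true, Bool.and_eq_true] at h
    rcases h with h | ⟨ha, hb⟩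
    · exact quick_sound h h0 h1
    · have hp : (0 : ℝ) < 2 ^ p.length := by positivity
      rcases le_total s (1 / 2) with hs | hs
      · have := ih ha (s := 2 * s) (by linarith) (by linarith)
        rw [evp_dil] at this
        push_cast at this
        have e : 2 * s / 2 = s := by ring
        rw [e] at this
        exact lt_of_mul_lt_mul_left this hp.le
      · have := ih hb (s := 2 * s - 1) (by linarith) (by linarith)
        rw [evp_shp, evp_dil] at this
        push_cast at this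
        have e : (2 * s - 1 + 1) / 2 = s := by ring
        rw [e] at this
        exact lt_of_mul_lt_mul_left this hp.le

/-! ### cells -/

/-- scale -/
def SS : ℤ := 1125899906842624

structure Cell where
  A : ℤ
  Dl : ℤ
  E : List ℤ
  eps : ℤ
  K : List ℤ
  kap : ℤ
  lam : ℤ

/-- the point of the cell -/
noncomputable def zc (c : Cell) (s : ℝ) : ℝ := (c.A + c.Dl * s) / 16

def GoodE (c : Cell) : Prop := ∀ s : ℝ, 0 ≤ s → s ≤ 1 → |SS * ee (zc c s) - evp c.E s| ≤ c.eps

def GoodK (c : Cell) : Prop := ∀ s : ℝ, 0 ≤ s → s ≤ 1 → |SS * kk (zc c s) - evp c.K s| ≤ c.kap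

/-- `Dl (16 W² + S (A + Dl s) W - 16 S²) - 256 S W'` -/
def FW (A Dl : ℤ) (W : List ℤ) : List ℤ :=
  addp (smp Dl (addp (addp (smp 16 (mulp W W)) (smp SS (mulp [A, Dl] W))) [-16 * SS ^ 2]))
    (smp (-256 * SS) (derp W))

lemma evp_FW (A Dl : ℤ) (W : List ℤ) (s : ℝ) : evp (FW A Dl W) s =
    Dl * (16 * evp W s ^ 2 + SS * (A + Dl * s) * evp W s - 16 * SS ^ 2) -
      256 * SS * evp (derp W) s := by
  simp only [FW, evp_addp, evp_smp, evp_mulp, evp]
  push_cast; ring

def chkE (fuel : ℕ) (c : Cell) (A v η : ℤ) : Bool :=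
  decide (c.A + c.Dl = A) && (decide (0 < c.Dl) && (decide ((v - sump c.E).natAbs + η ≤ c.eps) &&
    (posp fuel (FW c.A c.Dl (addp c.E [c.eps])) 0 &&
      posp fuel (smp (-1) (FW c.A c.Dl (addp c.E [-c.eps]))) 0)))

lemma bar {D D' : ℝ → ℝ} (hd : ∀ s, HasDerivAt D (D' s) s) (h1 : 0 ≤ D 1)
    (hz : ∀ s, 0 ≤ s → s ≤ 1 → D s = 0 → D' s < 0) : ∀ s, 0 ≤ s → s ≤ 1 → 0 ≤ D s := by
  intro s h0 hs1
  have hd' : ∀ x, HasDerivAt (fun x => -D (-x)) (D' (-x)) x := by
    intro x
    have h2 := ((hd (-x)).comp x (hasDerivAt_neg x)).neg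
    refine h2.congr_deriv ?_
    ring
  have := image_le_of_deriv_right_lt_deriv_boundary (f := fun x => -D (-x))
    (f' := fun x => D' (-x)) (a := -1) (b := -s) (B := fun _ => 0) (B' := fun _ => 0)
    (fun x _ => (hd' x).continuousAt.continuousWithinAt)
    (fun x _ => (hd' x).hasDerivWithinAt)
    (by simpa using h1) (fun x => hasDerivAt_const x _)
    (fun x hx hxe => by
      have h3 : D (-x) = 0 := by simpa using hxe
      exact hz (-x) (by linarith [hx.2]) (by linarith [hx.1]) h3)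
  have h4 := this (x := -s) ⟨by linarith, le_rfl⟩
  simpa using h4

lemma SS_pos : (0 : ℝ) < SS := by norm_num [SS]

lemma zc_has (c : Cell) (s : ℝ) : HasDerivAt (zc c) (c.Dl / 16) s := by
  have h := (((hasDerivAt_id s).const_mul (c.Dl : ℝ)).const_add (c.A : ℝ)).div_const 16
  unfold zc
  simpa using h

lemma goodE_of {fuel : ℕ} {c : Cell} {A v η : ℤ} (h : chkE fuel c A v η = true)
    (hb : |SS * ee ((A : ℝ) / 16) - v| ≤ η) : GoodE c := by
  simp only [chkE, Bool.and_eq_true, decide_eq_true_eq] at h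
  obtain ⟨hA, hD, hv, hU, hL⟩ := h
  have hS := SS_pos
  have hD' : (0 : ℝ) < c.Dl := by exact_mod_cast hD
  have e1 : zc c 1 = (A : ℝ) / 16 := by
    unfold zc; rw [← hA]; push_cast; ring
  have hv' : |(v : ℝ) - sump c.E| + η ≤ c.eps := by
    rw [← Int.cast_sub, ← natAbs_cast]; exact_mod_cast hv
  have hb' : |SS * ee (zc c 1) - evp c.E 1| ≤ c.eps := by
    rw [e1, evp_one]
    calc |(SS : ℝ) * ee ((A : ℝ) / 16) - sump c.E|
        = |(SS * ee ((A : ℝ) / 16) - v) + (v - sump c.E)| := by congr 1; ring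
      _ ≤ _ := abs_add_le _ _
      _ ≤ _ := by linarith
  have hb'' := abs_le.1 hb'
  have hde : ∀ s, HasDerivAt (fun s => SS * ee (zc c s))
      (SS * ((ee (zc c s) ^ 2 + zc c s * ee (zc c s) - 1) * (c.Dl / 16))) s := fun s =>
    ((ee_has2 (zc c s)).comp s (zc_has c s)).const_mul (SS : ℝ)
  -- upper
  have up : ∀ s, 0 ≤ s → s ≤ 1 → 0 ≤ evp c.E s + c.eps - SS * ee (zc c s) := by
    refine bar (D' := fun s => evp (derp c.E) s -
      SS * ((ee (zc c s) ^ 2 + zc c s * ee (zc c s) - 1) * (c.Dl / 16))) (fun s => ?_) ?_ ?_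
    · exact ((evp_has c.E s).add_const _).sub (hde s)
    · linarith [hb''.1, hb''.2]
    · intro s h0 h1 hz
      have h2 := posp_sound hU h0 h1
      rw [evp_FW, evp_addp] at h2
      have h3 : SS * ee (zc c s) = evp c.E s + c.eps := by linarith
      have h4 : evp (derp (addp c.E [c.eps])) s = evp (derp c.E) s := by
        have a1 := evp_has (addp c.E [c.eps]) s
        have a2 : HasDerivAt (evp (addp c.E [c.eps])) (evp (derp c.E) s) s := by
          have : evp (addp c.E [c.eps]) = fun s => evp c.E s + c.eps := by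
            funext x; rw [evp_addp]; simp [evp]
          rw [this]; exact (evp_has c.E s).add_const _
        exact a1.unique a2
      rw [h4] at h2
      have e2 : evp [c.eps] s = c.eps := by simp [evp]
      rw [e2, ← h3] at h2
      have e3 : (c.A : ℝ) + c.Dl * s = 16 * zc c s := by unfold zc; ring
      rw [e3] at h2
      push_cast at h2
      have h5 : 0 < SS * (256 * (SS * ((ee (zc c s) ^ 2 + zc c s * ee (zc c s) - 1) *
          (c.Dl / 16)) - evp (derp c.E) s)) := by nlinarith
      have h6 := (mul_pos_iff_of_pos_left hS).1 h5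
      show evp (derp c.E) s - _ < 0
      linarith
  have lo : ∀ s, 0 ≤ s → s ≤ 1 → 0 ≤ SS * ee (zc c s) - (evp c.E s - c.eps) := by
    refine bar (D' := fun s =>
      SS * ((ee (zc c s) ^ 2 + zc c s * ee (zc c s) - 1) * (c.Dl / 16)) - evp (derp c.E) s)
      (fun s => ?_) ?_ ?_
    · exact (hde s).sub ((evp_has c.E s).sub_const _)
    · linarith [hb''.1, hb''.2]
    · intro s h0 h1 hz
      have h2 := posp_sound hL h0 h1
      rw [evp_smp, evp_FW, evp_addp] at h2
      have h3 : SS * ee (zc c s) = evp c.E s - c.eps := by linarith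
      have h4 : evp (derp (addp c.E [-c.eps])) s = evp (derp c.E) s := by
        have a1 := evp_has (addp c.E [-c.eps]) s
        have a2 : HasDerivAt (evp (addp c.E [-c.eps])) (evp (derp c.E) s) s := by
          have : evp (addp c.E [-c.eps]) = fun s => evp c.E s + ((-c.eps : ℤ) : ℝ) := by
            funext x; rw [evp_addp]; simp [evp]
          rw [this]; exact (evp_has c.E s).add_const _
        exact a1.unique a2
      rw [h4] at h2
      have e2 : evp [-c.eps] s = -c.eps := by simp [evp]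
      rw [e2, ← sub_eq_add_neg, ← h3] at h2
      have e3 : (c.A : ℝ) + c.Dl * s = 16 * zc c s := by unfold zc; ring
      rw [e3] at h2
      push_cast at h2
      have h5 : 0 < SS * (256 * (evp (derp c.E) s - SS * ((ee (zc c s) ^ 2 +
          zc c s * ee (zc c s) - 1) * (c.Dl / 16)))) := by nlinarith
      have h6 := (mul_pos_iff_of_pos_left hS).1 h5
      show _ - evp (derp c.E) s < 0
      linarith
  intro s h0 h1
  rw [abs_le]
  constructor
  · linarith [lo s h0 h1]
  · linarith [up s h0 h1]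

/-- right to left chain for `e` -/
def chainE (fuel : ℕ) : List Cell → ℤ → ℤ → ℤ → Bool
  | [], _, _, _ => true
  | c :: L, A, v, η => chkE fuel c A v η && chainE fuel L c.A (hdp c.E) c.eps

lemma GoodE.left {c : Cell} (h : GoodE c) : |SS * ee ((c.A : ℝ) / 16) - hdp c.E| ≤ c.eps := by
  have := h 0 le_rfl zero_le_one
  rw [evp_zero] at this
  have e : zc c 0 = (c.A : ℝ) / 16 := by unfold zc; ring
  rwa [e] at this

lemma chainE_sound {fuel : ℕ} {L : List Cell} {A v η : ℤ} (h : chainE fuel L A v η = true)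
    (hb : |SS * ee ((A : ℝ) / 16) - v| ≤ η) : ∀ c ∈ L, GoodE c := by
  induction L generalizing A v η with
  | nil => intro c hc; simp at hc
  | cons c L ih =>
    simp only [chainE, Bool.and_eq_true] at h
    have hc := goodE_of h.1 hb
    intro d hd
    rcases List.mem_cons.1 hd with rfl | hd
    · exact hc
    · exact ih h.2 hc.left d hd

/-- covering: the cells of a right to left list -/
def chainA : List Cell → ℤ → Bool
  | [], _ => true
  | c :: L, A => decide (c.A + c.Dl = A) && chainA L c.A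

def lastA : List Cell → ℤ → ℤ
  | [], A => A
  | c :: L, _ => lastA L c.A

lemma cover {L : List Cell} {A : ℤ} (h : chainA L A = true) {z : ℝ} (h1 : (lastA L A : ℝ) ≤ 16 * z)
    (h2 : 16 * z < A) : ∃ c ∈ L, (c.A : ℝ) ≤ 16 * z ∧ 16 * z < c.A + c.Dl := by
  induction L generalizing A with
  | nil => simp only [lastA] at h1; linarith
  | cons c L ih =>
    simp only [chainA, Bool.and_eq_true, decide_eq_true_eq] at h
    rcases le_or_gt (c.A : ℝ) (16 * z) with hz | hz
    · refine ⟨c, List.mem_cons_self, hz, ?_⟩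
      have : ((c.A + c.Dl : ℤ) : ℝ) = A := by rw [h.1]
      push_cast at this
      linarith
    · obtain ⟨d, hd, h3⟩ := ih h.2 (by simpa [lastA] using h1) hz
      exact ⟨d, List.mem_cons_of_mem _ hd, h3⟩

/-! ### `k` -/

def chkK (c : Cell) : Bool :=
  decide (absum (addp (addp (smp (c.Dl * SS) [c.A, c.Dl]) (smp (16 * c.Dl) c.E))
    (smp (-256) (derp c.K))) + 16 * c.Dl * c.eps ≤ 256 * c.lam) && decide (0 < c.Dl)

lemma k_diff {c : Cell} (h : chkK c = true) (hE : GoodE c) {s t : ℝ} (h0 : 0 ≤ s) (hst : s ≤ t)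
    (h1 : t ≤ 1) :
    |(SS * kk (zc c t) - evp c.K t) - (SS * kk (zc c s) - evp c.K s)| ≤ c.lam := by
  simp only [chkK, Bool.and_eq_true, decide_eq_true_eq] at h
  obtain ⟨h, hD⟩ := h
  have hD' : (0 : ℝ) < c.Dl := by exact_mod_cast hD
  set q := addp (addp (smp (c.Dl * SS) [c.A, c.Dl]) (smp (16 * c.Dl) c.E))
    (smp (-256) (derp c.K)) with hq
  have h' : (absum q : ℝ) + 16 * c.Dl * c.eps ≤ 256 * c.lam := by exact_mod_cast h
  have hd : ∀ x, HasDerivAt (fun s => SS * kk (zc c s) - evp c.K s)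
      (SS * (mu (zc c x) * (c.Dl / 16)) - evp (derp c.K) x) x := fun x =>
    (((kk_hasDerivAt (zc c x)).comp x (zc_has c x)).const_mul (SS : ℝ)).sub (evp_has c.K x)
  have hb : ∀ x ∈ Icc s t, ‖SS * (mu (zc c x) * (c.Dl / 16)) - evp (derp c.K) x‖ ≤ c.lam := by
    intro x hx
    have x0 : 0 ≤ x := h0.trans hx.1
    have x1 : x ≤ 1 := hx.2.trans h1
    have hE' := hE x x0 x1
    have ha := abs_evp_le q x0 x1
    have e1 : evp q x = c.Dl * SS * (c.A + c.Dl * x) + 16 * c.Dl * evp c.E x -
        256 * evp (derp c.K) x := by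
      rw [hq]; simp only [evp_addp, evp_smp, evp]; push_cast; ring
    have e2 : 256 * (SS * (mu (zc c x) * (c.Dl / 16)) - evp (derp c.K) x) =
        evp q x + 16 * c.Dl * (SS * ee (zc c x) - evp c.E x) := by
      rw [e1, mu_eq]
      have e3 : (c.A : ℝ) + c.Dl * x = 16 * zc c x := by unfold zc; ring
      rw [e3]; ring
    rw [Real.norm_eq_abs]
    have h3 : 256 * |SS * (mu (zc c x) * (c.Dl / 16)) - evp (derp c.K) x| ≤ 256 * c.lam := by
      rw [← abs_of_pos (show (0:ℝ) < 256 by norm_num), ← abs_mul, e2,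
        abs_of_pos (show (0:ℝ) < 256 by norm_num)]
      calc _ ≤ |evp q x| + |16 * c.Dl * (SS * ee (zc c x) - evp c.E x)| := abs_add_le _ _
        _ ≤ absum q + 16 * c.Dl * c.eps := by
          rw [abs_mul, abs_of_pos (show (0:ℝ) < 16 * c.Dl by positivity)]
          have := mul_le_mul_of_nonneg_left hE' (show (0:ℝ) ≤ 16 * c.Dl by positivity)
          linarith
        _ ≤ _ := h'
    linarith
  have h4 := Convex.norm_image_sub_le_of_norm_hasDerivWithin_le
    (f := fun s => SS * kk (zc c s) - evp c.K s) (s := Icc s t)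
    (fun x hx => (hd x).hasDerivWithinAt) hb (convex_Icc s t) (left_mem_Icc.2 hst)
    (right_mem_Icc.2 hst)
  rw [Real.norm_eq_abs, Real.norm_eq_abs] at h4
  refine h4.trans ?_
  have hl : 0 ≤ (c.lam : ℝ) := (norm_nonneg _).trans (hb s (left_mem_Icc.2 hst))
  have : |t - s| ≤ 1 := by rw [abs_of_nonneg (by linarith)]; linarith
  nlinarith

/-- left to right chain for `k` -/
def chainKr : List Cell → ℤ → ℤ → ℤ → Bool
  | [], _, _, _ => true
  | c :: L, A, v, η => (decide (c.A = A) && (decide ((v - hdp c.K).natAbs + η + c.lam ≤ c.kap) &&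
      chkK c)) && chainKr L (c.A + c.Dl) (sump c.K) c.kap

/-- right to left chain for `k` -/
def chainKl : List Cell → ℤ → ℤ → ℤ → Bool
  | [], _, _, _ => true
  | c :: L, A, v, η => (decide (c.A + c.Dl = A) &&
      (decide ((v - sump c.K).natAbs + η + c.lam ≤ c.kap) && chkK c)) &&
      chainKl L c.A (hdp c.K) c.kap

lemma goodK_r {c : Cell} {v η : ℤ} (hE : GoodE c) (hk : chkK c = true)
    (hv : ((v - hdp c.K).natAbs : ℤ) + η + c.lam ≤ c.kap)
    (hb : |SS * kk ((c.A : ℝ) / 16) - v| ≤ η) : GoodK c := by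
  intro s h0 h1
  have h2 := k_diff hk hE le_rfl h0 h1
  rw [evp_zero] at h2
  have e : zc c 0 = (c.A : ℝ) / 16 := by unfold zc; ring
  rw [e] at h2
  have hv' : |(v : ℝ) - hdp c.K| + η + c.lam ≤ c.kap := by
    rw [← Int.cast_sub, ← natAbs_cast]; exact_mod_cast hv
  calc |SS * kk (zc c s) - evp c.K s|
      = |((SS * kk (zc c s) - evp c.K s) - (SS * kk ((c.A : ℝ) / 16) - hdp c.K)) +
          ((SS * kk ((c.A : ℝ) / 16) - v) + (v - hdp c.K))| := by congr 1; ring
    _ ≤ |((SS * kk (zc c s) - evp c.K s) - (SS * kk ((c.A : ℝ) / 16) - hdp c.K))| +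
          (|(SS * kk ((c.A : ℝ) / 16) - v)| + |(v : ℝ) - hdp c.K|) :=
        (abs_add_le _ _).trans (by gcongr; exact abs_add_le _ _)
    _ ≤ _ := by linarith

lemma goodK_l {c : Cell} {A v η : ℤ} (hA : c.A + c.Dl = A) (hE : GoodE c) (hk : chkK c = true)
    (hv : ((v - sump c.K).natAbs : ℤ) + η + c.lam ≤ c.kap)
    (hb : |SS * kk ((A : ℝ) / 16) - v| ≤ η) : GoodK c := by
  intro s h0 h1
  have h2 := k_diff hk hE h0 h1 le_rfl
  rw [evp_one] at h2
  have e : zc c 1 = (A : ℝ) / 16 := by unfold zc; rw [← hA]; push_cast; ring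
  rw [e, abs_sub_comm] at h2
  have hv' : |(v : ℝ) - sump c.K| + η + c.lam ≤ c.kap := by
    rw [← Int.cast_sub, ← natAbs_cast]; exact_mod_cast hv
  calc |SS * kk (zc c s) - evp c.K s|
      = |((SS * kk (zc c s) - evp c.K s) - (SS * kk ((A : ℝ) / 16) - sump c.K)) +
          ((SS * kk ((A : ℝ) / 16) - v) + (v - sump c.K))| := by congr 1; ring
    _ ≤ |((SS * kk (zc c s) - evp c.K s) - (SS * kk ((A : ℝ) / 16) - sump c.K))| +
          (|(SS * kk ((A : ℝ) / 16) - v)| + |(v : ℝ) - sump c.K|) :=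
        (abs_add_le _ _).trans (by gcongr; exact abs_add_le _ _)
    _ ≤ _ := by linarith

lemma GoodK.left {c : Cell} (h : GoodK c) : |SS * kk ((c.A : ℝ) / 16) - hdp c.K| ≤ c.kap := by
  have := h 0 le_rfl zero_le_one
  rw [evp_zero] at this
  have e : zc c 0 = (c.A : ℝ) / 16 := by unfold zc; ring
  rwa [e] at this

lemma GoodK.right {c : Cell} (h : GoodK c) :
    |SS * kk (((c.A + c.Dl : ℤ) : ℝ) / 16) - sump c.K| ≤ c.kap := by
  have := h 1 zero_le_one le_rfl
  rw [evp_one] at this
  have e : zc c 1 = ((c.A + c.Dl : ℤ) : ℝ) / 16 := by unfold zc; push_cast; ring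
  rwa [e] at this

lemma chainKr_sound {L : List Cell} {A v η : ℤ} (hE : ∀ c ∈ L, GoodE c)
    (h : chainKr L A v η = true) (hb : |SS * kk ((A : ℝ) / 16) - v| ≤ η) : ∀ c ∈ L, GoodK c := by
  induction L generalizing A v η with
  | nil => intro c hc; simp at hc
  | cons c L ih =>
    simp only [chainKr, Bool.and_eq_true, decide_eq_true_eq] at h
    obtain ⟨⟨hA, hv, hk⟩, hr⟩ := h
    have hc := goodK_r (hE c List.mem_cons_self) hk hv (by rw [hA]; exact hb)
    intro d hd
    rcases List.mem_cons.1 hd with rfl | hd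
    · exact hc
    · exact ih (fun x hx => hE x (List.mem_cons_of_mem _ hx)) hr hc.right d hd

lemma chainKl_sound {L : List Cell} {A v η : ℤ} (hE : ∀ c ∈ L, GoodE c)
    (h : chainKl L A v η = true) (hb : |SS * kk ((A : ℝ) / 16) - v| ≤ η) : ∀ c ∈ L, GoodK c := by
  induction L generalizing A v η with
  | nil => intro c hc; simp at hc
  | cons c L ih =>
    simp only [chainKl, Bool.and_eq_true, decide_eq_true_eq] at h
    obtain ⟨⟨hA, hv, hk⟩, hr⟩ := h
    have hc := goodK_l hA (hE c List.mem_cons_self) hk hv hb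
    intro d hd
    rcases List.mem_cons.1 hd with rfl | hd
    · exact hc
    · exact ih (fun x hx => hE x (List.mem_cons_of_mem _ hx)) hr hc.left d hd

/-! ### Taylor models -/

structure TM where
  p : List ℤ
  η : ℤ

def Rep (x s : ℝ) (t : TM) : Prop := |x - evp t.p s| ≤ t.η

def mulT (t u : TM) : TM := ⟨mulp t.p u.p, absum t.p * u.η + (absum u.p + u.η) * t.η⟩
def addT (t u : TM) : TM := ⟨addp t.p u.p, t.η + u.η⟩
def smT (k : ℤ) (t : TM) : TM := ⟨smp k t.p, k.natAbs * t.η⟩
def powT (t : TM) : ℕ → TM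
  | 0 => ⟨[1], 0⟩
  | n + 1 => mulT t (powT t n)

lemma Rep.mul {x y s : ℝ} {t u : TM} (hx : Rep x s t) (hy : Rep y s u) (h0 : 0 ≤ s) (h1 : s ≤ 1) :
    Rep (x * y) s (mulT t u) := by
  unfold Rep mulT at *
  simp only [evp_mulp]
  push_cast
  have h2 := abs_evp_le t.p h0 h1
  have h3 := abs_evp_le u.p h0 h1
  have h4 : (0 : ℝ) ≤ t.η := (abs_nonneg _).trans hx
  have h5 : (0 : ℝ) ≤ u.η := (abs_nonneg _).trans hy
  have e : x * y - evp t.p s * evp u.p s =
      evp t.p s * (y - evp u.p s) + (evp u.p s + (y - evp u.p s)) * (x - evp t.p s) := by ring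
  rw [e]
  calc _ ≤ |evp t.p s * (y - evp u.p s)| +
        |(evp u.p s + (y - evp u.p s)) * (x - evp t.p s)| := abs_add_le _ _
    _ ≤ absum t.p * u.η + (absum u.p + u.η) * t.η := by
      rw [abs_mul, abs_mul]
      refine add_le_add (mul_le_mul h2 hy (abs_nonneg _) (absum_nonneg _)) ?_
      refine mul_le_mul ((abs_add_le _ _).trans (add_le_add h3 hy)) hx (abs_nonneg _) ?_
      have := absum_nonneg u.p
      linarith

lemma Rep.add {x y s : ℝ} {t u : TM} (hx : Rep x s t) (hy : Rep y s u) :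
    Rep (x + y) s (addT t u) := by
  unfold Rep addT at *
  simp only [evp_addp]
  push_cast
  have e : x + y - (evp t.p s + evp u.p s) = (x - evp t.p s) + (y - evp u.p s) := by ring
  rw [e]
  exact (abs_add_le _ _).trans (add_le_add hx hy)

lemma Rep.sm {x s : ℝ} {t : TM} (k : ℤ) (hx : Rep x s t) : Rep (k * x) s (smT k t) := by
  unfold Rep smT at *
  simp only [evp_smp]
  push_cast
  rw [← mul_sub, abs_mul]
  exact mul_le_mul_of_nonneg_left hx (abs_nonneg _)

lemma Rep.pow {x s : ℝ} {t : TM} (hx : Rep x s t) (h0 : 0 ≤ s) (h1 : s ≤ 1) (n : ℕ) :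
    Rep (x ^ n) s (powT t n) := by
  induction n with
  | zero => simp [Rep, powT, evp]
  | succ n ih => rw [pow_succ']; exact hx.mul ih h0 h1

/-- polynomials in `z, e, k`: list of `(coefficient, i, j, l)` -/
def evG : List (ℤ × ℕ × ℕ × ℕ) → ℝ → ℝ → ℝ → ℝ
  | [], _, _, _ => 0
  | (c, i, j, l) :: r, z, e, k => c * (z ^ i * (e ^ j * k ^ l)) + evG r z e k

def degOK (n : ℕ) : List (ℤ × ℕ × ℕ × ℕ) → Bool
  | [] => true
  | (_, i, j, l) :: r => decide (i + j + l ≤ n) && degOK n r

def tmG (n : ℕ) (Z E K : TM) : List (ℤ × ℕ × ℕ × ℕ) → TM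
  | [] => ⟨[], 0⟩
  | (c, i, j, l) :: r => addT (smT (c * SS ^ (n - (i + j + l)))
      (mulT (powT Z i) (mulT (powT E j) (powT K l)))) (tmG n Z E K r)

lemma tmG_rep {n : ℕ} {Z E K : TM} {z e k s : ℝ} (h0 : 0 ≤ s) (h1 : s ≤ 1)
    (hZ : Rep (SS * z) s Z) (hE : Rep (SS * e) s E) (hK : Rep (SS * k) s K)
    (G : List (ℤ × ℕ × ℕ × ℕ)) (hd : degOK n G = true) :
    Rep (SS ^ n * evG G z e k) s (tmG n Z E K G) := by
  induction G with
  | nil => simp [Rep, tmG, evG, evp]
  | cons g r ih =>
    obtain ⟨c, i, j, l⟩ := g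
    simp only [degOK, Bool.and_eq_true, decide_eq_true_eq] at hd
    have h2 := ((hZ.pow h0 h1 i).mul ((hE.pow h0 h1 j).mul (hK.pow h0 h1 l) h0 h1) h0 h1).sm
      (c * SS ^ (n - (i + j + l)))
    have h3 := h2.add (ih hd.2)
    have e1 : (SS : ℝ) ^ n = SS ^ (n - (i + j + l)) * (SS ^ i * (SS ^ j * SS ^ l)) := by
      rw [← pow_add, ← pow_add, ← pow_add]
      congr 1; omega
    have e2 : SS ^ n * evG ((c, i, j, l) :: r) z e k =
        ((c * SS ^ (n - (i + j + l)) : ℤ) : ℝ) * ((SS * z) ^ i * ((SS * e) ^ j * (SS * k) ^ l)) +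
          SS ^ n * evG r z e k := by
      simp only [evG]
      rw [mul_add, e1]
      push_cast
      rw [mul_pow, mul_pow, mul_pow]
      ring
    rw [e2]
    exact h3

def chkG (fuel n : ℕ) (G : List (ℤ × ℕ × ℕ × ℕ)) (c : Cell) : Bool :=
  let t := tmG n ⟨[SS / 16 * c.A, SS / 16 * c.Dl], 0⟩ ⟨c.E, c.eps⟩ ⟨c.K, c.kap⟩ G
  posp fuel t.p t.η

lemma chkG_sound {fuel n : ℕ} {G : List (ℤ × ℕ × ℕ × ℕ)} {c : Cell} (h : chkG fuel n G c = true)
    (hd : degOK n G = true) (hE : GoodE c) (hK : GoodK c) {s : ℝ} (h0 : 0 ≤ s) (h1 : s ≤ 1) :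
    0 < evG G (zc c s) (ee (zc c s)) (kk (zc c s)) := by
  have hZ : Rep (SS * zc c s) s ⟨[SS / 16 * c.A, SS / 16 * c.Dl], 0⟩ := by
    unfold Rep
    have e1 : ((SS / 16 : ℤ) : ℝ) = SS / 16 := by
      have : (SS : ℤ) = 16 * (SS / 16) := by decide +kernel
      have h2 : ((16 * (SS / 16) : ℤ) : ℝ) = SS := by rw [← this]
      push_cast at h2
      linarith
    simp only [evp]
    push_cast
    rw [e1]
    have : (SS : ℝ) * zc c s - (SS / 16 * c.A + s * (SS / 16 * c.Dl + s * 0)) = 0 := by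
      unfold zc; ring
    rw [this]; simp
  have hE' : Rep (SS * ee (zc c s)) s ⟨c.E, c.eps⟩ := hE s h0 h1
  have hK' : Rep (SS * kk (zc c s)) s ⟨c.K, c.kap⟩ := hK s h0 h1
  have h2 := tmG_rep (n := n) h0 h1 hZ hE' hK' G hd
  have h3 := posp_sound (show posp fuel _ _ = true from h) h0 h1
  unfold Rep at h2
  have h4 := (abs_le.1 h2).1
  have h5 : 0 < (SS : ℝ) ^ n * evG G (zc c s) (ee (zc c s)) (kk (zc c s)) := by linarith
  exact (mul_pos_iff_of_pos_left (pow_pos SS_pos n)).1 h5

end Crest.Agent.R253.Ham741
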