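import Crest.Agent.R253.Mills_930

set_option autoImplicit false

open MeasureTheory Set Filter Topology

namespace Crest.Agent.R253.Hazard930

open Crest.Agent.R253.Mills930

/-- fencing lemma: if `g = 0` forces a negative derivative, then `g a ≤ 0` propagates strictly. -/
lemma barrier {g g' : ℝ → ℝ} {c : ℝ} (hg : ∀ z, c ≤ z → HasDerivAt g (g' z) z)
    (h0 : ∀ z, c ≤ z → g z = 0 → g' z < 0) {a b : ℝ} (hca : c ≤ a) (hab : a < b) (ha : g a ≤ 0) :
    g b < 0 := by
  have key : ∀ x ∈ Icc a b, g x ≤ 0 := by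
    have h := image_le_of_deriv_right_lt_deriv_boundary (f := g) (f' := g') (a := a) (b := b)
      (B := fun _ => (0:ℝ)) (B' := fun _ => (0:ℝ))
      (fun x hx => (hg x (hca.trans hx.1)).continuousAt.continuousWithinAt)
      (fun x hx => (hg x (hca.trans hx.1)).hasDerivWithinAt) ha
      (fun x => hasDerivAt_const x (0:ℝ))
      (fun x hx hx0 => h0 x (hca.trans hx.1) hx0)
    intro x hx
    exact h hx
  have hb : g b ≤ 0 := key b (right_mem_Icc.mpr hab.le)
  rcases hb.lt_or_eq with h | h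
  · exact h
  · exfalso
    have hneg := h0 b (hca.trans hab.le) h
    have hd := hg b (hca.trans hab.le)
    -- slope from the left
    have h1 : Tendsto (slope g b) (𝓝[<] b) (𝓝 (g' b)) :=
      (hasDerivAt_iff_tendsto_slope.mp hd).mono_left
        (nhdsWithin_mono b (fun x hx => ne_of_lt hx))
    have h2 : ∀ᶠ x in 𝓝[<] b, slope g b x < 0 := h1.eventually_lt_const hneg
    have h3 : ∀ᶠ x in 𝓝[<] b, x ∈ Ioo a b := Ioo_mem_nhdsLT hab
    obtain ⟨x, hx, hx'⟩ := (h2.and h3).exists
    have hxg := key x ⟨hx'.1.le, hx'.2.le⟩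
    rw [slope_def_field, h, sub_zero] at hx
    have : 0 ≤ g x / (x - b) := div_nonneg_of_nonpos hxg (by linarith [hx'.2])
    linarith

noncomputable def s (z : ℝ) : ℝ := 1 - r z * m z
noncomputable def K (z : ℝ) : ℝ := (r z + m z) * m z - 1

lemma rm_eq (z : ℝ) : r z * m z = 1 - s z := by unfold s; ring
lemma msq_eq (z : ℝ) : m z ^ 2 = K z + s z := by unfold K s; ring

lemma s_deriv (z : ℝ) : HasDerivAt s (-(r z * K z)) z :=
  (((r_deriv z).mul (m_deriv z)).const_sub 1).congr_deriv (by unfold K; ring)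

lemma K_deriv (z : ℝ) : HasDerivAt K (r z * K z - 2 * m z * s z) z :=
  ((((r_deriv z).add (m_deriv z)).mul (m_deriv z)).sub_const 1).congr_deriv (by
    simp only [Pi.add_apply, K, s]; ring)

lemma M_le_inv (z : ℝ) (hz : 0 < z) : M z ≤ 1 / z := by
  apply T_le_of (φ := fun z => 1 / z) (φ' := fun z => -1 / z^2) (a := z) _ _ _ z le_rfl
  · intro x hx
    have h0 : x ≠ 0 := by linarith
    have := hasDerivAt_inv h0
    simp only [one_div]
    exact this.congr_deriv (by field_simp)
  · apply φ_bdd_lim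
    exact tendsto_const_nhds.div_atTop tendsto_id
  · intro x hx
    have h0 : 0 < x := by linarith
    have : x * (1 / x) - -1 / x^2 - 1 = 1 / x^2 := by field_simp; ring
    rw [this]; positivity

lemma m_nonneg (z : ℝ) : 0 ≤ m z := by
  unfold m r
  rcases le_or_gt z 0 with h | h
  · have := inv_pos.mpr (M_pos z); linarith
  · have h1 := M_le_inv z h
    rw [sub_nonneg, le_inv_comm₀ h (M_pos z)]
    simpa [one_div] using h1

lemma m_pos (z : ℝ) : 0 < m z := by
  rcases (m_nonneg z).lt_or_eq with h | h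
  · exact h
  · exfalso
    have := barrier (g := m) (g' := fun z => r z * m z - 1) (c := z) (fun z _ => m_deriv z)
      (fun z _ hz => by rw [hz]; norm_num) (le_refl z) (b := z + 1) (by linarith) h.symm.le
    linarith [m_nonneg (z+1)]

/-! ### asymptotics at `+∞` -/

noncomputable def x (z : ℝ) : ℝ := z⁻¹
noncomputable def t (z : ℝ) : ℝ := z^7 * (M z - φ4 z)

lemma x_lim : Tendsto x atTop (𝓝 0) := tendsto_inv_atTop_zero

lemma t_bounds (z : ℝ) (hz : 1 ≤ z) : 0 ≤ t z ∧ t z ≤ 105 * (x z)^2 := by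
  have h1 := M_ge z hz
  have h2 := M_le z hz
  have h0 : 0 < z := by linarith
  constructor
  · unfold t; exact mul_nonneg (by positivity) (by linarith)
  · unfold t x
    have h3 : M z - φ4 z ≤ 105 / z^9 := by
      have : φ5 z = φ4 z + 105 / z^9 := by unfold φ5 φ4; ring
      linarith
    calc z^7 * (M z - φ4 z) ≤ z^7 * (105 / z^9) := by
          apply mul_le_mul_of_nonneg_left h3 (by positivity)
      _ = 105 * (z⁻¹)^2 := by field_simp

lemma t_lim : Tendsto t atTop (𝓝 0) := by
  have h : Tendsto (fun z => 105 * (x z)^2) atTop (𝓝 0) := by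
    simpa using (x_lim.pow 2).const_mul 105
  apply squeeze_zero' _ _ h
  · filter_upwards [eventually_ge_atTop (1:ℝ)] with z hz using (t_bounds z hz).1
  · filter_upwards [eventually_ge_atTop (1:ℝ)] with z hz using (t_bounds z hz).2

/-- auxiliary polynomials in `(x,t)` -/
noncomputable def mu (x t : ℝ) : ℝ := 1 - x^2 + 3*x^4 - (15 - t)*x^6
noncomputable def mu1 (x t : ℝ) : ℝ := 1 - 3*x^2 + (15 - t)*x^4
noncomputable def sg (x t : ℝ) : ℝ :=
  1 + (7-(15-t))*x^2 - (6+2*(15-t))*x^4 + (9+2*(15-t))*x^6 - 6*(15-t)*x^8 + (15-t)^2*x^10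
noncomputable def kp (x t : ℝ) : ℝ :=
  ((15-t)-13) + (15+4*(15-t))*x^2 - (8*(15-t)+9)*x^4 + ((15-t)^2+6*(15-t))*x^6 - (15-t)^2*x^8

lemma M_eq (z : ℝ) (hz : 1 ≤ z) : M z = x z * mu (x z) (t z) := by
  have h0 : z ≠ 0 := by positivity
  have : M z = φ4 z + t z / z^7 := by unfold t; field_simp; ring
  rw [this]
  unfold x mu φ4
  field_simp
  ring

lemma mu_ne (z : ℝ) (hz : 1 ≤ z) : mu (x z) (t z) ≠ 0 := by
  intro h
  have := M_eq z hz
  rw [h, mul_zero] at this
  exact (M_pos z).ne' this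

lemma x_ne (z : ℝ) (hz : 1 ≤ z) : x z ≠ 0 := by
  unfold x; positivity

lemma m_eq (z : ℝ) (hz : 1 ≤ z) : m z = x z * mu1 (x z) (t z) / mu (x z) (t z) := by
  have h1 := mu_ne z hz
  have h2 := x_ne z hz
  have h3 : z = (x z)⁻¹ := by simp [x]
  have : m z = (x z * mu (x z) (t z))⁻¹ - (x z)⁻¹ := by
    rw [← M_eq z hz, ← h3]; rfl
  rw [this]
  field_simp
  unfold mu mu1
  ring

lemma r_eq (z : ℝ) (hz : 1 ≤ z) : r z = (x z * mu (x z) (t z))⁻¹ := by
  rw [← M_eq z hz]; rfl

lemma s_eq (z : ℝ) (hz : 1 ≤ z) : s z = (x z)^2 * sg (x z) (t z) / (mu (x z) (t z))^2 := by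
  have h1 := mu_ne z hz
  have h2 := x_ne z hz
  unfold s
  rw [m_eq z hz, r_eq z hz]
  field_simp
  unfold mu mu1 sg
  ring

lemma K_eq (z : ℝ) (hz : 1 ≤ z) : K z = (x z)^4 * kp (x z) (t z) / (mu (x z) (t z))^2 := by
  have h1 := mu_ne z hz
  have h2 := x_ne z hz
  unfold K
  rw [m_eq z hz, r_eq z hz]
  field_simp
  unfold mu mu1 kp
  ring

lemma xt_lim : Tendsto (fun z => (x z, t z)) atTop (𝓝 ((0:ℝ), (0:ℝ))) :=
  x_lim.prodMk_nhds t_lim

lemma comp_lim {F : ℝ → ℝ → ℝ} (hF : Continuous (fun p : ℝ × ℝ => F p.1 p.2)) :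
    Tendsto (fun z => F (x z) (t z)) atTop (𝓝 (F 0 0)) := by
  have := (hF.tendsto ((0:ℝ),(0:ℝ))).comp xt_lim
  exact this

lemma mu_lim : Tendsto (fun z => mu (x z) (t z)) atTop (𝓝 1) := by
  have := comp_lim (F := mu) (by unfold mu; fun_prop)
  simpa [mu] using this
lemma mu1_lim : Tendsto (fun z => mu1 (x z) (t z)) atTop (𝓝 1) := by
  have := comp_lim (F := mu1) (by unfold mu1; fun_prop)
  simpa [mu1] using this
lemma sg_lim : Tendsto (fun z => sg (x z) (t z)) atTop (𝓝 1) := by
  have := comp_lim (F := sg) (by unfold sg; fun_prop)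
  simpa [sg] using this
lemma kp_lim : Tendsto (fun z => kp (x z) (t z)) atTop (𝓝 2) := by
  have := comp_lim (F := kp) (by unfold kp; fun_prop)
  norm_num [kp] at this
  exact this

lemma m_lim : Tendsto m atTop (𝓝 0) := by
  have h : Tendsto (fun z => x z * mu1 (x z) (t z) / mu (x z) (t z)) atTop (𝓝 (0 * 1 / 1)) :=
    (x_lim.mul mu1_lim).div mu_lim one_ne_zero
  simp only [zero_mul, zero_div] at h
  refine h.congr' ?_
  filter_upwards [eventually_ge_atTop (1:ℝ)] with z hz using (m_eq z hz).symm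

lemma s_lim : Tendsto s atTop (𝓝 0) := by
  have h : Tendsto (fun z => (x z)^2 * sg (x z) (t z) / (mu (x z) (t z))^2) atTop
      (𝓝 (0^2 * 1 / 1^2)) :=
    ((x_lim.pow 2).mul sg_lim).div (mu_lim.pow 2) (by norm_num)
  simp only [ne_eq, OfNat.ofNat_ne_zero, not_false_eq_true, zero_pow, zero_mul, zero_div] at h
  refine h.congr' ?_
  filter_upwards [eventually_ge_atTop (1:ℝ)] with z hz using (s_eq z hz).symm

lemma sg_ne : ∀ᶠ z in atTop, sg (x z) (t z) ≠ 0 :=
  sg_lim.eventually_ne one_ne_zero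

lemma Ks_lim : Tendsto (fun z => K z / (s z)^2) atTop (𝓝 2) := by
  have h : Tendsto (fun z => kp (x z) (t z) * (mu (x z) (t z))^2 / (sg (x z) (t z))^2) atTop
      (𝓝 (2 * 1^2 / 1^2)) :=
    (kp_lim.mul (mu_lim.pow 2)).div (sg_lim.pow 2) (by norm_num)
  simp only [one_pow, mul_one, div_one] at h
  refine h.congr' ?_
  filter_upwards [eventually_ge_atTop (1:ℝ), sg_ne] with z hz h3
  have h1 := mu_ne z hz
  have h2 := x_ne z hz
  rw [s_eq z hz, K_eq z hz]
  field_simp

/-! ### positivity -/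

/-- a monotone function on `[a,∞)` with limit `0` is `≤ 0`. -/
lemma le_zero_of_mono {g g' : ℝ → ℝ} {a : ℝ} (hg : ∀ z, a ≤ z → HasDerivAt g (g' z) z)
    (h : ∀ z, a < z → 0 ≤ g' z) {l : ℝ} (hl : Tendsto g atTop (𝓝 l)) {z : ℝ} (hz : a ≤ z) :
    g z ≤ l := by
  have hmono : MonotoneOn g (Ici a) := by
    apply monotoneOn_of_deriv_nonneg (convex_Ici a)
    · intro x hx; exact (hg x hx).continuousAt.continuousWithinAt
    · intro x hx; rw [interior_Ici] at hx
      exact (hg x (le_of_lt hx)).differentiableAt.differentiableWithinAt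
    · intro x hx; rw [interior_Ici] at hx
      rw [(hg x (le_of_lt hx)).deriv]
      exact h x hx
  apply ge_of_tendsto hl
  filter_upwards [eventually_ge_atTop z] with x hx
  exact hmono hz (le_trans hz hx) hx

lemma s_pos (z : ℝ) : 0 < s z := by
  by_contra hcon
  push Not at hcon
  have hb : ∀ b, z < b → s b < 0 := by
    intro b hb
    apply barrier (g := s) (g' := fun z => -(r z * K z)) (c := z) (fun z _ => s_deriv z) _
      (le_refl z) hb hcon
    intro y _ hy
    have h1 := msq_eq y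
    have h2 := r_pos y
    have h3 := m_pos y
    have h4 : 0 < K y := by rw [hy] at h1; nlinarith [pow_pos h3 2]
    nlinarith [mul_pos h2 h4]
  have h2 := le_zero_of_mono (g := m) (g' := fun z => r z * m z - 1) (a := z)
    (fun z _ => m_deriv z) (fun y hy => by
      have := hb y hy; unfold s at this; linarith) m_lim (le_refl z)
  linarith [m_pos z]

lemma K_pos (z : ℝ) : 0 < K z := by
  by_contra hcon
  push Not at hcon
  have hb : ∀ b, z < b → K b < 0 := by
    intro b hb
    apply barrier (g := K) (g' := fun z => r z * K z - 2 * m z * s z) (c := z)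
      (fun z _ => K_deriv z) _ (le_refl z) hb hcon
    intro y _ hy
    have h3 := mul_pos (m_pos y) (s_pos y)
    rw [hy]; linarith
  have h2 := le_zero_of_mono (g := s) (g' := fun z => -(r z * K z)) (a := z)
    (fun z _ => s_deriv z) (fun y hy => by
      have h1 := hb y hy
      have h2 := r_pos y
      nlinarith) s_lim (le_refl z)
  linarith [s_pos z]

lemma s_lt_one (z : ℝ) : s z < 1 := by
  have := mul_pos (r_pos z) (m_pos z)
  unfold s; linarith

noncomputable def N (z : ℝ) : ℝ := 2 * s z ^ 2 - (1 - s z) * K z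

lemma N_deriv (z : ℝ) : HasDerivAt N (r z * (N z - 2 * s z * K z - K z ^ 2)) z := by
  have h := (((s_deriv z).pow 2).const_mul 2).sub (((s_deriv z).const_sub 1).mul (K_deriv z))
  refine h.congr_deriv ?_
  have h1 := msq_eq z
  have h2 := rm_eq z
  simp only [N, Nat.cast_ofNat, Nat.add_one_sub_one, pow_one]
  have h3 : m z * (1 - s z) = r z * (K z + s z) := by rw [← h2, ← h1]; ring
  linear_combination (2 * s z) * h3

noncomputable def k (z : ℝ) : ℝ := K z / s z

lemma k_deriv (z : ℝ) : HasDerivAt k (-(m z * N z / s z ^ 2)) z := by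
  have h := (K_deriv z).div (s_deriv z) (s_pos z).ne'
  refine h.congr_deriv ?_
  have h1 := msq_eq z
  have h2 := rm_eq z
  have h0 := (s_pos z).ne'
  have h3 : m z * (1 - s z) = r z * (K z + s z) := by rw [← h2, ← h1]; ring
  unfold N
  field_simp
  linear_combination (-K z) * h3

lemma k_lim : Tendsto k atTop (𝓝 0) := by
  have h := Ks_lim.mul s_lim
  rw [mul_zero] at h
  refine h.congr ?_
  intro z
  have := (s_pos z).ne'
  unfold k
  field_simp

lemma k_pos (z : ℝ) : 0 < k z := div_pos (K_pos z) (s_pos z)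

lemma N_pos (z : ℝ) : 0 < N z := by
  by_contra hcon
  push Not at hcon
  have hb : ∀ b, z < b → N b < 0 := by
    intro b hb
    apply barrier (g := N) (g' := fun z => r z * (N z - 2 * s z * K z - K z ^ 2)) (c := z)
      (fun z _ => N_deriv z) _ (le_refl z) hb hcon
    intro y _ hy
    have h1 := r_pos y
    have h2 := K_pos y
    have h3 := s_pos y
    rw [hy]
    have : 0 < 2 * s y * K y + K y ^ 2 := by positivity
    nlinarith
  have h2 := le_zero_of_mono (g := k) (g' := fun z => -(m z * N z / s z ^ 2)) (a := z)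
    (fun z _ => k_deriv z) (fun y hy => by
      have h1 := hb y hy
      have h2 := m_pos y
      have h3 := s_pos y
      have : m y * N y / s y ^ 2 ≤ 0 := by
        apply div_nonpos_of_nonpos_of_nonneg _ (by positivity)
        nlinarith
      linarith) k_lim (le_refl z)
  linarith [k_pos z]

end Crest.Agent.R253.Hazard930
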