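import Crest.Agent.R253.HamT_741

/-!
# Row 253: the hammer for expression trees in `z`, `ee z`, `kk z` (helper741)

Every inequality `0 < G (z, ee z, kk z)` on `lo ≤ 16 z < hi`, `G` an expression tree, by
`decide +kernel`.
-/

set_option autoImplicit false

open MeasureTheory Set Filter Topology Real

namespace Crest.Agent.R253.Ham741

open Crest.Agent.R253.Mills37 Crest.Agent.R253.HFn741

inductive Ex where
  | z : Ex
  | e : Ex
  | k : Ex
  | c : ℤ → Ex
  | add : Ex → Ex → Ex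
  | sub : Ex → Ex → Ex
  | mul : Ex → Ex → Ex

instance : Add Ex := ⟨Ex.add⟩
instance : Sub Ex := ⟨Ex.sub⟩
instance : Mul Ex := ⟨Ex.mul⟩

noncomputable def Ex.ev : Ex → ℝ → ℝ → ℝ → ℝ
  | .z, x, _, _ => x
  | .e, _, y, _ => y
  | .k, _, _, w => w
  | .c n, _, _, _ => n
  | .add a b, x, y, w => a.ev x y w + b.ev x y w
  | .sub a b, x, y, w => a.ev x y w - b.ev x y w
  | .mul a b, x, y, w => a.ev x y w * b.ev x y w

lemma ev_z (x y w : ℝ) : Ex.ev .z x y w = x := rfl
lemma ev_e (x y w : ℝ) : Ex.ev .e x y w = y := rfl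
lemma ev_k (x y w : ℝ) : Ex.ev .k x y w = w := rfl
lemma ev_c (n : ℤ) (x y w : ℝ) : Ex.ev (.c n) x y w = n := rfl
lemma ev_add (a b : Ex) (x y w : ℝ) : Ex.ev (a + b) x y w = a.ev x y w + b.ev x y w := rfl
lemma ev_sub (a b : Ex) (x y w : ℝ) : Ex.ev (a - b) x y w = a.ev x y w - b.ev x y w := rfl
lemma ev_mul (a b : Ex) (x y w : ℝ) : Ex.ev (a * b) x y w = a.ev x y w * b.ev x y w := rfl

def rnd : List ℤ → List ℤ
  | [] => []
  | a :: l => a / SS :: rnd l

lemma rnd_length (l : List ℤ) : (rnd l).length = l.length := by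
  induction l with
  | nil => rfl
  | cons a l ih => simp [rnd, ih]

lemma evp_rnd (l : List ℤ) {s : ℝ} (h0 : 0 ≤ s) (h1 : s ≤ 1) :
    |evp l s - SS * evp (rnd l) s| ≤ SS * (l.length : ℝ) := by
  induction l with
  | nil => simp [evp, rnd]
  | cons a l ih =>
    simp only [evp, rnd, List.length_cons]
    have e1 : a = SS * (a / SS) + a % SS := (Int.mul_ediv_add_emod a SS).symm
    have hS : (0 : ℤ) < SS := by decide +kernel
    have h2 := Int.emod_nonneg a hS.ne'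
    have h3 := Int.emod_lt_of_pos a hS
    have e2 : (a : ℝ) = SS * ((a / SS : ℤ) : ℝ) + ((a % SS : ℤ) : ℝ) := by exact_mod_cast e1
    have h2' : (0 : ℝ) ≤ ((a % SS : ℤ) : ℝ) := by exact_mod_cast h2
    have h3' : ((a % SS : ℤ) : ℝ) ≤ SS := by exact_mod_cast h3.le
    have e3 : (a : ℝ) + s * evp l s - SS * (((a / SS : ℤ) : ℝ) + s * evp (rnd l) s) =
        ((a % SS : ℤ) : ℝ) + s * (evp l s - SS * evp (rnd l) s) := by
      rw [e2]; ring
    rw [e3]
    have h4 : |s * (evp l s - SS * evp (rnd l) s)| ≤ SS * (l.length : ℝ) := by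
      rw [abs_mul, abs_of_nonneg h0]
      exact (mul_le_of_le_one_left (abs_nonneg _) h1).trans ih
    refine (abs_add_le _ _).trans ?_
    rw [abs_of_nonneg h2']
    push_cast
    linarith

lemma evp_take (N : ℕ) (l : List ℤ) {s : ℝ} (h0 : 0 ≤ s) (h1 : s ≤ 1) :
    |evp l s - evp (l.take N) s| ≤ absum (l.drop N) := by
  induction N generalizing l with
  | zero =>
    simp only [List.take_zero, List.drop_zero, evp, sub_zero]
    exact abs_evp_le l h0 h1
  | succ N ih =>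
    cases l with
    | nil => simp [evp, absum]
    | cons a l =>
      simp only [List.take_succ_cons, List.drop_succ_cons, evp]
      have e : (a : ℝ) + s * evp l s - (a + s * evp (l.take N) s) =
        s * (evp l s - evp (l.take N) s) := by ring
      rw [e, abs_mul, abs_of_nonneg h0]
      exact (mul_le_of_le_one_left (abs_nonneg _) h1).trans (ih l)

def mulR (N : ℕ) (t u : TM) : TM :=
  let m := mulT t u
  let r := rnd m.p
  ⟨r.take N, m.η / SS + 1 + r.length + absum (r.drop N)⟩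

lemma Rep.mulR {N : ℕ} {x y s : ℝ} {t u : TM} (hx : Rep (SS * x) s t) (hy : Rep (SS * y) s u)
    (h0 : 0 ≤ s) (h1 : s ≤ 1) : Rep (SS * (x * y)) s (mulR N t u) := by
  have hm := hx.mul hy h0 h1
  unfold Rep at hm
  unfold Rep Ham741.mulR
  simp only
  set m := mulT t u with hmd
  have hS := SS_pos
  have a1 := evp_rnd m.p h0 h1
  have a2 := evp_take N (rnd m.p) h0 h1
  have hSi : (0 : ℤ) < SS := by decide +kernel
  have a3 : (m.η : ℝ) ≤ SS * (((m.η / SS : ℤ) : ℝ) + 1) := by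
    have e1 : m.η = SS * (m.η / SS) + m.η % SS := (Int.mul_ediv_add_emod m.η SS).symm
    have h3 := Int.emod_lt_of_pos m.η hSi
    have e2 : (m.η : ℝ) = SS * ((m.η / SS : ℤ) : ℝ) + ((m.η % SS : ℤ) : ℝ) := by exact_mod_cast e1
    have h3' : ((m.η % SS : ℤ) : ℝ) ≤ SS := by exact_mod_cast h3.le
    linarith
  have e4 : (SS : ℝ) * (SS * (x * y) - evp (rnd m.p) s) =
      (SS * x * (SS * y) - evp m.p s) + (evp m.p s - SS * evp (rnd m.p) s) := by ring
  have a5 : |(SS : ℝ) * (x * y) - evp (rnd m.p) s| ≤ ((m.η / SS : ℤ) : ℝ) + 1 + m.p.length := by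
    have h6 : (SS : ℝ) * |SS * (x * y) - evp (rnd m.p) s| ≤
        SS * (((m.η / SS : ℤ) : ℝ) + 1 + m.p.length) := by
      rw [← abs_of_pos hS, ← abs_mul, abs_of_pos hS, e4]
      refine (abs_add_le _ _).trans ?_
      have := hm
      linarith
    exact le_of_mul_le_mul_left h6 hS
  have e5 : (SS : ℝ) * (x * y) - evp ((rnd m.p).take N) s =
      (SS * (x * y) - evp (rnd m.p) s) + (evp (rnd m.p) s - evp ((rnd m.p).take N) s) := by ring
  rw [e5]
  refine (abs_add_le _ _).trans ?_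
  rw [rnd_length]
  push_cast
  push_cast at a5
  linarith

def Ex.tm (N : ℕ) (Z E K : TM) : Ex → TM
  | .z => Z
  | .e => E
  | .k => K
  | .c n => ⟨[n * SS], 0⟩
  | .add a b => addT (a.tm N Z E K) (b.tm N Z E K)
  | .sub a b => addT (a.tm N Z E K) (smT (-1) (b.tm N Z E K))
  | .mul (.c n) b => smT n (b.tm N Z E K)
  | .mul a b => mulR N (a.tm N Z E K) (b.tm N Z E K)

lemma Ex.tm_rep {N : ℕ} {Z E K : TM} {z e k s : ℝ} (h0 : 0 ≤ s) (h1 : s ≤ 1)
    (hZ : Rep (SS * z) s Z) (hE : Rep (SS * e) s E) (hK : Rep (SS * k) s K) (G : Ex) :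
    Rep (SS * G.ev z e k) s (G.tm N Z E K) := by
  induction G with
  | z => exact hZ
  | e => exact hE
  | k => exact hK
  | c n => simp [Rep, Ex.tm, Ex.ev, evp]; rw [mul_comm]; simp
  | add a b iha ihb =>
    simp only [Ex.tm, Ex.ev]
    rw [mul_add]; exact iha.add ihb
  | sub a b iha ihb =>
    simp only [Ex.tm, Ex.ev]
    have := iha.add (ihb.sm (-1))
    have e : SS * (a.ev z e k - b.ev z e k) =
      SS * a.ev z e k + ((-1 : ℤ) : ℝ) * (SS * b.ev z e k) := by push_cast; ring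
    rw [e]; exact this
  | mul a b iha ihb =>
    cases a with
    | c n =>
      simp only [Ex.tm, Ex.ev]
      have := ihb.sm n
      have e : SS * ((n : ℝ) * b.ev z e k) = n * (SS * b.ev z e k) := by ring
      rw [e]; exact this
    | z => exact iha.mulR ihb h0 h1
    | e => exact iha.mulR ihb h0 h1
    | k => exact iha.mulR ihb h0 h1
    | add _ _ => exact iha.mulR ihb h0 h1
    | sub _ _ => exact iha.mulR ihb h0 h1
    | mul _ _ => exact iha.mulR ihb h0 h1

def chkC (fuel N : ℕ) (G : Ex) (c : Cell) : Bool :=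
  let t := G.tm N ⟨[SS / 16 * c.A, SS / 16 * c.Dl], 0⟩ ⟨c.E, c.eps⟩ ⟨c.K, c.kap⟩
  posp fuel t.p t.η

lemma chkC_sound {fuel N : ℕ} {G : Ex} {c : Cell} (h : chkC fuel N G c = true)
    (hE : GoodE c) (hK : GoodK c) {s : ℝ} (h0 : 0 ≤ s) (h1 : s ≤ 1) :
    0 < G.ev (zc c s) (ee (zc c s)) (kk (zc c s)) := by
  have hZ : Rep (SS * zc c s) s ⟨[SS / 16 * c.A, SS / 16 * c.Dl], 0⟩ := by
    unfold Rep
    have e1 : ((SS / 16 : ℤ) : ℝ) = SS / 16 := by
      have : (SS : ℤ) = 16 * (SS / 16) := by decide +kernel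
      have h2 : ((16 * (SS / 16) : ℤ) : ℝ) = SS := by rw [← this]
      push_cast at h2
      linarith
    simp only [evp]
    push_cast
    rw [e1]
    have : (SS : ℝ) * zc c s - (SS / 16 * c.A + s * (SS / 16 * c.Dl + s * 0)) = 0 := by
      unfold zc; ring
    rw [this]; simp
  have hE' : Rep (SS * ee (zc c s)) s ⟨c.E, c.eps⟩ := hE s h0 h1
  have hK' : Rep (SS * kk (zc c s)) s ⟨c.K, c.kap⟩ := hK s h0 h1
  have h2 := Ex.tm_rep (N := N) h0 h1 hZ hE' hK' G
  have h3 := posp_sound (show posp fuel _ _ = true from h) h0 h1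
  unfold Rep at h2
  have h4 := (abs_le.1 h2).1
  have h5 : 0 < (SS : ℝ) * G.ev (zc c s) (ee (zc c s)) (kk (zc c s)) := by linarith
  exact (mul_pos_iff_of_pos_left SS_pos).1 h5

/-- the check of `0 < G` on `lo ≤ 16 z < hi` -/
def chkX (fuel N : ℕ) (G : Ex) (lo hi : ℤ) : Bool :=
  cells.all fun c => decide (c.A + c.Dl ≤ lo) || (decide (hi ≤ c.A) || chkC fuel N G c)

/-- the failing cells (for `#eval`) -/
def badX (fuel N : ℕ) (G : Ex) (lo hi : ℤ) : List ℤ :=
  cells.filterMap fun c => if c.A + c.Dl ≤ lo then none else if hi ≤ c.A then none else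
    if chkC fuel N G c then none else some c.A

/-- **the hammer for expression trees** -/
theorem hamx {fuel N : ℕ} {G : Ex} {lo hi : ℤ}
    (h : chkX fuel N G lo hi = true) (h1 : -128 ≤ lo) (h2 : hi ≤ 1024) {z : ℝ}
    (hz1 : (lo : ℝ) ≤ 16 * z) (hz2 : 16 * z < hi) : 0 < G.ev z (ee z) (kk z) := by
  have a1 : ((lastA cells 1024 : ℤ) : ℝ) ≤ 16 * z := by
    rw [cover_ok.2]
    have : ((-128 : ℤ) : ℝ) ≤ lo := by exact_mod_cast h1
    linarith
  have a2 : 16 * z < ((1024 : ℤ) : ℝ) := by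
    have : (hi : ℝ) ≤ ((1024 : ℤ) : ℝ) := by exact_mod_cast h2
    linarith
  obtain ⟨c, hc, b1, b2⟩ := cover cover_ok.1 a1 a2
  have h3 := (List.all_eq_true.1 h) c hc
  simp only [Bool.or_eq_true, decide_eq_true_eq] at h3
  rcases h3 with h3 | h3 | h3
  · exfalso
    have : ((c.A + c.Dl : ℤ) : ℝ) ≤ lo := by exact_mod_cast h3
    push_cast at this; linarith
  · exfalso
    have : (hi : ℝ) ≤ c.A := by exact_mod_cast h3
    linarith
  · have hDl : (0 : ℝ) < c.Dl := by linarith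
    have h4 := chkC_sound h3 (goodE_all c hc) (goodK_all c hc)
      (s := (16 * z - c.A) / c.Dl) (div_nonneg (by linarith) hDl.le)
      ((div_le_one hDl).2 (by linarith))
    have e : zc c ((16 * z - c.A) / c.Dl) = z := by
      unfold zc; field_simp; ring
    rwa [e] at h4

/-! ### standard trees -/

/-- `μ` -/
def Xmu : Ex := .z + .e
/-- `w = 1 - z e` -/
def Xw : Ex := .c 1 - .z * .e
/-- `c = 1 - μ e` -/
def Xc : Ex := .c 1 - Xmu * .e
/-- `μ v'` -/
def Xa : Ex := Xmu - .e * .k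
/-- `μ v''` -/
def Xb : Ex := Xw * .k - .e * Xmu
/-- `μ² h` -/
def Xh : Ex := Xa * Xa + Xc * (.k * .k)

lemma ev_Xmu (z : ℝ) : Xmu.ev z (ee z) (kk z) = mu z := by rw [mu_eq]; rfl
lemma ev_Xw (z : ℝ) : Xw.ev z (ee z) (kk z) = ww z := by
  change ((1 : ℤ) : ℝ) - z * ee z = _; unfold ww; norm_num
lemma ev_Xc (z : ℝ) : Xc.ev z (ee z) (kk z) = cc z := by
  change ((1 : ℤ) : ℝ) - Xmu.ev z (ee z) (kk z) * ee z = _
  rw [ev_Xmu]; unfold cc; norm_num
lemma ev_Xa (z : ℝ) : Xa.ev z (ee z) (kk z) =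
    mu z * Crest.Agent.R253.Slack688.aa z := by
  change Xmu.ev z (ee z) (kk z) - ee z * kk z = _
  rw [ev_Xmu, Crest.Agent.R253.Slack688.aa, ← mu_H0]; ring
lemma ev_Xb (z : ℝ) : Xb.ev z (ee z) (kk z) = mu z * bb2 z := by
  change Xw.ev z (ee z) (kk z) * kk z - ee z * Xmu.ev z (ee z) (kk z) = _
  rw [ev_Xmu, ev_Xw, bb2, ← mu_H0]; ring
lemma ev_Xh (z : ℝ) : Xh.ev z (ee z) (kk z) = mu z ^ 2 * hh z := by
  change Xa.ev z (ee z) (kk z) * Xa.ev z (ee z) (kk z) +
    Xc.ev z (ee z) (kk z) * (kk z * kk z) = _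
  rw [ev_Xa, ev_Xc, hh_eq, qq, ← mu_H0]; ring

end Crest.Agent.R253.Ham741
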