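import Crest.Agent.R253.V3s_718
import Crest.Agent.R253.KW_718

/-!
# Row 253: the kernels `KE`, `KW` with numbers (helper718)

`(v[a,b] - v'(b))² ≤ (13/500) ρ`, `(v'(a)(v[b,a] - v'(a)))² ≤ (13/2000) ρ`.
-/

set_option autoImplicit false

noncomputable section

namespace Crest.Agent.R253.KI718

open Crest.Agent.R253.Mills37 Crest.Agent.R253.SpecCalc999 Crest.Agent.R253.Rho195
  Crest.Agent.R253.HFn741 Crest.Agent.R253.Slack688 Crest.Agent.R253.V2451

/-- **KE** -/
theorem ke_num (a b : ℝ) : (dd1 H0 aa a b - aa b) ^ 2 ≤ 13 / 500 * rho a b := by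
  have h := KW718.kv_rho' V3s718.bb2_le a b
  have := rho_nonneg a b
  nlinarith

/-- **KE**, other orientation -/
theorem ke_num' (a b : ℝ) : (dd1 H0 aa b a - aa a) ^ 2 ≤ 13 / 500 * rho a b := by
  have h := KW718.kv_rho V3s718.bb2_le a b
  have := rho_nonneg a b
  nlinarith

/-- **KW** -/
theorem kw_num (a b : ℝ) : (aa a * (dd1 H0 aa b a - aa a)) ^ 2 ≤ 13 / 2000 * rho a b := by
  have h := KW718.kw_rho V3s718.bb2_le a b
  have := rho_nonneg a b
  nlinarith

end Crest.Agent.R253.KI718
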