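import Mathlib
import Crest.Agent.R253.Mills_37
import Crest.Agent.R253.SpecCalc_999

/-!
# Row 253, E-route (S1): the pair slack `ρ` and the two-index kernels (helper195)

`ρ x y = (k[x,y])² / (μ x μ y) - 1`, `k[x,y] = dd1 kk mu x y` = mean of `μ` over `[x,y]`.

* `rho_ge`  : `(log μ y - log μ x)² / 12 ≤ ρ x y`
* `kap1`    : `|v[x,y] - (v'x + v'y)/2| ≤ C/2 |log μ y - log μ x|` if `0 ≤ v'' ≤ C ee`
* `kap2`    : `|v'[x,y] - v'' x| ≤ C |log μ y - log μ x|` if `|v'''| ≤ C ee`
* `kap1_sq`, `kap2_sq` : the same against `ρ`.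
-/

set_option autoImplicit false

open Set

noncomputable section

namespace Crest.Agent.R253.Rho195

open Crest.Agent.R253.Mills37 Crest.Agent.R253.SpecCalc999

/-- the logarithm of the hazard -/
def lm (z : ℝ) : ℝ := Real.log (mu z)

lemma lm_hasDerivAt (z : ℝ) : HasDerivAt lm (ee z) z := by
  have h := (mu_hasDerivAt z).log (mu_pos z).ne'
  have e : mu z * ee z / mu z = ee z := by field_simp [(mu_pos z).ne']
  rw [e] at h
  exact h

lemma lm_strictMono : StrictMono lm :=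
  strictMono_of_hasDerivAt_pos lm_hasDerivAt ee_pos

lemma exp_lm (z : ℝ) : Real.exp (lm z) = mu z := Real.exp_log (mu_pos z)

lemma ee_antitone : Antitone ee := by
  apply antitone_of_hasDerivAt_nonpos (f' := fun z => mu z * ee z - 1) ee_hasDerivAt
  intro z
  have := mu_ee_lt_one z
  simp only [Pi.zero_apply]
  linarith

lemma deriv_lm : deriv lm = ee := funext fun z => (lm_hasDerivAt z).deriv

lemma lm_concave : ConcaveOn ℝ univ lm := by
  apply Antitone.concaveOn_univ_of_deriv (fun z => (lm_hasDerivAt z).differentiableAt)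
  rw [deriv_lm]; exact ee_antitone

/-- chord below `log μ` -/
lemma chord_le {x y t : ℝ} (hxy : x < y) (h1 : x ≤ t) (h2 : t ≤ y) :
    lm x + (t - x) / (y - x) * (lm y - lm x) ≤ lm t := by
  have hd : 0 < y - x := sub_pos.2 hxy
  have ha : (0:ℝ) ≤ (y - t) / (y - x) := div_nonneg (by linarith) hd.le
  have hb : (0:ℝ) ≤ (t - x) / (y - x) := div_nonneg (by linarith) hd.le
  have hab : (y - t) / (y - x) + (t - x) / (y - x) = 1 := by field_simp; ring
  have h := lm_concave.2 (mem_univ x) (mem_univ y) ha hb hab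
  simp only [smul_eq_mul] at h
  have e : (y - t) / (y - x) * x + (t - x) / (y - x) * y = t := by field_simp; ring
  rw [e] at h
  have e2 : lm x + (t - x) / (y - x) * (lm y - lm x)
      = (y - t) / (y - x) * lm x + (t - x) / (y - x) * lm y := by field_simp; ring
  rw [e2]; exact h

/-- mean of `μ` over `[x,y]` is at least the logarithmic mean of the end values -/
lemma kk_sub_ge {x y : ℝ} (hxy : x < y) :
    (y - x) * (mu y - mu x) / (lm y - lm x) ≤ kk y - kk x := by
  have hd : 0 < y - x := sub_pos.2 hxy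
  have hH : 0 < lm y - lm x := sub_pos.2 (lm_strictMono hxy)
  set H := lm y - lm x with hHdef
  let E : ℝ → ℝ := fun t => (y - x) / H * Real.exp (lm x + (t - x) / (y - x) * H)
  have hE : ∀ t, HasDerivAt E (Real.exp (lm x + (t - x) / (y - x) * H)) t := by
    intro t
    have h1 : HasDerivAt (fun t : ℝ => lm x + (t - x) / (y - x) * H) (1 / (y - x) * H) t := by
      have := ((((hasDerivAt_id t).sub_const x).div_const (y - x)).mul_const H).const_add (lm x)
      simpa using this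
    have h2 := (h1.exp).const_mul ((y - x) / H)
    have e4 : (y - x) / H * (Real.exp (lm x + (t - x) / (y - x) * H) * (1 / (y - x) * H))
        = Real.exp (lm x + (t - x) / (y - x) * H) := by
      have : (y - x) / H * (1 / (y - x) * H) = 1 := by field_simp
      calc _ = Real.exp (lm x + (t - x) / (y - x) * H) * ((y - x) / H * (1 / (y - x) * H)) := by ring
        _ = _ := by rw [this, mul_one]
    rw [e4] at h2
    exact h2
  have hmono : MonotoneOn (fun t => kk t - E t) (Icc x y) := by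
    apply monotoneOn_of_hasDerivWithinAt_nonneg (f' := fun t => mu t -
      Real.exp (lm x + (t - x) / (y - x) * H)) (convex_Icc x y)
    · exact fun t _ => ((kk_hasDerivAt t).sub (hE t)).continuousAt.continuousWithinAt
    · intro t ht
      exact ((kk_hasDerivAt t).sub (hE t)).hasDerivWithinAt
    · intro t ht
      rw [interior_Icc] at ht
      have := chord_le hxy ht.1.le ht.2.le
      have h3 := Real.exp_le_exp.2 this
      rw [exp_lm] at h3
      exact sub_nonneg.2 h3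
  have h := hmono (left_mem_Icc.2 hxy.le) (right_mem_Icc.2 hxy.le) hxy.le
  have e1 : E x = (y - x) / H * mu x := by
    simp only [E, sub_self, zero_div, zero_mul, add_zero, exp_lm]
  have e2 : E y = (y - x) / H * mu y := by
    have : lm x + (y - x) / (y - x) * H = lm y := by
      rw [div_self hd.ne', hHdef]; ring
    simp only [E, this, exp_lm]
  simp only [e1, e2] at h
  have e3 : (y - x) * (mu y - mu x) / H = (y - x) / H * mu y - (y - x) / H * mu x := by
    field_simp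
  rw [e3]; linarith

lemma cosh_ge (u : ℝ) : 1 + u ^ 2 / 2 ≤ Real.cosh u := by
  have h1 : Real.cosh u = 1 + 2 * Real.sinh (u / 2) ^ 2 := by
    have h := Real.cosh_two_mul (u / 2)
    have h2 := Real.cosh_sq (u / 2)
    have e : 2 * (u / 2) = u := by ring
    rw [e] at h
    rw [h, h2]; ring
  have h3 : (u / 2) ^ 2 ≤ Real.sinh (u / 2) ^ 2 := by
    rcases le_total 0 (u / 2) with h | h
    · exact pow_le_pow_left₀ h (Real.self_le_sinh_iff.2 h) 2
    · have h4 : 0 ≤ -(u / 2) := by linarith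
      have h5 := Real.self_le_sinh_iff.2 h4
      rw [Real.sinh_neg] at h5
      have := pow_le_pow_left₀ h4 h5 2
      nlinarith
  rw [h1]; nlinarith

lemma sinh_ge {u : ℝ} (hu : 0 ≤ u) : u + u ^ 3 / 6 ≤ Real.sinh u := by
  have hm : Monotone (fun t => Real.sinh t - (t + t ^ 3 / 6)) := by
    apply monotone_of_hasDerivAt_nonneg (f' := fun t => Real.cosh t - (1 + t ^ 2 / 2))
    · intro t
      have h1 : HasDerivAt (fun t : ℝ => t + t ^ 3 / 6) (1 + t ^ 2 / 2) t := by
        have := (hasDerivAt_id' t).add ((hasDerivAt_pow 3 t).div_const 6)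
        have e : (1 + t ^ 2 / 2 : ℝ) = 1 + ((3 : ℕ) : ℝ) * t ^ (3 - 1) / 6 := by
          push_cast
          ring
        rw [e]
        exact this
      exact (Real.hasDerivAt_sinh t).sub h1
    · intro t
      exact sub_nonneg.2 (cosh_ge t)
  have := hm hu
  simp at this
  linarith

/-- the pair slack -/
def rho (x y : ℝ) : ℝ := (dd1 kk mu x y) ^ 2 / (mu x * mu y) - 1

lemma rho_comm (x y : ℝ) : rho x y = rho y x := by
  unfold rho; rw [dd1_comm, mul_comm]

lemma rho_self (x : ℝ) : rho x x = 0 := by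
  unfold rho dd1
  have := (mu_pos x).ne'
  simp only [if_true]
  field_simp
  ring

lemma rho_ge_lt {x y : ℝ} (hxy : x < y) : (lm y - lm x) ^ 2 / 12 ≤ rho x y := by
  have hd : 0 < y - x := sub_pos.2 hxy
  have hH : 0 < lm y - lm x := sub_pos.2 (lm_strictMono hxy)
  set H := lm y - lm x with hHdef
  have hk := kk_sub_ge hxy
  rw [← hHdef] at hk
  have hmx := mu_pos x
  have hmy := mu_pos y
  -- the logarithmic mean against the geometric mean
  have hs : H / 2 + (H / 2) ^ 3 / 6 ≤ Real.sinh (H / 2) := sinh_ge (by linarith)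
  set g := Real.exp ((lm x + lm y) / 2) with hg
  have hgp : 0 < g := Real.exp_pos _
  have hg2 : g ^ 2 = mu x * mu y := by
    rw [hg, ← Real.exp_nat_mul, ← exp_lm x, ← exp_lm y, ← Real.exp_add]
    congr 1; push_cast; ring
  have hdiff : mu y - mu x = 2 * g * Real.sinh (H / 2) := by
    rw [Real.sinh_eq, hg, ← exp_lm x, ← exp_lm y]
    have e1 : Real.exp ((lm x + lm y) / 2) * Real.exp (H / 2) = Real.exp (lm y) := by
      rw [← Real.exp_add, hHdef]; congr 1; ring
    have e2 : Real.exp ((lm x + lm y) / 2) * Real.exp (-(H / 2)) = Real.exp (lm x) := by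
      rw [← Real.exp_add, hHdef]; congr 1; ring
    rw [← e1, ← e2]; ring
  have hL : g * (1 + H ^ 2 / 24) ≤ (kk y - kk x) / (y - x) := by
    rw [le_div_iff₀ hd]
    refine le_trans ?_ hk
    rw [hdiff, le_div_iff₀ hH]
    have : g * (H / 2 + (H / 2) ^ 3 / 6) ≤ g * Real.sinh (H / 2) :=
      mul_le_mul_of_nonneg_left hs hgp.le
    have h2 : (y - x) * (2 * (g * (H / 2 + (H / 2) ^ 3 / 6)))
        ≤ (y - x) * (2 * (g * Real.sinh (H / 2))) := by
      apply mul_le_mul_of_nonneg_left _ hd.le; linarith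
    calc g * (1 + H ^ 2 / 24) * (y - x) * H
        = (y - x) * (2 * (g * (H / 2 + (H / 2) ^ 3 / 6))) := by ring
      _ ≤ _ := h2
      _ = _ := by ring
  have hdd : dd1 kk mu x y = (kk y - kk x) / (y - x) := by
    unfold dd1
    rw [if_neg hxy.ne]
    have : x - y ≠ 0 := sub_ne_zero.2 hxy.ne
    have h3 : y - x ≠ 0 := hd.ne'
    field_simp
    ring
  unfold rho
  rw [hdd, ← hg2]
  have h0 : 0 ≤ g * (1 + H ^ 2 / 24) := by positivity
  have h1 := pow_le_pow_left₀ h0 hL 2
  have h2 : (1 + H ^ 2 / 24) ^ 2 ≤ ((kk y - kk x) / (y - x)) ^ 2 / g ^ 2 := by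
    rw [le_div_iff₀ (by positivity)]
    calc (1 + H ^ 2 / 24) ^ 2 * g ^ 2 = (g * (1 + H ^ 2 / 24)) ^ 2 := by ring
      _ ≤ _ := h1
  nlinarith [sq_nonneg H, sq_nonneg (H ^ 2)]

theorem rho_ge (x y : ℝ) : (lm y - lm x) ^ 2 / 12 ≤ rho x y := by
  rcases lt_trichotomy x y with h | h | h
  · exact rho_ge_lt h
  · subst h; rw [rho_self]; simp
  · rw [rho_comm]
    have := rho_ge_lt h
    calc (lm y - lm x) ^ 2 / 12 = (lm x - lm y) ^ 2 / 12 := by ring
      _ ≤ _ := this

theorem rho_nonneg (x y : ℝ) : 0 ≤ rho x y := le_trans (by positivity) (rho_ge x y)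

/-- if `0 ≤ g' ≤ C ee` then `g` moves by at most `C |Δ log μ|` -/
lemma move_le {g g' : ℝ → ℝ} {C : ℝ} (hg : ∀ z, HasDerivAt g (g' z) z)
    (h : ∀ z, |g' z| ≤ C * ee z) (x y : ℝ) : |g y - g x| ≤ C * |lm y - lm x| := by
  have m1 : Monotone (fun z => C * lm z - g z) := by
    apply monotone_of_hasDerivAt_nonneg (f' := fun z => C * ee z - g' z)
    · exact fun z => ((lm_hasDerivAt z).const_mul C).sub (hg z)
    · intro z
      have := abs_le.1 (h z)
      simp only [Pi.zero_apply]; linarith [this.2]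
  have m2 : Monotone (fun z => C * lm z + g z) := by
    apply monotone_of_hasDerivAt_nonneg (f' := fun z => C * ee z + g' z)
    · exact fun z => ((lm_hasDerivAt z).const_mul C).add (hg z)
    · intro z
      have := abs_le.1 (h z)
      simp only [Pi.zero_apply]; linarith [this.1]
  rcases le_total x y with hxy | hxy
  · have a1 := m1 hxy
    have a2 := m2 hxy
    simp only at a1 a2
    rw [abs_of_nonneg (sub_nonneg.2 (lm_strictMono.monotone hxy)), abs_le]
    constructor <;> linarith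
  · have a1 := m1 hxy
    have a2 := m2 hxy
    simp only at a1 a2
    rw [abs_of_nonpos (sub_nonpos.2 (lm_strictMono.monotone hxy)), abs_le]
    constructor <;> linarith

/-- mean value theorem for the divided difference -/
lemma dd1_mvt {f f' : ℝ → ℝ} (hf : ∀ z, HasDerivAt f (f' z) z) (x y : ℝ) :
    ∃ t, min x y ≤ t ∧ t ≤ max x y ∧ dd1 f f' x y = f' t := by
  rcases lt_trichotomy x y with h | h | h
  · obtain ⟨t, ht, he⟩ := exists_hasDerivAt_eq_slope f f' h
      (fun z _ => (hf z).continuousAt.continuousWithinAt) (fun z _ => hf z)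
    refine ⟨t, (min_le_left _ _).trans ht.1.le, ht.2.le.trans (le_max_right _ _), ?_⟩
    rw [he]; unfold dd1; rw [if_neg h.ne]
    have h1 : x - y ≠ 0 := sub_ne_zero.2 h.ne
    have h2 : y - x ≠ 0 := sub_ne_zero.2 h.ne'
    field_simp
    ring
  · subst h; exact ⟨x, by simp, by simp, by unfold dd1; simp⟩
  · obtain ⟨t, ht, he⟩ := exists_hasDerivAt_eq_slope f f' h
      (fun z _ => (hf z).continuousAt.continuousWithinAt) (fun z _ => hf z)
    refine ⟨t, (min_le_right _ _).trans ht.1.le, ht.2.le.trans (le_max_left _ _), ?_⟩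
    rw [he]; unfold dd1; rw [if_neg h.ne']

/-- trapezoid kernel -/
theorem kap1 {v v1 v2 : ℝ → ℝ} {C : ℝ} (hv : ∀ z, HasDerivAt v (v1 z) z)
    (hv1 : ∀ z, HasDerivAt v1 (v2 z) z) (h0 : ∀ z, 0 ≤ v2 z) (h : ∀ z, v2 z ≤ C * ee z)
    (x y : ℝ) : |dd1 v v1 x y - (v1 x + v1 y) / 2| ≤ C / 2 * |lm y - lm x| := by
  obtain ⟨t, ht1, ht2, he⟩ := dd1_mvt hv x y
  have hm : Monotone v1 := monotone_of_hasDerivAt_nonneg hv1 h0
  have hmove := move_le hv1 (C := C) (fun z => by rw [abs_of_nonneg (h0 z)]; exact h z) x y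
  rw [he]
  have key : |v1 t - (v1 x + v1 y) / 2| ≤ |v1 y - v1 x| / 2 := by
    rcases le_total x y with hxy | hxy
    · rw [min_eq_left hxy] at ht1
      rw [max_eq_right hxy] at ht2
      have a1 := hm ht1
      have a2 := hm ht2
      rw [abs_of_nonneg (sub_nonneg.2 (hm hxy)), abs_le]
      constructor <;> linarith
    · rw [min_eq_right hxy] at ht1
      rw [max_eq_left hxy] at ht2
      have a1 := hm ht1
      have a2 := hm ht2
      rw [abs_of_nonpos (sub_nonpos.2 (hm hxy)), abs_le]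
      constructor <;> linarith
  calc |v1 t - (v1 x + v1 y) / 2| ≤ |v1 y - v1 x| / 2 := key
    _ ≤ C / 2 * |lm y - lm x| := by linarith

/-- kernel `v'[x,y] - v''` -/
theorem kap2 {v1 v2 v3 : ℝ → ℝ} {C : ℝ} (hv1 : ∀ z, HasDerivAt v1 (v2 z) z)
    (hv2 : ∀ z, HasDerivAt v2 (v3 z) z) (h : ∀ z, |v3 z| ≤ C * ee z) (x y : ℝ) :
    |dd1 v1 v2 x y - v2 x| ≤ C * |lm y - lm x| := by
  obtain ⟨t, ht1, ht2, he⟩ := dd1_mvt hv1 x y
  have hmove := move_le hv2 h x t
  have hC : 0 ≤ C := by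
    have h1 := h 0
    have h2 := ee_pos 0
    by_contra hc
    push Not at hc
    have : C * ee 0 < 0 := mul_neg_of_neg_of_pos hc h2
    linarith [abs_nonneg (v3 0)]
  rw [he]
  refine hmove.trans (mul_le_mul_of_nonneg_left ?_ hC)
  have hm := lm_strictMono.monotone
  rcases le_total x y with hxy | hxy
  · rw [min_eq_left hxy] at ht1
    rw [max_eq_right hxy] at ht2
    rw [abs_of_nonneg (sub_nonneg.2 (hm ht1)), abs_of_nonneg (sub_nonneg.2 (hm hxy))]
    linarith [hm ht2]
  · rw [min_eq_right hxy] at ht1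
    rw [max_eq_left hxy] at ht2
    rw [abs_of_nonpos (sub_nonpos.2 (hm ht2)), abs_of_nonpos (sub_nonpos.2 (hm hxy))]
    linarith [hm ht1]

/-- `κ₁² ≤ 3 C² ρ` -/
theorem kap1_sq {v v1 v2 : ℝ → ℝ} {C : ℝ} (hv : ∀ z, HasDerivAt v (v1 z) z)
    (hv1 : ∀ z, HasDerivAt v1 (v2 z) z) (h0 : ∀ z, 0 ≤ v2 z) (h : ∀ z, v2 z ≤ C * ee z)
    (x y : ℝ) : (dd1 v v1 x y - (v1 x + v1 y) / 2) ^ 2 ≤ 3 * C ^ 2 * rho x y := by
  have h1 := kap1 hv hv1 h0 h x y
  have h2 := pow_le_pow_left₀ (abs_nonneg _) h1 2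
  rw [sq_abs, mul_pow, sq_abs] at h2
  have h3 := rho_ge x y
  have h4 : 3 * C ^ 2 * ((lm y - lm x) ^ 2 / 12) ≤ 3 * C ^ 2 * rho x y :=
    mul_le_mul_of_nonneg_left h3 (by positivity)
  calc (dd1 v v1 x y - (v1 x + v1 y) / 2) ^ 2 ≤ (C / 2) ^ 2 * (lm y - lm x) ^ 2 := h2
    _ = 3 * C ^ 2 * ((lm y - lm x) ^ 2 / 12) := by ring
    _ ≤ _ := h4

/-- `κ₂² ≤ 12 C² ρ` -/
theorem kap2_sq {v1 v2 v3 : ℝ → ℝ} {C : ℝ} (hv1 : ∀ z, HasDerivAt v1 (v2 z) z)
    (hv2 : ∀ z, HasDerivAt v2 (v3 z) z) (h : ∀ z, |v3 z| ≤ C * ee z) (x y : ℝ) :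
    (dd1 v1 v2 x y - v2 x) ^ 2 ≤ 12 * C ^ 2 * rho x y := by
  have h1 := kap2 hv1 hv2 h x y
  have h2 := pow_le_pow_left₀ (abs_nonneg _) h1 2
  rw [sq_abs, mul_pow, sq_abs] at h2
  have h3 := rho_ge x y
  have h4 : 12 * C ^ 2 * ((lm y - lm x) ^ 2 / 12) ≤ 12 * C ^ 2 * rho x y :=
    mul_le_mul_of_nonneg_left h3 (by positivity)
  calc (dd1 v1 v2 x y - v2 x) ^ 2 ≤ C ^ 2 * (lm y - lm x) ^ 2 := h2
    _ = 12 * C ^ 2 * ((lm y - lm x) ^ 2 / 12) := by ring
    _ ≤ _ := h4

end Crest.Agent.R253.Rho195
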