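import Crest.Agent.R253.HP_688
import Crest.Agent.R253.Rho3_718
import Crest.Agent.R253.ErrL_378
import Crest.Agent.R253.HamT_741

/-!
# Row 253 (helper688): the `T`-kernel, `ky(a,b)² ≤ (1/25) ρ(a,b)`

`(a-b) ky(a,b) = ∫_b^a (v'(a)-v'(s))² + (a-s) h'(s) ds`.  One-variable inputs: `|h'| ≤ e/10`,
`v'' ≤ (2/19) e`, `v''² ≤ (3/200) c` (`c = -e'`).
-/

set_option autoImplicit false

open Filter Topology Set

namespace Crest.Agent.R253.KY688

open Crest.Agent.R253.Mills37 Crest.Agent.R253.Slack688 Crest.Agent.R253.V2451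
open Crest.Agent.R253.HFn741 Crest.Agent.R253.HP688 Crest.Agent.R253.Ham741
open Crest.Agent.R253.Rho195 Crest.Agent.R253.Rho3 Crest.Agent.R253.SpecCalc999

noncomputable section

/-! ### the one-variable fact `v''² ≤ (3/200) c` -/

def Gm : List (ℤ × ℕ × ℕ × ℕ) :=
  [(-200, 0, 0, 2), (3, 0, 2, 0), (400, 0, 2, 1), (-203, 0, 4, 0), (6, 1, 1, 0), (400, 1, 1, 1),
   (400, 1, 1, 2), (-409, 1, 3, 0), (-400, 1, 3, 1), (3, 2, 0, 0), (-209, 2, 2, 0),
   (-400, 2, 2, 1), (-200, 2, 2, 2), (-3, 3, 1, 0)]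

def Gl : List (ℤ × ℕ × ℕ × ℕ) := [(1, 0, 0, 0), (-3, 1, 1, 0), (-3, 0, 2, 0)]

def Gr : List (ℤ × ℕ × ℕ × ℕ) := [(1083, 0, 0, 0), (-1083, 1, 1, 0), (-1883, 0, 2, 0)]

lemma degm : degOK 6 Gm = true := by decide +kernel
lemma chkm : chkAll 8 6 Gm (-24) 20 = true := by decide +kernel
lemma degl : degOK 2 Gl = true := by decide +kernel
lemma chkl : chkAll 8 2 Gl (-24) (-20) = true := by decide +kernel
lemma degr : degOK 2 Gr = true := by decide +kernel
lemma chkr : chkAll 8 2 Gr 20 24 = true := by decide +kernel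

lemma mid {z : ℝ} (h1 : -(3 / 2) ≤ z) (h2 : z < 5 / 4) : bb2 z ^ 2 ≤ 3 / 200 * cc z := by
  have h := ham degm chkm (by norm_num) (by norm_num) (z := z)
    (by push_cast; linarith) (by push_cast; linarith)
  have hm := mu_pos z
  have e1 : evG Gm z (ee z) (kk z) = 200 * mu z ^ 2 * (3 / 200 * cc z - bb2 z ^ 2) := by
    have e2 : mu z * bb2 z = ww z * kk z - ee z * mu z := by
      unfold bb2; rw [← mu_H0 z]; ring
    have e3 : 200 * mu z ^ 2 * (3 / 200 * cc z - bb2 z ^ 2)
        = 3 * cc z * mu z ^ 2 - 200 * (mu z * bb2 z) ^ 2 := by ring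
    rw [e3, e2]
    simp only [evG, Gm]
    unfold cc ww
    rw [mu_eq z]
    push_cast
    ring
  rw [e1] at h
  have h3 : 0 < 200 * mu z ^ 2 := by positivity
  have h4 := (mul_pos_iff_of_pos_left h3).1 h
  linarith

lemma cc_antitone : Antitone cc :=
  antitone_of_hasDerivAt_nonpos cc_hasDerivAt
    (fun z => by have := mul_pos (mu_pos z) (ss_pos z); simp only [Pi.zero_apply]; linarith)

lemma left {z : ℝ} (h1 : z ≤ -(3 / 2)) : bb2 z ^ 2 ≤ 3 / 200 * cc z := by
  have h := ham degl chkl (by norm_num) (by norm_num) (z := -(3 / 2))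
    (by push_cast; linarith) (by push_cast; linarith)
  have e1 : evG Gl (-(3 / 2)) (ee (-(3 / 2))) (kk (-(3 / 2))) = 3 * cc (-(3 / 2)) - 2 := by
    simp only [evG, Gl]
    unfold cc
    rw [mu_eq]
    push_cast
    ring
  rw [e1] at h
  have h2 := cc_antitone h1
  have h3 := bb2_lt z
  have h4 := bb2_pos z
  nlinarith

lemma rr_mono : Monotone rr := by
  refine monotone_of_hasDerivAt_nonneg rr_hasDerivAt fun z => ?_
  simp only [Pi.zero_apply]
  have hb := bb_pos z
  have he := ee_pos z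
  have h := two_cc_gt z
  have h1 : mu z * ee z = 1 - cc z := by unfold cc; ring
  rw [h1] at h
  have h2 : cc z = rr z * ee z ^ 2 := by rw [rr_eq]; field_simp
  have h3 : ww z = (rr z + 1) * ee z ^ 2 := by have := cc_eq' z; linarith
  rw [h2, h3] at h
  have h4 : ee z ^ 2 * ((1 - rr z * ee z ^ 2) * (rr z + 1)) < ee z ^ 2 * (2 * rr z) := by linarith
  have h5 := lt_of_mul_lt_mul_left h4 (sq_nonneg _)
  have h6 : rr z * (1 + rr z) / bb z - bb z * (1 - rr z)
      = (rr z * (1 + rr z) * ee z ^ 2 - (1 - rr z)) / ee z := by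
    unfold bb; field_simp
  rw [h6]
  apply div_nonneg _ he.le
  linarith

lemma right {z : ℝ} (h1 : 5 / 4 ≤ z) : bb2 z ^ 2 ≤ 3 / 200 * cc z := by
  have h := ham degr chkr (by norm_num) (by norm_num) (z := 5 / 4)
    (by push_cast; linarith) (by push_cast; linarith)
  have e1 : evG Gr (5 / 4) (ee (5 / 4)) (kk (5 / 4)) = 1083 * cc (5 / 4) - 800 * ee (5 / 4) ^ 2 := by
    simp only [evG, Gr]
    unfold cc
    rw [mu_eq]
    push_cast
    ring
  rw [e1] at h
  have h5 : 800 / 1083 ≤ rr (5 / 4) := by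
    rw [rr_eq, le_div_iff₀ (pow_pos (ee_pos _) 2)]; linarith
  have h6 := h5.trans (rr_mono h1)
  rw [rr_eq, le_div_iff₀ (pow_pos (ee_pos _) 2)] at h6
  have h3 := bb2_lt_ee z
  have h4 := bb2_pos z
  nlinarith

/-- **`v''² ≤ (3/200) c`** -/
theorem bb2_sq_le (z : ℝ) : bb2 z ^ 2 ≤ 3 / 200 * cc z := by
  rcases le_total z (-(3 / 2)) with h | h
  · exact left h
  rcases lt_or_ge z (5 / 4) with h' | h'
  · exact mid h h'
  · exact right h'

/-! ### comparison on an interval -/

lemma anti_le {f f' : ℝ → ℝ} (hf : ∀ s, HasDerivAt f (f' s) s) {x y : ℝ} (hxy : x ≤ y)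
    (hn : ∀ s, x < s → s < y → f' s ≤ 0) : f y ≤ f x := by
  have h : AntitoneOn f (Icc x y) := by
    apply antitoneOn_of_hasDerivWithinAt_nonpos (f' := f') (convex_Icc x y)
    · exact fun t _ => (hf t).continuousAt.continuousWithinAt
    · intro t _
      exact (hf t).hasDerivWithinAt
    · intro t ht
      rw [interior_Icc] at ht
      exact hn t ht.1 ht.2
  exact h (left_mem_Icc.2 hxy) (right_mem_Icc.2 hxy) hxy

/-- `(v'(a) - v'(s))² ≤ (3/200) (a - s) (e(s) - e(a))` -/
lemma aa_sq {s a : ℝ} (h : s < a) :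
    (aa a - aa s) ^ 2 ≤ 3 / 200 * (a - s) * (ee s - ee a) := by
  have key : ∀ l : ℝ, 0 ≤ l ^ 2 * (a - s) - 2 * l * (aa a - aa s) + 3 / 200 * (ee s - ee a) := by
    intro l
    have hd : ∀ t, HasDerivAt
        (fun t => l ^ 2 * (a - t) - 2 * l * (aa a - aa t) + 3 / 200 * (ee t - ee a))
        (-l ^ 2 + 2 * l * bb2 t - 3 / 200 * cc t) t := by
      intro t
      have h1 := ((hasDerivAt_id' t).const_sub a).const_mul (l ^ 2)
      have h2 := ((aa_has' t).const_sub (aa a)).const_mul (2 * l)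
      have h3 := ((ee_has' t).sub_const (ee a)).const_mul (3 / 200)
      refine ((h1.sub h2).add h3).congr_deriv ?_
      ring
    have := anti_le hd h.le (fun t _ _ => by nlinarith [bb2_sq_le t, sq_nonneg (l - bb2 t)])
    simpa using this
  have hp : 0 < a - s := sub_pos.2 h
  have h1 := key ((aa a - aa s) / (a - s))
  have h2 : (a - s) * (((aa a - aa s) / (a - s)) ^ 2 * (a - s)
      - 2 * ((aa a - aa s) / (a - s)) * (aa a - aa s) + 3 / 200 * (ee s - ee a))
      = 3 / 200 * (a - s) * (ee s - ee a) - (aa a - aa s) ^ 2 := by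
    field_simp
    ring
  have h3 := mul_nonneg hp.le h1
  rw [h2] at h3
  linarith

/-! ### `D(s) = (a - s) ky(a,s)` -/

/-- `(a-s) ky(a,s)` -/
def DD2 (a s : ℝ) : ℝ :=
  chi a - chi s - (a - s) * hh s + (a - s) * aa a ^ 2 - 2 * aa a * (H0 a - H0 s)

lemma DD2_has (a s : ℝ) :
    HasDerivAt (DD2 a) (-((aa a - aa s) ^ 2 + (a - s) * hp s)) s := by
  have h1 := (chi_has s).const_sub (chi a)
  have h2 := ((hasDerivAt_id' s).const_sub a).mul (hh_has s)
  have h3 := ((hasDerivAt_id' s).const_sub a).mul_const (aa a ^ 2)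
  have h4 := ((H0_has s).const_sub (H0 a)).const_mul (2 * aa a)
  refine (((h1.sub h2).add h3).sub h4).congr_deriv ?_
  unfold chi'
  ring

lemma DD2_self (a : ℝ) : DD2 a a = 0 := by unfold DD2; ring

lemma mul_ky {a b : ℝ} (h : a ≠ b) : (a - b) * Stein378.ky H0 aa chi chi' a b = DD2 a b := by
  have h1 : a - b ≠ 0 := sub_ne_zero.2 h
  have h2 : b - a ≠ 0 := sub_ne_zero.2 h.symm
  unfold Stein378.ky dd1 DD2 chi'
  rw [if_neg h, if_neg h.symm]
  field_simp
  ring

/-- primitive comparison -/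
lemma Pf_has (a C s : ℝ) : HasDerivAt (fun s => C * ((Pl a - Pl s) - (a - s) * lm s))
    (-(C * ((a - s) * ee s))) s := by
  have h1 := (Pl_hasDerivAt s).const_sub (Pl a)
  have h2 := ((hasDerivAt_id' s).const_sub a).mul (lm_hasDerivAt s)
  refine ((h1.sub h2).const_mul C).congr_deriv ?_
  ring

lemma av_mul {x y : ℝ} (h : x < y) : Pl y - Pl x = (y - x) * av x y := by
  have : y - x ≠ 0 := (sub_pos.2 h).ne'
  unfold av; field_simp

lemma case_lt {a b : ℝ} (h : b < a) :
    |Stein378.ky H0 aa chi chi' a b| ≤ 23 / 200 * (av b a - lm b) := by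
  have hd : 0 < a - b := sub_pos.2 h
  have eA : Pl a - Pl b - (a - b) * lm b = (a - b) * (av b a - lm b) := by
    rw [av_mul h]; ring
  have up : DD2 a b ≤ 23 / 200 * ((Pl a - Pl b) - (a - b) * lm b) := by
    have hder : ∀ s, HasDerivAt (fun s => 23 / 200 * ((Pl a - Pl s) - (a - s) * lm s) - DD2 a s)
        (-(23 / 200 * ((a - s) * ee s)) - -((aa a - aa s) ^ 2 + (a - s) * hp s)) s :=
      fun s => (Pf_has a (23 / 200) s).sub (DD2_has a s)
    have := anti_le hder h.le (fun s _ h2 => by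
      have e1 := aa_sq h2
      have e2 := hp_lt s
      have e3 : 0 < a - s := sub_pos.2 h2
      have e4 := ee_pos a
      have e5 : (a - s) * hp s ≤ (a - s) * (1 / 10 * ee s) := mul_le_mul_of_nonneg_left e2.le e3.le
      have e6 : 0 < (a - s) * ee a := mul_pos e3 e4
      nlinarith)
    simp only [sub_self, zero_mul, mul_zero, DD2_self] at this
    linarith
  have lo : -(23 / 200 * ((Pl a - Pl b) - (a - b) * lm b)) ≤ DD2 a b := by
    have hder : ∀ s, HasDerivAt (fun s => 23 / 200 * ((Pl a - Pl s) - (a - s) * lm s) + DD2 a s)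
        (-(23 / 200 * ((a - s) * ee s)) + -((aa a - aa s) ^ 2 + (a - s) * hp s)) s :=
      fun s => (Pf_has a (23 / 200) s).add (DD2_has a s)
    have := anti_le hder h.le (fun s _ h2 => by
      have e2 := hp_gt s
      have e3 : 0 < a - s := sub_pos.2 h2
      have e4 := ee_pos s
      have e5 : (a - s) * (-(8 / 361 * ee s)) ≤ (a - s) * hp s :=
        mul_le_mul_of_nonneg_left e2.le e3.le
      have e6 : 0 < (a - s) * ee s := mul_pos e3 e4
      nlinarith [sq_nonneg (aa a - aa s)])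
    simp only [sub_self, zero_mul, mul_zero, DD2_self, add_zero] at this
    linarith
  rw [eA, ← mul_ky h.ne'] at up lo
  rw [abs_le]
  constructor
  · refine le_of_mul_le_mul_left ?_ hd
    linarith
  · refine le_of_mul_le_mul_left ?_ hd
    linarith

/-- `v'(s) - v'(a) ≤ (2/19)(log μ(s) - log μ(a))` for `a ≤ s` -/
lemma aa_lm {a s : ℝ} (h : a ≤ s) : aa s - aa a ≤ 2 / 19 * (lm s - lm a) := by
  have hder : ∀ t, HasDerivAt (fun t => aa t - 2 / 19 * lm t) (bb2 t - 2 / 19 * ee t) t :=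
    fun t => (aa_has' t).sub ((lm_hasDerivAt t).const_mul _)
  have := anti_le hder h (fun t _ _ => by have := bb2_lt_ee t; linarith)
  linarith

lemma aa_mono {a s : ℝ} (h : a ≤ s) : aa a ≤ aa s :=
  (monotone_of_hasDerivAt_nonneg aa_has' fun z => (bb2_pos z).le) h

lemma aa_pos (z : ℝ) : 0 < aa z := H0_deriv_pos z

lemma case_gt {a b : ℝ} (h : a < b) :
    |Stein378.ky H0 aa chi chi' a b| ≤ 1 / 10 * (av a b - lm a) := by
  have hd : 0 < b - a := sub_pos.2 h
  have hav := av_ge h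
  have hmem := av_mem h
  have eA := av_mul h
  -- lower
  have lo : -(1 / 10 * ((Pl a - Pl b) - (a - b) * lm b)) ≤ -DD2 a b := by
    have hder : ∀ s, HasDerivAt (fun s => -(1 / 10 * ((Pl a - Pl s) - (a - s) * lm s)) + DD2 a s)
        (-(-(1 / 10 * ((a - s) * ee s))) + -((aa a - aa s) ^ 2 + (a - s) * hp s)) s :=
      fun s => (Pf_has a (1 / 10) s).neg.add (DD2_has a s)
    have := anti_le hder h.le (fun s h1 _ => by
      have e2 := hp_lt s
      have e3 : 0 < s - a := sub_pos.2 h1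
      have e5 : (s - a) * hp s ≤ (s - a) * (1 / 10 * ee s) := mul_le_mul_of_nonneg_left e2.le e3.le
      nlinarith [sq_nonneg (aa a - aa s)])
    simp only [sub_self, zero_mul, mul_zero, DD2_self, add_zero, neg_zero] at this
    linarith
  -- upper
  have up : -DD2 a b ≤ 1 / 19 * (Pl b - Pl a - (b - a) * lm a)
      + 8 / 361 * ((Pl a - Pl b) - (a - b) * lm b) := by
    have hq : ∀ s, HasDerivAt (fun s => 1 / 19 * (Pl s - Pl a - (s - a) * lm a))
        (1 / 19 * (lm s - lm a)) s := by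
      intro s
      have h1 := ((Pl_hasDerivAt s).sub_const (Pl a)).sub
        (((hasDerivAt_id' s).sub_const a).mul_const (lm a))
      refine (h1.const_mul (1 / 19)).congr_deriv ?_
      ring
    have hder : ∀ s, HasDerivAt (fun s => -DD2 a s - (1 / 19 * (Pl s - Pl a - (s - a) * lm a)
        + 8 / 361 * ((Pl a - Pl s) - (a - s) * lm s)))
        (-(-((aa a - aa s) ^ 2 + (a - s) * hp s)) - (1 / 19 * (lm s - lm a)
          + -(8 / 361 * ((a - s) * ee s)))) s :=
      fun s => (DD2_has a s).neg.sub ((hq s).add (Pf_has a (8 / 361) s))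
    have := anti_le hder h.le (fun s h1 _ => by
      have e2 := hp_gt s
      have e3 : 0 < s - a := sub_pos.2 h1
      have e5 : (s - a) * (-(8 / 361 * ee s)) ≤ (s - a) * hp s :=
        mul_le_mul_of_nonneg_left e2.le e3.le
      have e6 := aa_lm h1.le
      have e7 := aa_mono h1.le
      have e8 := aa_pos a
      have e9 := aa_lt s
      have e10 : (aa a - aa s) ^ 2 ≤ 1 / 19 * (lm s - lm a) := by nlinarith
      nlinarith)
    simp only [sub_self, zero_mul, mul_zero, DD2_self, add_zero, neg_zero] at this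
    linarith
  rw [← mul_ky h.ne] at up lo
  rw [abs_le]
  constructor
  · refine le_of_mul_le_mul_left ?_ hd
    nlinarith
  · refine le_of_mul_le_mul_left ?_ hd
    nlinarith

/-- **the `T`-kernel** -/
theorem ky_rho (a b : ℝ) : Stein378.ky H0 aa chi chi' a b ^ 2 ≤ 1 / 25 * rho a b := by
  rcases lt_trichotomy a b with h | h | h
  · have h1 := case_gt h
    have h2 := rho_ge_a h
    have h3 := pow_le_pow_left₀ (abs_nonneg _) h1 2
    rw [sq_abs, mul_pow] at h3
    have h4 := rho_nonneg a b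
    nlinarith
  · subst h
    rw [rho_self]
    unfold Stein378.ky dd1
    simp
  · have h1 := case_lt h
    have h2 := rho_ge_a h
    rw [rho_comm] at h2
    have h3 := pow_le_pow_left₀ (abs_nonneg _) h1 2
    rw [sq_abs, mul_pow] at h3
    have h4 := rho_nonneg a b
    nlinarith

end

end Crest.Agent.R253.KY688
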