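import Crest.Agent.R253.Hx_741
import Crest.Agent.R253.HTl_741

/-!
# Row 253: `v''² ≤ (1/8) v' (1/2 - v')` (helper741)
-/

open MeasureTheory Set Filter Topology Real

namespace Crest.Agent.R253.HSc741

open Crest.Agent.R253.Mills37 Crest.Agent.R253.Slack688 Crest.Agent.R253.V2451
open Crest.Agent.R253.HFn741 Crest.Agent.R253.HTl741 Crest.Agent.R253.Ham741

noncomputable section

lemma lam8_chk : chkX 8 14 (Xa * (.c 2 * (.e * .k) - Xmu) - .c 16 * (Xb * Xb)) (-64) 128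
    = true := by
  decide +kernel

lemma mu_aa (z : ℝ) : mu z * aa z = mu z - ee z * kk z := by
  have := mu_H0 z
  unfold aa; rw [mul_sub, mul_one, ← this]; ring

lemma lam8_mid {z : ℝ} (h1 : -4 ≤ z) (h2 : z < 8) :
    bb2 z ^ 2 < 1 / 8 * (aa z * (1 / 2 - aa z)) := by
  have h := hamx lam8_chk (by norm_num) (by norm_num) (z := z)
    (by push_cast; linarith) (by push_cast; linarith)
  simp only [ev_sub, ev_mul, ev_Xa, ev_Xb, ev_Xmu, ev_c, ev_e, ev_k] at h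
  have hm := mu_pos z
  have ha := mu_aa z
  have e : mu z * aa z * (((2 : ℤ) : ℝ) * (ee z * kk z) - mu z) -
      ((16 : ℤ) : ℝ) * (mu z * bb2 z * (mu z * bb2 z)) =
      16 * mu z ^ 2 * (1 / 8 * (aa z * (1 / 2 - aa z)) - bb2 z ^ 2) := by
    have : ee z * kk z = mu z - mu z * aa z := by linarith
    rw [this]; push_cast; ring
  rw [e] at h
  have h16 : 0 < 16 * mu z ^ 2 := by positivity
  have := (mul_pos_iff_of_pos_left h16).1 h
  linarith

/-- `v'' ≤ 2 e (1/2 - v')` for all `z` -/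
lemma bb2_le_two (z : ℝ) : bb2 z ≤ 2 * ee z * (1 / 2 - aa z) := by
  have h1 := ee_pos z
  have h2 : ww z ≤ 2 * ee z ^ 2 := by
    have := ss_pos z
    unfold ss at this
    unfold ww; linarith
  have h3 := H0_pos z
  have : ww z * H0 z ≤ 2 * ee z ^ 2 * H0 z := mul_le_mul_of_nonneg_right h2 h3.le
  unfold bb2 aa
  nlinarith

lemma a4_chk : chkX 8 14 (.c 5 * Xa - .c 2 * Xmu) 64 128 = true := by
  decide +kernel

lemma aa_gt_of_four {z : ℝ} (hz : 4 ≤ z) : 2 / 5 < aa z := by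
  have h := hamx a4_chk (by norm_num) (by norm_num) (z := 4)
    (by push_cast; norm_num) (by push_cast; norm_num)
  simp only [ev_sub, ev_mul, ev_Xa, ev_Xmu, ev_c] at h
  have hm := mu_pos 4
  have e : ((5 : ℤ) : ℝ) * (mu 4 * aa 4) - ((2 : ℤ) : ℝ) * mu 4 = mu 4 * (5 * aa 4 - 2) := by
    push_cast; ring
  rw [e] at h
  have h2 := (mul_pos_iff_of_pos_left hm).1 h
  have h3 := aa_strictMono.monotone hz
  linarith

lemma am4_chk : chkX 8 14 (Xmu - .c 4 * Xa) (-64) (-63) = true := by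
  decide +kernel

lemma aa_lt_of_neg_four {z : ℝ} (hz : z ≤ -4) : aa z < 1 / 4 := by
  have h := hamx am4_chk (by norm_num) (by norm_num) (z := -4)
    (by push_cast; norm_num) (by push_cast; norm_num)
  simp only [ev_sub, ev_mul, ev_Xa, ev_Xmu, ev_c] at h
  have hm := mu_pos (-4)
  have e : mu (-4) - ((4 : ℤ) : ℝ) * (mu (-4) * aa (-4)) = mu (-4) * (1 - 4 * aa (-4)) := by
    push_cast; ring
  rw [e] at h
  have h2 := (mul_pos_iff_of_pos_left hm).1 h
  have h3 := aa_strictMono.monotone hz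
  linarith

lemma lam8_right {z : ℝ} (h : 4 ≤ z) : bb2 z ^ 2 ≤ 1 / 8 * (aa z * (1 / 2 - aa z)) := by
  have h1 := bb2_le_two z
  have h2 := bb2_pos z
  have h3 := aa_gt_of_four h
  have h4 := aa_lt z
  have h5 := ee_pos z
  have h6 : ee z < 1 / 4 := by
    have := ee_lt (z := z) (by linarith)
    have h7 : 1 / z ≤ 1 / 4 := one_div_le_one_div_of_le (by norm_num) h
    linarith
  have h8 : bb2 z ^ 2 ≤ (2 * ee z * (1 / 2 - aa z)) ^ 2 := pow_le_pow_left₀ h2.le h1 2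
  have h9 : 0 < 1 / 2 - aa z := by linarith
  have h10 : ee z ^ 2 ≤ 1 / 16 := by nlinarith
  have h11 : (2 * ee z * (1 / 2 - aa z)) ^ 2 ≤ 1 / 4 * (1 / 2 - aa z) ^ 2 := by
    have : (2 * ee z * (1 / 2 - aa z)) ^ 2 = 4 * ee z ^ 2 * (1 / 2 - aa z) ^ 2 := by ring
    rw [this]
    have := sq_nonneg (1 / 2 - aa z)
    nlinarith
  nlinarith

lemma lam8_left {z : ℝ} (h : z ≤ -4) : bb2 z ^ 2 ≤ 1 / 8 * (aa z * (1 / 2 - aa z)) := by
  obtain ⟨y, rfl⟩ : ∃ y, z = -y := ⟨-z, by ring⟩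
  have hy : 4 ≤ y := by linarith
  have h1 := bb2_neg_le (y := y) (by linarith)
  have h2 := bb2_pos (-y)
  have h3 := aa_neg_ge (y := y) (by linarith)
  have h4 := aa_lt_of_neg_four h
  have h5 := mu_neg_le hy
  have h6 : y < mu y := mu_ge_self
  have h7 := ww_lt (z := y) (by linarith)
  have h8 := ee_gt y
  have h9 := aa_pos (-y)
  have hm := mu_pos (-y)
  obtain ⟨M, hM⟩ : ∃ M, M = 1 / mu y := ⟨_, rfl⟩
  have hM0 : 0 < M := by rw [hM]; exact one_div_pos.2 (mu_pos y)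
  have hMy : M * y < 1 := by
    rw [hM, div_mul_eq_mul_div, one_mul, div_lt_one (by linarith)]; exact h6
  rw [← hM] at h1 h3
  have hy2 : (0 : ℝ) < 2 + y ^ 2 := by positivity
  have hww := ww_pos y
  -- w ≤ 2/(2+y²)
  have hw1 : ww y ≤ 2 / (2 + y ^ 2) := by rw [le_div_iff₀ hy2]; exact h7.le
  have he1 : y / (2 + y ^ 2) ≤ ee y := by
    rw [div_le_iff₀ hy2]; linarith
  have hmu : mu (-y) ≤ 1 / 1000 * (y / (2 + y ^ 2)) := by
    rw [mul_div, le_div_iff₀ hy2]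
    have h10 : (4 : ℝ) ^ 5 ≤ y ^ 5 := pow_le_pow_left₀ (by norm_num) hy 5
    have h11 : mu (-y) * (2 + y ^ 2) * y ^ 5 ≤ 1 / 1000 * y * y ^ 5 := by
      have e1 : mu (-y) * (2 + y ^ 2) * y ^ 5 = (y ^ 6 * mu (-y)) * ((2 + y ^ 2) / y) := by
        field_simp
      rw [e1]
      have h12 : (2 + y ^ 2) / y ≤ 5 / 4 * y := by
        rw [div_le_iff₀ (by linarith)]; nlinarith
      calc _ ≤ 3 / 5 * (5 / 4 * y) := mul_le_mul h5 h12 (by positivity) (by norm_num)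
        _ ≤ _ := by nlinarith
    exact le_of_mul_le_mul_right h11 (by positivity)
  have ha : 999 / 1000 * (y / (2 + y ^ 2)) * M ≤ aa (-y) := by
    refine le_trans ?_ h3
    refine mul_le_mul_of_nonneg_right ?_ hM0.le
    linarith
  have hb : bb2 (-y) ≤ 2 / (2 + y ^ 2) * M := by
    refine h1.trans (mul_le_mul_of_nonneg_right hw1 hM0.le)
  have hb2 : bb2 (-y) ^ 2 ≤ (2 / (2 + y ^ 2) * M) ^ 2 := pow_le_pow_left₀ h2.le hb 2
  -- (2/(2+y²) M)² ≤ (1/32) (999/1000) (y/(2+y²)) M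
  have hfin : (2 / (2 + y ^ 2) * M) ^ 2 ≤ 1 / 32 * (999 / 1000 * (y / (2 + y ^ 2)) * M) := by
    have h13 : M ≤ 1 / y := by rw [le_div_iff₀ (by linarith)]; exact hMy.le
    have e2 : (2 / (2 + y ^ 2) * M) ^ 2 = (4 * M / (2 + y ^ 2)) * (M / (2 + y ^ 2)) := by ring
    have e3 : 1 / 32 * (999 / 1000 * (y / (2 + y ^ 2)) * M) =
      (999 / 32000 * y) * (M / (2 + y ^ 2)) := by ring
    rw [e2, e3]
    refine mul_le_mul_of_nonneg_right ?_ (by positivity)
    rw [div_le_iff₀ hy2]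
    have : 4 * M ≤ 4 * (1 / y) := by linarith
    refine this.trans ?_
    rw [mul_one_div, div_le_iff₀ (by linarith)]
    nlinarith [mul_nonneg (sub_nonneg.2 hy) (sub_nonneg.2 hy), sq_nonneg y, sq_nonneg (y ^ 2 - 16)]
  nlinarith

/-- **`v''² ≤ (1/8) v' (1/2 - v')`** -/
theorem bb2_sq_le (z : ℝ) : bb2 z ^ 2 ≤ 1 / 8 * (aa z * (1 / 2 - aa z)) := by
  rcases le_total z (-4) with h | h
  · exact lam8_left h
  · rcases lt_or_ge z 8 with h2 | h2
    · exact (lam8_mid h h2).le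
    · exact lam8_right (by linarith)

end

end Crest.Agent.R253.HSc741
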