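import Crest.Agent.R253.Mills_37

/-!
# Row 253 (helper451): odd parts of `μ` and `v = H0`

* `mu_odd : 0 ≤ z → z ≤ mu z - mu (-z)`
* `H0_odd : 0 ≤ z → z / 2 ≤ H0 z - H0 (-z)`
* `go_nonneg : 0 ≤ z * (H0 z - H0 (-z)) - z ^ 2 / 2` for all `z`.
-/

set_option autoImplicit false

open Filter Topology Set Real

namespace Crest.Agent.R253.Odd451

open Crest.Agent.R253.Mills37

noncomputable section

/-- mean value: if `f x < f y`, `x < y`, then `f'` is positive somewhere in `(x, y)` -/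
lemma exists_pos {f f' : ℝ → ℝ} (hf : ∀ z, HasDerivAt f (f' z) z) {x y : ℝ} (hxy : x < y)
    (h : f x < f y) : ∃ t, x < t ∧ t < y ∧ 0 < f' t := by
  obtain ⟨t, ht, e⟩ := exists_hasDerivAt_eq_slope f f' hxy
    (fun t _ => (hf t).continuousAt.continuousWithinAt) (fun t _ => hf t)
  refine ⟨t, ht.1, ht.2, ?_⟩
  rw [e]
  exact div_pos (by linarith) (by linarith)

lemma exists_neg {f f' : ℝ → ℝ} (hf : ∀ z, HasDerivAt f (f' z) z) {x y : ℝ} (hxy : x < y)
    (h : f y < f x) : ∃ t, x < t ∧ t < y ∧ f' t < 0 := by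
  obtain ⟨t, ht, e⟩ := exists_hasDerivAt_eq_slope f f' hxy
    (fun t _ => (hf t).continuousAt.continuousWithinAt) (fun t _ => hf t)
  refine ⟨t, ht.1, ht.2, ?_⟩
  rw [e]
  exact div_neg_of_neg_of_pos (by linarith) (by linarith)

lemma mono_from {f f' : ℝ → ℝ} (hf : ∀ z, HasDerivAt f (f' z) z) {a : ℝ}
    (h : ∀ y, a ≤ y → 0 ≤ f' y) : MonotoneOn f (Ici a) := by
  refine monotoneOn_of_deriv_nonneg (convex_Ici a)
    (fun x _ => (hf x).continuousAt.continuousWithinAt)
    (fun x _ => (hf x).differentiableAt.differentiableWithinAt) ?_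
  intro x hx
  rw [(hf x).deriv]
  rw [interior_Ici] at hx
  exact h x (le_of_lt hx)

lemma anti_from {f f' : ℝ → ℝ} (hf : ∀ z, HasDerivAt f (f' z) z) {a : ℝ}
    (h : ∀ y, a ≤ y → f' y ≤ 0) : AntitoneOn f (Ici a) := by
  refine antitoneOn_of_deriv_nonpos (convex_Ici a)
    (fun x _ => (hf x).continuousAt.continuousWithinAt)
    (fun x _ => (hf x).differentiableAt.differentiableWithinAt) ?_
  intro x hx
  rw [(hf x).deriv]
  rw [interior_Ici] at hx
  exact h x (le_of_lt hx)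

/-- `f 0 ≥ 0`, `f → 0` at infinity, `f'` nonpositive after it was negative: `f ≥ 0` -/
lemma nonneg_of_PN {f f' : ℝ → ℝ} (hf : ∀ z, HasDerivAt f (f' z) z) (h0 : 0 ≤ f 0)
    (hl : Tendsto f atTop (𝓝 0))
    (hp : ∀ x, 0 ≤ x → f' x < 0 → ∀ y, x ≤ y → f' y ≤ 0) : ∀ z, 0 ≤ z → 0 ≤ f z := by
  intro z hz
  by_contra hneg
  push Not at hneg
  have hz0 : 0 < z := by
    rcases hz.lt_or_eq with h | h
    · exact h
    · exfalso; rw [← h] at hneg; linarith
  obtain ⟨t, ht0, htz, ht⟩ := exists_neg hf hz0 (by linarith)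
  have ha := anti_from hf (hp t ht0.le ht)
  have : (0:ℝ) ≤ f z := by
    refine le_of_tendsto hl ?_
    filter_upwards [eventually_ge_atTop z] with x hx
    exact ha (mem_Ici.2 htz.le) (mem_Ici.2 (htz.le.trans hx)) hx
  linarith

/-- `f 0 ≤ 0`, `f'` nonnegative after it was positive: `f` nonnegative after it was positive -/
lemma NP_of_NP {f f' : ℝ → ℝ} (hf : ∀ z, HasDerivAt f (f' z) z) (h0 : f 0 ≤ 0)
    (hp : ∀ x, 0 ≤ x → 0 < f' x → ∀ y, x ≤ y → 0 ≤ f' y) :
    ∀ x, 0 ≤ x → 0 < f x → ∀ y, x ≤ y → 0 ≤ f y := by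
  intro x hx hfx y hxy
  have hx0 : 0 < x := by
    rcases hx.lt_or_eq with h | h
    · exact h
    · exfalso; rw [← h] at hfx; linarith
  obtain ⟨t, ht0, htx, ht⟩ := exists_pos hf hx0 (by linarith)
  have hm := mono_from hf (hp t ht0.le ht)
  have := hm (mem_Ici.2 htx.le) (mem_Ici.2 (htx.le.trans hxy)) hxy
  linarith

/-- `f → 0` at infinity, `f'` nonnegative after it was positive: `f` nonpositive after it was
negative -/
lemma PN_of_NP {f f' : ℝ → ℝ} (hf : ∀ z, HasDerivAt f (f' z) z)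
    (hl : Tendsto f atTop (𝓝 0))
    (hp : ∀ x, 0 ≤ x → 0 < f' x → ∀ y, x ≤ y → 0 ≤ f' y) :
    ∀ x, 0 ≤ x → f x < 0 → ∀ y, x ≤ y → f y ≤ 0 := by
  intro x hx hfx y hxy
  by_contra hpos
  push Not at hpos
  have hxy' : x < y := by
    rcases hxy.lt_or_eq with h | h
    · exact h
    · exfalso; rw [h] at hfx; linarith
  obtain ⟨t, ht0, hty, ht⟩ := exists_pos hf hxy' (by linarith)
  have hm := mono_from hf (hp t (hx.trans ht0.le) ht)
  have : f y ≤ (0:ℝ) := by
    refine ge_of_tendsto hl ?_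
    filter_upwards [eventually_ge_atTop y] with s hs
    exact hm (mem_Ici.2 hty.le) (mem_Ici.2 (hty.le.trans hs)) hs
  linarith

/-! ### (G1) -/

lemma Q_zero : Q 0 = 1 / 2 := by
  have h := Q_neg 0
  rw [neg_zero] at h
  linarith

def WW (z : ℝ) : ℝ := 1 - 2 * Q z - 4 * (z * ph z)
def YY (z : ℝ) : ℝ := 2 * ph z ^ 2 - Q z * (1 - Q z)
def XX (z : ℝ) : ℝ := ph z * (1 - 2 * Q z) - z * (Q z * (1 - Q z))

lemma WW_has (z : ℝ) : HasDerivAt WW (ph z * (4 * z ^ 2 - 2)) z := by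
  have h1 := (((Q_hasDerivAt z).const_mul 2).const_sub 1).sub
    ((((hasDerivAt_id z).mul (ph_hasDerivAt z))).const_mul 4)
  refine (h1.congr_of_eventuallyEq ?_).congr_deriv ?_
  · filter_upwards with x
    simp only [WW, Pi.sub_apply, Pi.mul_apply, id]
  · simp only [id]; ring

lemma YY_has (z : ℝ) : HasDerivAt YY (ph z * WW z) z := by
  have h1 := (((ph_hasDerivAt z).pow 2).const_mul 2).sub
    ((Q_hasDerivAt z).mul ((Q_hasDerivAt z).const_sub 1))
  refine (h1.congr_of_eventuallyEq ?_).congr_deriv ?_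
  · filter_upwards with x
    simp only [YY, Pi.sub_apply, Pi.mul_apply, Pi.pow_apply]
  · unfold WW; ring

lemma XX_has (z : ℝ) : HasDerivAt XX (YY z) z := by
  have h1 := ((ph_hasDerivAt z).mul (((Q_hasDerivAt z).const_mul 2).const_sub 1)).sub
    ((hasDerivAt_id z).mul ((Q_hasDerivAt z).mul ((Q_hasDerivAt z).const_sub 1)))
  refine (h1.congr_of_eventuallyEq ?_).congr_deriv ?_
  · filter_upwards with x
    simp only [XX, Pi.sub_apply, Pi.mul_apply, id]
  · simp only [id, Pi.mul_apply]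
    unfold YY; ring

lemma ph_tendsto : Tendsto ph atTop (𝓝 0) := by
  simpa using pow_mul_ph_tendsto 0

lemma YY_tendsto : Tendsto YY atTop (𝓝 0) := by
  have h := ((ph_tendsto.pow 2).const_mul 2).sub
    (Q_tendsto_top.mul (Q_tendsto_top.const_sub 1))
  norm_num at h
  exact h

lemma XX_tendsto : Tendsto XX atTop (𝓝 0) := by
  have h1 := (ph_tendsto.mul ((Q_tendsto_top.const_mul 2).const_sub 1))
  have h2 := (pow_mul_Q_tendsto 1).mul (Q_tendsto_top.const_sub 1)
  have h := h1.sub h2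
  norm_num at h
  refine h.congr fun z => ?_
  unfold XX; ring

lemma XX_nonneg {z : ℝ} (hz : 0 ≤ z) : 0 ≤ XX z := by
  have hW' : ∀ x : ℝ, 0 ≤ x → 0 < ph x * (4 * x ^ 2 - 2) → ∀ y, x ≤ y →
      0 ≤ ph y * (4 * y ^ 2 - 2) := by
    intro x hx h y hxy
    have h1 : 0 < 4 * x ^ 2 - 2 := by
      by_contra hn
      push Not at hn
      have := mul_nonpos_of_nonneg_of_nonpos (ph_pos x).le hn
      linarith
    have h2 : 0 ≤ 4 * y ^ 2 - 2 := by nlinarith
    exact mul_nonneg (ph_pos y).le h2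
  have hW := NP_of_NP WW_has (by unfold WW; rw [Q_zero]; norm_num) hW'
  have hY' : ∀ x : ℝ, 0 ≤ x → 0 < ph x * WW x → ∀ y, x ≤ y → 0 ≤ ph y * WW y := by
    intro x hx h y hxy
    have h1 : 0 < WW x := by
      by_contra hn
      push Not at hn
      have := mul_nonpos_of_nonneg_of_nonpos (ph_pos x).le hn
      linarith
    exact mul_nonneg (ph_pos y).le (hW x hx h1 y hxy)
  have hY := PN_of_NP YY_has YY_tendsto hY'
  exact nonneg_of_PN XX_has (by unfold XX; rw [Q_zero]; norm_num) XX_tendsto hY z hz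

/-- **(G1)** -/
theorem mu_odd {z : ℝ} (hz : 0 ≤ z) : z ≤ mu z - mu (-z) := by
  have h := XX_nonneg hz
  have hq := Q_pos z
  have hq1 : 0 < 1 - Q z := by have := Q_lt_one z; linarith
  have e : mu z - mu (-z) = ph z * (1 - 2 * Q z) / (Q z * (1 - Q z)) := by
    unfold mu
    rw [Q_neg, ph_neg]
    field_simp
    ring
  rw [e, le_div_iff₀ (mul_pos hq hq1)]
  unfold XX at h
  linarith

/-! ### (G2) -/

def EE' (z : ℝ) : ℝ := Real.log (Q z) + Real.log (1 - Q z) + 3 / 2 + z ^ 2 / 2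
def DD' (z : ℝ) : ℝ :=
  -(Q z * Real.log (Q z)) + (1 - Q z) * Real.log (1 - Q z) - 1 / 2 * (z * ph z)

lemma EE_has (z : ℝ) : HasDerivAt EE' (mu (-z) - mu z + z) z := by
  have hq := Q_pos z
  have hq1 : 0 < 1 - Q z := by have := Q_lt_one z; linarith
  have h1 := ((((Q_hasDerivAt z).log hq.ne').add
    (((Q_hasDerivAt z).const_sub 1).log hq1.ne')).add_const (3/2)).add
    ((hasDerivAt_pow 2 z).div_const 2)
  refine (h1.congr_of_eventuallyEq ?_).congr_deriv ?_
  · filter_upwards with x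
    simp only [EE', Pi.add_apply]
  · unfold mu
    rw [Q_neg, ph_neg]
    push_cast
    ring

lemma DD_has (z : ℝ) : HasDerivAt DD' (ph z * EE' z) z := by
  have hq := Q_pos z
  have hq1 : 0 < 1 - Q z := by have := Q_lt_one z; linarith
  have h1 := ((((Q_hasDerivAt z).mul ((Q_hasDerivAt z).log hq.ne')).neg).add
    (((Q_hasDerivAt z).const_sub 1).mul (((Q_hasDerivAt z).const_sub 1).log hq1.ne'))).sub
    (((hasDerivAt_id z).mul (ph_hasDerivAt z)).const_mul (1/2))
  refine (h1.congr_of_eventuallyEq ?_).congr_deriv ?_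
  · filter_upwards with x
    simp only [DD', Pi.add_apply, Pi.sub_apply, Pi.mul_apply, Pi.neg_apply, id]
  · simp only [id]
    unfold EE'
    field_simp
    ring

lemma DD_tendsto : Tendsto DD' atTop (𝓝 0) := by
  have hc : Tendsto (fun x : ℝ => x * Real.log x) (𝓝 0) (𝓝 0) := by
    have := (Real.continuous_mul_log).tendsto 0
    simpa using this
  have hc1 : Tendsto (fun x : ℝ => x * Real.log x) (𝓝 1) (𝓝 0) := by
    have := (Real.continuous_mul_log).tendsto 1
    simpa using this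
  have h1 := hc.comp Q_tendsto_top
  have h2' : Tendsto (fun z => 1 - Q z) atTop (𝓝 1) := by
    simpa using Q_tendsto_top.const_sub 1
  have h2 := hc1.comp h2'
  have h3 := (pow_mul_ph_tendsto 1).const_mul (1/2)
  have h := (h1.neg.add h2).sub h3
  norm_num at h
  refine h.congr fun z => ?_
  simp only [DD']

lemma DD_nonneg {z : ℝ} (hz : 0 ≤ z) : 0 ≤ DD' z := by
  have hE : AntitoneOn EE' (Ici 0) := anti_from EE_has (fun y hy => by
    have := mu_odd hy; linarith)
  have hp : ∀ x : ℝ, 0 ≤ x → ph x * EE' x < 0 → ∀ y, x ≤ y → ph y * EE' y ≤ 0 := by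
    intro x hx h y hxy
    have h1 : EE' x < 0 := by
      by_contra hn
      push Not at hn
      have := mul_nonneg (ph_pos x).le hn
      linarith
    have h2 : EE' y ≤ EE' x := hE (mem_Ici.2 hx) (mem_Ici.2 (hx.trans hxy)) hxy
    exact mul_nonpos_of_nonneg_of_nonpos (ph_pos y).le (by linarith)
  refine nonneg_of_PN DD_has ?_ DD_tendsto hp z hz
  unfold DD'
  rw [Q_zero]
  norm_num

lemma H0_eqQ (z : ℝ) : H0 z = -(Q z * Real.log (Q z)) / ph z := by
  have := ph_pos z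
  have := Q_pos z
  unfold H0 kk mu
  field_simp

/-- **(G2)** -/
theorem H0_odd {z : ℝ} (hz : 0 ≤ z) : z / 2 ≤ H0 z - H0 (-z) := by
  have h := DD_nonneg hz
  have hp := ph_pos z
  rw [H0_eqQ, H0_eqQ, Q_neg, ph_neg, ← sub_div, le_div_iff₀ hp]
  unfold DD' at h
  linarith

theorem go_nonneg (z : ℝ) : 0 ≤ z * (H0 z - H0 (-z)) - z ^ 2 / 2 := by
  rcases le_total 0 z with hz | hz
  · have h := H0_odd hz
    nlinarith
  · have h := H0_odd (z := -z) (by linarith)
    rw [neg_neg] at h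
    nlinarith

/-- `z (μ(z) - μ(-z) - z) ≥ 0` -/
theorem mo_nonneg (z : ℝ) : 0 ≤ z * (mu z - mu (-z) - z) := by
  rcases le_total 0 z with hz | hz
  · have h := mu_odd hz
    exact mul_nonneg hz (by linarith)
  · have h := mu_odd (z := -z) (by linarith)
    rw [neg_neg] at h
    nlinarith

end

end Crest.Agent.R253.Odd451
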