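import Crest.Agent.R253.V3_37
import Crest.Agent.R253.KW_718

/-! # Row 253, helper37: the kernel constants that follow from `v'' < (11/100) e`, `|v'''| < e/20` -/

set_option autoImplicit false

noncomputable section

namespace Crest.Agent.R253.PairK37

open Crest.Agent.R253.Mills37 Crest.Agent.R253.SpecCalc999 Crest.Agent.R253.Rho195
  Crest.Agent.R253.HFn741 Crest.Agent.R253.Slack688 Crest.Agent.R253.Rho3

/-- `v'''` is the derivative of `v''` -/
theorem bb2_has (z : ℝ) : HasDerivAt bb2 (v3 z) z := v2_hasDerivAt z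
theorem bb2_le (z : ℝ) : bb2 z ≤ 11 / 100 * ee z := (v2_lt z).le
theorem abs_v3_le (z : ℝ) : |v3 z| ≤ 1 / 20 * ee z := (abs_v3_lt z).le

/-- **Cs** : `(v'[a,b] - v''(b))² ≤ (3/400) ρ(a,b)` -/
theorem ks_rho' (a b : ℝ) : (dd1 aa bb2 a b - bb2 b) ^ 2 ≤ 3 / 400 * rho a b := by
  have h := ker3' (f := aa) (f' := bb2) (f'' := v3) (C := 1 / 20) aa_has' bb2_has abs_v3_le a b
  have e : (3 : ℝ) * (1 / 20) ^ 2 = 3 / 400 := by norm_num
  rwa [e] at h
theorem ks_rho (a b : ℝ) : (dd1 aa bb2 b a - bb2 a) ^ 2 ≤ 3 / 400 * rho a b := by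
  rw [rho_comm]; exact ks_rho' b a

/-- **Ce** (fallback to 718's sharper one) : `(v[a,b] - v'(b))² ≤ (363/10000) ρ(a,b)` -/
theorem kv_rho' (a b : ℝ) : (dd1 H0 aa a b - aa b) ^ 2 ≤ 363 / 10000 * rho a b := by
  have h := KW718.kv_rho' bb2_le a b
  have e : (3 : ℝ) * (11 / 100) ^ 2 = 363 / 10000 := by norm_num
  rwa [e] at h

end Crest.Agent.R253.PairK37
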