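import Crest.Agent.R253.Conv_80
import Crest.Agent.R253.EO_629
import Crest.Agent.R253.DualR_862
import Crest.Agent.R253.KI_718
import Crest.Agent.R253.KY_688
import Crest.Agent.R253.HL_718
import Crest.Agent.R253.PairK_37
import Crest.Agent.R253.Lam_741
import Crest.Agent.R253.Odd_451

/-!
# Row 253: `MainQ n` from real-variable conditions only (helper214)

`mainQ_of_real` : all kernel constants inserted
(`Ce = 13/500`, `Cw = 13/2000`, `Cy = 1/25`, `Cs = 3/400`, `lam = 1/8`,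
`ρ = 3/8`, `κ = 1/2` near, `κ = 1/4` far); what remains are conditions on the real functions
`A, b1, b2, r` and the minorants of `hh` and `F2`.
-/

set_option autoImplicit false

open MeasureTheory ProbabilityTheory Set Filter Topology Matrix
open scoped ContDiff

noncomputable section

namespace Crest.Agent.R253.Join214

open Crest.Agent.R238.Gap Crest.Agent.R253.SpecCalc999 Crest.Agent.R253.Meh74
  Crest.Agent.R253.SpecField321 Crest.Agent.R253.S3 Crest.Agent.R253.LamB301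
  Crest.Agent.R253.LamI301
open Crest.Agent.R253.DualP973 (Tm ef Lx MTm Mx_eq dk_eq c1_ef Yf Gf)
open Crest.Agent.R253.ErrT378 (Lam lam_ge)
open Crest.Agent.R253.Frame321 (Zf Uf Ff Uf_eq M_eq mf_Zf Zf_symm Slk)
open Crest.Agent.R253.Mills37 (mu H0 kk ee)
open Crest.Agent.R253.Slack688 (aa H0_has)
open Crest.Agent.R253.ScalE688 (zf)
open Crest.Agent.R253.HFn741 (chi chi' hh bb2)
open Crest.Agent.R253.Inst321
open Crest.Agent.R253.Stein378 (ky)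
open Crest.Agent.R253.TrC80
open Crest.Agent.R253.FinQ214 (mg)

variable {n : ℕ} {G : Fin n → E n → ℝ} {M N : Fld n} {V : E n → ℝ} {lo hi : ℝ}

/-! ### scalar facts -/

lemma aa_pos (z : ℝ) : 0 < aa z := Slack688.aa_pos z
lemma aa_lt (z : ℝ) : aa z < 1 / 2 := HFn741.aa_lt z

lemma abs_aa_le (z : ℝ) : |aa z| ≤ 1 / 2 := by
  rw [abs_of_pos (aa_pos z)]; exact (aa_lt z).le

lemma abs_aa4_le (z : ℝ) : |aa z - 1 / 4| ≤ 1 / 4 := by
  have h1 := aa_pos z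
  have h2 := aa_lt z
  rw [abs_le]; constructor <;> linarith

lemma aa_sq_lt (z : ℝ) : aa z ^ 2 < 1 / 4 := by
  have h1 := aa_pos z
  have h2 := aa_lt z
  nlinarith

lemma hh_eq'' (z : ℝ) : chi' z - aa z ^ 2 = hh z := by
  rw [HFn741.chi'_eq, HFn741.hh_eq]; ring

lemma chi'_lt (z : ℝ) : chi' z < 3 / 4 := by
  have h1 := hh_eq'' z
  have h2 := HL718.hh_lt z
  have h3 := aa_sq_lt z
  linarith

lemma rho_num (a b : ℝ) : |chi' b - aa b ^ 2 - aa a ^ 2 - 1 / 8| ≤ 3 / 8 := by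
  have h1 := hh_eq'' b
  have h2 := HL718.hh_lt b
  have h3 := HFn741.hh_pos b
  have h4 := aa_sq_lt a
  have h5 := sq_nonneg (aa a)
  rw [abs_le]; constructor <;> linarith

lemma chi_num (z : ℝ) : (chi z - chi 0 - 3 / 8 * z) ^ 2 ≤ 0 + 0 * z + 9 / 64 * z ^ 2 := by
  have key : ∀ x y : ℝ, x ≤ y → 0 ≤ chi y - chi x ∧ chi y - chi x ≤ 3 / 4 * (y - x) := by
    intro x y hxy
    have hm : Monotone chi := monotone_of_deriv_nonneg
      (fun t => (HFn741.chi_has t).differentiableAt)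
      (fun t => by rw [(HFn741.chi_has t).deriv]; exact (HFn741.chi'_pos t).le)
    have hm2 : Monotone (fun t => 3 / 4 * t - chi t) := by
      have hd : ∀ t, HasDerivAt (fun t => 3 / 4 * t - chi t) (3 / 4 * 1 - chi' t) t := fun t =>
        ((hasDerivAt_id t).const_mul (3 / 4)).sub (HFn741.chi_has t)
      refine monotone_of_deriv_nonneg (fun t => (hd t).differentiableAt) fun t => ?_
      rw [(hd t).deriv]
      have := chi'_lt t
      linarith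
    have h1 := hm hxy
    have h2 := hm2 hxy
    simp only at h2
    constructor <;> linarith
  rcases le_total 0 z with h | h
  · obtain ⟨h1, h2⟩ := key 0 z h
    nlinarith [mul_nonneg (show 0 ≤ 3 / 8 * z - (chi z - chi 0 - 3 / 8 * z) by linarith)
      (show 0 ≤ 3 / 8 * z + (chi z - chi 0 - 3 / 8 * z) by linarith)]
  · obtain ⟨h1, h2⟩ := key z 0 h
    nlinarith [mul_nonneg (show 0 ≤ -(3 / 8 * z) - (chi z - chi 0 - 3 / 8 * z) by linarith)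
      (show 0 ≤ -(3 / 8 * z) + (chi z - chi 0 - 3 / 8 * z) by linarith)]

lemma H0_lip4 (x y : ℝ) : |(H0 x - 1 / 4 * x) - (H0 y - 1 / 4 * y)| ≤ 1 / 4 * |x - y| := by
  have hd : ∀ t, HasDerivAt (fun t => H0 t - 1 / 4 * t) (aa t - 1 / 4 * 1) t := fun t =>
    (H0_has t).sub ((hasDerivAt_id t).const_mul (1 / 4))
  have := Convex.norm_image_sub_le_of_norm_deriv_le (f := fun t => H0 t - 1 / 4 * t)
    (C := 1 / 4) (s := Set.univ) (fun t _ => (hd t).differentiableAt) (fun t _ => by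
      rw [(hd t).deriv, mul_one, Real.norm_eq_abs]; exact abs_aa4_le t) convex_univ
      (mem_univ y) (mem_univ x)
  simpa [Real.norm_eq_abs] using this


/-! ### the three parts on the data -/

lemma FF_cont : Continuous FF := by
  have h : FF = fun z => 1 + z * chi z - chi' z + aa z ^ 2 := funext FF_eq
  have c1 : Continuous chi := continuous_iff_continuousAt.2 fun z => (HFn741.chi_has z).continuousAt
  rw [h]
  exact (((continuous_const.add (continuous_id.mul c1)).sub LamI301.chi'_cont).add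
    (aa_cont'.pow 2))

section dat

variable (D : Fin505.Dat G M N V lo hi) (hz : Fin505.Nz M)

include D hz

/-- **near part** -/
theorem nearD {b α γ ε : ℝ → ℝ} {bo bn θ1 θ2 θ3 θ4 : ℝ} (hθ1 : 0 < θ1) (hθ2 : 0 < θ2)
    (hθ3 : 0 < θ3) (hθ4 : 0 < θ4)
    (hbo : ∀ x, 0 ≤ x → b x ^ 2 ≤ bo ^ 2) (hbn : ∀ x, 0 ≤ x → b x ≤ bn) (hbn0 : 0 ≤ bn)
    (hbx : ∀ x, 0 ≤ x → 0 ≤ b x * (x - 1))
    (hm : ∀ x, 0 ≤ x → ∀ z, α x + γ x * z - ε x * z ^ 2 ≤ hh z) :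
    TR (nf b α ε θ1 θ2 θ4 0 (9 / 64)) (MTm (Zf M)) -
      PW (nu b (3 / 8) (1 / 2) bo θ1 θ3) (Zf M) - HW (nh b ε θ4 (9 / 64) (3 / 8)) (Zf M) -
      (1 / 25 / (2 * θ2) + 13 / 2000 / θ3 + bn * (13 / 500)) * EE (Slk M N) ≤
      Lam FF H0 aa (Zf M) (_root_.cfc b (MTm (Zf M))) :=
  nearR (mfZ D) (fun i j => hz i j) (v := H0) (v1 := aa) (χ := chi) (χ1 := chi') (F := FF)
    (h := hh) (fun z _ => H0_has z) aa_cont'.continuousOn (fun z _ => HFn741.chi_has z)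
    LamI301.chi'_cont.continuousOn (fun z _ => FF_eq z) (fun z _ => hh_eq'' z)
    (cgS D) (hSl D) (c := 1 / 8) (ρ := 3 / 8) (κ := 1 / 2) (c3 := chi 0) (c4 := 3 / 8)
    (a5 := 0) (c5 := 0) (e5 := 9 / 64) (γ := γ)
    (fun a _ b _ => KY688.ky_rho a b) (fun a _ b _ => KI718.kw_num a b)
    (fun a _ b _ => KI718.ke_num a b) (fun a _ b _ => rho_num a b) (fun a _ => abs_aa_le a)
    (fun z _ => chi_num z) (by norm_num) (by norm_num) (by norm_num) hθ1 hθ2 hθ3 hθ4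
    hbo hbn hbn0 hbx hm

/-- **far part** -/
theorem farD {b : ℝ → ℝ} {a c e ep θ th1 bo bn : ℝ} (hep : 0 < ep) (hθ : 0 < θ) (hth1 : 0 < th1)
    (hb0 : ∀ x, 0 ≤ x → 0 ≤ b x) (hbn : ∀ x, 0 ≤ x → b x ≤ bn)
    (hbo : ∀ x, 0 ≤ x → b x ^ 2 ≤ bo ^ 2) (hbn0 : 0 ≤ bn)
    (hF2 : ∀ z, a + c * z - e * z ^ 2 ≤ FF z - 3 / 2 * (z * H0 z)) :
    TR (ff b a e (1 / 4) ep θ th1) (MTm (Zf M)) - PW (fu b (1 / 4) ep θ) (Zf M) -
      HW (fh b e (1 / 4) θ th1) (Zf M) -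
      (1 + 1 / ep) * (13 / 500) * (bn + bo ^ 2 / (4 * θ)) * EE (Slk M N) ≤
      Lam FF H0 aa (Zf M) (_root_.cfc b (MTm (Zf M))) := by
  have hζ := mfZ D
  have h0 : ∀ i j, EE (Zf M i j) = 0 := fun i j => hz i j
  have hS := (ts hζ).psd
  refine farR_of hζ h0 ?_
  have h := EO629.eo_ge hζ (F := FF) FF_cont.continuousOn (v := H0) (v1 := aa)
    (fun z _ => H0_has z) aa_cont'.continuousOn (T := Tm (Zf M)) (fun k => Tm_t hζ k)
    (fun k => rfl) (EM_ζ h0) (cgS D) (hSl D) (Ce := 13 / 500) (κ := 1 / 4) (ε := ep) (a := a)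
    (c := c) (e := e) (bo := bo) (bn := bn) (θ := θ) (θ1 := th1)
    (fun p _ q _ => KI718.ke_num p q) (fun z _ => abs_aa4_le z) H0_lip4 Odd451.go_nonneg
    (fun z _ => hF2 z) (by norm_num) hep hθ hth1 (b := _root_.cfc b (MTm (Zf M)))
    (psd_cfc hS.isHermitian fun x hx => hb0 x (spec_nonneg hS hx))
    (fun X => hs_cfc_le hS.isHermitian (fun x hx => hbo x (spec_nonneg hS hx)) X)
    (fun X => tr_le_const hS hbn X) hbn0
  refine le_trans (le_of_eq ?_) h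
  have e0 : ∑ k, Tm (Zf M) k * Tm (Zf M) k = MTm (Zf M) := rfl
  rw [e0]
  ring

omit hz in
lemma hal (x : E n) : ∑ k, hs (DualP973.KR H0 (fun t => wq t + 1 / 4) (Mx (Zf M) x)
    (Mx (dk k (Zf M)) x)) ≤ 13 / 500 * Slk M N x := by
  rw [wq_add]
  exact sum_KR_le D (by norm_num) (fun a b => KI718.ke_num a b) x

omit D hz in
lemma dd1_wq (a b : ℝ) : dd1 wq bb2 a b = dd1 aa bb2 a b := by
  unfold dd1
  split_ifs with hab
  · rfl
  · unfold wq; ring_nf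

omit hz in
lemma hbe (x : E n) : ∑ k, hs (DualP973.KR wq bb2 (Mx (Zf M) x)
    (Mx (dk k (Zf M)) x)) ≤ 3 / 400 * Slk M N x :=
  sum_KR_le D (by norm_num) (fun a b => by rw [dd1_wq]; exact PairK37.ks_rho' a b) x

/-- **loss** -/
theorem lossD {A r : ℝ → ℝ} {q0 q1 K1 Am : ℝ} (hA : ∀ x, 0 ≤ x → 0 < A x)
    (hAm : ∀ x, 0 ≤ x → A x ≤ Am) (hK : ∀ x, 0 ≤ x → A x * r x ^ 2 * x ≤ K1)
    (hq0 : 0 < q0) (hq1 : 0 < q1) (hq : q0 + q1 = 1) :
    LossF M A r ≤ TR (gf A r (1 / 8) q0) (MTm (Zf M)) + PW (gu A (1 / 8) q0 K1) (Zf M) +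
      HW (gh A q0) (Zf M) + 1 / q1 * (Am * (13 / 500) + K1 * (3 / 400)) * EE (Slk M N) := by
  have hζ := mfZ D
  have h0 : ∀ i j, EE (Zf M i j) = 0 := fun i j => hz i j
  have hS := (ts hζ).psd
  have hA0 : ∀ x, 0 ≤ x → 0 ≤ A x := fun x hx => (hA x hx).le
  have hAm0 : 0 ≤ Am := (hA0 0 le_rfl).trans (hAm 0 le_rfl)
  have hK0 : 0 ≤ K1 := by
    have := hK 0 le_rfl
    simpa using this
  refine lossR_of hζ hA0 ?_
  have h := DualR862.dualR hζ h0 (v := H0) (w := wq) (v2 := bb2)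
    (fun z _ => by
      have := H0_has z
      have e : wq z + 1 / 4 = aa z := by unfold wq; ring
      rw [e]; exact this)
    (fun z _ => wq_has z) wq_cont.continuousOn bb2_cont.continuousOn (lam := 1 / 8) (by norm_num)
    (fun z _ => by
      have := HSc741.bb2_sq_le z
      refine this.trans (le_of_eq ?_)
      unfold wq; ring)
    (U := Uf M) (fun i j x => by
      have := LamI301.Mx_U D.mf x
      exact congrFun (congrFun this i) j)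
    (CC A (MTm (Zf M))) (_root_.cfc r (MTm (Zf M))) (Pn := Am) (K1 := K1)
    (fun X => hs_CC_le hS hA0 hAm X) hAm0 hK0
    (fun B => (ts hζ).lossK hA0 hK0 hK B) (cgS D) (hal D) (hbe D) hq0 hq1 hq
  unfold LossF
  refine h.trans (le_of_eq ?_)
  ring

end dat

/-- **`MainQ n` from real-variable conditions** -/
theorem mainQ_of_real {A b1 b2 r α γ ε Φ : ℝ → ℝ}
    {c bo bn bo2 bn2 θ1 θ2 θ3 θ4 θ th1 ep a c2 e q0 q1 K1 Am : ℝ} (hc : 0 < c)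
    (hθ1 : 0 < θ1) (hθ2 : 0 < θ2) (hθ3 : 0 < θ3) (hθ4 : 0 < θ4) (hep : 0 < ep) (hθ : 0 < θ)
    (hth1 : 0 < th1) (hq0 : 0 < q0) (hq1 : 0 < q1) (hq : q0 + q1 = 1)
    (hA : ∀ x, 0 ≤ x → 0 < A x) (hAm : ∀ x, 0 ≤ x → A x ≤ Am)
    (hb : ∀ x, 0 ≤ x → 1 - A x = b1 x + b2 x)
    (hbo : ∀ x, 0 ≤ x → b1 x ^ 2 ≤ bo ^ 2) (hbn : ∀ x, 0 ≤ x → b1 x ≤ bn) (hbn0 : 0 ≤ bn)
    (hbx : ∀ x, 0 ≤ x → 0 ≤ b1 x * (x - 1))
    (hm : ∀ x, 0 ≤ x → ∀ z, α x + γ x * z - ε x * z ^ 2 ≤ hh z)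
    (hb20 : ∀ x, 0 ≤ x → 0 ≤ b2 x) (hb2n : ∀ x, 0 ≤ x → b2 x ≤ bn2)
    (hb2o : ∀ x, 0 ≤ x → b2 x ^ 2 ≤ bo2 ^ 2)
    (hF2 : ∀ z, a + c2 * z - e * z ^ 2 ≤ FF z - 3 / 2 * (z * H0 z))
    (hK : ∀ x, 0 ≤ x → A x * r x ^ 2 * x ≤ K1)
    (hk : (1 / 25 / (2 * θ2) + 13 / 2000 / θ3 + bn * (13 / 500)) +
      (1 + 1 / ep) * (13 / 500) * (bn2 + bo2 ^ 2 / (4 * θ)) +
      1 / q1 * (Am * (13 / 500) + K1 * (3 / 400)) ≤ 1)
    (hΦ : ∀ x, 0 ≤ x → Φ x ≤ Real.log (A x) + nf b1 α ε θ1 θ2 θ4 0 (9 / 64) x +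
      ff b2 a e (1 / 4) ep θ th1 x - gf A r (1 / 8) q0 x)
    (hP : ∀ x, 0 ≤ x → c ≤ 1 - nu b1 (3 / 8) (1 / 2) bo θ1 θ3 x - fu b2 (1 / 4) ep θ x -
      gu A (1 / 8) q0 K1 x)
    (hH : ∀ x, 0 ≤ x → 2 * c ≤ 2 * (1 - nu b1 (3 / 8) (1 / 2) bo θ1 θ3 x -
      fu b2 (1 / 4) ep θ x - gu A (1 / 8) q0 K1 x) - (1 + nh b1 ε θ4 (9 / 64) (3 / 8) x +
      fh b2 e (1 / 4) θ th1 x + gh A q0 x))
    (hmg : ∀ x, 0 ≤ x → c * mg x ≤ Φ x) : Fin505.MainQ n := by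
  refine FinQ214.mainQ_of_fun hc hmg fun G M N V lo hi D hz => ?_
  have hbn2 : 0 ≤ bn2 := (hb20 0 le_rfl).trans (hb2n 0 le_rfl)
  exact comb D hz hA hb
    (nearD D hz hθ1 hθ2 hθ3 hθ4 hbo hbn hbn0 hbx hm)
    (farD D hz hep hθ hth1 hb20 hb2n hb2o hbn2 hF2)
    (lossD D hz hA hAm hK hq0 hq1 hq) hk hΦ hP hH

end Crest.Agent.R253.Join214
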