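import Crest.Agent.R253.V3_37
import Crest.Agent.R253.KI_718
import Crest.Agent.R253.Lam_741
import Crest.Agent.R253.Inst_321

/-!
# R253: the numeric hypotheses of the weighted dual bound on the data `Dat` (helper812)

* `ks_num` : `(w[a,b] - v''(b))² ≤ (3/400) ρ(a,b)` (`w = v' - 1/4`);
* `hal`, `hbe` : the kernels `KR v v'`, `KR w v''` of `dualQ` / `DualR` are paid by the slack
  with `13/500` and `3/400`;
* `bwv` : `v''² ≤ (1/8)(1/16 - w²)`.
-/

set_option autoImplicit false

open MeasureTheory ProbabilityTheory Real Set Filter Topology Matrix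
open scoped ContDiff

noncomputable section

namespace Crest.Agent.R253.KS812

open Crest.Agent.R238.Gap
open Crest.Agent.R253.SpecCalc999 Crest.Agent.R253.Meh74 Crest.Agent.R253.SpecField321
open Crest.Agent.R253.Frame321 (Zf Uf Slk mf_Zf)
open Crest.Agent.R253.ScalE688 (zf rho)
open Crest.Agent.R253.Mills37 (mu kk H0 ee)
open Crest.Agent.R253.Slack688 (aa H0_has)
open Crest.Agent.R253.HFn741 (bb2)
open Crest.Agent.R253.Inst321

/-- the two definitions of the pair slack agree -/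
lemma rho_eq (a b : ℝ) : Rho195.rho a b = rho a b := rfl

/-- **KS**: the kernel of `v'` -/
theorem ks_num (a b : ℝ) : (dd1 wq bb2 a b - bb2 b) ^ 2 ≤ 3 / 400 * rho a b := by
  have h := Rho3.ker3' (f := wq) (f' := bb2) (f'' := Mills37.v3) (C := 1 / 20) wq_has
    (fun z => Mills37.v2_hasDerivAt z) (fun z => (Mills37.abs_v3_lt z).le) a b
  rw [rho_eq] at h
  refine h.trans (le_of_eq ?_)
  norm_num

/-- **KE** in the letters of the instantiation layer -/
theorem ke_num (a b : ℝ) : (dd1 H0 aa a b - aa b) ^ 2 ≤ 13 / 500 * rho a b := KI718.ke_num a b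

/-- **KW** -/
theorem kw_num (a b : ℝ) : (aa a * (dd1 H0 aa b a - aa a)) ^ 2 ≤ 13 / 2000 * rho a b :=
  KI718.kw_num a b

/-- 230's scalar fact -/
theorem bwv (z : ℝ) : bb2 z ^ 2 ≤ 1 / 8 * (1 / 16 - wq z ^ 2) := by
  have h := HSc741.bb2_sq_le z
  unfold wq
  nlinarith [h]

variable {n : ℕ} {G : Fin n → E n → ℝ} {M N : Fld n} {V : E n → ℝ} {lo hi : ℝ}

/-- the kernel of `v` in `DualR` -/
theorem hal (D : Fin505.Dat G M N V lo hi) (x : E n) :
    (∑ k, hs (DualP973.KR H0 (fun t => wq t + 1 / 4) (Mx (Zf M) x) (Mx (dk k (Zf M)) x))) ≤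
      13 / 500 * Slk M N x := by
  rw [wq_add]
  exact sum_KR_le D (by norm_num) ke_num x

/-- the kernel of `v'` in `DualR` -/
theorem hbe (D : Fin505.Dat G M N V lo hi) (x : E n) :
    (∑ k, hs (DualP973.KR wq bb2 (Mx (Zf M) x) (Mx (dk k (Zf M)) x))) ≤
      3 / 400 * Slk M N x :=
  sum_KR_le D (by norm_num) ks_num x

end Crest.Agent.R253.KS812
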