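import Crest.Agent.R253.Conv_80
import Crest.Agent.R253.KS_812
import Crest.Agent.R253.KY_688
import Crest.Agent.R253.LamNum_649
import Crest.Agent.R253.HL_718
import Crest.Agent.R253.EO_629
import Crest.Agent.R253.F2_711
import Crest.Agent.R253.Odd_451
import Crest.Agent.R253.DualR_192

/-!
# R253: the join of L0–L5 on the data `Dat`, `Nz` (helper812)

`nearD`, `farD`, `lossD` : the three bounds with every kernel constant put in, `b₁, b₂, A, r` free.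
`mainQ_of_table` : `MainQ n` from real-variable conditions only.
-/

set_option autoImplicit false

open MeasureTheory ProbabilityTheory Set Filter Topology Matrix
open scoped ContDiff

noncomputable section

namespace Crest.Agent.R253.Join812

open Crest.Agent.R238.Gap Crest.Agent.R253.SpecCalc999 Crest.Agent.R253.Meh74
  Crest.Agent.R253.SpecField321 Crest.Agent.R253.S3 Crest.Agent.R253.LamB301
  Crest.Agent.R253.LamI301 Crest.Agent.R253.TrC80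
open Crest.Agent.R253.DualP973 (Tm ef Lx MTm Mx_eq dk_eq c1_ef Yf Gf)
open Crest.Agent.R253.ErrT378 (Lam)
open Crest.Agent.R253.Frame321 (Zf Uf Ff Uf_eq M_eq mf_Zf Zf_symm Slk)
open Crest.Agent.R253.Mills37 (mu H0 kk ee)
open Crest.Agent.R253.Slack688 (aa H0_has)
open Crest.Agent.R253.ScalE688 (zf rho)
open Crest.Agent.R253.HFn741 (chi chi' hh bb2)
open Crest.Agent.R253.Inst321

variable {n : ℕ} {G : Fin n → E n → ℝ} {M N : Fld n} {V : E n → ℝ} {lo hi : ℝ}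

lemma h12 (z : ℝ) : hh z ≤ 1 / 2 := (HL718.hh_lt z).le

lemma ky_num (a b : ℝ) : Stein378.ky H0 aa chi chi' a b ^ 2 ≤ 1 / 25 * rho a b :=
  KY688.ky_rho a b

/-- **near part** -/
theorem nearD (D : Fin505.Dat G M N V lo hi) (hz : Fin505.Nz M)
    {b α γ ε : ℝ → ℝ} {bo bn θ1 θ2 θ3 θ4 : ℝ}
    (hθ1 : 0 < θ1) (hθ2 : 0 < θ2) (hθ3 : 0 < θ3) (hθ4 : 0 < θ4)
    (hbo : ∀ x, 0 ≤ x → b x ^ 2 ≤ bo ^ 2) (hbn : ∀ x, 0 ≤ x → b x ≤ bn) (hbn0 : 0 ≤ bn)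
    (hbx : ∀ x, 0 ≤ x → 0 ≤ b x * (x - 1))
    (hm : ∀ x, 0 ≤ x → ∀ z, α x + γ x * z - ε x * z ^ 2 ≤ hh z) :
    TR (nf b α ε θ1 θ2 θ4 0 (9 / 64)) (MTm (Zf M)) -
      PW (nu b (3 / 8) (1 / 2) bo θ1 θ3) (Zf M) - HW (nh b ε θ4 (9 / 64) (3 / 8)) (Zf M) -
      (1 / 25 / (2 * θ2) + 13 / 2000 / θ3 + bn * (13 / 500)) * EE (Slk M N) ≤
      Lam FF H0 aa (Zf M) (_root_.cfc b (MTm (Zf M))) :=
  nearR (mfZ D) (fun i j => hz i j) (fun z _ => H0_has z) aa_cont'.continuousOn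
    (fun z _ => HFn741.chi_has z) chi'_cont.continuousOn (fun z _ => FF_eq z)
    (fun z _ => LamNum649.chi'_sub z) (cgS D) (hSl D)
    (fun a _ b _ => ky_num a b) (fun a _ b _ => KS812.kw_num a b)
    (fun a _ b _ => KS812.ke_num a b) (fun a _ b _ => LamNum649.hρ_38 h12 a b)
    (fun a _ => LamNum649.hκ_12 a) (fun z _ => LamNum649.hg_chi h12 z)
    (by norm_num) (by norm_num) (by norm_num) hθ1 hθ2 hθ3 hθ4 hbo hbn hbn0 hbx hm

/-- **far part** -/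
theorem farD (D : Fin505.Dat G M N V lo hi) (hz : Fin505.Nz M)
    {b : ℝ → ℝ} {a c e bo bn ep th th1 : ℝ} (hep : 0 < ep) (hth : 0 < th) (hth1 : 0 < th1)
    (hb0 : ∀ x, 0 ≤ x → 0 ≤ b x) (hbo : ∀ x, 0 ≤ x → b x ^ 2 ≤ bo ^ 2)
    (hbn : ∀ x, 0 ≤ x → b x ≤ bn) (hbn0 : 0 ≤ bn)
    (hF2 : ∀ z, a + c * z - e * z ^ 2 ≤ 2 * kk z - H0 z ^ 2 - 3 / 2 * (z * H0 z)) :
    TR (ff b a e (1 / 4) ep th th1) (MTm (Zf M)) - PW (fu b (1 / 4) ep th) (Zf M) -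
      HW (fh b e (1 / 4) th th1) (Zf M) -
      (1 + 1 / ep) * (13 / 500) * (bn + bo ^ 2 / (4 * th)) * EE (Slk M N) ≤
      Lam FF H0 aa (Zf M) (_root_.cfc b (MTm (Zf M))) := by
  have hZ := mfZ D
  have h0 : ∀ i j, EE (Zf M i j) = 0 := fun i j => hz i j
  have hP := (ts hZ).psd
  refine farR_of hZ h0 ?_
  have h := EO629.eo_ge hZ (F := FF) (v := H0) (v1 := aa) (κ := 1 / 4) (a := a) (c := c) (e := e)
    (ε := ep) (θ := th) (θ1 := th1) (Ce := 13 / 500) (bo := bo) (bn := bn)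
    (T := Tm (Zf M)) ?_ (fun z _ => H0_has z) aa_cont'.continuousOn (fun k => Tm_t hZ k)
    (fun k => rfl) (EM_ζ h0) (cgS D) (hSl D) (fun p _ q _ => KS812.ke_num p q)
    (fun z _ => LamNum649.aa_abs z) (fun x y => ?_) Odd451.go_nonneg (fun z _ => hF2 z)
    (by norm_num) hep hth hth1 (b := _root_.cfc b (MTm (Zf M)))
    (psd_cfc hP.isHermitian fun x hx => hb0 x (spec_nonneg hP hx))
    (fun X => hs_cfc_le hP.isHermitian (fun x hx => hbo x (spec_nonneg hP hx)) X)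
    (fun X => tr_le_const hP hbn X) hbn0
  · have e0 : ∑ k, Tm (Zf M) k * Tm (Zf M) k = MTm (Zf M) := rfl
    rw [e0] at h
    linarith
  · have hc : Continuous FF := by
      have e1 : FF = fun z => 1 + z * chi z - chi' z + aa z ^ 2 := funext FF_eq
      have cc : Continuous chi := continuous_iff_continuousAt.2 fun z =>
        (HFn741.chi_has z).continuousAt
      rw [e1]
      exact ((continuous_const.add (continuous_id.mul cc)).sub chi'_cont).add (aa_cont'.pow 2)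
    exact hc.continuousOn
  · have := LamNum649.v_lip x y
    have e2 : H0 x - 1 / 4 * x - (H0 y - 1 / 4 * y) = H0 x - H0 y - (x - y) / 4 := by ring
    rw [e2]
    exact this

/-- **loss** -/
theorem lossD (D : Fin505.Dat G M N V lo hi)
    {A r : ℝ → ℝ} {Am K1 q0 q1 : ℝ} (hA : ∀ x, 0 ≤ x → 0 ≤ A x) (hAm : ∀ x, 0 ≤ x → A x ≤ Am)
    (hAm0 : 0 ≤ Am) (hK0 : 0 ≤ K1) (hK : ∀ x, 0 ≤ x → A x * r x ^ 2 * x ≤ K1)
    (hq0 : 0 < q0) (hq1 : 0 < q1) (hq : q0 + q1 = 1) :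
    LossF M A r ≤ TR (gf A r (1 / 8) q0) (MTm (Zf M)) + PW (gu A (1 / 8) q0 K1) (Zf M) +
      HW (gh A q0) (Zf M) + 1 / q1 * (Am * (13 / 500) + K1 * (3 / 400)) * EE (Slk M N) := by
  have hZ := mfZ D
  have hP := (ts hZ).psd
  refine lossR_of hZ hA ?_
  have h := DualR192.dualR hZ (v := H0) (w := wq) (v2 := bb2)
    (fun x _ => by
      have := H0_has x
      have e : wq x + 1 / 4 = aa x := by unfold wq; ring
      rw [e]; exact this)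
    (fun x _ => wq_has x) wq_cont.continuousOn bb2_cont.continuousOn (lam := 1 / 8)
    (by norm_num) (fun x _ => KS812.bwv x) (U := Uf M)
    (fun i j x => by
      have := congrFun (congrFun (Mx_U D.mf x) i) j
      exact this)
    (CC A (MTm (Zf M))) (_root_.cfc r (MTm (Zf M))) (Pn := Am) (K1 := K1)
    (fun X => hs_CC_le hP hA hAm X) hAm0 hK0 (fun B => (ts hZ).lossK hA hK0 hK B) (cgS D)
    (KS812.hal D) (KS812.hbe D) hq0 hq1 hq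
  unfold LossF
  refine h.trans (le_of_eq ?_)
  ring

/-- **`MainQ` from real-variable conditions** -/
theorem mainQ_of_table {A b1 b2 r α γ ε Φ : ℝ → ℝ}
    {c bo bn θ1 θ2 θ3 θ4 a c2 e bo2 bn2 ep th th1 Am K1 q0 q1 : ℝ}
    (hc : 0 < c)
    (hA : ∀ x, 0 ≤ x → 0 < A x) (hb : ∀ x, 0 ≤ x → 1 - A x = b1 x + b2 x)
    -- near
    (hθ1 : 0 < θ1) (hθ2 : 0 < θ2) (hθ3 : 0 < θ3) (hθ4 : 0 < θ4)
    (hbo : ∀ x, 0 ≤ x → b1 x ^ 2 ≤ bo ^ 2) (hbn : ∀ x, 0 ≤ x → b1 x ≤ bn) (hbn0 : 0 ≤ bn)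
    (hbx : ∀ x, 0 ≤ x → 0 ≤ b1 x * (x - 1))
    (hm : ∀ x, 0 ≤ x → ∀ z, α x + γ x * z - ε x * z ^ 2 ≤ hh z)
    -- far
    (hep : 0 < ep) (hth : 0 < th) (hth1 : 0 < th1)
    (hb0 : ∀ x, 0 ≤ x → 0 ≤ b2 x) (hbo2 : ∀ x, 0 ≤ x → b2 x ^ 2 ≤ bo2 ^ 2)
    (hbn2 : ∀ x, 0 ≤ x → b2 x ≤ bn2) (hbn20 : 0 ≤ bn2)
    (hF2 : ∀ z, a + c2 * z - e * z ^ 2 ≤ 2 * kk z - H0 z ^ 2 - 3 / 2 * (z * H0 z))
    -- loss
    (hAm : ∀ x, 0 ≤ x → A x ≤ Am) (hK : ∀ x, 0 ≤ x → A x * r x ^ 2 * x ≤ K1)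
    (hq0 : 0 < q0) (hq1 : 0 < q1) (hq : q0 + q1 = 1)
    -- budgets
    (hk : (1 / 25 / (2 * θ2) + 13 / 2000 / θ3 + bn * (13 / 500)) +
      (1 + 1 / ep) * (13 / 500) * (bn2 + bo2 ^ 2 / (4 * th)) +
      1 / q1 * (Am * (13 / 500) + K1 * (3 / 400)) ≤ 1)
    (hP : ∀ x, 0 ≤ x → c ≤ 1 - nu b1 (3 / 8) (1 / 2) bo θ1 θ3 x - fu b2 (1 / 4) ep th x -
      gu A (1 / 8) q0 K1 x)
    (hH : ∀ x, 0 ≤ x → 2 * c ≤ 2 * (1 - nu b1 (3 / 8) (1 / 2) bo θ1 θ3 x -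
      fu b2 (1 / 4) ep th x - gu A (1 / 8) q0 K1 x) -
      (1 + nh b1 ε θ4 (9 / 64) (3 / 8) x + fh b2 e (1 / 4) th th1 x + gh A q0 x))
    -- the final inequality
    (hΦ0 : ∀ x, 0 ≤ x → c * ((1 - x) ^ 2 / (1 + x)) ≤ Φ x)
    (hΦ : ∀ x, 0 ≤ x → Φ x ≤ Real.log (A x) + nf b1 α ε θ1 θ2 θ4 0 (9 / 64) x +
      ff b2 a e (1 / 4) ep th th1 x - gf A r (1 / 8) q0 x) :
    Fin505.MainQ n := by
  have hAm0 : 0 ≤ Am := (hA 0 le_rfl).le.trans (hAm 0 le_rfl)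
  have hK0 : 0 ≤ K1 := by
    have := hK 0 le_rfl
    simpa using this
  refine FinQ214.mainQ_of_fun (n := n) hc (Φ := Φ) (fun x hx => hΦ0 x hx) ?_
  intro G M N V lo hi D hz
  have near := nearD D hz hθ1 hθ2 hθ3 hθ4 hbo hbn hbn0 hbx hm
  have far := farD D hz hep hth hth1 hb0 hbo2 hbn2 hbn20 hF2
  have loss := lossD D (r := r) (fun x hx => (hA x hx).le) hAm hAm0 hK0 hK hq0 hq1 hq
  exact comb D hz hA hb near far loss hk hΦ hP hH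

end Crest.Agent.R253.Join812
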