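import Crest.Agent.R253.RowR_80
import Crest.Agent.R253.BF_321

/-!
# Row 253: the spine in one real variable (helper80)

`l0R`: `DFun ≥ tr log A(S) + Λ(b₁(S)) + Λ(b₂(S)) + E Slk + PW 1 - HW 1 - loss`, `A = 1 - b₁ - b₂`.
-/

set_option autoImplicit false

open MeasureTheory ProbabilityTheory Set Filter Topology Matrix
open scoped ContDiff

noncomputable section

namespace Crest.Agent.R253.TrC80

open Crest.Agent.R238.Gap Crest.Agent.R253.SpecCalc999 Crest.Agent.R253.Meh74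
  Crest.Agent.R253.SpecField321 Crest.Agent.R253.S3 Crest.Agent.R253.LamB301
  Crest.Agent.R253.LamI301
open Crest.Agent.R253.DualP973 (Tm ef Lx MTm Mx_eq dk_eq c1_ef)
open Crest.Agent.R253.ErrT378 (Lam lam_ge)
open Crest.Agent.R253.Frame321 (Zf Uf Ff Uf_eq M_eq mf_Zf Zf_symm Slk)
open Crest.Agent.R253.Mills37 (mu H0 kk)
open Crest.Agent.R253.Slack688 (aa H0_has)
open Crest.Agent.R253.ScalE688 (zf)
open Crest.Agent.R253.HFn741 (chi chi' hh)
open Crest.Agent.R253.BF321 (bf)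

variable {n : ℕ} {ζ : Fld n} {lo hi : ℝ}

/-- `Λ` is additive in `b` -/
theorem Lam_add (hζ : MF ζ lo hi) {v v1 F : ℝ → ℝ}
    (hv : ∀ z ∈ Icc lo hi, HasDerivAt v (v1 z) z) (hv1 : ContinuousOn v1 (Icc lo hi))
    (hF : ContinuousOn F (Icc lo hi)) (b c : Mat n) :
    Lam F v v1 ζ (b + c) = Lam F v v1 ζ b + Lam F v v1 ζ c := by
  have cF := cgm_cfc hζ hF
  have cD := fun k => cgm_DK hζ hv hv1 k
  unfold Lam
  have e1 : TE (fun x => (b + c) * sf F ζ x) =
      TE (fun x => b * sf F ζ x) + TE (fun x => c * sf F ζ x) := by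
    rw [← TE_add ((cgm_const b).mul cF) ((cgm_const c).mul cF)]
    exact TE_congr fun x => Matrix.add_mul _ _ _
  have e2 : ∀ k, TE (fun x => (b + c) * (DK v v1 (Mx ζ x) (S3.dZ ζ k x) *
      DK v v1 (Mx ζ x) (S3.dZ ζ k x))) =
      TE (fun x => b * (DK v v1 (Mx ζ x) (S3.dZ ζ k x) * DK v v1 (Mx ζ x) (S3.dZ ζ k x))) +
      TE (fun x => c * (DK v v1 (Mx ζ x) (S3.dZ ζ k x) * DK v v1 (Mx ζ x) (S3.dZ ζ k x))) := by
    intro k
    rw [← TE_add ((cgm_const b).mul ((cD k).mul (cD k))) ((cgm_const c).mul ((cD k).mul (cD k)))]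
    exact TE_congr fun x => Matrix.add_mul _ _ _
  rw [e1, Finset.sum_congr rfl fun k _ => e2 k, Finset.sum_add_distrib]
  ring

theorem Lam_neg {v v1 F : ℝ → ℝ} (b : Mat n) : Lam F v v1 ζ (-b) = -Lam F v v1 ζ b := by
  unfold Lam
  have e : ∀ G : E n → Mat n, TE (fun x => -b * G x) = -TE (fun x => b * G x) := fun G => by
    unfold TE
    rw [← EE_neg]
    exact EE_congr fun x => by
      beta_reduce
      rw [Matrix.neg_mul, Matrix.trace_neg]
  rw [e, Finset.sum_congr rfl fun k _ => e _, Finset.sum_neg_distrib]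
  ring

/-- the scalar function `2k - v²` -/
def F0 (z : ℝ) : ℝ := 2 * kk z - H0 z ^ 2

lemma cont_F0 : Continuous F0 := by
  have cH : Continuous H0 := continuous_iff_continuousAt.2 fun z => (H0_has z).continuousAt
  have e : F0 = fun z => 2 * (1 + z * H0 z - aa z) - H0 z ^ 2 := by
    funext z
    have := HFn741.zv_sub z
    unfold F0
    have h2 : kk z = 1 + z * H0 z - aa z := by linarith
    rw [h2]
  rw [e]
  exact ((continuous_const.mul ((continuous_const.add (continuous_id.mul cH)).sub aa_cont)).sub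
    (cH.pow 2))

variable {G : Fin n → E n → ℝ} {M N : Fld n} {V : E n → ℝ}

/-- **(L0) in one real variable** -/
theorem l0R (h : MA G M N V) (hM : MF M lo hi) (hlo : 0 < lo)
    (hV : ∀ y, (Matrix.of fun k l => pd l (pd k V) y).PosSemidef)
    (h0 : ∀ i j, EE (Zf M i j) = 0)
    {Y : Fin n → Fld n} {Gf : Fld n} (hY : ∀ k i j, CG (Y k i j)) (hG : ∀ i j, CG (Gf i j))
    (hW : WkF M (Uf M) Y Gf) {A b1 b2 : ℝ → ℝ} (hA : ∀ x, 0 ≤ x → 0 < A x)
    (hb : ∀ x, 0 ≤ x → 1 - A x = b1 x + b2 x) :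
    TR (fun x => Real.log (A x)) (MTm (Zf M)) +
      Lam F0 H0 aa (Zf M) (_root_.cfc b1 (MTm (Zf M))) +
      Lam F0 H0 aa (Zf M) (_root_.cfc b2 (MTm (Zf M))) +
      EE (Slk M N) + (PW (fun _ => 1) (Zf M) - HW (fun _ => 1) (Zf M)) -
      EE (fun x => ∑ k, hs (CC A (MTm (Zf M)) * (Mx (dk k (Uf M)) x - Mx (Y k) x))) -
      EE (fun x => hs (CC A (MTm (Zf M)) * Mx Gf x)) ≤ DFun G M := by
  have hZ := mf_Zf hM hlo
  have hS := (ts hZ).herm
  have hP := (ts hZ).psd
  set S := MTm (Zf M) with hSd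
  have e1 : (CC A S)ᵀ * CC A S = 1 + _root_.cfc (fun x => A x - 1) S := by
    rw [ctc_CC hP fun x hx => (hA x hx).le, ← cfc_sub' hS, cfc_one' hS]
    abel
  have h1 := bf h hM hlo hV hY hG hW (B := _root_.cfc (fun x => A x - 1) S) (C := CC A S)
    (det_CC_ne hP hA) e1
  refine le_trans (le_of_eq ?_) h1
  have e2 : Real.log (1 + _root_.cfc (fun x => A x - 1) S).det =
      TR (fun x => Real.log (A x)) S := by
    rw [← e1, logdet_CC hP hA]
  have e3 := lam_wip hM hlo (_root_.cfc (fun x => A x - 1) S)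
  have e3' : TE (fun x => _root_.cfc (fun x => A x - 1) S *
        sf (fun z => 2 * kk z - H0 z ^ 2) (Zf M) x) -
        ∑ k, TE (fun x => _root_.cfc (fun x => A x - 1) S *
          (DK H0 aa (Mx (Zf M) x) (S3.dZ (Zf M) k x) *
          DK H0 aa (Mx (Zf M) x) (S3.dZ (Zf M) k x))) =
      Lam F0 H0 aa (Zf M) (_root_.cfc (fun x => A x - 1) S) := rfl
  have e4 : _root_.cfc (fun x => A x - 1) S = -(_root_.cfc b1 S + _root_.cfc b2 S) := by
    rw [cfc_add' hS]
    have : _root_.cfc (fun x => A x - 1) S = _root_.cfc (fun x => (-1) * (b1 x + b2 x)) S :=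
      cfc_congr fun x hx => by
        have := hb x (spec_nonneg hP hx)
        linarith
    rw [this, ← cfc_smul' hS, neg_one_smul]
  have e5 : Lam F0 H0 aa (Zf M) (_root_.cfc (fun x => A x - 1) S) =
      -(Lam F0 H0 aa (Zf M) (_root_.cfc b1 S) + Lam F0 H0 aa (Zf M) (_root_.cfc b2 S)) := by
    rw [e4, Lam_neg, Lam_add hZ (fun z _ => H0_has z) aa_cont.continuousOn cont_F0.continuousOn]
  rw [e2, e3, e3', e5, split_spine hZ h0, ← PW_one hZ, ← HW_one hZ]
  ring

end Crest.Agent.R253.TrC80
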