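import Crest.Agent.R253.LogP_395

/-! # R253, L7: certificates of the pieces (helper167, generated) -/

set_option autoImplicit false
set_option maxHeartbeats 1000000

open Real

noncomputable section

namespace Crest.Agent.R253.L7P167
open Crest.Agent.R253

lemma log2_le : Real.log 2 ≤ 6931471808/10000000000 := by
  have := Real.log_two_lt_d9
  linarith

lemma log_low {An Ad x0 lx : ℝ} (hAn : 0 < An) (hAd : 0 < Ad) (hx0 : 0 < x0)
    (h : Real.log x0 ≤ lx) :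
    -(lx + (Ad - x0*An) * (Ad + 5*x0*An) / (x0*An*(4*Ad + 2*x0*An))) ≤ Real.log (An/Ad) := by
  have h1 := LogP395.log_le_pade_scale (x0 := x0) (x := Ad/An) hx0 (div_pos hAd hAn)
  have e : Real.log (An/Ad) = - Real.log (Ad/An) := by
    rw [← Real.log_inv, inv_div]
  have e2 : (Ad/An - x0) * (Ad/An + 5*x0) / (x0*(4*(Ad/An) + 2*x0)) =
      (Ad - x0*An) * (Ad + 5*x0*An) / (x0*An*(4*Ad + 2*x0*An)) := by
    have h4 : 4*Ad + 2*x0*An ≠ 0 := by positivity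
    have h5 : 4*(Ad/An) + 2*x0 ≠ 0 := by positivity
    have h6 := hAn.ne'
    have h7 := hx0.ne'
    rw [div_eq_div_iff (by positivity) (by positivity)]
    field_simp
  rw [e2] at h1
  rw [e]
  linarith


lemma row0_q0_aux (u w : ℝ) (hu : 0 ≤ u) (hw : 0 ≤ w) : (0:ℝ) ≤ 4879773120*w^5 + 35699077456*u*w^4 + 89730145469*u^2*w^3 + 103618016874*u^3*w^2 + 56472549100*u^4*w + 11764895000*u^5 := by positivity
lemma row0_q0 (t : ℝ) (h1 : 0 ≤ t) (h2 : t ≤ 1) : (0:ℝ) ≤ -478359*t^5 + 29507535*t^4 - 175685997*t^3 - 4268433155*t^2 + 11300211856*t + 4879773120 := by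
  have h := row0_q0_aux (t - 0) (1 - t) (by linarith) (by linarith)
  have e : (1:ℝ) * (-478359*t^5 + 29507535*t^4 - 175685997*t^3 - 4268433155*t^2 + 11300211856*t + 4879773120) = 4879773120*(1 - t)^5 + 35699077456*(t - 0)*(1 - t)^4 + 89730145469*(t - 0)^2*(1 - t)^3 + 103618016874*(t - 0)^3*(1 - t)^2 + 56472549100*(t - 0)^4*(1 - t) + 11764895000*(t - 0)^5 := by ring
  rw [← e] at h
  linarith

lemma row0_q (t : ℝ) (h1 : 0 ≤ t) (h2 : t ≤ 1) : (0:ℝ) ≤ -478359*t^5 + 29507535*t^4 - 175685997*t^3 - 4268433155*t^2 + 11300211856*t + 4879773120 := by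
  exact row0_q0 t h1 h2

lemma row0_An_aux0_aux (u w : ℝ) (hu : 0 ≤ u) (hw : 0 ≤ w) : (0:ℝ) ≤ 28*w + 25*u := by positivity
lemma row0_An_aux0 (t : ℝ) (h1 : 0 ≤ t) (h2 : t ≤ 1) : (0:ℝ) ≤ -3*t + 28 := by
  have h := row0_An_aux0_aux (t - 0) (1 - t) (by linarith) (by linarith)
  have e : (1:ℝ) * (-3*t + 28) = 28*(1 - t) + 25*(t - 0) := by ring
  rw [← e] at h
  linarith

lemma row0_An (t : ℝ) (h1 : 0 ≤ t) (h2 : t ≤ 1) : (0:ℝ) < -3*t + 53 := by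
  have := row0_An_aux0 t h1 h2
  linarith

lemma row0_key (t a q : ℝ) (ha : a = -3*t + 53) (hq : q = -6*t + 306)
    (n1 : a ≠ 0) (n2 : q ≠ 0) (n5 : 16 + t ≠ 0) (n6 : 1 + t ≠ 0) :
    -(0 + (50 - 1*a) * (50 + 5*1*a) / (1*a*q)) + ((-(3/50)*(1-t)) + (-(3/50)*(1-t))*(t-1)*((363/1000)-(17/1250)*t) - (3/4/2 + 3/20/2)*((-(3/50)*(1-t))^2*t) - 7/2/2*(0*(-(3/50)*(1-t))^2 + 9/64*((-(3/50)*(1-t))^2*t)) + (555/1000*(0:ℝ) + (5/16 - 6/1000 - (1+1/5)*(1/4)^2)*((0:ℝ)*t) - 5/16/2*((0:ℝ)^2*t) - (1+1/5)*(1/4)^2/(4*(11/25))*((0:ℝ)^2*t)) - 23/20*((1-(-(3/50)*(1-t))-(0:ℝ))*(t-1)^2/(6*(16+t)))) - (1/200) * ((t-1)^2/(1+t)) =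
      (1/8000000) * ((t-1)^2 * (-478359*t^5 + 29507535*t^4 - 175685997*t^3 - 4268433155*t^2 + 11300211856*t + 4879773120)) / (a * q * ((16+t)*(1+t))) := by
  rw [eq_div_iff (by positivity)]
  field_simp
  subst ha hq
  ring

lemma row0_eA (t a : ℝ) (ha : a = -3*t + 53) :
    (1 - (-(3/50)*(1-t)) - (0:ℝ)) = a/50 := by
  rw [eq_div_iff (by positivity)]
  field_simp
  subst ha
  ring

theorem row0 (t : ℝ) (h1 : 0 ≤ t) (h2 : t ≤ 1) :
    (1/200) * ((t-1)^2/(1+t)) ≤ Real.log (1 - (-(3/50)*(1-t)) - (0:ℝ)) + ((-(3/50)*(1-t)) + (-(3/50)*(1-t))*(t-1)*((363/1000)-(17/1250)*t) - (3/4/2 + 3/20/2)*((-(3/50)*(1-t))^2*t) - 7/2/2*(0*(-(3/50)*(1-t))^2 + 9/64*((-(3/50)*(1-t))^2*t)) + (555/1000*(0:ℝ) + (5/16 - 6/1000 - (1+1/5)*(1/4)^2)*((0:ℝ)*t) - 5/16/2*((0:ℝ)^2*t) - (1+1/5)*(1/4)^2/(4*(11/25))*((0:ℝ)^2*t)) - 23/20*((1-(-(3/50)*(1-t))-(0:ℝ))*(t-1)^2/(6*(16+t)))) := by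
  have hAn : (0:ℝ) < -3*t + 53 := row0_An t h1 h2

  have hAd : (0:ℝ) < 50 := by positivity
  have eQ : (4:ℝ)*(50) + 2*1*(-3*t + 53) = -6*t + 306 := by ring
  have hQ : (0:ℝ) < -6*t + 306 := by rw [← eQ]; positivity
  have ht1 : (0:ℝ) < 1 + t := by linarith
  have ht16 : (0:ℝ) < 16 + t := by linarith
  have eA := row0_eA t _ rfl
  have hlog : -(0 + (50 - 1*(-3*t + 53)) * (50 + 5*1*(-3*t + 53)) / (1*(-3*t + 53)*(-6*t + 306))) ≤ Real.log ((-3*t + 53)/(50)) := by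
    have h := log_low (An := -3*t + 53) (Ad := 50) (x0 := 1) (lx := 0) hAn hAd (by norm_num) (by simp)
    rw [eQ] at h
    exact h
  have hq := row0_q t h1 h2
  have hD : (0:ℝ) < ((-3*t + 53) * (-6*t + 306) * ((16+t)*(1+t))) := by positivity
  have key := row0_key t _ _ rfl rfl hAn.ne' hQ.ne' ht16.ne' ht1.ne'
  have hpos : 0 ≤ (1/8000000) * ((t-1)^2 * (-478359*t^5 + 29507535*t^4 - 175685997*t^3 - 4268433155*t^2 + 11300211856*t + 4879773120)) / ((-3*t + 53) * (-6*t + 306) * ((16+t)*(1+t))) :=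
    div_nonneg (mul_nonneg (by norm_num) (mul_nonneg (sq_nonneg _) hq)) hD.le
  have hl : Real.log (1 - (-(3/50)*(1-t)) - (0:ℝ)) = Real.log ((-3*t + 53)/(50)) := by rw [eA]
  rw [hl]
  linarith

lemma row1_q0_aux (u w : ℝ) (hu : 0 ≤ u) (hw : 0 ≤ w) : (0:ℝ) ≤ 3870938456*w^6 + 56517823292*u*w^5 + 290285587806*u^2*w^4 + 701926226689*u^3*w^3 + 851057865787*u^4*w^2 + 487291648464*u^5*w + 100394793756*u^6 := by positivity
lemma row1_q0 (t : ℝ) (h1 : 1 ≤ t) (h2 : t ≤ 2) : (0:ℝ) ≤ -126512640*t^6 - 10065192703*t^5 + 32102209591*t^4 + 3316680731*t^3 - 34253134923*t^2 + 14524621200*t - 1627732800 := by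
  have h := row1_q0_aux (t - 1) (2 - t) (by linarith) (by linarith)
  have e : (1:ℝ) * (-126512640*t^6 - 10065192703*t^5 + 32102209591*t^4 + 3316680731*t^3 - 34253134923*t^2 + 14524621200*t - 1627732800) = 3870938456*(2 - t)^6 + 56517823292*(t - 1)*(2 - t)^5 + 290285587806*(t - 1)^2*(2 - t)^4 + 701926226689*(t - 1)^3*(2 - t)^3 + 851057865787*(t - 1)^4*(2 - t)^2 + 487291648464*(t - 1)^5*(2 - t) + 100394793756*(t - 1)^6 := by ring
  rw [← e] at h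
  linarith

lemma row1_q (t : ℝ) (h1 : 1 ≤ t) (h2 : t ≤ 2) : (0:ℝ) ≤ -126512640*t^6 - 10065192703*t^5 + 32102209591*t^4 + 3316680731*t^3 - 34253134923*t^2 + 14524621200*t - 1627732800 := by
  exact row1_q0 t h1 h2

lemma row1_An_aux0_aux (u w : ℝ) (hu : 0 ≤ u) (hw : 0 ≤ w) : (0:ℝ) ≤ 7*w + 24*u := by positivity
lemma row1_An_aux0 (t : ℝ) (h1 : 1 ≤ t) (h2 : t ≤ 2) : (0:ℝ) ≤ 17*t - 10 := by
  have h := row1_An_aux0_aux (t - 1) (2 - t) (by linarith) (by linarith)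
  have e : (1:ℝ) * (17*t - 10) = 7*(2 - t) + 24*(t - 1) := by ring
  rw [← e] at h
  linarith

lemma row1_An (t : ℝ) (h1 : 1 ≤ t) (h2 : t ≤ 2) : (0:ℝ) < 17*t - 3 := by
  have := row1_An_aux0 t h1 h2
  linarith

lemma row1_key (t a q d : ℝ) (ha : a = 17*t - 3) (hq : q = 114*t - 30) (hd : d = 10*t-3)
    (n1 : a ≠ 0) (n2 : q ≠ 0) (n3 : d ≠ 0) (n5 : 16 + t ≠ 0) (n6 : 1 + t ≠ 0) :
    -(0 + ((2*d) - 1*a) * ((2*d) + 5*1*a) / (1*a*q)) + ((3*(t-1)/(2*d)) + (3*(t-1)/(2*d))*(t-1)*((363/1000)-(17/1250)*t) - (3/4/2 + 3/20/2)*((3*(t-1)/(2*d))^2*t) - 7/2/2*(0*(3*(t-1)/(2*d))^2 + 9/64*((3*(t-1)/(2*d))^2*t)) + (555/1000*(0:ℝ) + (5/16 - 6/1000 - (1+1/5)*(1/4)^2)*((0:ℝ)*t) - 5/16/2*((0:ℝ)^2*t) - (1+1/5)*(1/4)^2/(4*(11/25))*((0:ℝ)^2*t)) - 23/20*((1-(3*(t-1)/(2*d))-(0:ℝ))*(t-1)^2/(6*(16+t)))) - (1/200) * ((t-1)^2/(1+t)) =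
      (1/320000) * ((t-1)^2 * (-126512640*t^6 - 10065192703*t^5 + 32102209591*t^4 + 3316680731*t^3 - 34253134923*t^2 + 14524621200*t - 1627732800)) / (a * q * d^2 * ((16+t)*(1+t))) := by
  rw [eq_div_iff (by positivity)]
  field_simp
  subst ha hq hd
  ring

lemma row1_eA (t a d : ℝ) (ha : a = 17*t - 3) (hd : d = 10*t-3) (n3 : d ≠ 0) :
    (1 - (3*(t-1)/(2*d)) - (0:ℝ)) = a/(2*d) := by
  rw [eq_div_iff (by positivity)]
  field_simp
  subst ha hd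
  ring

theorem row1 (t : ℝ) (h1 : 1 ≤ t) (h2 : t ≤ 2) :
    (1/200) * ((t-1)^2/(1+t)) ≤ Real.log (1 - (3*(t-1)/(2*(10*t-3))) - (0:ℝ)) + ((3*(t-1)/(2*(10*t-3))) + (3*(t-1)/(2*(10*t-3)))*(t-1)*((363/1000)-(17/1250)*t) - (3/4/2 + 3/20/2)*((3*(t-1)/(2*(10*t-3)))^2*t) - 7/2/2*(0*(3*(t-1)/(2*(10*t-3)))^2 + 9/64*((3*(t-1)/(2*(10*t-3)))^2*t)) + (555/1000*(0:ℝ) + (5/16 - 6/1000 - (1+1/5)*(1/4)^2)*((0:ℝ)*t) - 5/16/2*((0:ℝ)^2*t) - (1+1/5)*(1/4)^2/(4*(11/25))*((0:ℝ)^2*t)) - 23/20*((1-(3*(t-1)/(2*(10*t-3)))-(0:ℝ))*(t-1)^2/(6*(16+t)))) := by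
  have hAn : (0:ℝ) < 17*t - 3 := row1_An t h1 h2
  have d0 : (0:ℝ) < 10*t-3 := by linarith
  have hAd : (0:ℝ) < (2*(10*t-3)) := by positivity
  have eQ : (4:ℝ)*((2*(10*t-3))) + 2*1*(17*t - 3) = 114*t - 30 := by ring
  have hQ : (0:ℝ) < 114*t - 30 := by rw [← eQ]; positivity
  have ht1 : (0:ℝ) < 1 + t := by linarith
  have ht16 : (0:ℝ) < 16 + t := by linarith
  have eA := row1_eA t _ _ rfl rfl d0.ne'
  have hlog : -(0 + ((2*(10*t-3)) - 1*(17*t - 3)) * ((2*(10*t-3)) + 5*1*(17*t - 3)) / (1*(17*t - 3)*(114*t - 30))) ≤ Real.log ((17*t - 3)/((2*(10*t-3)))) := by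
    have h := log_low (An := 17*t - 3) (Ad := (2*(10*t-3))) (x0 := 1) (lx := 0) hAn hAd (by norm_num) (by simp)
    rw [eQ] at h
    exact h
  have hq := row1_q t h1 h2
  have hD : (0:ℝ) < ((17*t - 3) * (114*t - 30) * (10*t-3)^2 * ((16+t)*(1+t))) := by positivity
  have key := row1_key t _ _ _ rfl rfl rfl hAn.ne' hQ.ne' d0.ne' ht16.ne' ht1.ne'
  have hpos : 0 ≤ (1/320000) * ((t-1)^2 * (-126512640*t^6 - 10065192703*t^5 + 32102209591*t^4 + 3316680731*t^3 - 34253134923*t^2 + 14524621200*t - 1627732800)) / ((17*t - 3) * (114*t - 30) * (10*t-3)^2 * ((16+t)*(1+t))) :=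
    div_nonneg (mul_nonneg (by norm_num) (mul_nonneg (sq_nonneg _) hq)) hD.le
  have hl : Real.log (1 - (3*(t-1)/(2*(10*t-3))) - (0:ℝ)) = Real.log ((17*t - 3)/((2*(10*t-3)))) := by rw [eA]
  rw [hl]
  linarith

lemma row2_q0_aux (u w : ℝ) (hu : 0 ≤ u) (hw : 0 ≤ w) : (0:ℝ) ≤ 5614125669860262500*w^12 + 97841419074652000000*u*w^11 + 799506084732551507245*u^2*w^10 + 4233401750091788559527*u^3*w^9 + 16731755063637291882786*u^4*w^8 + 51718530569886191965620*u^5*w^7 + 123150451911857182686252*u^6*w^6 + 217782947706624595723260*u^7*w^5 + 275605754284525926707112*u^8*w^4 + 239818470767335902606416*u^9*w^3 + 135420468748041782210080*u^10*w^2 + 44505711088534513092352*u^11*w + 6443350952387276211200*u^12 := by positivity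
lemma row2_q0 (t : ℝ) (h1 : 2 ≤ t) (h2 : t ≤ 5) : (0:ℝ) ≤ -36083520000*t^12 - 34174196542625*t^11 - 542004863955525*t^10 + 96449880058840*t^9 + 142674726391539120*t^8 + 1205529009816195418*t^7 - 7320115509541629030*t^6 + 8126990121708502200*t^5 + 7167094740163260432*t^4 - 4542538954587331257*t^3 - 3328123622335550037*t^2 + 1957384559113751664*t - 241315108053750720 := by
  have h := row2_q0_aux (t - 2) (5 - t) (by linarith) (by linarith)
  have e : (59049:ℝ) * (-36083520000*t^12 - 34174196542625*t^11 - 542004863955525*t^10 + 96449880058840*t^9 + 142674726391539120*t^8 + 1205529009816195418*t^7 - 7320115509541629030*t^6 + 8126990121708502200*t^5 + 7167094740163260432*t^4 - 4542538954587331257*t^3 - 3328123622335550037*t^2 + 1957384559113751664*t - 241315108053750720) = 5614125669860262500*(5 - t)^12 + 97841419074652000000*(t - 2)*(5 - t)^11 + 799506084732551507245*(t - 2)^2*(5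 - t)^10 + 4233401750091788559527*(t - 2)^3*(5 - t)^9 + 16731755063637291882786*(t - 2)^4*(5 - t)^8 + 51718530569886191965620*(t - 2)^5*(5 - t)^7 + 123150451911857182686252*(t - 2)^6*(5 - t)^6 + 217782947706624595723260*(t - 2)^7*(5 - t)^5 + 275605754284525926707112*(t - 2)^8*(5 - t)^4 + 239818470767335902606416*(t - 2)^9*(5 - t)^3 + 135420468748041782210080*(t - 2)^10*(5 - t)^2 + 44505711088534513092352*(t - 2)^11*(5 - t) + 6443350952387276211200*(t - 2)^12 := by ring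
  rw [← e] at h
  linarith

lemma row2_q (t : ℝ) (h1 : 2 ≤ t) (h2 : t ≤ 5) : (0:ℝ) ≤ -36083520000*t^12 - 34174196542625*t^11 - 542004863955525*t^10 + 96449880058840*t^9 + 142674726391539120*t^8 + 1205529009816195418*t^7 - 7320115509541629030*t^6 + 8126990121708502200*t^5 + 7167094740163260432*t^4 - 4542538954587331257*t^3 - 3328123622335550037*t^2 + 1957384559113751664*t - 241315108053750720 := by
  exact row2_q0 t h1 h2

lemma row2_An_aux0_aux (u w : ℝ) (hu : 0 ≤ u) (hw : 0 ≤ w) : (0:ℝ) ≤ 8525*w^2 + 45466*u*w + 37031*u^2 := by positivity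
lemma row2_An_aux0 (t : ℝ) (h1 : 2 ≤ t) (h2 : t ≤ 5) : (0:ℝ) ≤ 10*t^2 + 9432*t - 10379 := by
  have h := row2_An_aux0_aux (t - 2) (5 - t) (by linarith) (by linarith)
  have e : (9:ℝ) * (10*t^2 + 9432*t - 10379) = 8525*(5 - t)^2 + 45466*(t - 2)*(5 - t) + 37031*(t - 2)^2 := by ring
  rw [← e] at h
  linarith

lemma row2_An (t : ℝ) (h1 : 2 ≤ t) (h2 : t ≤ 5) : (0:ℝ) < 5*t^2 + 4716*t - 927 := by
  have := row2_An_aux0 t h1 h2
  linarith

lemma row2_key (t a q d : ℝ) (ha : a = 5*t^2 + 4716*t - 927) (hq : q = 2010*t^2 + 26832*t - 7254) (hd : d = 10*t-3)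
    (n1 : a ≠ 0) (n2 : q ≠ 0) (n3 : d ≠ 0) (n4 : t + 9 ≠ 0) (n5 : 16 + t ≠ 0) (n6 : 1 + t ≠ 0) :
    -(0 + ((50*(d*(t+9))) - 1*a) * ((50*(d*(t+9))) + 5*1*a) / (1*a*q)) + ((3*(t-1)/(2*d)) + (3*(t-1)/(2*d))*(t-1)*((363/1000)-(17/1250)*t) - (3/4/2 + 3/20/2)*((3*(t-1)/(2*d))^2*t) - 7/2/2*(0*(3*(t-1)/(2*d))^2 + 9/64*((3*(t-1)/(2*d))^2*t)) + (555/1000*(21*(t-2)/(25*(t+9))) + (5/16 - 6/1000 - (1+1/5)*(1/4)^2)*((21*(t-2)/(25*(t+9)))*t) - 5/16/2*((21*(t-2)/(25*(t+9)))^2*t) - (1+1/5)*(1/4)^2/(4*(11/25))*((21*(t-2)/(25*(t+9)))^2*t)) - 23/20*((1-(3*(t-1)/(2*d))-(21*(t-2)/(25*(t+9))))*(t-1)^2/(6*(16+t)))) - (1/200) * ((t-1)^2/(1+t)) =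
      (1/17600000) * ((t-1)^0 * (-36083520000*t^12 - 34174196542625*t^11 - 542004863955525*t^10 + 96449880058840*t^9 + 142674726391539120*t^8 + 1205529009816195418*t^7 - 7320115509541629030*t^6 + 8126990121708502200*t^5 + 7167094740163260432*t^4 - 4542538954587331257*t^3 - 3328123622335550037*t^2 + 1957384559113751664*t - 241315108053750720)) / (a * q * d^2 * (t+9)^2 * ((16+t)*(1+t))) := by
  rw [eq_div_iff (by positivity)]
  field_simp
  subst ha hq hd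
  ring

lemma row2_eA (t a d : ℝ) (ha : a = 5*t^2 + 4716*t - 927) (hd : d = 10*t-3) (n3 : d ≠ 0) (n4 : t + 9 ≠ 0) :
    (1 - (3*(t-1)/(2*d)) - (21*(t-2)/(25*(t+9)))) = a/(50*(d*(t+9))) := by
  rw [eq_div_iff (by positivity)]
  field_simp
  subst ha hd
  ring

theorem row2 (t : ℝ) (h1 : 2 ≤ t) (h2 : t ≤ 5) :
    (1/200) * ((t-1)^2/(1+t)) ≤ Real.log (1 - (3*(t-1)/(2*(10*t-3))) - (21*(t-2)/(25*(t+9)))) + ((3*(t-1)/(2*(10*t-3))) + (3*(t-1)/(2*(10*t-3)))*(t-1)*((363/1000)-(17/1250)*t) - (3/4/2 + 3/20/2)*((3*(t-1)/(2*(10*t-3)))^2*t) - 7/2/2*(0*(3*(t-1)/(2*(10*t-3)))^2 + 9/64*((3*(t-1)/(2*(10*t-3)))^2*t)) + (555/1000*(21*(t-2)/(25*(t+9))) + (5/16 - 6/1000 - (1+1/5)*(1/4)^2)*((21*(t-2)/(25*(t+9)))*t) - 5/16/2*((21*(t-2)/(25*(t+9)))^2*t) - (1+1/5)*(1/4)^2/(4*(11/25))*((21*(t-2)/(25*(t+9)))^2*t)) - 23/20*((1-(3*(t-1)/(2*(10*t-3)))-(21*(t-2)/(25*(t+9))))*(t-1)^2/(6*(16+t)))) := by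
  have hAn : (0:ℝ) < 5*t^2 + 4716*t - 927 := row2_An t h1 h2
  have d0 : (0:ℝ) < 10*t-3 := by linarith
  have d1 : (0:ℝ) < t+9 := by linarith
  have hAd : (0:ℝ) < (50*((10*t-3)*(t+9))) := by positivity
  have eQ : (4:ℝ)*((50*((10*t-3)*(t+9)))) + 2*1*(5*t^2 + 4716*t - 927) = 2010*t^2 + 26832*t - 7254 := by ring
  have hQ : (0:ℝ) < 2010*t^2 + 26832*t - 7254 := by rw [← eQ]; positivity
  have ht1 : (0:ℝ) < 1 + t := by linarith
  have ht16 : (0:ℝ) < 16 + t := by linarith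
  have eA := row2_eA t _ _ rfl rfl d0.ne' d1.ne'
  have hlog : -(0 + ((50*((10*t-3)*(t+9))) - 1*(5*t^2 + 4716*t - 927)) * ((50*((10*t-3)*(t+9))) + 5*1*(5*t^2 + 4716*t - 927)) / (1*(5*t^2 + 4716*t - 927)*(2010*t^2 + 26832*t - 7254))) ≤ Real.log ((5*t^2 + 4716*t - 927)/((50*((10*t-3)*(t+9))))) := by
    have h := log_low (An := 5*t^2 + 4716*t - 927) (Ad := (50*((10*t-3)*(t+9)))) (x0 := 1) (lx := 0) hAn hAd (by norm_num) (by simp)
    rw [eQ] at h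
    exact h
  have hq := row2_q t h1 h2
  have hD : (0:ℝ) < ((5*t^2 + 4716*t - 927) * (2010*t^2 + 26832*t - 7254) * (10*t-3)^2 * (t+9)^2 * ((16+t)*(1+t))) := by positivity
  have key := row2_key t _ _ _ rfl rfl rfl hAn.ne' hQ.ne' d0.ne' d1.ne' ht16.ne' ht1.ne'
  have hpos : 0 ≤ (1/17600000) * ((t-1)^0 * (-36083520000*t^12 - 34174196542625*t^11 - 542004863955525*t^10 + 96449880058840*t^9 + 142674726391539120*t^8 + 1205529009816195418*t^7 - 7320115509541629030*t^6 + 8126990121708502200*t^5 + 7167094740163260432*t^4 - 4542538954587331257*t^3 - 3328123622335550037*t^2 + 1957384559113751664*t - 241315108053750720)) / ((5*t^2 + 4716*t - 927) * (2010*t^2 + 26832*t - 7254) * (10*t-3)^2 * (t+9)^2 * ((16+t)*(1+t))) :=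
    div_nonneg (mul_nonneg (by norm_num) (mul_nonneg (by simp) hq)) hD.le
  have hl : Real.log (1 - (3*(t-1)/(2*(10*t-3))) - (21*(t-2)/(25*(t+9)))) = Real.log ((5*t^2 + 4716*t - 927)/((50*((10*t-3)*(t+9))))) := by rw [eA]
  rw [hl]
  linarith

lemma log_3_2 : Real.log (3/2) ≤ (13/32) := by
  have h := LogP395.log_le_pade (x := (3/2)) (by norm_num)
  norm_num at h ⊢
  linarith

lemma row5_q0_aux (u w : ℝ) (hu : 0 ≤ u) (hw : 0 ≤ w) : (0:ℝ) ≤ 1005105748537891940800*w^12 + 23866848421923647860804*u*w^11 + 254905889252693267116787*u^2*w^10 + 1619831418395407640890103*u^3*w^9 + 6822887558173362208998849*u^4*w^8 + 20071731618811992122143719*u^5*w^7 + 42291979540579428742988091*u^6*w^6 + 64313056405540172641949697*u^7*w^5 + 70056686353491537115447743*u^8*w^4 + 53312777533480600551051829*u^9*w^3 + 26903420809414396548770674*u^10*w^2 + 8082828008607308170909352*u^11*w + 1093205943337455233142560*u^12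 := by positivity
lemma row5_q0 (t : ℝ) (h1 : 5 ≤ t) (h2 : t ≤ 11) : (0:ℝ) ≤ -111711600000*t^12 - 102143912380625*t^11 + 1466564805183375*t^10 + 68207402105056000*t^9 + 980642940743554640*t^8 + 6764014940473560402*t^7 - 58564611975309048270*t^6 + 71525036130232250160*t^5 + 46941118245292882608*t^4 - 44236644533498405313*t^3 - 15011194879967126913*t^2 + 11604569791775467536*t - 1480720752226457280 := by
  have h := row5_q0_aux (t - 5) (11 - t) (by linarith) (by linarith)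
  have e : (5668704:ℝ) * (-111711600000*t^12 - 102143912380625*t^11 + 1466564805183375*t^10 + 68207402105056000*t^9 + 980642940743554640*t^8 + 6764014940473560402*t^7 - 58564611975309048270*t^6 + 71525036130232250160*t^5 + 46941118245292882608*t^4 - 44236644533498405313*t^3 - 15011194879967126913*t^2 + 11604569791775467536*t - 1480720752226457280) = 1005105748537891940800*(11 - t)^12 + 23866848421923647860804*(t - 5)*(11 - t)^11 + 254905889252693267116787*(t - 5)^2*(11 - t)^10 + 1619831418395407640890103*(t - 5)^3*(11 - t)^9 + 6822887558173362208998849*(t - 5)^4*(11 - t)^8 + 20071731618811992122143719*(t - 5)^5*(11 - t)^7 + 42291979540579428742988091*(t - 5)^6*(11 - t)^6 + 64313056405540172641949697*(t - 5)^7*(11 - t)^5 + 70056686353491537115447743*(t - 5)^8*(11 - t)^4 + 53312777533480600551051829*(t - 5)^9*(11 - t)^3 + 26903420809414396548770674*(t - 5)^10*(11 - t)^2 + 8082828008607308170909352*(t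 - 5)^11*(11 - t) + 1093205943337455233142560*(t - 5)^12 := by ring
  rw [← e] at h
  linarith

lemma row5_q (t : ℝ) (h1 : 5 ≤ t) (h2 : t ≤ 11) : (0:ℝ) ≤ -111711600000*t^12 - 102143912380625*t^11 + 1466564805183375*t^10 + 68207402105056000*t^9 + 980642940743554640*t^8 + 6764014940473560402*t^7 - 58564611975309048270*t^6 + 71525036130232250160*t^5 + 46941118245292882608*t^4 - 44236644533498405313*t^3 - 15011194879967126913*t^2 + 11604569791775467536*t - 1480720752226457280 := by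
  exact row5_q0 t h1 h2

lemma row5_An_aux0_aux (u w : ℝ) (hu : 0 ≤ u) (hw : 0 ≤ w) : (0:ℝ) ≤ 11389*w^2 + 51374*u*w + 40165*u^2 := by positivity
lemma row5_An_aux0 (t : ℝ) (h1 : 5 ≤ t) (h2 : t ≤ 11) : (0:ℝ) ≤ 5*t^2 + 4716*t - 12316 := by
  have h := row5_An_aux0_aux (t - 5) (11 - t) (by linarith) (by linarith)
  have e : (36:ℝ) * (5*t^2 + 4716*t - 12316) = 11389*(11 - t)^2 + 51374*(t - 5)*(11 - t) + 40165*(t - 5)^2 := by ring
  rw [← e] at h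
  linarith

lemma row5_An (t : ℝ) (h1 : 5 ≤ t) (h2 : t ≤ 11) : (0:ℝ) < 5*t^2 + 4716*t - 927 := by
  have := row5_An_aux0 t h1 h2
  linarith

lemma row5_key (t a q d : ℝ) (ha : a = 5*t^2 + 4716*t - 927) (hq : q = 2015*t^2 + 31548*t - 8181) (hd : d = 10*t-3)
    (n1 : a ≠ 0) (n2 : q ≠ 0) (n3 : d ≠ 0) (n4 : t + 9 ≠ 0) (n5 : 16 + t ≠ 0) (n6 : 1 + t ≠ 0) :
    -((13/32) + ((50*(d*(t+9))) - (3/2)*a) * ((50*(d*(t+9))) + 5*(3/2)*a) / ((3/2)*a*q)) + ((3*(t-1)/(2*d)) + (3*(t-1)/(2*d))*(t-1)*((33/100)-(7/1000)*t) - (3/4/2 + 3/20/2)*((3*(t-1)/(2*d))^2*t) - 7/2/2*(0*(3*(t-1)/(2*d))^2 + 9/64*((3*(t-1)/(2*d))^2*t)) + (555/1000*(21*(t-2)/(25*(t+9))) + (5/16 - 6/1000 - (1+1/5)*(1/4)^2)*((21*(t-2)/(25*(t+9)))*t) - 5/16/2*((21*(t-2)/(25*(t+9)))^2*t) - (1+1/5)*(1/4)^2/(4*(11/25))*((21*(t-2)/(25*(t+9)))^2*t)) - 23/20*((1-(3*(t-1)/(2*d))-(21*(t-2)/(25*(t+9))))*(t-1)^2/(6*(16+t)))) - (1/200) * ((t-1)^2/(1+t))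 =
      (1/105600000) * ((t-1)^0 * (-111711600000*t^12 - 102143912380625*t^11 + 1466564805183375*t^10 + 68207402105056000*t^9 + 980642940743554640*t^8 + 6764014940473560402*t^7 - 58564611975309048270*t^6 + 71525036130232250160*t^5 + 46941118245292882608*t^4 - 44236644533498405313*t^3 - 15011194879967126913*t^2 + 11604569791775467536*t - 1480720752226457280)) / (a * q * d^2 * (t+9)^2 * ((16+t)*(1+t))) := by
  rw [eq_div_iff (by positivity)]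
  field_simp
  subst ha hq hd
  ring

lemma row5_eA (t a d : ℝ) (ha : a = 5*t^2 + 4716*t - 927) (hd : d = 10*t-3) (n3 : d ≠ 0) (n4 : t + 9 ≠ 0) :
    (1 - (3*(t-1)/(2*d)) - (21*(t-2)/(25*(t+9)))) = a/(50*(d*(t+9))) := by
  rw [eq_div_iff (by positivity)]
  field_simp
  subst ha hd
  ring

theorem row5 (t : ℝ) (h1 : 5 ≤ t) (h2 : t ≤ 11) :
    (1/200) * ((t-1)^2/(1+t)) ≤ Real.log (1 - (3*(t-1)/(2*(10*t-3))) - (21*(t-2)/(25*(t+9)))) + ((3*(t-1)/(2*(10*t-3))) + (3*(t-1)/(2*(10*t-3)))*(t-1)*((33/100)-(7/1000)*t) - (3/4/2 + 3/20/2)*((3*(t-1)/(2*(10*t-3)))^2*t) - 7/2/2*(0*(3*(t-1)/(2*(10*t-3)))^2 + 9/64*((3*(t-1)/(2*(10*t-3)))^2*t)) + (555/1000*(21*(t-2)/(25*(t+9))) + (5/16 - 6/1000 - (1+1/5)*(1/4)^2)*((21*(t-2)/(25*(t+9)))*t) - 5/16/2*((21*(t-2)/(25*(t+9)))^2*t) - (1+1/5)*(1/4)^2/(4*(11/25))*((21*(t-2)/(25*(t+9)))^2*t)) - 23/20*((1-(3*(t-1)/(2*(10*t-3)))-(21*(t-2)/(25*(t+9))))*(t-1)^2/(6*(16+t))))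 := by
  have hAn : (0:ℝ) < 5*t^2 + 4716*t - 927 := row5_An t h1 h2
  have d0 : (0:ℝ) < 10*t-3 := by linarith
  have d1 : (0:ℝ) < t+9 := by linarith
  have hAd : (0:ℝ) < (50*((10*t-3)*(t+9))) := by positivity
  have eQ : (4:ℝ)*((50*((10*t-3)*(t+9)))) + 2*(3/2)*(5*t^2 + 4716*t - 927) = 2015*t^2 + 31548*t - 8181 := by ring
  have hQ : (0:ℝ) < 2015*t^2 + 31548*t - 8181 := by rw [← eQ]; positivity
  have ht1 : (0:ℝ) < 1 + t := by linarith
  have ht16 : (0:ℝ) < 16 + t := by linarith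
  have eA := row5_eA t _ _ rfl rfl d0.ne' d1.ne'
  have hlog : -((13/32) + ((50*((10*t-3)*(t+9))) - (3/2)*(5*t^2 + 4716*t - 927)) * ((50*((10*t-3)*(t+9))) + 5*(3/2)*(5*t^2 + 4716*t - 927)) / ((3/2)*(5*t^2 + 4716*t - 927)*(2015*t^2 + 31548*t - 8181))) ≤ Real.log ((5*t^2 + 4716*t - 927)/((50*((10*t-3)*(t+9))))) := by
    have h := log_low (An := 5*t^2 + 4716*t - 927) (Ad := (50*((10*t-3)*(t+9)))) (x0 := (3/2)) (lx := (13/32)) hAn hAd (by norm_num) log_3_2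
    rw [eQ] at h
    exact h
  have hq := row5_q t h1 h2
  have hD : (0:ℝ) < ((5*t^2 + 4716*t - 927) * (2015*t^2 + 31548*t - 8181) * (10*t-3)^2 * (t+9)^2 * ((16+t)*(1+t))) := by positivity
  have key := row5_key t _ _ _ rfl rfl rfl hAn.ne' hQ.ne' d0.ne' d1.ne' ht16.ne' ht1.ne'
  have hpos : 0 ≤ (1/105600000) * ((t-1)^0 * (-111711600000*t^12 - 102143912380625*t^11 + 1466564805183375*t^10 + 68207402105056000*t^9 + 980642940743554640*t^8 + 6764014940473560402*t^7 - 58564611975309048270*t^6 + 71525036130232250160*t^5 + 46941118245292882608*t^4 - 44236644533498405313*t^3 - 15011194879967126913*t^2 + 11604569791775467536*t - 1480720752226457280)) / ((5*t^2 + 4716*t - 927) * (2015*t^2 + 31548*t - 8181) * (10*t-3)^2 * (t+9)^2 * ((16+t)*(1+t))) :=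
    div_nonneg (mul_nonneg (by norm_num) (mul_nonneg (by simp) hq)) hD.le
  have hl : Real.log (1 - (3*(t-1)/(2*(10*t-3))) - (21*(t-2)/(25*(t+9)))) = Real.log ((5*t^2 + 4716*t - 927)/((50*((10*t-3)*(t+9))))) := by rw [eA]
  rw [hl]
  linarith

lemma log_3_1 : Real.log 3 ≤ (549699/500000) := by
  have h := LogP395.log_le_pade (x := (3/2)) (by norm_num)
  have h2 := log2_le
  have e : Real.log 3 = 1 * Real.log 2 + Real.log (3/2) := by
    rw [show (3:ℝ) = 2^1 * (3/2) by norm_num, Real.log_mul (by norm_num) (by norm_num), Real.log_pow]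
    norm_num
  rw [e]
  norm_num at h ⊢
  linarith

lemma row11_q0_aux (u w : ℝ) (hu : 0 ≤ u) (hw : 0 ≤ w) : (0:ℝ) ≤ 1283877262478464958133350400*w^12 + 66698705950416740687972830720*u*w^11 + 1547596311807893169409203329728*u^2*w^10 + 21185935544960552895591439791408*u^3*w^9 + 190254156956912687162867780136816*u^4*w^8 + 1177636726613020850544135155585916*u^5*w^7 + 5131471238726495671284302275691148*u^6*w^6 + 15762591163234907591340882851107956*u^7*w^5 + 33540239754518316090430312333181628*u^8*w^4 + 47407903469607587336333497427225211*u^9*w^3 + 40997579719021881970864118488048971*u^10*w^2 + 18379785540447722357208210063912408*u^11*w + 2857274120685030367845301520714928*u^12 := by positivity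
lemma row11_q0 (t : ℝ) (h1 : 11 ≤ t) (h2 : t ≤ 60) : (0:ℝ) ≤ -160776000000*t^12 - 140205558828125*t^11 + 8994479038264375*t^10 + 243216501447717000*t^9 + 2054549788538082000*t^8 + 25027831336559942850*t^7 - 235556781715672083198*t^6 + 34787812932680366952*t^5 + 85234732147406999664*t^4 - 55169028681720915429*t^3 - 67893993205648881849*t^2 + 38172742721966135952*t - 4619960110372761792 := by
  have h := row11_q0_aux (t - 11) (60 - t) (by linarith) (by linarith)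
  have e : (191581231380566414401:ℝ) * (-160776000000*t^12 - 140205558828125*t^11 + 8994479038264375*t^10 + 243216501447717000*t^9 + 2054549788538082000*t^8 + 25027831336559942850*t^7 - 235556781715672083198*t^6 + 34787812932680366952*t^5 + 85234732147406999664*t^4 - 55169028681720915429*t^3 - 67893993205648881849*t^2 + 38172742721966135952*t - 4619960110372761792) = 1283877262478464958133350400*(60 - t)^12 + 66698705950416740687972830720*(t - 11)*(60 - t)^11 + 1547596311807893169409203329728*(t - 11)^2*(60 - t)^10 + 21185935544960552895591439791408*(t - 11)^3*(60 - t)^9 + 190254156956912687162867780136816*(t - 11)^4*(60 - t)^8 + 1177636726613020850544135155585916*(t - 11)^5*(60 - t)^7 + 5131471238726495671284302275691148*(t - 11)^6*(60 - t)^6 + 15762591163234907591340882851107956*(t - 11)^7*(60 - t)^5 + 33540239754518316090430312333181628*(t - 11)^8*(60 - t)^4 + 47407903469607587336333497427225211*(t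 - 11)^9*(60 - t)^3 + 40997579719021881970864118488048971*(t - 11)^10*(60 - t)^2 + 18379785540447722357208210063912408*(t - 11)^11*(60 - t) + 2857274120685030367845301520714928*(t - 11)^12 := by ring
  rw [← e] at h
  linarith

lemma row11_q (t : ℝ) (h1 : 11 ≤ t) (h2 : t ≤ 60) : (0:ℝ) ≤ -160776000000*t^12 - 140205558828125*t^11 + 8994479038264375*t^10 + 243216501447717000*t^9 + 2054549788538082000*t^8 + 25027831336559942850*t^7 - 235556781715672083198*t^6 + 34787812932680366952*t^5 + 85234732147406999664*t^4 - 55169028681720915429*t^3 - 67893993205648881849*t^2 + 38172742721966135952*t - 4619960110372761792 := by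
  exact row11_q0 t h1 h2

lemma row11_An_aux0_aux (u w : ℝ) (hu : 0 ≤ u) (hw : 0 ≤ w) : (0:ℝ) ≤ 25777*w^2 + 288028*u*w + 274256*u^2 := by positivity
lemma row11_An_aux0 (t : ℝ) (h1 : 11 ≤ t) (h2 : t ≤ 60) : (0:ℝ) ≤ 5*t^2 + 4716*t - 26704 := by
  have h := row11_An_aux0_aux (t - 11) (60 - t) (by linarith) (by linarith)
  have e : (2401:ℝ) * (5*t^2 + 4716*t - 26704) = 25777*(60 - t)^2 + 288028*(t - 11)*(60 - t) + 274256*(t - 11)^2 := by ring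
  rw [← e] at h
  linarith

lemma row11_An (t : ℝ) (h1 : 11 ≤ t) (h2 : t ≤ 60) : (0:ℝ) < 5*t^2 + 4716*t - 927 := by
  have := row11_An_aux0 t h1 h2
  linarith

lemma row11_key (t a q d : ℝ) (ha : a = 5*t^2 + 4716*t - 927) (hq : q = 2030*t^2 + 45696*t - 10962) (hd : d = 10*t-3)
    (n1 : a ≠ 0) (n2 : q ≠ 0) (n3 : d ≠ 0) (n4 : t + 9 ≠ 0) (n5 : 16 + t ≠ 0) (n6 : 1 + t ≠ 0) :
    -((549699/500000) + ((50*(d*(t+9))) - 3*a) * ((50*(d*(t+9))) + 5*3*a) / (3*a*q)) + ((3*(t-1)/(2*d)) + (3*(t-1)/(2*d))*(t-1)*((59/200)-(1/250)*t) - (3/4/2 + 3/20/2)*((3*(t-1)/(2*d))^2*t) - 7/2/2*(0*(3*(t-1)/(2*d))^2 + 9/64*((3*(t-1)/(2*d))^2*t)) + (555/1000*(21*(t-2)/(25*(t+9))) + (5/16 - 6/1000 - (1+1/5)*(1/4)^2)*((21*(t-2)/(25*(t+9)))*t) - 5/16/2*((21*(t-2)/(25*(t+9)))^2*t) - (1+1/5)*(1/4)^2/(4*(11/25))*((21*(t-2)/(25*(t+9)))^2*t)) - 23/20*((1-(3*(t-1)/(2*d))-(21*(t-2)/(25*(t+9))))*(t-1)^2/(6*(16+t))))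 - (1/200) * ((t-1)^2/(1+t)) =
      (1/264000000) * ((t-1)^0 * (-160776000000*t^12 - 140205558828125*t^11 + 8994479038264375*t^10 + 243216501447717000*t^9 + 2054549788538082000*t^8 + 25027831336559942850*t^7 - 235556781715672083198*t^6 + 34787812932680366952*t^5 + 85234732147406999664*t^4 - 55169028681720915429*t^3 - 67893993205648881849*t^2 + 38172742721966135952*t - 4619960110372761792)) / (a * q * d^2 * (t+9)^2 * ((16+t)*(1+t))) := by
  rw [eq_div_iff (by positivity)]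
  field_simp
  subst ha hq hd
  ring

lemma row11_eA (t a d : ℝ) (ha : a = 5*t^2 + 4716*t - 927) (hd : d = 10*t-3) (n3 : d ≠ 0) (n4 : t + 9 ≠ 0) :
    (1 - (3*(t-1)/(2*d)) - (21*(t-2)/(25*(t+9)))) = a/(50*(d*(t+9))) := by
  rw [eq_div_iff (by positivity)]
  field_simp
  subst ha hd
  ring

theorem row11 (t : ℝ) (h1 : 11 ≤ t) (h2 : t ≤ 60) :
    (1/200) * ((t-1)^2/(1+t)) ≤ Real.log (1 - (3*(t-1)/(2*(10*t-3))) - (21*(t-2)/(25*(t+9)))) + ((3*(t-1)/(2*(10*t-3))) + (3*(t-1)/(2*(10*t-3)))*(t-1)*((59/200)-(1/250)*t) - (3/4/2 + 3/20/2)*((3*(t-1)/(2*(10*t-3)))^2*t) - 7/2/2*(0*(3*(t-1)/(2*(10*t-3)))^2 + 9/64*((3*(t-1)/(2*(10*t-3)))^2*t)) + (555/1000*(21*(t-2)/(25*(t+9))) + (5/16 - 6/1000 - (1+1/5)*(1/4)^2)*((21*(t-2)/(25*(t+9)))*t) - 5/16/2*((21*(t-2)/(25*(t+9)))^2*t) - (1+1/5)*(1/4)^2/(4*(11/25))*((21*(t-2)/(25*(t+9)))^2*t)) - 23/20*((1-(3*(t-1)/(2*(10*t-3)))-(21*(t-2)/(25*(t+9))))*(t-1)^2/(6*(16+t))))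 := by
  have hAn : (0:ℝ) < 5*t^2 + 4716*t - 927 := row11_An t h1 h2
  have d0 : (0:ℝ) < 10*t-3 := by linarith
  have d1 : (0:ℝ) < t+9 := by linarith
  have hAd : (0:ℝ) < (50*((10*t-3)*(t+9))) := by positivity
  have eQ : (4:ℝ)*((50*((10*t-3)*(t+9)))) + 2*3*(5*t^2 + 4716*t - 927) = 2030*t^2 + 45696*t - 10962 := by ring
  have hQ : (0:ℝ) < 2030*t^2 + 45696*t - 10962 := by rw [← eQ]; positivity
  have ht1 : (0:ℝ) < 1 + t := by linarith
  have ht16 : (0:ℝ) < 16 + t := by linarith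
  have eA := row11_eA t _ _ rfl rfl d0.ne' d1.ne'
  have hlog : -((549699/500000) + ((50*((10*t-3)*(t+9))) - 3*(5*t^2 + 4716*t - 927)) * ((50*((10*t-3)*(t+9))) + 5*3*(5*t^2 + 4716*t - 927)) / (3*(5*t^2 + 4716*t - 927)*(2030*t^2 + 45696*t - 10962))) ≤ Real.log ((5*t^2 + 4716*t - 927)/((50*((10*t-3)*(t+9))))) := by
    have h := log_low (An := 5*t^2 + 4716*t - 927) (Ad := (50*((10*t-3)*(t+9)))) (x0 := 3) (lx := (549699/500000)) hAn hAd (by norm_num) log_3_1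
    rw [eQ] at h
    exact h
  have hq := row11_q t h1 h2
  have hD : (0:ℝ) < ((5*t^2 + 4716*t - 927) * (2030*t^2 + 45696*t - 10962) * (10*t-3)^2 * (t+9)^2 * ((16+t)*(1+t))) := by positivity
  have key := row11_key t _ _ _ rfl rfl rfl hAn.ne' hQ.ne' d0.ne' d1.ne' ht16.ne' ht1.ne'
  have hpos : 0 ≤ (1/264000000) * ((t-1)^0 * (-160776000000*t^12 - 140205558828125*t^11 + 8994479038264375*t^10 + 243216501447717000*t^9 + 2054549788538082000*t^8 + 25027831336559942850*t^7 - 235556781715672083198*t^6 + 34787812932680366952*t^5 + 85234732147406999664*t^4 - 55169028681720915429*t^3 - 67893993205648881849*t^2 + 38172742721966135952*t - 4619960110372761792)) / ((5*t^2 + 4716*t - 927) * (2030*t^2 + 45696*t - 10962) * (10*t-3)^2 * (t+9)^2 * ((16+t)*(1+t))) :=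
    div_nonneg (mul_nonneg (by norm_num) (mul_nonneg (by simp) hq)) hD.le
  have hl : Real.log (1 - (3*(t-1)/(2*(10*t-3))) - (21*(t-2)/(25*(t+9)))) = Real.log ((5*t^2 + 4716*t - 927)/((50*((10*t-3)*(t+9))))) := by rw [eA]
  rw [hl]
  linarith

lemma log_4_1 : Real.log 4 ≤ (277259/200000) := by
  have h2 := log2_le
  have e : Real.log 4 = 2 * Real.log 2 := by
    rw [show (4:ℝ) = 2^2 by norm_num, Real.log_pow]
    norm_num
  rw [e]
  linarith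

lemma row60_q0_aux (u : ℝ) (hu : 0 ≤ u) : (0:ℝ) ≤ 365314318 + 49071062*u + 1171115*u^2 + 7621*u^3 := by positivity
lemma row60_q0 (t : ℝ) (h1 : 60 ≤ t) : (0:ℝ) ≤ 7621*t^3 - 200665*t^2 - 9155938*t - 9071402 := by
  have h := row60_q0_aux (t - 60) (by linarith)
  have e : (1:ℝ) * (7621*t^3 - 200665*t^2 - 9155938*t - 9071402) = 365314318 + 49071062*(t - 60) + 1171115*(t - 60)^2 + 7621*(t - 60)^3 := by ring
  rw [← e] at h
  linarith

lemma row60_q (t : ℝ) (h1 : 60 ≤ t) : (0:ℝ) ≤ 7621*t^3 - 200665*t^2 - 9155938*t - 9071402 := by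
  exact row60_q0 t h1

lemma row60_An (t : ℝ) (h1 : 60 ≤ t) : (0:ℝ) < 4 := by norm_num

lemma row60_key (t a q : ℝ) (ha : a = 4) (hq : q = 132)
    (n1 : a ≠ 0) (n2 : q ≠ 0) (n5 : 16 + t ≠ 0) (n6 : 1 + t ≠ 0) :
    -((277259/200000) + (25 - 4*a) * (25 + 5*4*a) / (4*a*q)) + ((0:ℝ) + (0:ℝ)*(t-1)*(0-0*t) - (3/4/2 + 3/20/2)*((0:ℝ)^2*t) - 7/2/2*(0*(0:ℝ)^2 + 9/64*((0:ℝ)^2*t)) + (555/1000*(21/25:ℝ) + (5/16 - 6/1000 - (1+1/5)*(1/4)^2)*((21/25:ℝ)*t) - 5/16/2*((21/25:ℝ)^2*t) - (1+1/5)*(1/4)^2/(4*(11/25))*((21/25:ℝ)^2*t)) - 23/20*((1-(0:ℝ)-(21/25:ℝ))*(t-1)^2/(6*(16+t)))) - (1/200) * ((t-1)^2/(1+t)) =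
      (4/3125) * ((t-1)^0 * (7621*t^3 - 200665*t^2 - 9155938*t - 9071402)) / (a * q * ((16+t)*(1+t))) := by
  rw [eq_div_iff (by positivity)]
  field_simp
  subst ha hq
  ring

lemma row60_eA (t a : ℝ) (ha : a = 4) :
    (1 - (0:ℝ) - (21/25:ℝ)) = a/25 := by
  rw [eq_div_iff (by positivity)]
  field_simp
  subst ha
  ring

theorem row60 (t : ℝ) (h1 : 60 ≤ t) :
    (1/200) * ((t-1)^2/(1+t)) ≤ Real.log (1 - (0:ℝ) - (21/25:ℝ)) + ((0:ℝ) + (0:ℝ)*(t-1)*(0-0*t) - (3/4/2 + 3/20/2)*((0:ℝ)^2*t) - 7/2/2*(0*(0:ℝ)^2 + 9/64*((0:ℝ)^2*t)) + (555/1000*(21/25:ℝ) + (5/16 - 6/1000 - (1+1/5)*(1/4)^2)*((21/25:ℝ)*t) - 5/16/2*((21/25:ℝ)^2*t) - (1+1/5)*(1/4)^2/(4*(11/25))*((21/25:ℝ)^2*t)) - 23/20*((1-(0:ℝ)-(21/25:ℝ))*(t-1)^2/(6*(16+t)))) := by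
  have hAn : (0:ℝ) < 4 := row60_An t h1

  have hAd : (0:ℝ) < 25 := by positivity
  have eQ : (4:ℝ)*(25) + 2*4*(4) = 132 := by ring
  have hQ : (0:ℝ) < 132 := by rw [← eQ]; positivity
  have ht1 : (0:ℝ) < 1 + t := by linarith
  have ht16 : (0:ℝ) < 16 + t := by linarith
  have eA := row60_eA t _ rfl
  have hlog : -((277259/200000) + (25 - 4*(4)) * (25 + 5*4*(4)) / (4*(4)*(132))) ≤ Real.log ((4)/(25)) := by
    have h := log_low (An := 4) (Ad := 25) (x0 := 4) (lx := (277259/200000)) hAn hAd (by norm_num) log_4_1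
    rw [eQ] at h
    exact h
  have hq := row60_q t h1
  have hD : (0:ℝ) < ((4) * (132) * ((16+t)*(1+t))) := by positivity
  have key := row60_key t _ _ rfl rfl hAn.ne' hQ.ne' ht16.ne' ht1.ne'
  have hpos : 0 ≤ (4/3125) * ((t-1)^0 * (7621*t^3 - 200665*t^2 - 9155938*t - 9071402)) / ((4) * (132) * ((16+t)*(1+t))) :=
    div_nonneg (mul_nonneg (by norm_num) (mul_nonneg (by simp) hq)) hD.le
  have hl : Real.log (1 - (0:ℝ) - (21/25:ℝ)) = Real.log ((4)/(25)) := by rw [eA]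
  rw [hl]
  linarith

end Crest.Agent.R253.L7P167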