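import Crest.Agent.R253.TabF_167
import Crest.Agent.R253.L7P_167

/-!
# Row 253, (L7): the final one-variable inequality of the frozen table (helper167)
-/

set_option autoImplicit false

noncomputable section

namespace Crest.Agent.R253.L7x167

open Crest.Agent.R253.TabF167 Crest.Agent.R253.L7P167

lemma loss_eq {x : ℝ} (hx : 0 ≤ x) (a : ℝ) :
    1 / (20 / 23) * (1 / 6 * (a * (1 - r x) ^ 2 * x) + 1 / 8 / 12 * (a * (1 - r x * x) ^ 2)) =
      23 / 20 * (a * (x - 1) ^ 2 / (6 * (16 + x))) := by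
  unfold r
  have h : 16 + x ≠ 0 := by positivity
  field_simp
  ring

lemma b1_mid' {x : ℝ} (h : 1 ≤ x) (h' : x ≤ 60) : b1 x = 3 * (x - 1) / (2 * (10 * x - 3)) := by
  rw [b1_mid h h', div_eq_div_iff (by linarith) (by linarith)]
  ring

lemma b2_mid' {x : ℝ} (h : 2 ≤ x) (h' : x ≤ 60) : b2 x = 21 * (x - 2) / (25 * (x + 9)) := by
  rw [b2_mid h h', div_eq_div_iff (by linarith) (by linarith)]
  ring

/-- **(L7)** -/
theorem L7 (x : ℝ) (hx : 0 ≤ x) : 1 / 200 * ((1 - x) ^ 2 / (1 + x)) ≤ Phi x := by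
  have e0 : (1 - x) ^ 2 = (x - 1) ^ 2 := by ring
  rw [e0]
  unfold Phi
  rw [loss_eq hx]
  unfold A
  rcases le_or_gt x 1 with h1 | h1
  · have h := row0 x hx h1
    rw [b1_le1 h1, b2_le2 (by linarith), al_5 (by linarith), ep_5 (by linarith)]
    refine h.trans (le_of_eq ?_)
    ring
  rcases le_or_gt x 2 with h2 | h2
  · have h := row1 x h1.le h2
    rw [b1_mid' h1.le (by linarith), b2_le2 h2, al_5 (by linarith), ep_5 (by linarith)]
    refine h.trans (le_of_eq ?_)
    ring
  rcases le_or_gt x 5 with h5 | h5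
  · have h := row2 x h2.le h5
    rw [b1_mid' h1.le (by linarith), b2_mid' h2.le (by linarith), al_5 h5, ep_5 h5]
    refine h.trans (le_of_eq ?_)
    ring
  rcases le_or_gt x 11 with h6 | h6
  · have h := row5 x h5.le h6
    rw [b1_mid' h1.le (by linarith), b2_mid' h2.le (by linarith), al_11 h5 h6, ep_11 h5 h6]
    refine h.trans (le_of_eq ?_)
    ring
  rcases le_or_gt x 60 with h7 | h7
  · have h := row11 x h6.le h7
    rw [b1_mid' h1.le h7, b2_mid' h2.le h7, al_60 h6 h7, ep_60 h6 h7]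
    refine h.trans (le_of_eq ?_)
    ring
  · have h := row60 x h7.le
    rw [b1_far h7, b2_far h7, al_far h7, ep_far h7]
    refine h.trans (le_of_eq ?_)
    ring

end Crest.Agent.R253.L7x167
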