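import Crest.Agent.R253.L7_167
import Crest.Agent.R253.Conv_80

/-!
# Row 253, (L7) in the letters of `comb` (helper167)
-/

set_option autoImplicit false

noncomputable section

namespace Crest.Agent.R253.L7x167

open Crest.Agent.R253.TabF167 Crest.Agent.R253.TrC80

/-- `Phi` is literally the combination of 80's functions -/
theorem Phi_eq (x : ℝ) : Phi x = Real.log (A x) +
    nf b1 al ep (3 / 4) (3 / 20) (7 / 2) 0 (9 / 64) x +
    ff b2 (555 / 1000) (6 / 1000) (1 / 4) (1 / 5) (11 / 25) (5 / 16) x -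
    gf A r (1 / 8) (20 / 23) x := by
  unfold Phi nf ff gf
  ring

theorem hPhi_comb (x : ℝ) (_hx : 0 ≤ x) : Phi x ≤ Real.log (A x) +
    nf b1 al ep (3 / 4) (3 / 20) (7 / 2) 0 (9 / 64) x +
    ff b2 (555 / 1000) (6 / 1000) (1 / 4) (1 / 5) (11 / 25) (5 / 16) x -
    gf A r (1 / 8) (20 / 23) x := (Phi_eq x).le

/-- the margin in the letters of `FinQ214` -/
theorem mg_le (x : ℝ) (hx : 0 ≤ x) : 1 / 200 * FinQ214.mg x ≤ Phi x := L7 x hx

end Crest.Agent.R253.L7x167
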