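import Crest.Agent.R253.SInv_930
import Crest.Agent.R253.Jet_999

/-!
helper930, row 253.  The entropy deficit function `l` of the truncated Gaussian as a function of its
variance `s`: continuity on `[0,1]`, end values, `l' = L/2`, `l'' = -V u^2/2`, and its second order
expansion at `0` (`l'(0)=1`, `l''(0)=-5`).
-/

set_option autoImplicit false

open MeasureTheory Set Filter Topology

namespace Crest.Agent.R253.LFun930

open Crest.Agent.R253.Mills930 Crest.Agent.R253.Hazard930 Crest.Agent.R253.Curve930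
open Crest.Agent.R253.Conc930 Crest.Agent.R253.SInv930

/-- the entropy deficit at `z` -/
noncomputable def Lz (z : ℝ) : ℝ := (z * m z - 1) / 2 - Real.log (r z) - Real.log (s z) / 2

lemma Lz_deriv (z : ℝ) : HasDerivAt Lz (L z / 2 * (-(r z * K z))) z := by
  have h1 := (((hasDerivAt_id z).mul (m_deriv z)).sub_const 1).div_const 2
  have h2 := (r_deriv z).log (r_pos z).ne'
  have h3 := ((s_deriv z).log (s_pos z).ne').div_const 2
  have h := (h1.sub h2).sub h3
  refine h.congr_deriv ?_
  have hr := (r_pos z).ne'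
  have hs := (s_pos z).ne'
  have hK := (K_pos z).ne'
  unfold L
  have e1 : r z * m z / r z = m z := by field_simp
  rw [e1]
  field_simp
  simp only [id]
  have e2 := rm_eq z
  have e3 := msq_eq z
  have e4 : z = r z - m z := by unfold m; ring
  linear_combination (m z * r z - 1) * s z * e4 + ((r z - m z) * s z + s z * m z) * e2
    - r z * s z * e3

/-! ### limits of `Lz` -/

lemma Lz_eq_top (z : ℝ) : Lz z = -s z - K z / 2 - (Real.log (1 - s z) - Real.log (1 + k z) / 2) := by
  have hr := (r_pos z)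
  have hs := (s_pos z)
  have hm := m_pos z
  have e3 := msq_eq z
  have e4 : z = r z - m z := by unfold m; ring
  have h1 : Real.log (1 - s z) = Real.log (r z) + Real.log (m z) := by
    rw [← rm_eq z, Real.log_mul hr.ne' hm.ne']
  have h2 : Real.log (1 + k z) = 2 * Real.log (m z) - Real.log (s z) := by
    have : 1 + k z = m z ^ 2 / s z := by
      unfold k; rw [e3]; field_simp; ring
    rw [this, Real.log_div (pow_pos hm 2).ne' hs.ne', Real.log_pow]
    norm_num
  rw [h1, h2]
  unfold Lz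
  have e5 : z * m z = r z * m z - m z ^ 2 := by nth_rewrite 1 [e4]; ring
  rw [e5, e3, rm_eq]
  ring

lemma K_lim : Tendsto K atTop (𝓝 0) := by
  have h := k_lim.mul s_lim
  rw [mul_zero] at h
  refine h.congr fun z => ?_
  have := (s_pos z).ne'
  unfold k; field_simp

lemma Lz_top : Tendsto Lz atTop (𝓝 0) := by
  have h1 : Tendsto (fun z => Real.log (1 - s z)) atTop (𝓝 (Real.log (1 - 0))) :=
    (s_lim.const_sub 1).log (by norm_num)
  have h2 : Tendsto (fun z => Real.log (1 + k z)) atTop (𝓝 (Real.log (1 + 0))) :=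
    (k_lim.const_add 1).log (by norm_num)
  have h := (s_lim.neg.sub (K_lim.div_const 2)).sub (h1.sub (h2.div_const 2))
  simp only [sub_zero, add_zero, Real.log_one, zero_div, neg_zero] at h
  exact h.congr fun z => (Lz_eq_top z).symm

lemma Lz_eq_bot (z : ℝ) : Lz z = (z * r z - 1) / 2 + Real.log (T z) - Real.log (s z) / 2 := by
  unfold Lz
  have h : Real.log (r z) = - z ^ 2 / 2 - Real.log (T z) := by
    rw [r_eq', Real.log_div (w_pos z).ne' (T_pos z).ne']
    unfold w
    rw [Real.log_exp]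
    ring
  rw [h]
  unfold m
  ring

lemma Lz_bot : Tendsto Lz atBot (𝓝 ((1 / 2) * Real.log (2 * Real.pi * Real.exp 1) - 1)) := by
  have h1 := pow_r_bot 1
  simp only [pow_one] at h1
  have h2 := T_bot.log (Real.sqrt_pos.mpr (by positivity)).ne'
  have h3 := s_bot.log one_ne_zero
  have h := (((h1.sub_const 1).div_const 2).add h2).sub (h3.div_const 2)
  have e : (0 - 1 : ℝ) / 2 + Real.log (Real.sqrt (2 * Real.pi)) - Real.log 1 / 2 =
      (1 / 2) * Real.log (2 * Real.pi * Real.exp 1) - 1 := by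
    rw [Real.log_sqrt (by positivity), Real.log_mul (by positivity) (Real.exp_pos 1).ne',
      Real.log_exp, Real.log_one]
    ring
  rw [e] at h
  exact h.congr fun z => (Lz_eq_bot z).symm

/-! ### the functions of `s` -/

/-- the entropy deficit as a function of the variance -/
noncomputable def l (y : ℝ) : ℝ :=
  if y ≤ 0 then 0 else if 1 ≤ y then (1 / 2) * Real.log (2 * Real.pi * Real.exp 1) - 1
  else Lz (zi y)

noncomputable def l1 (y : ℝ) : ℝ := if y ≤ 0 then 1 else L (zi y) / 2

noncomputable def l2 (y : ℝ) : ℝ :=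
  if y ≤ 0 then -5 else -(V (L (zi y)) (u (zi y)) * u (zi y) ^ 2 / 2)

lemma l_zero : l 0 = 0 := by simp [l]

lemma l_one : l 1 = (1 / 2) * Real.log (2 * Real.pi * Real.exp 1) - 1 := by
  unfold l
  rw [if_neg (by norm_num), if_pos le_rfl]

lemma l_mid {y : ℝ} (hy : y ∈ Ioo (0:ℝ) 1) : l y = Lz (zi y) := by
  unfold l
  rw [if_neg (not_le.mpr hy.1), if_neg (not_le.mpr hy.2)]

lemma l1_mid {y : ℝ} (hy : 0 < y) : l1 y = L (zi y) / 2 := by
  unfold l1
  rw [if_neg (not_le.mpr hy)]

lemma l2_mid {y : ℝ} (hy : 0 < y) : l2 y = -(V (L (zi y)) (u (zi y)) * u (zi y) ^ 2 / 2) := by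
  unfold l2
  rw [if_neg (not_le.mpr hy)]

lemma l1_zero : l1 0 = 1 := by simp [l1]
lemma l2_zero : l2 0 = -5 := by simp [l2]

lemma l_deriv {y : ℝ} (hy : y ∈ Ioo (0:ℝ) 1) : HasDerivAt l (l1 y) y := by
  have h := (Lz_deriv (zi y)).comp y (zi_deriv hy)
  have hr : r (zi y) ≠ 0 := (r_pos _).ne'
  have hK : K (zi y) ≠ 0 := (K_pos _).ne'
  have h2 : L (zi y) / 2 * (-(r (zi y) * K (zi y))) * (-(r (zi y) * K (zi y)))⁻¹ = l1 y := by
    rw [l1_mid hy.1]
    field_simp
  rw [h2] at h
  refine h.congr_of_eventuallyEq ?_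
  filter_upwards [Ioo_mem_nhds hy.1 hy.2] with x hx
  exact l_mid hx

lemma l1_deriv {y : ℝ} (hy : y ∈ Ioo (0:ℝ) 1) : HasDerivAt l1 (l2 y) y := by
  have h := ((L_deriv (zi y)).comp y (zi_deriv hy)).div_const 2
  have hr : r (zi y) ≠ 0 := (r_pos _).ne'
  have hK : K (zi y) ≠ 0 := (K_pos _).ne'
  have h2 : V (L (zi y)) (u (zi y)) * g (zi y) * (-(r (zi y) * K (zi y)))⁻¹ / 2 = l2 y := by
    rw [l2_mid hy.1]
    unfold g
    have hs : s (zi y) ≠ 0 := (s_pos _).ne'
    have hu : u (zi y) = 1 / s (zi y) := rfl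
    rw [hu]
    field_simp
  rw [h2] at h
  refine h.congr_of_eventuallyEq ?_
  filter_upwards [Ioo_mem_nhds hy.1 hy.2] with x hx
  exact l1_mid hx.1

lemma l_cont : ContinuousOn l (Icc 0 1) := by
  intro y hy
  rcases hy.1.eq_or_lt with h0 | h0
  · subst h0
    have h1 : Tendsto l (𝓝[>] 0) (𝓝 (l 0)) := by
      rw [l_zero]
      refine (Lz_top.comp zi_top).congr' ?_
      filter_upwards [Ioo_mem_nhdsGT (zero_lt_one (α := ℝ))] with x hx
      exact (l_mid hx).symm
    have h2 : ContinuousWithinAt l (Ici 0) 0 := by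
      rw [← continuousWithinAt_Ioi_iff_Ici]
      exact h1
    exact h2.mono Icc_subset_Ici_self
  rcases hy.2.eq_or_lt with h1 | h1
  · subst h1
    have h1 : Tendsto l (𝓝[<] 1) (𝓝 (l 1)) := by
      rw [l_one]
      refine (Lz_bot.comp zi_bot).congr' ?_
      filter_upwards [Ioo_mem_nhdsLT (zero_lt_one (α := ℝ))] with x hx
      exact (l_mid hx).symm
    have h2 : ContinuousWithinAt l (Iic 1) 1 := by
      rw [← continuousWithinAt_Iio_iff_Iic]
      exact h1
    exact h2.mono Icc_subset_Iic_self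
  · exact (l_deriv ⟨h0, h1⟩).continuousAt.continuousWithinAt

/-! ### the second order expansion at `0` : `(2 - L) u → 10` -/

lemma e_expand (d u : ℝ) : e (2 - d) u =
    10 * u + 6 - d * (u ^ 2 + 8 * u + 11) + d ^ 2 * (2 * u + 6) - d ^ 3 := by
  unfold e; ring

lemma d_upper (z : ℝ) : (2 - L z) * u z * (1 + 8 / u z + 11 / u z ^ 2 - (2 - L z) * (2 / u z + 6 / u z ^ 2)) ≤
    10 + 6 / u z := by
  have h1 := e_pos z
  have h2 : L z = 2 - (2 - L z) := by ring
  rw [h2, e_expand] at h1
  set d := 2 - L z with hd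
  have hd0 : 0 < d := by have := L_lt_two z; linarith
  have hu : 0 < u z := by have := u_gt z; linarith
  have h3 : d * u z * (1 + 8 / u z + 11 / u z ^ 2 - d * (2 / u z + 6 / u z ^ 2)) * u z =
      d * (u z ^ 2 + 8 * u z + 11) - d ^ 2 * (2 * u z + 6) := by
    field_simp
  have h4 : (10 + 6 / u z) * u z = 10 * u z + 6 := by field_simp
  refine le_of_mul_le_mul_right ?_ hu
  rw [h3, h4]
  have := pow_pos hd0 3
  linarith

/-- lower barrier: for `c < 10` eventually `c / u < 2 - L`. -/
lemma d_lower {c : ℝ} (hc0 : 0 < c) (hc : c < 10) : ∀ᶠ z in atTop, c / u z < 2 - L z := by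
  -- u large
  obtain ⟨z0, hz0⟩ := (u_lim.eventually_ge_atTop ((8 * c + 11 * c + c ^ 3 + 4 * c + 10) / (10 - c) + 1)).exists_forall_of_atTop
  have key : ∀ z, z0 ≤ z → 2 - L z ≤ c / u z → -(V (L z) (u z)) + c / u z ^ 2 < 0 := by
    intro z hz hle
    have hu1 := u_gt z
    have hu : 0 < u z := by linarith
    have hU := hz0 z hz
    set d := 2 - L z with hd
    have hd0 : 0 < d := by have := L_lt_two z; linarith
    have hL : L z = 2 - d := by ring
    rw [V_eq _ _ hu1, hL, e_expand]
    have hP : 0 < 2 * (u z * (u z - 1)) := by nlinarith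
    have h5 : c / u z ^ 2 < (10 * u z + 6 - d * (u z ^ 2 + 8 * u z + 11) + d ^ 2 * (2 * u z + 6) - d ^ 3)
        / (2 * (u z * (u z - 1))) := by
      have h6 : d * u z ≤ c := by rwa [le_div_iff₀ hu] at hle
      have h7 : d ≤ c := by nlinarith
      have h8 : d ^ 3 ≤ c ^ 3 := by gcongr
      rw [div_lt_div_iff₀ (pow_pos hu 2) hP]
      have h9 : (10 * u z + 6 - d * (u z ^ 2 + 8 * u z + 11) + d ^ 2 * (2 * u z + 6) - d ^ 3) ≥
          (10 - c) * u z + 6 - 8 * c - 11 * c - c ^ 3 := by
        have a1 : d * u z ^ 2 ≤ c * u z := by nlinarith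
        have a2 : 0 ≤ d ^ 2 * (2 * u z + 6) := by positivity
        nlinarith
      have h10 : (10 - c) * u z ≥ 8 * c + 11 * c + c ^ 3 + 4 * c + 10 := by
        have h10c : 0 < 10 - c := by linarith
        have : (8 * c + 11 * c + c ^ 3 + 4 * c + 10) / (10 - c) ≤ u z := by linarith
        rw [div_le_iff₀ h10c] at this
        linarith
      have h11 : 4 * c + 16 ≤ (10 * u z + 6 - d * (u z ^ 2 + 8 * u z + 11) + d ^ 2 * (2 * u z + 6) - d ^ 3) := by
        linarith
      have h12 : c * (2 * (u z * (u z - 1))) < (4 * c + 16) * u z ^ 2 := by nlinarith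
      nlinarith [pow_pos hu 2]
    linarith
  have hd : ∀ z, z0 ≤ z → HasDerivAt (fun z => (2 - L z) - c / u z)
      ((-(V (L z) (u z)) + c / u z ^ 2) * g z) z := by
    intro z _
    have hu : u z ≠ 0 := by have := u_gt z; linarith
    have h1 := (L_deriv z).const_sub 2
    have h2 := (hasDerivAt_const z c).div (u_deriv z) hu
    refine (h1.sub h2).congr_deriv ?_
    field_simp
    ring
  have hlim : Tendsto (fun z => (2 - L z) - c / u z) atTop (𝓝 0) := by
    have h1 := (L_lim.const_sub 2).sub (u_lim.const_div_atTop c)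
    simpa using h1
  -- contradiction argument
  have main : ∀ z, z0 ≤ z → 0 < (2 - L z) - c / u z := by
    intro a ha
    by_contra hcon
    push Not at hcon
    have hb : ∀ b, a < b → (2 - L b) - c / u b < 0 := fun b hab =>
      barrier hd (fun z hz h0 => mul_neg_of_neg_of_pos (key z hz (by linarith)) (g_pos z)) ha hab hcon
    have hanti : AntitoneOn (fun z => (2 - L z) - c / u z) (Ici (a + 1)) := by
      apply antitoneOn_of_deriv_nonpos (convex_Ici _)
      · intro x hx
        exact (hd x (by have := mem_Ici.mp hx; linarith)).continuousAt.continuousWithinAt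
      · intro x hx; rw [interior_Ici] at hx
        exact (hd x (by have := mem_Ioi.mp hx; linarith)).differentiableAt.differentiableWithinAt
      · intro x hx; rw [interior_Ici] at hx
        have hx' := mem_Ioi.mp hx
        rw [(hd x (by linarith)).deriv]
        exact (mul_neg_of_neg_of_pos (key x (by linarith) (by have := hb x (by linarith); linarith))
          (g_pos x)).le
    have hle : (0:ℝ) ≤ (2 - L (a+1)) - c / u (a+1) := by
      apply le_of_tendsto hlim
      filter_upwards [eventually_ge_atTop (a+1)] with y hy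
      exact hanti (mem_Ici.mpr le_rfl) (mem_Ici.mpr hy) hy
    have := hb (a+1) (by linarith)
    linarith
  filter_upwards [eventually_ge_atTop z0] with z hz
  have := main z hz
  linarith

lemma du_lim : Tendsto (fun z => (2 - L z) * u z) atTop (𝓝 10) := by
  have hinv : Tendsto (fun z => (u z)⁻¹) atTop (𝓝 0) := tendsto_inv_atTop_zero.comp u_lim
  have hd : Tendsto (fun z => 2 - L z) atTop (𝓝 0) := by
    have := L_lim.const_sub 2
    simpa using this
  have hF : Tendsto (fun z => 1 + 8 * (u z)⁻¹ + 11 * (u z)⁻¹ ^ 2 -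
      (2 - L z) * (2 * (u z)⁻¹ + 6 * (u z)⁻¹ ^ 2)) atTop (𝓝 1) := by
    have := (((hinv.const_mul 8).const_add 1).add ((hinv.pow 2).const_mul 11)).sub
      (hd.mul ((hinv.const_mul 2).add ((hinv.pow 2).const_mul 6)))
    simpa using this
  have hG : Tendsto (fun z => (10 + 6 * (u z)⁻¹) / (1 + 8 * (u z)⁻¹ + 11 * (u z)⁻¹ ^ 2 -
      (2 - L z) * (2 * (u z)⁻¹ + 6 * (u z)⁻¹ ^ 2))) atTop (𝓝 10) := by
    have := ((hinv.const_mul 6).const_add 10).div hF one_ne_zero
    rw [mul_zero, add_zero, div_one] at this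
    exact this
  rw [tendsto_order]
  constructor
  · intro a ha
    have h2 : max a 5 < 10 := max_lt ha (by norm_num)
    filter_upwards [d_lower (c := max a 5) (lt_of_lt_of_le (by norm_num) (le_max_right a 5)) h2] with z hz
    have hu : 0 < u z := by have := u_gt z; linarith
    rw [div_lt_iff₀ hu] at hz
    exact lt_of_le_of_lt (le_max_left a 5) hz
  · intro b hb
    filter_upwards [hG.eventually_lt_const hb, hF.eventually_const_lt (zero_lt_one)] with z hz hpos
    refine lt_of_le_of_lt ?_ hz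
    rw [le_div_iff₀ hpos]
    have := d_upper z
    simp only [div_eq_mul_inv] at this
    rw [← inv_pow] at this
    exact this

/-! ### Peano expansions -/

lemma l1_slope_zero : HasDerivWithinAt l1 (l2 0) (Icc 0 (1/2)) 0 := by
  rw [hasDerivWithinAt_iff_tendsto_slope]
  have h1 : Tendsto (fun y => -((2 - L (zi y)) * u (zi y)) / 2) (𝓝[>] 0) (𝓝 (l2 0)) := by
    have := ((du_lim.comp zi_top).neg).div_const 2
    rw [l2_zero]
    have e : (-10 : ℝ) / 2 = -5 := by norm_num
    rw [e] at this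
    exact this
  have h2 : 𝓝[Icc 0 (1/2) \ {0}] (0:ℝ) ≤ 𝓝[>] 0 := by
    apply nhdsWithin_mono
    intro x hx
    exact lt_of_le_of_ne hx.1.1 (fun h => hx.2 h.symm)
  have h3 : Tendsto (slope l1 0) (𝓝[>] 0) (𝓝 (l2 0)) := by
    refine h1.congr' ?_
    filter_upwards [Ioo_mem_nhdsGT (zero_lt_one (α := ℝ))] with x hx
    rw [slope_def_field, l1_zero, l1_mid hx.1, sub_zero]
    have hs : u (zi x) = 1 / x := by unfold u; rw [s_zi hx]
    rw [hs]
    have := hx.1.ne'
    field_simp
    ring
  exact h3.mono_left h2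

lemma l_deriv_zero : HasDerivWithinAt l (l1 0) (Icc 0 (1/2)) 0 := by
  have h1 : HasDerivWithinAt l (l1 0) (Ici 0) 0 := by
    refine hasDerivWithinAt_Ici_of_tendsto_deriv (s := Ioo 0 1) ?_ ?_ ?_ ?_
    · intro x hx
      exact (l_deriv hx).differentiableAt.differentiableWithinAt
    · have := l_cont 0 ⟨le_rfl, zero_le_one⟩
      exact this.mono Ioo_subset_Icc_self
    · exact Ioo_mem_nhdsGT zero_lt_one
    · have h2 : Tendsto l1 (𝓝[>] 0) (𝓝 (l1 0)) := by
        have := (L_lim.comp zi_top).div_const 2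
        rw [div_self two_ne_zero] at this
        rw [l1_zero]
        refine this.congr' ?_
        filter_upwards [Ioo_mem_nhdsGT (zero_lt_one (α := ℝ))] with x hx
        rw [l1_mid hx.1]; rfl
      refine h2.congr' ?_
      filter_upwards [Ioo_mem_nhdsGT (zero_lt_one (α := ℝ))] with x hx
      exact (l_deriv hx).deriv.symm
  exact h1.mono Icc_subset_Ici_self

lemma l_peano {y : ℝ} (hy : y ∈ Ico (0:ℝ) 1) : SpecCalc999.Peano2 l l1 l2 (Icc 0 1) y := by
  rcases hy.1.eq_or_lt with h0 | h0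
  · subst h0
    have h := Jet999.peano2_of_deriv (f := l) (f' := l1) (f'' := l2) (I := Icc 0 (1/2)) (a := 0)
      (convex_Icc _ _) ⟨le_rfl, by norm_num⟩ (fun x hx => by
        rcases hx.1.eq_or_lt with h0 | h0
        · subst h0; exact l_deriv_zero
        · exact (l_deriv ⟨h0, by have := hx.2; linarith⟩).hasDerivWithinAt) l1_slope_zero
    unfold SpecCalc999.Peano2 at *
    have he : 𝓝[Icc 0 1] (0:ℝ) = 𝓝[Icc 0 (1/2)] 0 := by
      refine nhdsWithin_eq_nhdsWithin (s := Iio (1/2:ℝ)) (by norm_num : (0:ℝ) ∈ Iio (1/2:ℝ)) isOpen_Iio ?_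
      ext x
      simp only [mem_inter_iff, mem_Icc, mem_Iio]
      constructor
      · rintro ⟨⟨h1, h2⟩, h3⟩; exact ⟨⟨h1, h3.le⟩, h3⟩
      · rintro ⟨⟨h1, h2⟩, h3⟩; exact ⟨⟨h1, by linarith⟩, h3⟩
    rw [he]
    exact h
  · exact Jet999.peano2_univ (Ioo_mem_nhds h0 hy.2) (convex_Ioo _ _) (fun x hx => l_deriv hx)
      (l1_deriv ⟨h0, hy.2⟩)

end Crest.Agent.R253.LFun930
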