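import Crest.Agent.R253.Jord_192
import Crest.Agent.R253.Chaos_74

/-!
# R253: the pointwise `Λ(B)` bookkeeping of helper723's B-form (helper378)

Right kernels `KR f f' A X = Df(A)[X] − X f'(A)` and their `hs` bounds by slack; `tr_sq`, the exact
`tr B U_k²` for `U_k = (T_k + p_k) w + e_k`; `lam_point`, the pointwise identity
`Σ tr B T_k((T_k+p_k)X + f_k) − tr B X + tr B w² − Σ tr B U_k² = −tr B (1−M_T)(X−w²) + errors`.
-/

set_option autoImplicit false

open Matrix Filter Topology Set MeasureTheory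

noncomputable section

namespace Crest.Agent.R253.Stein378

open Crest.Agent.R253.SpecCalc999 Crest.Agent.R253.Meh74 Crest.Agent.R238.Gap
  Crest.Agent.R253.SpecField321 Crest.Agent.R253.Jord192

variable {m n : ℕ}

/-! ### right kernel -/

/-- right kernel: `Df(A)[X] − X f'(A)` -/
def KR (f f' : ℝ → ℝ) (A X : Mat m) : Mat m := DK f f' A X - X * _root_.cfc f' A

lemma KR_frame {A U : Mat m} {s : Fin m → ℝ} (h : Fr A U s) (f f' : ℝ → ℝ) (X : Mat m)
    (i j : Fin m) :
    (Uᵀ * KR f f' A X * U) i j = (dd1 f f' (s i) (s j) - f' (s j)) * (Uᵀ * X * U) i j := by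
  unfold KR
  rw [Matrix.mul_sub, Matrix.sub_mul, Matrix.sub_apply, DK_frame h, mul_cfc_frame h]
  ring

lemma hs_KR {A U : Mat m} {s : Fin m → ℝ} (h : Fr A U s) (f f' : ℝ → ℝ) (X : Mat m) :
    hs (KR f f' A X) =
      ∑ i, ∑ j, (dd1 f f' (s i) (s j) - f' (s j)) ^ 2 * (Uᵀ * X * U) i j ^ 2 := by
  rw [← hs_conj h.o']
  unfold hs
  exact Finset.sum_congr rfl fun i _ => Finset.sum_congr rfl fun j _ => by
    rw [KR_frame h, mul_pow]

lemma hs_KR_le {A U : Mat m} {s : Fin m → ℝ} (h : Fr A U s) {f f' : ℝ → ℝ} {sl : ℝ → ℝ → ℝ} {C : ℝ}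
    (hk : ∀ a ∈ spectrum ℝ A, ∀ b ∈ spectrum ℝ A, (dd1 f f' a b - f' b) ^ 2 ≤ C * sl a b)
    (X : Mat m) :
    hs (KR f f' A X) ≤ C * slk sl U s X := by
  rw [hs_KR h]
  unfold slk
  rw [Finset.mul_sum]
  refine Finset.sum_le_sum fun i _ => ?_
  rw [Finset.mul_sum]
  refine Finset.sum_le_sum fun j _ => ?_
  rw [← mul_assoc]
  exact mul_le_mul_of_nonneg_right (hk _ (h.mem_spec i) _ (h.mem_spec j)) (sq_nonneg _)

/-- two-sided kernel bound: `f(A) X − X g(A)` and more generally
`X (f(A) − c) − g(A) X` -/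
lemma hs_two_le {A U : Mat m} {s : Fin m → ℝ} (h : Fr A U s) {f g : ℝ → ℝ} {C : ℝ}
    (hk : ∀ a ∈ spectrum ℝ A, ∀ b ∈ spectrum ℝ A, (f b - g a) ^ 2 ≤ C) (X : Mat m) :
    hs (X * _root_.cfc f A - _root_.cfc g A * X) ≤ C * hs X := by
  rw [← hs_conj h.o', ← hs_conj h.o' X]
  unfold hs
  rw [Finset.mul_sum]
  refine Finset.sum_le_sum fun i _ => ?_
  rw [Finset.mul_sum]
  refine Finset.sum_le_sum fun j _ => ?_
  rw [Matrix.mul_sub, Matrix.sub_mul, Matrix.sub_apply, mul_cfc_frame h, cfc_mul_frame h]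
  refine le_trans (le_of_eq ?_)
    (mul_le_mul_of_nonneg_right (hk _ (h.mem_spec i) _ (h.mem_spec j)) (sq_nonneg _))
  ring

/-- commutator of a function of `A` against the slack -/
lemma hs_comm_slk {A U : Mat m} {s : Fin m → ℝ} (h : Fr A U s) {f : ℝ → ℝ} {sl : ℝ → ℝ → ℝ} {C : ℝ}
    (hk : ∀ a ∈ spectrum ℝ A, ∀ b ∈ spectrum ℝ A, (f a - f b) ^ 2 ≤ C * sl a b) (X : Mat m) :
    hs (_root_.cfc f A * X - X * _root_.cfc f A) ≤ C * slk sl U s X := by
  rw [← hs_conj h.o']
  unfold hs slk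
  rw [Finset.mul_sum]
  refine Finset.sum_le_sum fun i _ => ?_
  rw [Finset.mul_sum]
  refine Finset.sum_le_sum fun j _ => ?_
  rw [Matrix.mul_sub, Matrix.sub_mul, Matrix.sub_apply, mul_cfc_frame h, cfc_mul_frame h]
  rw [← mul_assoc]
  refine le_trans (le_of_eq ?_)
    (mul_le_mul_of_nonneg_right (hk _ (h.mem_spec i) _ (h.mem_spec j)) (sq_nonneg _))
  ring

/-! ### pointwise algebra -/

lemma tr_t {B : Mat m} (hB : Bᵀ = B) (X : Mat m) : (B * Xᵀ).trace = (B * X).trace := by
  rw [← Matrix.trace_transpose (B * Xᵀ), Matrix.transpose_mul, Matrix.transpose_transpose, hB,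
    Matrix.trace_mul_comm]

/-- `tr B U_k²` for `U_k = Z W + e`, `Z = T + p` -/
theorem tr_sq {B W T p e Uk : Mat m} (hB : Bᵀ = B) (hW : Wᵀ = W) (hT : Tᵀ = T) (hp : pᵀ = p)
    (hU : Ukᵀ = Uk) (he : Uk = (T + p) * W + e) :
    (B * (Uk * Uk)).trace = (B * (T * T * (W * W))).trace +
      (B * (T * (W * W * (T + p) - (T + p) * (W * W)))).trace +
      (B * (T * (p * (W * W) + W * W * p))).trace + (B * (p * (W * W) * p)).trace +
      2 * (B * ((T + p) * W * eᵀ)).trace + (B * (e * eᵀ)).trace := by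
  have h1 : Uk * Uk = ((T + p) * W + e) * ((T + p) * W + e)ᵀ := by
    rw [← he, hU]
  have h2 : ((T + p) * W + e)ᵀ = W * (T + p) + eᵀ := by
    rw [Matrix.transpose_add, Matrix.transpose_mul, Matrix.transpose_add, hW, hT, hp]
  have h3 : Uk * Uk = T * T * (W * W) + T * (W * W * (T + p) - (T + p) * (W * W)) +
      T * (p * (W * W)) - T * (W * W * p) + T * (W * W) * p + p * (W * W) * T +
      p * (W * W) * p + (T + p) * W * eᵀ + e * (W * (T + p)) + e * eᵀ := by
    rw [h1, h2]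
    noncomm_ring
  have t1 : (B * (p * (W * W) * T)).trace = (B * (T * (W * W) * p)).trace := by
    rw [← tr_t hB (T * (W * W) * p)]
    congr 2
    simp only [Matrix.transpose_mul, hW, hT, hp, Matrix.mul_assoc]
  have t2 : (B * (e * (W * (T + p)))).trace = (B * ((T + p) * W * eᵀ)).trace := by
    rw [← tr_t hB ((T + p) * W * eᵀ)]
    congr 2
    simp only [Matrix.transpose_mul, Matrix.transpose_add, Matrix.transpose_transpose, hW, hT, hp]
  rw [h3]
  simp only [Matrix.mul_add, Matrix.mul_sub, Matrix.trace_add, Matrix.trace_sub] at t1 t2 ⊢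
  have a1 : (B * (T * (W * W) * p)).trace = (B * (T * (W * W * p))).trace := by
    rw [Matrix.mul_assoc T]
  rw [a1] at t1 ⊢
  linarith

/-- the full pointwise identity -/
theorem lam_point {B W X : Mat m} (T p e f Uk : Fin n → Mat m) (hB : Bᵀ = B) (hW : Wᵀ = W)
    (hT : ∀ k, (T k)ᵀ = T k) (hp : ∀ k, (p k)ᵀ = p k) (hU : ∀ k, (Uk k)ᵀ = Uk k)
    (he : ∀ k, Uk k = (T k + p k) * W + e k) :
    (∑ k, (B * (T k * ((T k + p k) * X + f k))).trace) - (B * X).trace + (B * (W * W)).trace -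
        ∑ k, (B * (Uk k * Uk k)).trace =
      -(B * ((1 - ∑ k, T k * T k) * (X - W * W))).trace +
      ∑ k, ((B * (T k * (p k * (X - W * W) - W * W * p k))).trace + (B * (T k * f k)).trace -
        (B * (T k * (W * W * (T k + p k) - (T k + p k) * (W * W)))).trace -
        2 * (B * ((T k + p k) * W * (e k)ᵀ)).trace - (B * (e k * (e k)ᵀ)).trace -
        (B * (p k * (W * W) * p k)).trace) := by
  have h1 : (B * ((1 - ∑ k, T k * T k) * (X - W * W))).trace =
      (B * X).trace - (B * (W * W)).trace - ∑ k, (B * (T k * T k * X)).trace +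
        ∑ k, (B * (T k * T k * (W * W))).trace := by
    rw [Matrix.sub_mul, Matrix.one_mul, Finset.sum_mul, Matrix.mul_sub, Matrix.mul_sub,
      Finset.mul_sum, Matrix.trace_sub, Matrix.trace_sub, Matrix.trace_sum]
    have : ∀ k, (B * (T k * T k * (X - W * W))).trace =
        (B * (T k * T k * X)).trace - (B * (T k * T k * (W * W))).trace := fun k => by
      rw [Matrix.mul_sub, Matrix.mul_sub, Matrix.trace_sub]
    simp only [this, Finset.sum_sub_distrib]
    ring
  have h2 : ∀ k, (B * (T k * ((T k + p k) * X + f k))).trace - (B * (Uk k * Uk k)).trace =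
      (B * (T k * T k * X)).trace - (B * (T k * T k * (W * W))).trace +
      ((B * (T k * (p k * (X - W * W) - W * W * p k))).trace + (B * (T k * f k)).trace -
        (B * (T k * (W * W * (T k + p k) - (T k + p k) * (W * W)))).trace -
        2 * (B * ((T k + p k) * W * (e k)ᵀ)).trace - (B * (e k * (e k)ᵀ)).trace -
        (B * (p k * (W * W) * p k)).trace) := by
    intro k
    rw [tr_sq hB hW (hT k) (hp k) (hU k) (he k)]
    have e1 : T k * ((T k + p k) * X + f k) = T k * T k * X + T k * (p k * X) + T k * f k := by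
      noncomm_ring
    have e2 : T k * (p k * (X - W * W) - W * W * p k) = T k * (p k * X) -
        T k * (p k * (W * W) + W * W * p k) := by
      noncomm_ring
    rw [e1, e2]
    simp only [Matrix.mul_add, Matrix.mul_sub, Matrix.trace_add, Matrix.trace_sub]
    ring
  have h3 := Finset.sum_congr (s₁ := Finset.univ) rfl fun k (_ : k ∈ Finset.univ) => h2 k
  simp only [Finset.sum_add_distrib, Finset.sum_sub_distrib] at h3 ⊢
  rw [h1]
  linarith

end Crest.Agent.R253.Stein378
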