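import Crest.Agent.R253.S3_649
import Crest.Agent.R253.Stein_378

/-!
# R253: the exact B-form identity for `Λ(B) = E tr B (2k(ζ) - U² - Σ U_k²)` (helper301)

Letters of `S3_649` (`TE`, `EM`, `sf`, `dZ`, `pk`, `eta0`) and `Stein_378` (`KR`, `lam_point`).

* `stein0`, `stein`: Gaussian integration by parts for `tr B ζ Φ`, `ζ = Σ x_k T_k + η`,
  `B` any constant matrix.
* `lam_eq0`: the exact identity; `lam_eq`: the centred form.
* `cheb`: `tr f(M) S g(M) S ≥ tr (fg)(M) S²`, `f` antitone, `g` monotone.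
-/

set_option autoImplicit false

open MeasureTheory ProbabilityTheory Set Filter Topology Matrix
open scoped ContDiff

noncomputable section

namespace Crest.Agent.R253.LamB301

open Crest.Agent.R238.Gap Crest.Agent.R253.SpecCalc999 Crest.Agent.R253.Meh74
  Crest.Agent.R253.SpecField321 Crest.Agent.R253.S3 Crest.Agent.R253.Stein378

variable {n : ℕ}

lemma CGm.tr {F : E n → Mat n} (hF : CGm F) : CGm (fun x => (F x)ᵀ) := fun i j => hF j i

lemma CGm.neg {F : E n → Mat n} (hF : CGm F) : CGm (fun x => -F x) := fun i j => (hF i j).neg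

lemma c1m_const (A : Mat n) : C1m (fun _ : E n => A) := fun i j => c1_const (A i j)

lemma C1m.mul {F G : E n → Mat n} (hF : C1m F) (hG : C1m G) : C1m (fun x => F x * G x) := by
  intro i j
  have : (fun x => (F x * G x) i j) = fun x => ∑ k, F x i k * G x k j := by
    funext x; rw [Matrix.mul_apply]
  rw [this]
  exact C1.sum fun k _ => (hF i k).mul (hG k j)

lemma C1m.trace {F : E n → Mat n} (hF : C1m F) : C1 (fun x => (F x).trace) := by
  have : (fun x => (F x).trace) = fun x => ∑ i, F x i i := by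
    funext x; rw [Matrix.trace]; rfl
  rw [this]
  exact C1.sum fun i _ => hF i i

/-- derivative of the trace of a constant times a field -/
lemma pd_trace_const_mul (A : Mat n) {F : E n → Mat n} (hF : C1m F) (k : Fin n) (x : E n) :
    pd k (fun y => (A * F y).trace) x = (A * S3.dM k F x).trace := by
  have e : (fun y => (A * F y).trace) = fun y => ∑ i, ∑ j, A i j * F y j i := by
    funext y
    rw [Matrix.trace]
    refine Finset.sum_congr rfl fun i _ => ?_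
    rw [Matrix.diag_apply, Matrix.mul_apply]
  have c1 : ∀ i j, C1 (fun y : E n => A i j * F y j i) := fun i j => (c1_const (A i j)).mul (hF j i)
  rw [e, pd_sum' (f := fun i y => ∑ j, A i j * F y j i) fun i _ => C1.sum fun j _ => c1 i j]
  rw [Matrix.trace]
  refine Finset.sum_congr rfl fun i _ => ?_
  rw [pd_sum' (f := fun j y => A i j * F y j i) fun j _ => c1 i j, Matrix.diag_apply,
    Matrix.mul_apply]
  refine Finset.sum_congr rfl fun j _ => ?_
  rw [C1.pd_mul (c1_const (A i j)) (hF j i)]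
  have : pd k (fun _ : E n => A i j) x = 0 := by simp [pd]
  rw [this, zero_mul, zero_add]
  rfl

/-- `E x_k g = E ∂_k g` -/
lemma EE_coord {g : E n → ℝ} (hg : C1 g) (k : Fin n) :
    EE (fun x => x k * g x) = EE (pd k g) := by
  have h := EE_ibp (c1_const (n := n) 1) hg k
  have e1 : EE (fun x => (1 : ℝ) * (pd k g x - x k * g x)) =
      EE (pd k g) - EE (fun x => x k * g x) := by
    rw [← EE_sub (hg.cgp k) ((cg_coord k).mul hg.cg)]
    exact EE_congr fun x => one_mul _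
  have e2 : EE (fun x => pd k (fun _ : E n => (1 : ℝ)) x * g x) = 0 := by
    have : ∀ x : E n, pd k (fun _ : E n => (1 : ℝ)) x * g x = 0 := fun x => by simp [pd]
    rw [EE_congr this, EE_const]
  rw [e1, e2, neg_zero] at h
  linarith

section field

variable {Z : Fld n} {lo hi : ℝ}

/-- **matrix Stein identity**: `E tr B ζ Φ = Σ_k E tr B T_k ∂_kΦ + E tr B η Φ` -/
theorem stein0 (hZ : MF Z lo hi) {Φ : E n → Mat n} (hΦ : C1m Φ) (B : Mat n) (T : Fin n → Mat n) :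
    TE (fun x => B * (Mx Z x * Φ x)) =
      ∑ k, TE (fun x => B * (T k * S3.dM k Φ x)) + TE (fun x => B * (eta0 Z T x * Φ x)) := by
  have e : ∀ x, (B * (Mx Z x * Φ x)).trace =
      (∑ k, x k * (B * T k * Φ x).trace) + (B * (eta0 Z T x * Φ x)).trace := by
    intro x
    have h1 : B * (Mx Z x * Φ x) = (∑ k, x k • (B * T k * Φ x)) + B * (eta0 Z T x * Φ x) := by
      unfold eta0
      rw [Matrix.sub_mul, Matrix.mul_sub, Matrix.sum_mul, Matrix.mul_sum]
      have : ∀ k, B * (x k • T k * Φ x) = x k • (B * T k * Φ x) := fun k => by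
        rw [Matrix.smul_mul, Matrix.mul_smul, Matrix.mul_assoc]
      simp only [this]
      abel
    rw [h1, Matrix.trace_add, Matrix.trace_sum]
    simp only [Matrix.trace_smul, smul_eq_mul]
  have c1 : ∀ k, C1 (fun x => (B * T k * Φ x).trace) := fun k =>
    C1m.trace (C1m.mul (c1m_const (B * T k)) hΦ)
  unfold TE
  rw [EE_congr e, EE_add (CG.sum fun k _ => (cg_coord k).mul (c1 k).cg)
    ((cgm_const B).mul ((cgm_eta0 hZ T).mul hΦ.cg)).trace,
    EE_sum fun k _ => (cg_coord k).mul (c1 k).cg]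
  congr 1
  refine Finset.sum_congr rfl fun k _ => ?_
  rw [EE_coord (c1 k) k]
  exact EE_congr fun x => by rw [pd_trace_const_mul (B * T k) hΦ k x, Matrix.mul_assoc]

lemma cgm_cfc (hZ : MF Z lo hi) {g : ℝ → ℝ} (hg : ContinuousOn g (Icc lo hi)) :
    CGm (sf g Z) := by
  intro i j
  have hMc : Continuous (Mx Z) := by
    refine continuous_pi fun a => continuous_pi fun b => ?_
    exact (hZ.c a b).cont
  obtain ⟨C0, hC0⟩ : ∃ C, ∀ x ∈ Icc lo hi, |g x| ≤ C := by
    obtain ⟨C, hC⟩ := isCompact_Icc.exists_bound_of_continuousOn hg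
    exact ⟨C, fun x hx => by simpa using hC x hx⟩
  refine ⟨?_, ?_⟩
  · rw [continuous_iff_continuousAt]
    intro x
    exact tendsto_cfc_entry isCompact_Icc hg (Eventually.of_forall fun y => ⟨hZ.h y, hZ.s y⟩)
      (hZ.h x) (hZ.s x) (fun a b => (hZ.c a b).cont.tendsto x) i j
  · exact PG.of_bdd (K := C0) fun x => abs_cfc_entry_le (hZ.h x) (hZ.s x) (fun y hy => hC0 y hy) i j

lemma cgm_DK (hZ : MF Z lo hi) {f f' : ℝ → ℝ} (hf : ∀ x ∈ Icc lo hi, HasDerivAt f (f' x) x)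
    (hf' : ContinuousOn f' (Icc lo hi)) (k : Fin n) :
    CGm (fun x => DK f f' (Mx Z x) (S3.dZ Z k x)) := by
  have h := (c1m_sf hZ hf hf').cgd k
  have e : S3.dM k (sf f Z) = fun x => DK f f' (Mx Z x) (S3.dZ Z k x) :=
    funext fun x => dM_sf hZ hf k x
  rwa [e] at h

lemma cgm_KR (hZ : MF Z lo hi) {f f' : ℝ → ℝ} (hf : ∀ x ∈ Icc lo hi, HasDerivAt f (f' x) x)
    (hf' : ContinuousOn f' (Icc lo hi)) (k : Fin n) :
    CGm (fun x => KR f f' (Mx Z x) (S3.dZ Z k x)) :=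
  (cgm_DK hZ hf hf' k).sub ((cgm_dZ hZ k).mul (cgm_cfc hZ hf'))

/-- functional identity in one variable gives the matrix identity -/
lemma cfc_lin {A : Mat n} (hA : A.IsHermitian) (hAs : spectrum ℝ A ⊆ Icc lo hi)
    {χ χ1 v1 F : ℝ → ℝ} (hF : ∀ z ∈ Icc lo hi, F z = 1 + z * χ z - χ1 z + v1 z ^ 2) :
    _root_.cfc F A = 1 + A * _root_.cfc χ A - _root_.cfc χ1 A +
      _root_.cfc v1 A * _root_.cfc v1 A := by
  obtain ⟨U, hU⟩ := exists_fr hA
  apply conj_inj hU.o'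
  rw [hU.cfc, Matrix.mul_add, Matrix.add_mul, Matrix.mul_sub, Matrix.sub_mul, Matrix.mul_add,
    Matrix.add_mul, Jord192.conj_mul hU.o', Jord192.conj_mul hU.o', hU.d,
    hU.cfc, hU.cfc, hU.cfc, Matrix.mul_one, hU.o, Matrix.diagonal_mul_diagonal,
    Matrix.diagonal_mul_diagonal, ← Matrix.diagonal_one,
    Matrix.diagonal_add, Matrix.diagonal_sub, Matrix.diagonal_add]
  congr 1
  funext i
  rw [hF _ (hAs (hU.mem_spec i)), sq]

lemma sf_mul (hZ : MF Z lo hi) (f g : ℝ → ℝ) (x : E n) :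
    sf f Z x * sf g Z x = sf (fun z => f z * g z) Z x := by
  obtain ⟨U, hU⟩ := exists_fr (hZ.h x)
  apply conj_inj hU.o'
  unfold sf
  rw [hU.cfc, Jord192.conj_mul hU.o', hU.cfc, hU.cfc, Matrix.diagonal_mul_diagonal]

lemma sf_sub (hZ : MF Z lo hi) (f g : ℝ → ℝ) (x : E n) :
    sf f Z x - sf g Z x = sf (fun z => f z - g z) Z x := by
  obtain ⟨U, hU⟩ := exists_fr (hZ.h x)
  apply conj_inj hU.o'
  unfold sf
  rw [hU.cfc, Matrix.mul_sub, Matrix.sub_mul, hU.cfc, hU.cfc, Matrix.diagonal_sub]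

lemma sf_congr (hZ : MF Z lo hi) {f g : ℝ → ℝ} (h : ∀ z ∈ Icc lo hi, f z = g z) (x : E n) :
    sf f Z x = sf g Z x := by
  obtain ⟨U, hU⟩ := exists_fr (hZ.h x)
  apply conj_inj hU.o'
  unfold sf
  rw [hU.cfc, hU.cfc]
  congr 1
  funext i
  exact h _ (hZ.s x (hU.mem_spec i))

/-- **(L1)**, `B` any constant matrix -/
theorem stein (hZ : MF Z lo hi) {χ χ1 v1 F : ℝ → ℝ}
    (hχ : ∀ z ∈ Icc lo hi, HasDerivAt χ (χ1 z) z)
    (hχ1 : ContinuousOn χ1 (Icc lo hi)) (hv1 : ContinuousOn v1 (Icc lo hi))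
    (hF : ∀ z ∈ Icc lo hi, F z = 1 + z * χ z - χ1 z + v1 z ^ 2)
    (B : Mat n) (T : Fin n → Mat n) :
    TE (fun x => B * sf F Z x) =
      B.trace - TE (fun x => B * sf χ1 Z x) + TE (fun x => B * (sf v1 Z x * sf v1 Z x)) +
      ∑ k, TE (fun x => B * (T k * DK χ χ1 (Mx Z x) (S3.dZ Z k x))) +
      TE (fun x => B * (eta0 Z T x * sf χ Z x)) := by
  have e : ∀ x, B * sf F Z x =
      B + B * (Mx Z x * sf χ Z x) - B * sf χ1 Z x + B * (sf v1 Z x * sf v1 Z x) := by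
    intro x
    unfold sf
    rw [cfc_lin (hZ.h x) (hZ.s x) hF, Matrix.mul_add, Matrix.mul_sub, Matrix.mul_add,
      Matrix.mul_one]
  have hc1 : C1m (sf χ Z) := c1m_sf hZ hχ hχ1
  have cA : CGm (fun x => B * (Mx Z x * sf χ Z x)) :=
    (cgm_const B).mul ((cgm_Mx hZ).mul hc1.cg)
  have cB : CGm (fun x => B * sf χ1 Z x) := (cgm_const B).mul (cgm_cfc hZ hχ1)
  have cC : CGm (fun x => B * (sf v1 Z x * sf v1 Z x)) :=
    (cgm_const B).mul ((cgm_cfc hZ hv1).mul (cgm_cfc hZ hv1))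
  rw [TE_congr e, TE_add (((cgm_const B).add cA).sub cB) cC, TE_sub ((cgm_const B).add cA) cB,
    TE_add (cgm_const B) cA, TE_const, stein0 hZ hc1 B T]
  have e2 : ∀ k, TE (fun x => B * (T k * S3.dM k (sf χ Z) x)) =
      TE (fun x => B * (T k * DK χ χ1 (Mx Z x) (S3.dZ Z k x))) := fun k =>
    TE_congr fun x => by rw [dM_sf hZ hχ]
  simp only [e2]
  ring

/-! ### transposes -/

lemma Mx_t (hZ : MF Z lo hi) (x : E n) : (Mx Z x)ᵀ = Mx Z x := by
  have := hZ.h x
  rwa [Matrix.IsHermitian, conjTranspose_eq_transpose_of_trivial] at this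

lemma dZ_t (hZ : MF Z lo hi) (k : Fin n) (x : E n) : (S3.dZ Z k x)ᵀ = S3.dZ Z k x := by
  have h : ∀ a b, Z a b = Z b a := fun a b => by
    funext y
    have := congrFun (congrFun (Mx_t hZ y) b) a
    simpa [Mx, Matrix.transpose_apply] using this
  ext a b
  change pd k (Z b a) x = pd k (Z a b) x
  rw [h]

lemma DK_t (f f' : ℝ → ℝ) (A X : Mat n) (hX : Xᵀ = X) : (DK f f' A X)ᵀ = DK f f' A X := by
  have hP : ∀ a, (Pr A a)ᵀ = Pr A a := fun a => Jord192.cfc_transpose _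
  unfold DK
  rw [Matrix.transpose_sum, Finset.sum_congr rfl fun a _ => Matrix.transpose_sum _ _,
    Finset.sum_comm]
  refine Finset.sum_congr rfl fun a _ => Finset.sum_congr rfl fun b _ => ?_
  rw [Matrix.transpose_smul, Matrix.transpose_mul, Matrix.transpose_mul, hP, hP, hX, dd1_comm,
    Matrix.mul_assoc]

lemma sf_t (f : ℝ → ℝ) (x : E n) : (sf f Z x)ᵀ = sf f Z x := Jord192.cfc_transpose _

/-! ### the exact identity -/

/-- **the exact B-form identity**: `F = 1 + zχ - χ' + v'²` (so `F = 2k - v²` for `χ = v(1+v')`) -/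
theorem lam_eq0 (hZ : MF Z lo hi) {v v1 χ χ1 F : ℝ → ℝ}
    (hv : ∀ z ∈ Icc lo hi, HasDerivAt v (v1 z) z) (hv1 : ContinuousOn v1 (Icc lo hi))
    (hχ : ∀ z ∈ Icc lo hi, HasDerivAt χ (χ1 z) z) (hχ1 : ContinuousOn χ1 (Icc lo hi))
    (hF : ∀ z ∈ Icc lo hi, F z = 1 + z * χ z - χ1 z + v1 z ^ 2)
    {B : Mat n} (hB : Bᵀ = B) {T : Fin n → Mat n} (hT : ∀ k, (T k)ᵀ = T k) :
    TE (fun x => B * sf F Z x) -
        ∑ k, TE (fun x => B * (DK v v1 (Mx Z x) (S3.dZ Z k x) * DK v v1 (Mx Z x) (S3.dZ Z k x))) =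
      B.trace - TE (fun x => B * ((1 - ∑ k, T k * T k) *
          (sf χ1 Z x - sf v1 Z x * sf v1 Z x))) +
      ∑ k, (TE (fun x => B * (T k * (pk Z T k x * (sf χ1 Z x - sf v1 Z x * sf v1 Z x) -
            sf v1 Z x * sf v1 Z x * pk Z T k x))) +
          TE (fun x => B * (T k * KR χ χ1 (Mx Z x) (S3.dZ Z k x))) -
          TE (fun x => B * (T k * (sf v1 Z x * sf v1 Z x * S3.dZ Z k x -
            S3.dZ Z k x * (sf v1 Z x * sf v1 Z x)))) -
          2 * TE (fun x => B * (S3.dZ Z k x * sf v1 Z x * (KR v v1 (Mx Z x) (S3.dZ Z k x))ᵀ)) -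
          TE (fun x => B * (KR v v1 (Mx Z x) (S3.dZ Z k x) *
            (KR v v1 (Mx Z x) (S3.dZ Z k x))ᵀ)) -
          TE (fun x => B * (pk Z T k x * (sf v1 Z x * sf v1 Z x) * pk Z T k x))) +
      TE (fun x => B * (eta0 Z T x * sf χ Z x)) := by
  rw [stein hZ hχ hχ1 hv1 hF B T]
  have cW := cgm_cfc hZ hv1
  have cX := cgm_cfc hZ hχ1
  have cWW := cW.mul cW
  have cd := fun k => cgm_dZ hZ k
  have cp := fun k => cgm_pk hZ T k
  have cB := cgm_const (n := n) B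
  have cT := fun k => cgm_const (n := n) (T k)
  have cDX := fun k => cgm_DK hZ hχ hχ1 k
  have cDv := fun k => cgm_DK hZ hv hv1 k
  have cRX := fun k => cgm_KR hZ hχ hχ1 k
  have cRv := fun k => cgm_KR hZ hv hv1 k
  -- the pointwise identity, integrated
  have hp : ∀ x, (∑ k, (B * (T k * DK χ χ1 (Mx Z x) (S3.dZ Z k x))).trace) -
      (B * sf χ1 Z x).trace + (B * (sf v1 Z x * sf v1 Z x)).trace -
      ∑ k, (B * (DK v v1 (Mx Z x) (S3.dZ Z k x) * DK v v1 (Mx Z x) (S3.dZ Z k x))).trace =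
      -(B * ((1 - ∑ k, T k * T k) * (sf χ1 Z x - sf v1 Z x * sf v1 Z x))).trace +
      ∑ k, ((B * (T k * (pk Z T k x * (sf χ1 Z x - sf v1 Z x * sf v1 Z x) -
            sf v1 Z x * sf v1 Z x * pk Z T k x))).trace +
          (B * (T k * KR χ χ1 (Mx Z x) (S3.dZ Z k x))).trace -
          (B * (T k * (sf v1 Z x * sf v1 Z x * S3.dZ Z k x -
            S3.dZ Z k x * (sf v1 Z x * sf v1 Z x)))).trace -
          2 * (B * (S3.dZ Z k x * sf v1 Z x * (KR v v1 (Mx Z x) (S3.dZ Z k x))ᵀ)).trace -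
          (B * (KR v v1 (Mx Z x) (S3.dZ Z k x) * (KR v v1 (Mx Z x) (S3.dZ Z k x))ᵀ)).trace -
          (B * (pk Z T k x * (sf v1 Z x * sf v1 Z x) * pk Z T k x)).trace) := by
    intro x
    have hd : ∀ k, T k + pk Z T k x = S3.dZ Z k x := fun k => by
      unfold pk; abel
    have h := lam_point (B := B) (W := sf v1 Z x) (X := sf χ1 Z x) T (fun k => pk Z T k x)
      (fun k => KR v v1 (Mx Z x) (S3.dZ Z k x)) (fun k => KR χ χ1 (Mx Z x) (S3.dZ Z k x))
      (fun k => DK v v1 (Mx Z x) (S3.dZ Z k x)) hB (sf_t _ _) hT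
      (fun k => by unfold pk; rw [Matrix.transpose_sub, dZ_t hZ, hT])
      (fun k => DK_t _ _ _ _ (dZ_t hZ k x))
      (fun k => by rw [hd]; unfold KR sf; abel)
    simp only [hd] at h
    have e3 : ∀ k, S3.dZ Z k x * sf χ1 Z x + KR χ χ1 (Mx Z x) (S3.dZ Z k x) =
        DK χ χ1 (Mx Z x) (S3.dZ Z k x) := fun k => by unfold KR sf; abel
    simp only [e3] at h
    exact h
  have hI := EE_congr hp
  have c1 : ∀ k, CG (fun x => (B * (T k * DK χ χ1 (Mx Z x) (S3.dZ Z k x))).trace) := fun k =>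
    (cB.mul ((cT k).mul (cDX k))).trace
  have c2 : CG (fun x => (B * sf χ1 Z x).trace) := (cB.mul cX).trace
  have c3 : CG (fun x => (B * (sf v1 Z x * sf v1 Z x)).trace) := (cB.mul cWW).trace
  have c4 : ∀ k, CG (fun x => (B * (DK v v1 (Mx Z x) (S3.dZ Z k x) *
      DK v v1 (Mx Z x) (S3.dZ Z k x))).trace) := fun k => (cB.mul ((cDv k).mul (cDv k))).trace
  have c5 : CG (fun x => (B * ((1 - ∑ k, T k * T k) *
      (sf χ1 Z x - sf v1 Z x * sf v1 Z x))).trace) :=
    (cB.mul ((cgm_const _).mul (cX.sub cWW))).trace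
  have c6 : ∀ k, CG (fun x => (B * (T k * (pk Z T k x * (sf χ1 Z x - sf v1 Z x * sf v1 Z x) -
            sf v1 Z x * sf v1 Z x * pk Z T k x))).trace) := fun k =>
    (cB.mul ((cT k).mul (((cp k).mul (cX.sub cWW)).sub (cWW.mul (cp k))))).trace
  have c7 : ∀ k, CG (fun x => (B * (T k * KR χ χ1 (Mx Z x) (S3.dZ Z k x))).trace) := fun k =>
    (cB.mul ((cT k).mul (cRX k))).trace
  have c8 : ∀ k, CG (fun x => (B * (T k * (sf v1 Z x * sf v1 Z x * S3.dZ Z k x -
            S3.dZ Z k x * (sf v1 Z x * sf v1 Z x)))).trace) := fun k =>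
    (cB.mul ((cT k).mul ((cWW.mul (cd k)).sub ((cd k).mul cWW)))).trace
  have c9 : ∀ k, CG (fun x => (B * (S3.dZ Z k x * sf v1 Z x *
      (KR v v1 (Mx Z x) (S3.dZ Z k x))ᵀ)).trace) := fun k =>
    (cB.mul (((cd k).mul cW).mul (CGm.tr (cRv k)))).trace
  have c10 : ∀ k, CG (fun x => (B * (KR v v1 (Mx Z x) (S3.dZ Z k x) *
      (KR v v1 (Mx Z x) (S3.dZ Z k x))ᵀ)).trace) := fun k =>
    (cB.mul ((cRv k).mul (CGm.tr (cRv k)))).trace
  have c11 : ∀ k, CG (fun x => (B * (pk Z T k x * (sf v1 Z x * sf v1 Z x) *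
      pk Z T k x)).trace) := fun k => (cB.mul (((cp k).mul cWW).mul (cp k))).trace
  rw [EE_sub (((CG.sum fun k _ => c1 k).sub c2).add c3) (CG.sum fun k _ => c4 k),
    EE_add ((CG.sum fun k _ => c1 k).sub c2) c3, EE_sub (CG.sum fun k _ => c1 k) c2,
    EE_sum fun k _ => c1 k, EE_sum fun k _ => c4 k,
    EE_add c5.neg (CG.sum fun k _ => (((((c6 k).add (c7 k)).sub (c8 k)).sub ((c9 k).smul 2)).sub
      (c10 k)).sub (c11 k)), EE_neg,
    EE_sum fun k _ => (((((c6 k).add (c7 k)).sub (c8 k)).sub ((c9 k).smul 2)).sub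
      (c10 k)).sub (c11 k)] at hI
  have hk : ∀ k, EE (fun x => ((B * (T k * (pk Z T k x * (sf χ1 Z x - sf v1 Z x * sf v1 Z x) -
            sf v1 Z x * sf v1 Z x * pk Z T k x))).trace +
          (B * (T k * KR χ χ1 (Mx Z x) (S3.dZ Z k x))).trace -
          (B * (T k * (sf v1 Z x * sf v1 Z x * S3.dZ Z k x -
            S3.dZ Z k x * (sf v1 Z x * sf v1 Z x)))).trace -
          2 * (B * (S3.dZ Z k x * sf v1 Z x * (KR v v1 (Mx Z x) (S3.dZ Z k x))ᵀ)).trace -
          (B * (KR v v1 (Mx Z x) (S3.dZ Z k x) * (KR v v1 (Mx Z x) (S3.dZ Z k x))ᵀ)).trace -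
          (B * (pk Z T k x * (sf v1 Z x * sf v1 Z x) * pk Z T k x)).trace)) =
      TE (fun x => B * (T k * (pk Z T k x * (sf χ1 Z x - sf v1 Z x * sf v1 Z x) -
            sf v1 Z x * sf v1 Z x * pk Z T k x))) +
          TE (fun x => B * (T k * KR χ χ1 (Mx Z x) (S3.dZ Z k x))) -
          TE (fun x => B * (T k * (sf v1 Z x * sf v1 Z x * S3.dZ Z k x -
            S3.dZ Z k x * (sf v1 Z x * sf v1 Z x)))) -
          2 * TE (fun x => B * (S3.dZ Z k x * sf v1 Z x * (KR v v1 (Mx Z x) (S3.dZ Z k x))ᵀ)) -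
          TE (fun x => B * (KR v v1 (Mx Z x) (S3.dZ Z k x) *
            (KR v v1 (Mx Z x) (S3.dZ Z k x))ᵀ)) -
          TE (fun x => B * (pk Z T k x * (sf v1 Z x * sf v1 Z x) * pk Z T k x)) := by
    intro k
    rw [EE_sub (((((c6 k).add (c7 k)).sub (c8 k)).sub ((c9 k).smul 2)).sub (c10 k)) (c11 k),
      EE_sub ((((c6 k).add (c7 k)).sub (c8 k)).sub ((c9 k).smul 2)) (c10 k),
      EE_sub (((c6 k).add (c7 k)).sub (c8 k)) ((c9 k).smul 2),
      EE_sub ((c6 k).add (c7 k)) (c8 k), EE_add (c6 k) (c7 k), EE_smul]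
    rfl
  simp only [hk] at hI
  unfold TE at hI ⊢
  linarith

/-! ### centring -/

lemma EM_zero_tr {F : E n → Mat n} (hF : CGm F) (h0 : EM F = 0) (A B : Mat n) :
    TE (fun x => A * F x * B) = 0 := by
  rw [TE_AFB hF, h0, Matrix.mul_zero, Matrix.zero_mul, Matrix.trace_zero]

lemma EM_pk (hZ : MF Z lo hi) {T : Fin n → Mat n} (hT : ∀ k, EM (S3.dZ Z k) = T k) (k : Fin n) :
    EM (pk Z T k) = 0 := by
  ext i j
  have h := congrFun (congrFun (hT k) i) j
  change EE (fun x => S3.dZ Z k x i j) = T k i j at h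
  change EE (fun x => S3.dZ Z k x i j - T k i j) = 0
  rw [EE_sub (cgm_dZ hZ k i j) (cg_const _), EE_const, h, sub_self]

/-- centring of the `p`-term: `h → h - c1`, `v'² → v'² - c2` -/
theorem center_pp (hZ : MF Z lo hi) {g w : ℝ → ℝ} (hg : ContinuousOn g (Icc lo hi))
    (hw : ContinuousOn w (Icc lo hi)) (B : Mat n) {T : Fin n → Mat n} (k : Fin n)
    (h0 : EM (pk Z T k) = 0) (c1 c2 : ℝ) :
    TE (fun x => B * (T k * (pk Z T k x * sf g Z x - sf w Z x * pk Z T k x))) =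
      TE (fun x => B * (T k * (pk Z T k x * sf (fun z => g z - c1) Z x -
        sf (fun z => w z - c2) Z x * pk Z T k x))) := by
  have cp := cgm_pk hZ T k
  have cg := cgm_cfc hZ hg
  have cw := cgm_cfc hZ hw
  have cg' : CGm (sf (fun z => g z - c1) Z) := cgm_cfc hZ (hg.sub continuousOn_const)
  have cw' : CGm (sf (fun z => w z - c2) Z) := cgm_cfc hZ (hw.sub continuousOn_const)
  have e : ∀ x, B * (T k * (pk Z T k x * sf g Z x - sf w Z x * pk Z T k x)) =
      B * (T k * (pk Z T k x * sf (fun z => g z - c1) Z x -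
        sf (fun z => w z - c2) Z x * pk Z T k x)) + (c1 - c2) • (B * T k * pk Z T k x * 1) := by
    intro x
    have h1 : pk Z T k x * sf (fun z => g z - c1) Z x - sf (fun z => w z - c2) Z x * pk Z T k x =
        (pk Z T k x * sf g Z x - sf w Z x * pk Z T k x) - (c1 - c2) • pk Z T k x := by
      rw [sf_sub_const hZ, sf_sub_const hZ, Matrix.mul_sub (pk Z T k x), Matrix.sub_mul (sf w Z x),
        Matrix.mul_smul, Matrix.smul_mul, Matrix.mul_one, Matrix.one_mul, sub_smul]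
      abel
    rw [h1]
    generalize pk Z T k x * sf g Z x - sf w Z x * pk Z T k x = D
    rw [Matrix.mul_sub (T k), Matrix.mul_sub B, Matrix.mul_smul, Matrix.mul_smul,
      Matrix.mul_one, Matrix.mul_assoc B (T k) (pk Z T k x), sub_add_cancel]
  rw [TE_congr e, TE_add ((cgm_const B).mul ((cgm_const (T k)).mul ((cp.mul cg').sub
    (cw'.mul cp)))) ((((cgm_const (B * T k)).mul cp).mul (cgm_const 1)).smulc _), TE_smul,
    EM_zero_tr cp h0, mul_zero, add_zero]

/-- centring of the `η`-term, `η` on the left -/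
theorem center_eta' (hZ : MF Z lo hi) {v v1 : ℝ → ℝ}
    (hv : ∀ x ∈ Icc lo hi, HasDerivAt v (v1 x) x)
    (hv1 : ContinuousOn v1 (Icc lo hi)) {T : Fin n → Mat n} (hTs : ∀ k, (T k)ᵀ = T k)
    (hT : ∀ k, EM (S3.dZ Z k) = T k)
    (h0 : EM (Mx Z) = 0) {B : Mat n} (hB : Bᵀ = B) (c0 c1 : ℝ) :
    TE (fun x => B * (eta0 Z T x * sf v Z x)) =
      TE (fun x => B * (eta0 Z T x * sf (fun z => v z - c0 - c1 * z) Z x))
      + c1 * TE (fun x => B * (eta0 Z T x * eta0 Z T x)) := by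
  have ht : ∀ x, (eta0 Z T x)ᵀ = eta0 Z T x := by
    intro x
    unfold eta0
    rw [Matrix.transpose_sub, Mx_t hZ, Matrix.transpose_sum]
    congr 1
    exact Finset.sum_congr rfl fun k _ => by rw [Matrix.transpose_smul, hTs]
  have e : ∀ f : ℝ → ℝ, TE (fun x => B * (eta0 Z T x * sf f Z x)) =
      TE (fun x => B * (sf f Z x * eta0 Z T x)) := by
    intro f
    refine EE_congr fun x => ?_
    rw [← tr_t hB, Matrix.transpose_mul, ht, sf_t]
  rw [e, e, center_eta hZ hv hv1 T hT h0 B c0 c1]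

/-- **the exact B-form identity, centred** -/
theorem lam_eq (hZ : MF Z lo hi) {v v1 χ χ1 F : ℝ → ℝ}
    (hv : ∀ z ∈ Icc lo hi, HasDerivAt v (v1 z) z) (hv1 : ContinuousOn v1 (Icc lo hi))
    (hχ : ∀ z ∈ Icc lo hi, HasDerivAt χ (χ1 z) z) (hχ1 : ContinuousOn χ1 (Icc lo hi))
    (hF : ∀ z ∈ Icc lo hi, F z = 1 + z * χ z - χ1 z + v1 z ^ 2)
    {B : Mat n} (hB : Bᵀ = B) {T : Fin n → Mat n} (hTs : ∀ k, (T k)ᵀ = T k)
    (hT : ∀ k, EM (S3.dZ Z k) = T k) (h0 : EM (Mx Z) = 0)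
    (c1 c2 c3 c4 : ℝ) :
    TE (fun x => B * sf F Z x) -
        ∑ k, TE (fun x => B * (DK v v1 (Mx Z x) (S3.dZ Z k x) * DK v v1 (Mx Z x) (S3.dZ Z k x))) =
      B.trace - TE (fun x => B * ((1 - ∑ k, T k * T k) * sf (fun z => χ1 z - v1 z ^ 2) Z x)) +
      ∑ k, (TE (fun x => B * (T k * (pk Z T k x * sf (fun z => χ1 z - v1 z ^ 2 - c1) Z x -
            sf (fun z => v1 z ^ 2 - c2) Z x * pk Z T k x))) +
          TE (fun x => B * (T k * KR χ χ1 (Mx Z x) (S3.dZ Z k x))) -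
          TE (fun x => B * (T k * (sf (fun z => v1 z ^ 2) Z x * S3.dZ Z k x -
            S3.dZ Z k x * sf (fun z => v1 z ^ 2) Z x))) -
          2 * TE (fun x => B * (S3.dZ Z k x * sf v1 Z x * (KR v v1 (Mx Z x) (S3.dZ Z k x))ᵀ)) -
          TE (fun x => B * (KR v v1 (Mx Z x) (S3.dZ Z k x) *
            (KR v v1 (Mx Z x) (S3.dZ Z k x))ᵀ)) -
          TE (fun x => B * (pk Z T k x * sf (fun z => v1 z ^ 2) Z x * pk Z T k x))) +
      (TE (fun x => B * (eta0 Z T x * sf (fun z => χ z - c3 - c4 * z) Z x)) +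
        c4 * TE (fun x => B * (eta0 Z T x * eta0 Z T x))) := by
  have hWW : ∀ x, sf v1 Z x * sf v1 Z x = sf (fun z => v1 z ^ 2) Z x := fun x => by
    rw [sf_mul hZ]
    exact sf_congr hZ (fun z _ => (sq _).symm) x
  have hh : ∀ x, sf χ1 Z x - sf (fun z => v1 z ^ 2) Z x = sf (fun z => χ1 z - v1 z ^ 2) Z x :=
    fun x => sf_sub hZ _ _ x
  have hw2 : ContinuousOn (fun z => v1 z ^ 2) (Icc lo hi) := hv1.pow 2
  rw [lam_eq0 hZ hv hv1 hχ hχ1 hF hB hTs]
  simp only [hWW, hh]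
  rw [center_eta' hZ hχ hχ1 hTs hT h0 hB c3 c4]
  congr 2
  refine Finset.sum_congr rfl fun k _ => ?_
  rw [center_pp hZ (g := fun z => χ1 z - v1 z ^ 2) (hχ1.sub hw2) hw2 B k (EM_pk hZ hT k) c1 c2]

/-! ### Chebyshev for matrices -/

/-- `tr f(M) S g(M) S ≥ tr (fg)(M) S S` for `f` antitone, `g` monotone on the spectrum -/
theorem cheb {A S : Mat n} (hA : A.IsHermitian) (hS : Sᵀ = S) {f g : ℝ → ℝ}
    (hf : ∀ a ∈ spectrum ℝ A, ∀ b ∈ spectrum ℝ A, a ≤ b → f b ≤ f a)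
    (hg : ∀ a ∈ spectrum ℝ A, ∀ b ∈ spectrum ℝ A, a ≤ b → g a ≤ g b) :
    (_root_.cfc (fun z => f z * g z) A * (S * S)).trace ≤
      (_root_.cfc f A * (S * (_root_.cfc g A * S))).trace := by
  obtain ⟨U, hU⟩ := exists_fr hA
  set s := hA.eigenvalues with hs
  set X : Mat n := Uᵀ * S * U with hX
  have hXt : ∀ i j, X i j = X j i := by
    intro i j
    have h : Xᵀ = X := by
      rw [hX, Matrix.transpose_mul, Matrix.transpose_mul, Matrix.transpose_transpose, hS,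
        Matrix.mul_assoc]
    have := congrFun (congrFun h j) i
    rwa [Matrix.transpose_apply] at this
  have e1 : (_root_.cfc (fun z => f z * g z) A * (S * S)).trace =
      ∑ i, ∑ j, f (s i) * g (s i) * X i j ^ 2 := by
    rw [tr_frame hU]
    refine Finset.sum_congr rfl fun i _ => ?_
    rw [Jord192.conj_mul hU.o', Matrix.mul_apply, Finset.mul_sum]
    refine Finset.sum_congr rfl fun j _ => ?_
    rw [← hX, hXt j i]; ring
  have e2 : (_root_.cfc f A * (S * (_root_.cfc g A * S))).trace =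
      ∑ i, ∑ j, f (s i) * g (s j) * X i j ^ 2 := by
    rw [tr_frame hU]
    refine Finset.sum_congr rfl fun i _ => ?_
    rw [Jord192.conj_mul hU.o', Matrix.mul_apply, Finset.mul_sum]
    refine Finset.sum_congr rfl fun j _ => ?_
    rw [Jord192.cfc_mul_frame hU, ← hX, hXt j i]; ring
  rw [e1, e2]
  have e3 : (∑ i, ∑ j, f (s i) * g (s i) * X i j ^ 2) =
      ∑ i, ∑ j, (1 / 2) * (f (s i) * g (s i) + f (s j) * g (s j)) * X i j ^ 2 := by
    have h1 : (∑ i, ∑ j, f (s j) * g (s j) * X i j ^ 2) =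
        ∑ i, ∑ j, f (s i) * g (s i) * X i j ^ 2 := by
      rw [Finset.sum_comm]
      refine Finset.sum_congr rfl fun i _ => Finset.sum_congr rfl fun j _ => by rw [hXt j i]
    have h2 : (∑ i, ∑ j, (1 / 2) * (f (s i) * g (s i) + f (s j) * g (s j)) * X i j ^ 2) =
        (1 / 2) * (∑ i, ∑ j, f (s i) * g (s i) * X i j ^ 2) +
        (1 / 2) * ∑ i, ∑ j, f (s j) * g (s j) * X i j ^ 2 := by
      simp only [Finset.mul_sum, ← Finset.sum_add_distrib]
      refine Finset.sum_congr rfl fun i _ => Finset.sum_congr rfl fun j _ => by ring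
    rw [h2, h1]; ring
  have e4 : (∑ i, ∑ j, f (s i) * g (s j) * X i j ^ 2) =
      ∑ i, ∑ j, (1 / 2) * (f (s i) * g (s j) + f (s j) * g (s i)) * X i j ^ 2 := by
    have h1 : (∑ i, ∑ j, f (s j) * g (s i) * X i j ^ 2) =
        ∑ i, ∑ j, f (s i) * g (s j) * X i j ^ 2 := by
      rw [Finset.sum_comm]
      refine Finset.sum_congr rfl fun i _ => Finset.sum_congr rfl fun j _ => by rw [hXt j i]
    have h2 : (∑ i, ∑ j, (1 / 2) * (f (s i) * g (s j) + f (s j) * g (s i)) * X i j ^ 2) =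
        (1 / 2) * (∑ i, ∑ j, f (s i) * g (s j) * X i j ^ 2) +
        (1 / 2) * ∑ i, ∑ j, f (s j) * g (s i) * X i j ^ 2 := by
      simp only [Finset.mul_sum, ← Finset.sum_add_distrib]
      refine Finset.sum_congr rfl fun i _ => Finset.sum_congr rfl fun j _ => by ring
    rw [h2, h1]; ring
  rw [e3, e4]
  refine Finset.sum_le_sum fun i _ => Finset.sum_le_sum fun j _ => ?_
  refine mul_le_mul_of_nonneg_right ?_ (sq_nonneg _)
  have hm := fun i => hU.mem_spec i
  rcases le_total (s i) (s j) with h | h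
  · have a := hf _ (hm i) _ (hm j) h
    have b := hg _ (hm i) _ (hm j) h
    nlinarith [mul_nonneg (sub_nonneg.2 a) (sub_nonneg.2 b)]
  · have a := hf _ (hm j) _ (hm i) h
    have b := hg _ (hm j) _ (hm i) h
    nlinarith [mul_nonneg (sub_nonneg.2 a) (sub_nonneg.2 b)]

end field

end Crest.Agent.R253.LamB301
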