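import Crest.Agent.R253.ErrT_378
import Crest.Agent.R253.PsiT_301

/-!
# R253: the merged form of `Λ(b)` (helper301; 476 #31799, 358 (NF), 588 (UF), 246, 382)

`Om' = v'² - c₂ = om`, `Ψ' = ψ`, `g = χ - m Om - c₃ - c₄ z`, any multiplier `m`:

* `lamE_eq`: exact identity for `ErrT378.Lam` in which the three terms
  `-T_k v'² p_k`, `-p_k v'² p_k`, `η χ` are replaced by
  `-c₂ p_k p_k + c₄ η η + η g(ζ) + [m Om η - (D_k Om) p_k] + KR_k(Om) p_k`
  and the part `ψ` of `h = χ' - v'²` is un-integrated (`Ψ = ψ = 0`: near form; `ψ = h`: far form;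
  `ψ = odd part of h`: uniform form).
* `erF_ge`: the kernel terms from below.
-/

set_option autoImplicit false

open MeasureTheory ProbabilityTheory Set Filter Topology Matrix

noncomputable section

namespace Crest.Agent.R253.LamE301

open Crest.Agent.R238.Gap Crest.Agent.R253.SpecCalc999 Crest.Agent.R253.Meh74
  Crest.Agent.R253.SpecField321 Crest.Agent.R253.S3 Crest.Agent.R253.Stein378
  Crest.Agent.R253.LamB301 Crest.Agent.R253.ErrT378 Crest.Agent.R253.PsiT301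
  Crest.Agent.R253.EvenHS427

variable {n : ℕ}

/-! ### the kernel terms, pointwise -/

section pointwise

variable {m : ℕ}

/-- the kernel terms of `Λ(b)` -/
def erF (v w χ χ1 Ψ ψ : ℝ → ℝ) (A B : Mat m) (T p : Fin n → Mat m) : ℝ :=
  ∑ k, ((B * (T k * KR χ χ1 A (T k + p k))).trace -
    (B * (T k * KR Ψ ψ A (T k + p k))).trace -
    (B * (T k * (_root_.cfc w A * _root_.cfc w A * (T k + p k) -
      (T k + p k) * (_root_.cfc w A * _root_.cfc w A)))).trace -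
    2 * (B * ((T k + p k) * _root_.cfc w A * (KR v w A (T k + p k))ᵀ)).trace -
    (B * (KR v w A (T k + p k) * (KR v w A (T k + p k))ᵀ)).trace)

/-- regrouping -/
lemma erF_eq (v w χ χ1 Ψ ψ : ℝ → ℝ) (A B : Mat m) (T p : Fin n → Mat m) :
    erF v w χ χ1 Ψ ψ A B T p =
      ∑ k, ((B * T k) * (YT v w χ χ1 A (T k + p k) - KR Ψ ψ A (T k + p k))).trace +
      ∑ k, ((B * p k) * ((-2 : ℝ) • (_root_.cfc w A * (KR v w A (T k + p k))ᵀ))).trace +
      ∑ k, (-(B * (KR v w A (T k + p k) * (KR v w A (T k + p k))ᵀ)).trace) := by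
  unfold erF YT
  rw [← Finset.sum_add_distrib, ← Finset.sum_add_distrib]
  refine Finset.sum_congr rfl fun k _ => ?_
  simp only [Matrix.mul_sub, Matrix.mul_add, Matrix.add_mul, Matrix.trace_sub,
    Matrix.trace_add, Matrix.mul_smul, Matrix.trace_smul, smul_eq_mul, Matrix.mul_assoc]
  ring

lemma YK_frame {A U : Mat m} {s : Fin m → ℝ} (h : Fr A U s) (v w χ χ1 Ψ ψ : ℝ → ℝ) {Z : Mat m}
    (hZ : Zᵀ = Z) (i j : Fin m) :
    (Uᵀ * (YT v w χ χ1 A Z - KR Ψ ψ A Z) * U) i j =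
      (ky v w χ χ1 (s i) (s j) - (dd1 Ψ ψ (s i) (s j) - ψ (s j))) * (Uᵀ * Z * U) i j := by
  rw [Matrix.mul_sub, Matrix.sub_mul, Matrix.sub_apply, YT_frame h v w χ χ1 hZ, KR_frame h]
  ring

/-- **pointwise lower bound of the kernel terms** (`b ≤ Q ≤ bn`) -/
theorem erF_point {A U : Mat m} {s : Fin m → ℝ} (h : Fr A U s) {v w χ χ1 Ψ ψ : ℝ → ℝ}
    {sl : ℝ → ℝ → ℝ} {Cy Cw Ce bo bn θ2 θ3 : ℝ}
    (hy : ∀ a ∈ spectrum ℝ A, ∀ b ∈ spectrum ℝ A,
      (ky v w χ χ1 a b - (dd1 Ψ ψ a b - ψ b)) ^ 2 ≤ Cy * sl a b)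
    (hw : ∀ a ∈ spectrum ℝ A, ∀ b ∈ spectrum ℝ A, (w a * (dd1 v w b a - w a)) ^ 2 ≤ Cw * sl a b)
    (he : ∀ a ∈ spectrum ℝ A, ∀ b ∈ spectrum ℝ A, (dd1 v w a b - w b) ^ 2 ≤ Ce * sl a b)
    (hθ2 : 0 < θ2) (hθ3 : 0 < θ3) {B Q : Mat m}
    (hBQ : (Q - B).PosSemidef) (hBo : ∀ X : Mat m, hs (B * X) ≤ bo ^ 2 * hs X)
    (hQn : ∀ X : Mat m, (Q * (X * Xᵀ)).trace ≤ bn * hs X) (hbn : 0 ≤ bn)
    {T p : Fin n → Mat m} (hT : ∀ k, (T k)ᵀ = T k) (hp : ∀ k, (p k)ᵀ = p k) :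
    -(θ2 / 2 * ∑ k, hs (B * T k) + θ3 * bo ^ 2 * ∑ k, hs (p k) +
      (Cy / (2 * θ2) + Cw / θ3 + bn * Ce) * ∑ k, Jord192.slk sl U s (T k + p k)) ≤
      erF v w χ χ1 Ψ ψ A B T p := by
  rw [erF_eq v w χ χ1 Ψ ψ A B T p]
  have hZ : ∀ k, (T k + p k)ᵀ = T k + p k := fun k => by rw [Matrix.transpose_add, hT, hp]
  -- T-term
  have t2 := sum_tr_young hθ2 (fun k => -(B * T k))
    (fun k => YT v w χ χ1 A (T k + p k) - KR Ψ ψ A (T k + p k))
  have t2' : ∑ k, hs (YT v w χ χ1 A (T k + p k) - KR Ψ ψ A (T k + p k)) ≤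
      Cy * ∑ k, Jord192.slk sl U s (T k + p k) := by
    rw [Finset.mul_sum]
    exact Finset.sum_le_sum fun k _ =>
      hs_kernel_slk (ky := fun a b => ky v w χ χ1 a b - (dd1 Ψ ψ a b - ψ b)) h
        (fun i j => YK_frame h v w χ χ1 Ψ ψ (hZ k) i j) hy
  simp only [Jord192.hs_neg, Matrix.neg_mul, Matrix.trace_neg, Finset.sum_neg_distrib] at t2
  -- p W e
  have t3 := sum_tr_young (show (0 : ℝ) < 2 * θ3 by positivity) (fun k => -(B * p k))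
    (fun k => (-2 : ℝ) • (_root_.cfc w A * (KR v w A (T k + p k))ᵀ))
  have t3' : ∑ k, hs ((-2 : ℝ) • (_root_.cfc w A * (KR v w A (T k + p k))ᵀ)) ≤
      4 * Cw * ∑ k, Jord192.slk sl U s (T k + p k) := by
    rw [Finset.mul_sum]
    refine Finset.sum_le_sum fun k _ => ?_
    rw [Jord192.hs_smul]
    have := hs_kernel_slk (Y := _root_.cfc w A * (KR v w A (T k + p k))ᵀ) (X := T k + p k)
      (ky := fun a b => w a * (dd1 v w b a - w a)) h (fun i j => W_KRt_frame h v w (hZ k) i j) hw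
    calc (-2 : ℝ) ^ 2 * hs (_root_.cfc w A * (KR v w A (T k + p k))ᵀ)
        ≤ (-2 : ℝ) ^ 2 * (Cw * Jord192.slk sl U s (T k + p k)) :=
          mul_le_mul_of_nonneg_left this (by norm_num)
      _ = _ := by ring
  simp only [Jord192.hs_neg, Matrix.neg_mul, Matrix.trace_neg, Finset.sum_neg_distrib] at t3
  have t3'' : ∑ k, hs (B * p k) ≤ bo ^ 2 * ∑ k, hs (p k) := by
    rw [Finset.mul_sum]
    exact Finset.sum_le_sum fun k _ => hBo _
  -- e e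
  have t4 : ∑ k, (B * (KR v w A (T k + p k) * (KR v w A (T k + p k))ᵀ)).trace ≤
      bn * Ce * ∑ k, Jord192.slk sl U s (T k + p k) := by
    rw [Finset.mul_sum]
    refine Finset.sum_le_sum fun k _ => ?_
    have a1 := tr_psd_mul_transpose hBQ (KR v w A (T k + p k))
    rw [Matrix.sub_mul, Matrix.trace_sub] at a1
    have a2 := hQn (KR v w A (T k + p k))
    have a3 := mul_le_mul_of_nonneg_left (hs_KR_le h he (T k + p k)) hbn
    rw [← mul_assoc] at a3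
    linarith
  rw [Finset.sum_neg_distrib]
  have u2 := mul_le_mul_of_nonneg_left t2' (show (0 : ℝ) ≤ 1 / (2 * θ2) by positivity)
  have u3 := mul_le_mul_of_nonneg_left t3' (show (0 : ℝ) ≤ 1 / (2 * (2 * θ3)) by positivity)
  have u4 := mul_le_mul_of_nonneg_left t3'' (show (0 : ℝ) ≤ 2 * θ3 / 2 by positivity)
  have e2 : (1 / (2 * θ2)) * (Cy * ∑ k, Jord192.slk sl U s (T k + p k)) =
      Cy / (2 * θ2) * ∑ k, Jord192.slk sl U s (T k + p k) := by ring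
  have e3 : (1 / (2 * (2 * θ3))) * (4 * Cw * ∑ k, Jord192.slk sl U s (T k + p k)) =
      Cw / θ3 * ∑ k, Jord192.slk sl U s (T k + p k) := by
    field_simp
    ring
  have e4 : 2 * θ3 / 2 * (bo ^ 2 * ∑ k, hs (p k)) = θ3 * bo ^ 2 * ∑ k, hs (p k) := by ring
  rw [e2] at u2
  rw [e3] at u3
  rw [e4] at u4
  linarith [t2, t3, t4, u2, u3, u4]

end pointwise

/-! ### integrated -/

section field

variable {Z : Fld n} {lo hi : ℝ}

/-- one term of `erF` -/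
def erG (v v1 χ χ1 Ψ ψ : ℝ → ℝ) (Z : Fld n) (T : Fin n → Mat n) (b : Mat n) (k : Fin n)
    (x : E n) : ℝ :=
  (b * (T k * KR χ χ1 (Mx Z x) (S3.dZ Z k x))).trace -
    (b * (T k * KR Ψ ψ (Mx Z x) (S3.dZ Z k x))).trace -
    (b * (T k * (sf v1 Z x * sf v1 Z x * S3.dZ Z k x -
      S3.dZ Z k x * (sf v1 Z x * sf v1 Z x)))).trace -
    2 * (b * (S3.dZ Z k x * sf v1 Z x * (KR v v1 (Mx Z x) (S3.dZ Z k x))ᵀ)).trace -
    (b * (KR v v1 (Mx Z x) (S3.dZ Z k x) * (KR v v1 (Mx Z x) (S3.dZ Z k x))ᵀ)).trace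

/-- the integrated kernel terms -/
def EF (v v1 χ χ1 Ψ ψ : ℝ → ℝ) (Z : Fld n) (T : Fin n → Mat n) (b : Mat n) : ℝ :=
  ∑ k, (TE (fun x => b * (T k * KR χ χ1 (Mx Z x) (S3.dZ Z k x))) -
    TE (fun x => b * (T k * KR Ψ ψ (Mx Z x) (S3.dZ Z k x))) -
    TE (fun x => b * (T k * (sf v1 Z x * sf v1 Z x * S3.dZ Z k x -
      S3.dZ Z k x * (sf v1 Z x * sf v1 Z x)))) -
    2 * TE (fun x => b * (S3.dZ Z k x * sf v1 Z x * (KR v v1 (Mx Z x) (S3.dZ Z k x))ᵀ)) -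
    TE (fun x => b * (KR v v1 (Mx Z x) (S3.dZ Z k x) * (KR v v1 (Mx Z x) (S3.dZ Z k x))ᵀ)))

lemma erG_eq (v v1 χ χ1 Ψ ψ : ℝ → ℝ) (Z : Fld n) (T : Fin n → Mat n) (b : Mat n) (x : E n) :
    ∑ k, erG v v1 χ χ1 Ψ ψ Z T b k x =
      erF v v1 χ χ1 Ψ ψ (Mx Z x) b T (fun k => pk Z T k x) := by
  have hd : ∀ k, T k + pk Z T k x = S3.dZ Z k x := fun k => by unfold pk; abel
  unfold erF erG sf
  simp only [hd]

lemma cg_erG (hZ : MF Z lo hi) {v v1 χ χ1 Ψ ψ : ℝ → ℝ}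
    (hv : ∀ z ∈ Icc lo hi, HasDerivAt v (v1 z) z) (hv1 : ContinuousOn v1 (Icc lo hi))
    (hχ : ∀ z ∈ Icc lo hi, HasDerivAt χ (χ1 z) z) (hχ1 : ContinuousOn χ1 (Icc lo hi))
    (hΨ : ∀ z ∈ Icc lo hi, HasDerivAt Ψ (ψ z) z) (hψ : ContinuousOn ψ (Icc lo hi))
    (T : Fin n → Mat n) (b : Mat n) (k : Fin n) :
    CG (erG v v1 χ χ1 Ψ ψ Z T b k) ∧ EE (erG v v1 χ χ1 Ψ ψ Z T b k) =
      (TE (fun x => b * (T k * KR χ χ1 (Mx Z x) (S3.dZ Z k x))) -
    TE (fun x => b * (T k * KR Ψ ψ (Mx Z x) (S3.dZ Z k x))) -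
    TE (fun x => b * (T k * (sf v1 Z x * sf v1 Z x * S3.dZ Z k x -
      S3.dZ Z k x * (sf v1 Z x * sf v1 Z x)))) -
    2 * TE (fun x => b * (S3.dZ Z k x * sf v1 Z x * (KR v v1 (Mx Z x) (S3.dZ Z k x))ᵀ)) -
    TE (fun x => b * (KR v v1 (Mx Z x) (S3.dZ Z k x) *
      (KR v v1 (Mx Z x) (S3.dZ Z k x))ᵀ))) := by
  have cW := cgm_cfc hZ hv1
  have cWW := cW.mul cW
  have cd := cgm_dZ hZ k
  have cB := cgm_const (n := n) b
  have cT := cgm_const (n := n) (T k)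
  have cRX := cgm_KR hZ hχ hχ1 k
  have cRΨ := cgm_KR hZ hΨ hψ k
  have cRv := cgm_KR hZ hv hv1 k
  have c7 : CG (fun x => (b * (T k * KR χ χ1 (Mx Z x) (S3.dZ Z k x))).trace) :=
    (cB.mul (cT.mul cRX)).trace
  have c7' : CG (fun x => (b * (T k * KR Ψ ψ (Mx Z x) (S3.dZ Z k x))).trace) :=
    (cB.mul (cT.mul cRΨ)).trace
  have c8 : CG (fun x => (b * (T k * (sf v1 Z x * sf v1 Z x * S3.dZ Z k x -
            S3.dZ Z k x * (sf v1 Z x * sf v1 Z x)))).trace) :=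
    (cB.mul (cT.mul ((cWW.mul cd).sub (cd.mul cWW)))).trace
  have c9 : CG (fun x => (b * (S3.dZ Z k x * sf v1 Z x *
      (KR v v1 (Mx Z x) (S3.dZ Z k x))ᵀ)).trace) :=
    (cB.mul ((cd.mul cW).mul (CGm.tr cRv))).trace
  have c10 : CG (fun x => (b * (KR v v1 (Mx Z x) (S3.dZ Z k x) *
      (KR v v1 (Mx Z x) (S3.dZ Z k x))ᵀ)).trace) := (cB.mul (cRv.mul (CGm.tr cRv))).trace
  refine ⟨((((c7.sub c7').sub c8).sub (c9.smul 2)).sub c10), ?_⟩
  have e := EE_sub (((c7.sub c7').sub c8).sub (c9.smul 2)) c10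
  rw [EE_sub ((c7.sub c7').sub c8) (c9.smul 2), EE_sub (c7.sub c7') c8,
    EE_sub c7 c7', EE_smul] at e
  exact e

lemma EF_eq (hZ : MF Z lo hi) {v v1 χ χ1 Ψ ψ : ℝ → ℝ}
    (hv : ∀ z ∈ Icc lo hi, HasDerivAt v (v1 z) z) (hv1 : ContinuousOn v1 (Icc lo hi))
    (hχ : ∀ z ∈ Icc lo hi, HasDerivAt χ (χ1 z) z) (hχ1 : ContinuousOn χ1 (Icc lo hi))
    (hΨ : ∀ z ∈ Icc lo hi, HasDerivAt Ψ (ψ z) z) (hψ : ContinuousOn ψ (Icc lo hi))
    (T : Fin n → Mat n) (b : Mat n) :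
    EF v v1 χ χ1 Ψ ψ Z T b =
        EE (fun x => erF v v1 χ χ1 Ψ ψ (Mx Z x) b T (fun k => pk Z T k x)) ∧
      CG (fun x => erF v v1 χ χ1 Ψ ψ (Mx Z x) b T (fun k => pk Z T k x)) := by
  have h := fun k => cg_erG hZ hv hv1 hχ hχ1 hΨ hψ T b k
  have e : (fun x => erF v v1 χ χ1 Ψ ψ (Mx Z x) b T (fun k => pk Z T k x)) =
      fun x => ∑ k, erG v v1 χ χ1 Ψ ψ Z T b k x :=
    funext fun x => (erG_eq v v1 χ χ1 Ψ ψ Z T b x).symm
  rw [e]
  refine ⟨?_, CG.sum fun k _ => (h k).1⟩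
  rw [EE_sum fun k _ => (h k).1]
  unfold EF
  exact Finset.sum_congr rfl fun k _ => ((h k).2).symm

/-- **the integrated kernel terms from below** -/
theorem EF_ge (hZ : MF Z lo hi) {v v1 χ χ1 Ψ ψ : ℝ → ℝ}
    (hv : ∀ z ∈ Icc lo hi, HasDerivAt v (v1 z) z) (hv1 : ContinuousOn v1 (Icc lo hi))
    (hχ : ∀ z ∈ Icc lo hi, HasDerivAt χ (χ1 z) z) (hχ1 : ContinuousOn χ1 (Icc lo hi))
    (hΨ : ∀ z ∈ Icc lo hi, HasDerivAt Ψ (ψ z) z) (hψ : ContinuousOn ψ (Icc lo hi))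
    {T : Fin n → Mat n} (hTs : ∀ k, (T k)ᵀ = T k)
    {sl : ℝ → ℝ → ℝ} {Sl : E n → ℝ} (cSl : CG Sl)
    (hSl : ∀ x, ∃ U s, Fr (Mx Z x) U s ∧ ∑ k, Jord192.slk sl U s (S3.dZ Z k x) ≤ Sl x)
    {Cy Cw Ce bo bn θ2 θ3 : ℝ}
    (hy : ∀ a ∈ Icc lo hi, ∀ b ∈ Icc lo hi,
      (ky v v1 χ χ1 a b - (dd1 Ψ ψ a b - ψ b)) ^ 2 ≤ Cy * sl a b)
    (hw : ∀ a ∈ Icc lo hi, ∀ b ∈ Icc lo hi, (v1 a * (dd1 v v1 b a - v1 a)) ^ 2 ≤ Cw * sl a b)
    (he : ∀ a ∈ Icc lo hi, ∀ b ∈ Icc lo hi, (dd1 v v1 a b - v1 b) ^ 2 ≤ Ce * sl a b)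
    (hC0 : 0 ≤ Cy) (hC1 : 0 ≤ Cw) (hC2 : 0 ≤ Ce)
    (hθ2 : 0 < θ2) (hθ3 : 0 < θ3) {b Q : Mat n}
    (hbQ : (Q - b).PosSemidef) (hbo : ∀ X : Mat n, hs (b * X) ≤ bo ^ 2 * hs X)
    (hQn : ∀ X : Mat n, (Q * (X * Xᵀ)).trace ≤ bn * hs X) (hbn : 0 ≤ bn) :
    -(θ2 / 2 * ∑ k, hs (b * T k) + θ3 * bo ^ 2 * ∑ k, EE (fun x => hs (pk Z T k x)) +
      (Cy / (2 * θ2) + Cw / θ3 + bn * Ce) * EE Sl) ≤ EF v v1 χ χ1 Ψ ψ Z T b := by
  obtain ⟨e0, c0⟩ := EF_eq hZ hv hv1 hχ hχ1 hΨ hψ T b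
  rw [e0]
  have hpt : ∀ x, -(θ2 / 2 * ∑ k, hs (b * T k) + θ3 * bo ^ 2 * ∑ k, hs (pk Z T k x) +
      (Cy / (2 * θ2) + Cw / θ3 + bn * Ce) * Sl x) ≤
      erF v v1 χ χ1 Ψ ψ (Mx Z x) b T (fun k => pk Z T k x) := by
    intro x
    obtain ⟨U, s, hU, hs1⟩ := hSl x
    have hsp : ∀ a ∈ spectrum ℝ (Mx Z x), a ∈ Icc lo hi := fun a ha => hZ.s x ha
    have hd : ∀ k, T k + pk Z T k x = S3.dZ Z k x := fun k => by unfold pk; abel
    have h := erF_point (B := b) (Q := Q) (T := T) (p := fun k => pk Z T k x) (bo := bo)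
      (bn := bn) (θ2 := θ2) (θ3 := θ3) hU
      (fun a ha d hd' => hy a (hsp a ha) d (hsp d hd'))
      (fun a ha d hd' => hw a (hsp a ha) d (hsp d hd'))
      (fun a ha d hd' => he a (hsp a ha) d (hsp d hd')) hθ2 hθ3 hbQ hbo hQn hbn hTs
      (fun k => by unfold pk; rw [Matrix.transpose_sub, dZ_t hZ, hTs])
    simp only [hd] at h
    have h2 : (Cy / (2 * θ2) + Cw / θ3 + bn * Ce) * ∑ k, Jord192.slk sl U s (S3.dZ Z k x) ≤
        (Cy / (2 * θ2) + Cw / θ3 + bn * Ce) * Sl x :=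
      mul_le_mul_of_nonneg_left hs1 (by positivity)
    linarith
  have c3 : ∀ k, CG (fun x => hs (pk Z T k x)) := fun k => cg_hs (cgm_pk hZ T k)
  have d2 : CG (fun _ : E n => θ2 / 2 * ∑ k, hs (b * T k)) := cg_const _
  have d3 : CG (fun x => θ3 * bo ^ 2 * ∑ k, hs (pk Z T k x)) := (CG.sum fun k _ => c3 k).smul _
  have d5 : CG (fun x => (Cy / (2 * θ2) + Cw / θ3 + bn * Ce) * Sl x) := cSl.smul _
  have h := EE_mono ((d2.add d3).add d5).neg c0 hpt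
  rw [EE_neg, EE_add (d2.add d3) d5, EE_add d2 d3, EE_const, EE_smul, EE_smul,
    EE_sum fun k _ => c3 k] at h
  exact h

/-! ### the identity -/

lemma TE_assoc4 (b : Mat n) (T : Mat n) (F G : E n → Mat n) :
    TE (fun x => b * (T * F x * G x)) = TE (fun x => b * (T * (F x * G x))) :=
  TE_congr fun x => by rw [Matrix.mul_assoc T]

/-- **the merged identity**, any multiplier `m` of `Om`, any un-integrated part `ψ` of `h` -/
theorem lamE_eq (hZ : MF Z lo hi) {v v1 χ χ1 F Ψ ψ Om om : ℝ → ℝ}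
    (hv : ∀ z ∈ Icc lo hi, HasDerivAt v (v1 z) z) (hv1 : ContinuousOn v1 (Icc lo hi))
    (hχ : ∀ z ∈ Icc lo hi, HasDerivAt χ (χ1 z) z) (hχ1 : ContinuousOn χ1 (Icc lo hi))
    (hΨ : ∀ z ∈ Icc lo hi, HasDerivAt Ψ (ψ z) z) (hψ : ContinuousOn ψ (Icc lo hi))
    (hOm : ∀ z ∈ Icc lo hi, HasDerivAt Om (om z) z)
    {c2 : ℝ} (hom : ∀ z ∈ Icc lo hi, om z = v1 z ^ 2 - c2)
    (hF : ∀ z ∈ Icc lo hi, F z = 1 + z * χ z - χ1 z + v1 z ^ 2)
    {T : Fin n → Mat n} (hTs : ∀ k, (T k)ᵀ = T k) (hT : ∀ k, EM (S3.dZ Z k) = T k)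
    (h0 : EM (Mx Z) = 0) {b : Mat n} (hb : bᵀ = b) (m c3 c4 : ℝ) :
    Lam F v v1 Z b =
      b.trace - TE (fun x => b * sf (fun z => χ1 z - v1 z ^ 2) Z x) +
      TE (fun x => b * ((∑ k, T k * T k) * sf (fun z => χ1 z - v1 z ^ 2 - ψ z) Z x)) +
      ∑ k, TE (fun x => b * (T k * (pk Z T k x * sf (fun z => χ1 z - v1 z ^ 2 - ψ z) Z x))) +
      TE (fun x => b * (Z1 T x * sf Ψ Z x)) +
      EF v v1 χ χ1 Ψ ψ Z T b -
      c2 * ∑ k, TE (fun x => b * (pk Z T k x * pk Z T k x)) +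
      c4 * TE (fun x => b * (eta0 Z T x * eta0 Z T x)) +
      TE (fun x => b * (eta0 Z T x * sf (fun z => χ z - m * Om z - c3 - c4 * z) Z x)) +
      (m * TE (fun x => b * (sf Om Z x * eta0 Z T x)) -
        ∑ k, TE (fun x => b * (DK Om om (Mx Z x) (S3.dZ Z k x) * pk Z T k x))) +
      ∑ k, TE (fun x => b * (KR Om om (Mx Z x) (S3.dZ Z k x) * pk Z T k x)) := by
  have homc : ContinuousOn om (Icc lo hi) :=
    ((hv1.pow 2).sub continuousOn_const).congr hom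
  have hχc : ContinuousOn χ (Icc lo hi) := contOn_of_deriv hχ
  have hOmc : ContinuousOn Om (Icc lo hi) := contOn_of_deriv hOm
  have hΨc : ContinuousOn Ψ (Icc lo hi) := contOn_of_deriv hΨ
  have cB := cgm_const (n := n) b
  have cW := cgm_cfc hZ hv1
  have cWW := cW.mul cW
  have cX := cgm_cfc hZ hχ1
  have cη := cgm_eta0 hZ T
  have cp := fun k => cgm_pk hZ T k
  have cd := fun k => cgm_dZ hZ k
  have cT := fun k => cgm_const (n := n) (T k)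
  have cS := cgm_const (n := n) (∑ k, T k * T k)
  have chc : ContinuousOn (fun z => χ1 z - v1 z ^ 2) (Icc lo hi) := hχ1.sub (hv1.pow 2)
  have ch := cgm_cfc hZ chc
  have chψ : CGm (sf (fun z => χ1 z - v1 z ^ 2 - ψ z) Z) := cgm_cfc hZ (chc.sub hψ)
  have cψ := cgm_cfc hZ hψ
  have hWW : ∀ x, sf v1 Z x * sf v1 Z x = sf (fun z => v1 z ^ 2) Z x := fun x => by
    rw [sf_mul hZ]
    exact sf_congr hZ (fun z _ => (sq _).symm) x
  have hh : ∀ x, sf χ1 Z x - sf v1 Z x * sf v1 Z x = sf (fun z => χ1 z - v1 z ^ 2) Z x :=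
    fun x => by rw [hWW, sf_sub hZ]
  have hsplit : ∀ x, sf (fun z => χ1 z - v1 z ^ 2) Z x =
      sf (fun z => χ1 z - v1 z ^ 2 - ψ z) Z x + sf ψ Z x := fun x => by
    rw [← sf_sub hZ (fun z => χ1 z - v1 z ^ 2) ψ, sub_add_cancel]
  have hWom : ∀ x, sf v1 Z x * sf v1 Z x = c2 • (1 : Mat n) + sf om Z x := fun x => by
    have h1 : sf om Z x = sf (fun z => v1 z ^ 2 - c2) Z x := sf_congr hZ (fun z hz => hom z hz) x
    rw [h1, sf_sub_const hZ, hWW]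
    abel
  -- (f1)
  have f1 : TE (fun x => b * ((1 - ∑ k, T k * T k) *
      (sf χ1 Z x - sf v1 Z x * sf v1 Z x))) =
      TE (fun x => b * sf (fun z => χ1 z - v1 z ^ 2) Z x) -
      (TE (fun x => b * ((∑ k, T k * T k) * sf (fun z => χ1 z - v1 z ^ 2 - ψ z) Z x)) +
        TE (fun x => b * ((∑ k, T k * T k) * sf ψ Z x))) := by
    rw [← TE_add (cB.mul (cS.mul chψ)) (cB.mul (cS.mul cψ)),
      ← TE_sub (cB.mul ch) ((cB.mul (cS.mul chψ)).add (cB.mul (cS.mul cψ)))]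
    refine TE_congr fun x => ?_
    rw [hh, ← Matrix.mul_add, ← Matrix.mul_add, ← hsplit, Matrix.sub_mul, Matrix.one_mul,
      Matrix.mul_sub]
  -- (f2)
  have f2 : ∀ k, TE (fun x => b * (T k * (pk Z T k x * (sf χ1 Z x - sf v1 Z x * sf v1 Z x) -
            sf v1 Z x * sf v1 Z x * pk Z T k x))) =
      TE (fun x => b * (T k * (pk Z T k x * sf (fun z => χ1 z - v1 z ^ 2 - ψ z) Z x))) +
      TE (fun x => b * (T k * (pk Z T k x * sf ψ Z x))) -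
      TE (fun x => b * (T k * (sf v1 Z x * sf v1 Z x * pk Z T k x))) := fun k => by
    rw [← TE_add (cB.mul ((cT k).mul ((cp k).mul chψ))) (cB.mul ((cT k).mul ((cp k).mul cψ))),
      ← TE_sub ((cB.mul ((cT k).mul ((cp k).mul chψ))).add
        (cB.mul ((cT k).mul ((cp k).mul cψ)))) (cB.mul ((cT k).mul (cWW.mul (cp k))))]
    refine TE_congr fun x => ?_
    rw [hh, hsplit, ← Matrix.mul_add, ← Matrix.mul_add, ← Matrix.mul_add, ← Matrix.mul_sub,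
      ← Matrix.mul_sub]
  -- (f3), (f4)
  have f3 : ∀ k, TE (fun x => b * (T k * (sf v1 Z x * sf v1 Z x * pk Z T k x))) +
      TE (fun x => b * (pk Z T k x * (sf v1 Z x * sf v1 Z x) * pk Z T k x)) =
      c2 * TE (fun x => b * (pk Z T k x * pk Z T k x)) +
      TE (fun x => b * (DK Om om (Mx Z x) (S3.dZ Z k x) * pk Z T k x)) -
      TE (fun x => b * (KR Om om (Mx Z x) (S3.dZ Z k x) * pk Z T k x)) := fun k => by
    have cDK := cgm_DK hZ hOm homc k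
    have cKR := cgm_KR hZ hOm homc k
    have z0 : TE (fun x => b * T k * pk Z T k x * 1) = 0 :=
      EM_zero_tr (cp k) (EM_pk hZ hT k) _ _
    have e1 : ∀ x, b * (T k * (sf v1 Z x * sf v1 Z x * pk Z T k x)) +
        b * (pk Z T k x * (sf v1 Z x * sf v1 Z x) * pk Z T k x) =
        c2 • (b * (pk Z T k x * pk Z T k x)) +
        (b * (DK Om om (Mx Z x) (S3.dZ Z k x) * pk Z T k x) -
        b * (KR Om om (Mx Z x) (S3.dZ Z k x) * pk Z T k x)) +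
        c2 • (b * T k * pk Z T k x * 1) := by
      intro x
      have hd : S3.dZ Z k x = T k + pk Z T k x := by unfold pk; abel
      have h1 : DK Om om (Mx Z x) (S3.dZ Z k x) - KR Om om (Mx Z x) (S3.dZ Z k x) =
          S3.dZ Z k x * sf om Z x := by unfold KR sf; abel
      rw [← Matrix.mul_sub, ← Matrix.sub_mul, h1, hWom, hd]
      simp only [Matrix.mul_add, Matrix.add_mul, Matrix.smul_mul, Matrix.mul_smul,
        Matrix.mul_one, Matrix.one_mul, Matrix.mul_assoc]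
      abel
    have cA : CGm fun x => b * (T k * (sf v1 Z x * sf v1 Z x * pk Z T k x)) :=
      cB.mul ((cT k).mul (cWW.mul (cp k)))
    have cA2 : CGm fun x => b * (pk Z T k x * (sf v1 Z x * sf v1 Z x) * pk Z T k x) :=
      cB.mul (((cp k).mul cWW).mul (cp k))
    have cP : CGm fun x => b * (pk Z T k x * pk Z T k x) := cB.mul ((cp k).mul (cp k))
    have cD : CGm fun x => b * (DK Om om (Mx Z x) (S3.dZ Z k x) * pk Z T k x) :=
      cB.mul (cDK.mul (cp k))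
    have cK : CGm fun x => b * (KR Om om (Mx Z x) (S3.dZ Z k x) * pk Z T k x) :=
      cB.mul (cKR.mul (cp k))
    have cL : CGm fun x => b * T k * pk Z T k x * 1 :=
      ((cgm_const (b * T k)).mul (cp k)).mul (cgm_const 1)
    rw [← TE_add cA cA2, TE_congr e1, TE_add ((cP.smulc c2).add (cD.sub cK)) (cL.smulc c2),
      TE_add (cP.smulc c2) (cD.sub cK), TE_sub cD cK, TE_smul, TE_smul, z0]
    ring
  -- (f5)
  have f5 : TE (fun x => b * (eta0 Z T x * sf χ Z x)) =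
      TE (fun x => b * (eta0 Z T x * sf (fun z => χ z - m * Om z - c3 - c4 * z) Z x)) +
      c4 * TE (fun x => b * (eta0 Z T x * eta0 Z T x)) +
      m * TE (fun x => b * (sf Om Z x * eta0 Z T x)) := by
    have hd : ∀ z ∈ Icc lo hi, HasDerivAt (fun z => χ z - m * Om z) (χ1 z - m * om z) z :=
      fun z hz => (hχ z hz).sub ((hOm z hz).const_mul m)
    have hc : ContinuousOn (fun z => χ1 z - m * om z) (Icc lo hi) :=
      hχ1.sub (continuousOn_const.mul homc)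
    have h1 := center_eta' hZ hd hc hTs hT h0 hb c3 c4
    rw [← h1]
    have ht : TE (fun x => b * (sf Om Z x * eta0 Z T x)) =
        TE (fun x => b * (eta0 Z T x * sf Om Z x)) := by
      refine EE_congr fun x => ?_
      rw [← tr_t hb, Matrix.transpose_mul, ErrT378.eta0_t hZ hTs, sf_t]
    have cXO : CGm (sf (fun z => χ z - m * Om z) Z) :=
      cgm_cfc hZ (hχc.sub (continuousOn_const.mul hOmc))
    rw [ht, ← TE_smul, ← TE_add (cB.mul (cη.mul cXO))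
      ((cB.mul (cη.mul (cgm_cfc hZ hOmc))).smulc m)]
    refine TE_congr fun x => ?_
    have e1 : sf χ Z x = sf (fun z => χ z - m * Om z) Z x + m • sf Om Z x := by
      obtain ⟨U, hU⟩ := exists_fr (hZ.h x)
      apply conj_inj hU.o'
      unfold sf
      rw [hU.cfc, Matrix.mul_add, Matrix.add_mul, hU.cfc, Matrix.mul_smul, Matrix.smul_mul,
        hU.cfc]
      ext i j
      by_cases hij : i = j
      · subst hij; simp
      · simp [Matrix.diagonal_apply_ne _ hij]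
    rw [e1, Matrix.mul_add, Matrix.mul_add, Matrix.mul_smul, Matrix.mul_smul]
  -- (f7)
  have f7 : TE (fun x => b * ((∑ k, T k * T k) * sf ψ Z x)) +
      ∑ k, TE (fun x => b * (T k * (pk Z T k x * sf ψ Z x))) =
      TE (fun x => b * (Z1 T x * sf Ψ Z x)) -
        ∑ k, TE (fun x => b * (T k * KR Ψ ψ (Mx Z x) (S3.dZ Z k x))) := by
    rw [← psi_eq hZ hΨ hψ b T]
    have e1 : ∀ x, b * ((∑ k, T k * T k) * sf ψ Z x) =
        ∑ k, b * (T k * (T k * sf ψ Z x)) := fun x => by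
      rw [Matrix.sum_mul, Matrix.mul_sum]
      exact Finset.sum_congr rfl fun k _ => by rw [Matrix.mul_assoc]
    rw [TE_congr e1, TE_sum fun k _ => cB.mul ((cT k).mul ((cT k).mul cψ)),
      ← Finset.sum_add_distrib]
    refine Finset.sum_congr rfl fun k _ => ?_
    have hd : ∀ x, S3.dZ Z k x = T k + pk Z T k x := fun x => by unfold pk; abel
    rw [← TE_add (cB.mul ((cT k).mul ((cT k).mul cψ))) (cB.mul ((cT k).mul ((cp k).mul cψ)))]
    refine TE_congr fun x => ?_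
    rw [hd, Matrix.add_mul, Matrix.mul_add, Matrix.mul_add]
  have key := lam_eq0 hZ hv hv1 hχ hχ1 hF hb hTs
  unfold Lam
  rw [key, f1, f5]
  simp only [f2]
  unfold EF
  simp only [Finset.sum_add_distrib, Finset.sum_sub_distrib] at f7 ⊢
  have f3s : ∑ k, TE (fun x => b * (T k * (sf v1 Z x * sf v1 Z x * pk Z T k x))) +
      ∑ k, TE (fun x => b * (pk Z T k x * (sf v1 Z x * sf v1 Z x) * pk Z T k x)) =
      c2 * ∑ k, TE (fun x => b * (pk Z T k x * pk Z T k x)) +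
      ∑ k, TE (fun x => b * (DK Om om (Mx Z x) (S3.dZ Z k x) * pk Z T k x)) -
      ∑ k, TE (fun x => b * (KR Om om (Mx Z x) (S3.dZ Z k x) * pk Z T k x)) := by
    rw [Finset.mul_sum, ← Finset.sum_add_distrib, ← Finset.sum_add_distrib,
      ← Finset.sum_sub_distrib]
    exact Finset.sum_congr rfl fun k _ => f3 k
  linarith

end field

end Crest.Agent.R253.LamE301
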