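import Crest.Agent.R253.LamB_301
import Crest.Agent.R253.Jord_192

/-!
# R253: the direct lower bound of `Λ(b)` for large `M_T` (helper626)

Letters of `S3_649` (`TE`, `EM`, `sf`, `dZ`) and `Stein_378` (`KR`).  `U = v(ζ)`, `U_k = ∂_k U`,
`β` any constant matrix, `b = βᵀβ`.

* `f1`: Poincaré for `β (ζ - λ U)`:
  `2λ (Σ_k E tr b ζ_k U_k - E tr b ζ U) - λ² Σ_k E tr b U_k² ≤ Σ_k E |β ζ_k|² - E |β ζ|²`.
* `f2`: pointwise kernel split of `a tr b ζ_k U_k - c tr b U_k²`.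
* `f3`, `f4`: the lower bound of `th N_b + E tr b (2k - U²) - Σ_k E tr b U_k²`.
-/

set_option autoImplicit false

open MeasureTheory ProbabilityTheory Set Filter Topology Matrix
open scoped ContDiff

noncomputable section

namespace Crest.Agent.R253.LargeM626

open Crest.Agent.R238.Gap Crest.Agent.R253.SpecCalc999 Crest.Agent.R253.Meh74
  Crest.Agent.R253.SpecField321 Crest.Agent.R253.S3 Crest.Agent.R253.Stein378

variable {n : ℕ}

/-! ### the form `⟨βX, βY⟩` -/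

/-- `⟨β X, β Y⟩` -/
def ipb (β X Y : Mat n) : ℝ := ∑ i, ∑ j, (β * X) i j * (β * Y) i j

lemma ipb_eq (β X Y : Mat n) : ipb β X Y = (βᵀ * β * (X * Yᵀ)).trace := by
  have h : (βᵀ * β * (X * Yᵀ)).trace = ((β * X) * (β * Y)ᵀ).trace := by
    rw [Matrix.transpose_mul, Matrix.mul_assoc βᵀ, Matrix.trace_mul_comm βᵀ]
    simp only [Matrix.mul_assoc]
  rw [h, Matrix.trace]
  refine Finset.sum_congr rfl fun i _ => ?_
  rw [Matrix.diag_apply, Matrix.mul_apply]
  rfl

lemma ipb_self (β X : Mat n) : ipb β X X = hs (β * X) := by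
  unfold ipb hs
  exact Finset.sum_congr rfl fun i _ => Finset.sum_congr rfl fun j _ => by ring

lemma ipb_comm (β X Y : Mat n) : ipb β X Y = ipb β Y X := by
  unfold ipb
  exact Finset.sum_congr rfl fun i _ => Finset.sum_congr rfl fun j _ => by ring

lemma ipb_add_right (β X Y W : Mat n) : ipb β X (Y + W) = ipb β X Y + ipb β X W := by
  unfold ipb
  rw [← Finset.sum_add_distrib]
  refine Finset.sum_congr rfl fun i _ => ?_
  rw [← Finset.sum_add_distrib]
  refine Finset.sum_congr rfl fun j _ => ?_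
  rw [Matrix.mul_add, Matrix.add_apply]
  ring

lemma ipb_add_left (β X Y W : Mat n) : ipb β (X + Y) W = ipb β X W + ipb β Y W := by
  rw [ipb_comm, ipb_add_right, ipb_comm β W X, ipb_comm β W Y]

lemma ipb_smul_right (β X Y : Mat n) (c : ℝ) : ipb β X (c • Y) = c * ipb β X Y := by
  unfold ipb
  rw [Finset.mul_sum]
  refine Finset.sum_congr rfl fun i _ => ?_
  rw [Finset.mul_sum]
  refine Finset.sum_congr rfl fun j _ => ?_
  rw [Matrix.mul_smul, Matrix.smul_apply, smul_eq_mul]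
  ring

lemma ipb_mul_right (β X Y W : Mat n) : ipb β (X * W) Y = ipb β X (Y * Wᵀ) := by
  rw [ipb_eq, ipb_eq, Matrix.transpose_mul, Matrix.transpose_transpose, Matrix.mul_assoc X]

/-- Young -/
lemma ipb_young (β X Y : Mat n) {t : ℝ} (ht : 0 < t) :
    -(t * hs (β * X) + 1 / (4 * t) * hs (β * Y)) ≤ ipb β X Y := by
  unfold ipb hs
  rw [Finset.mul_sum, Finset.mul_sum, ← Finset.sum_add_distrib, ← Finset.sum_neg_distrib]
  refine Finset.sum_le_sum fun i _ => ?_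
  rw [Finset.mul_sum, Finset.mul_sum, ← Finset.sum_add_distrib, ← Finset.sum_neg_distrib]
  refine Finset.sum_le_sum fun j _ => ?_
  set a := (β * X) i j
  set c := (β * Y) i j
  have h : t * a ^ 2 + 1 / (4 * t) * c ^ 2 + a * c = (2 * t * a + c) ^ 2 / (4 * t) := by
    field_simp
    ring
  have h2 : 0 ≤ (2 * t * a + c) ^ 2 / (4 * t) := by positivity
  linarith

/-- `⟨βX, βX g(A)⟩ ≥ 0` for `g ≥ 0` on the spectrum -/
lemma ipb_cfc_nonneg (β X : Mat n) {A : Mat n} (hA : A.IsHermitian) {g : ℝ → ℝ}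
    (hg : ∀ x ∈ spectrum ℝ A, 0 ≤ g x) : 0 ≤ ipb β X (X * _root_.cfc g A) := by
  obtain ⟨U, hU⟩ := exists_fr hA
  have e : ipb β X (X * _root_.cfc g A) =
      ∑ i, ∑ j, g (hA.eigenvalues j) * ((β * X * U) i j) ^ 2 := by
    have h1 : ipb β X (X * _root_.cfc g A) = ((β * X) * _root_.cfc g A * (β * X)ᵀ).trace := by
      rw [ipb_eq, Matrix.transpose_mul, Jord192.cfc_transpose, Matrix.transpose_mul,
        Matrix.mul_assoc βᵀ, Matrix.trace_mul_comm βᵀ]
      simp only [Matrix.mul_assoc]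
    have h2 : (β * X) * _root_.cfc g A * (β * X)ᵀ =
        (β * X * U) * (Uᵀ * _root_.cfc g A * U) * (β * X * U)ᵀ := by
      rw [Matrix.transpose_mul (β * X) U]
      calc (β * X) * _root_.cfc g A * (β * X)ᵀ =
          (β * X) * (U * Uᵀ) * _root_.cfc g A * (U * Uᵀ) * (β * X)ᵀ := by
            rw [hU.o', Matrix.mul_one, Matrix.mul_one]
        _ = _ := by simp only [Matrix.mul_assoc]
    rw [h1, h2, hU.cfc, Matrix.trace]
    refine Finset.sum_congr rfl fun i _ => ?_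
    rw [Matrix.diag_apply, Matrix.mul_apply]
    refine Finset.sum_congr rfl fun j _ => ?_
    rw [Matrix.mul_diagonal, Matrix.transpose_apply]
    ring
  rw [e]
  exact Finset.sum_nonneg fun i _ => Finset.sum_nonneg fun j _ =>
    mul_nonneg (hg _ (hU.mem_spec j)) (sq_nonneg _)

/-! ### Poincaré -/

lemma sq_EE_le {g : E n → ℝ} (hg : CG g) : EE g ^ 2 ≤ EE fun x => g x ^ 2 := by
  have h : 0 ≤ EE fun x => (g x - EE g) ^ 2 := EE_nonneg fun x => sq_nonneg _
  have e : EE (fun x => (g x - EE g) ^ 2) = EE (fun x => g x ^ 2) - EE g ^ 2 := by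
    have h1 : ∀ x, (g x - EE g) ^ 2 = g x ^ 2 - (2 * EE g * g x - EE g ^ 2) := fun x => by ring
    rw [EE_congr h1, EE_sub hg.sq ((hg.smul _).sub (cg_const _)), EE_sub (hg.smul _) (cg_const _),
      EE_smul, EE_const]
    ring
  linarith

/-- Poincaré for `f - λ g`, `E f = 0` -/
lemma poin_lin {f g : E n → ℝ} (hf : C1 f) (hg : C1 g) (h0 : EE f = 0) (lam : ℝ) :
    EE (fun x => f x ^ 2) - 2 * lam * EE (fun x => f x * g x) ≤
      ∑ k, (EE (fun x => pd k f x ^ 2) - 2 * lam * EE (fun x => pd k f x * pd k g x) +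
        lam ^ 2 * EE (fun x => pd k g x ^ 2)) := by
  have hF : C1 fun x => f x + (-lam) * g x := hf.add (hg.smul (-lam))
  have h := poincare1 hF
  change EE (fun x => (f x + (-lam) * g x) ^ 2) - EE (fun x => f x + (-lam) * g x) ^ 2 ≤
    ∑ k, EE (fun x => pd k (fun x => f x + (-lam) * g x) x ^ 2) at h
  have e1 : EE (fun x => (f x + (-lam) * g x) ^ 2) =
      EE (fun x => f x ^ 2) - 2 * lam * EE (fun x => f x * g x) +
        lam ^ 2 * EE (fun x => g x ^ 2) := by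
    rw [← EE_smul, ← EE_smul, ← EE_sub hf.cg.sq ((hf.cg.mul hg.cg).smul _),
      ← EE_add (hf.cg.sq.sub ((hf.cg.mul hg.cg).smul _)) (hg.cg.sq.smul _)]
    exact EE_congr fun x => by ring
  have e2 : EE (fun x => f x + (-lam) * g x) = -lam * EE g := by
    rw [EE_add hf.cg (hg.cg.smul _), EE_smul, h0, zero_add]
  have e3 : ∀ k, EE (fun x => pd k (fun x => f x + (-lam) * g x) x ^ 2) =
      EE (fun x => pd k f x ^ 2) - 2 * lam * EE (fun x => pd k f x * pd k g x) +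
        lam ^ 2 * EE (fun x => pd k g x ^ 2) := by
    intro k
    have hp : ∀ x, pd k (fun x => f x + (-lam) * g x) x ^ 2 =
        pd k f x ^ 2 - 2 * lam * (pd k f x * pd k g x) + lam ^ 2 * pd k g x ^ 2 := by
      intro x
      have a1 : pd k (fun x => f x + (-lam) * g x) x = pd k f x + pd k (fun x => (-lam) * g x) x :=
        C1.pd_add hf (hg.smul (-lam)) k x
      have a2 : pd k (fun x => (-lam) * g x) x = (-lam) * pd k g x := by
        rw [C1.pd_mul (c1_const _) hg]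
        have : pd k (fun _ : E n => -lam) x = 0 := by simp [pd]
        rw [this, zero_mul, zero_add]
      rw [a1, a2]
      ring
    rw [EE_congr hp, EE_add (((hf.cgp k).sq).sub (((hf.cgp k).mul (hg.cgp k)).smul _))
      ((hg.cgp k).sq.smul _), EE_sub ((hf.cgp k).sq) (((hf.cgp k).mul (hg.cgp k)).smul _),
      EE_smul, EE_smul]
  rw [e1, e2] at h
  simp only [e3] at h
  have h5 := mul_le_mul_of_nonneg_left (sq_EE_le hg.cg) (sq_nonneg lam)
  nlinarith [h, h5]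

lemma pd_cmulM (β : Mat n) {F : E n → Mat n} (hF : C1m F) (k i j : Fin n) (x : E n) :
    pd k (fun y => (β * F y) i j) x = (β * S3.dM k F x) i j := by
  have e : (fun y => (β * F y) i j) = fun y => ∑ q, β i q * F y q j := by
    funext y; rw [Matrix.mul_apply]
  rw [e, pd_sum' (f := fun q y => β i q * F y q j) fun q _ => (c1_const _).mul (hF q j),
    Matrix.mul_apply]
  refine Finset.sum_congr rfl fun q _ => ?_
  rw [C1.pd_mul (c1_const _) (hF q j)]
  have : pd k (fun _ : E n => β i q) x = 0 := by simp [pd]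
  rw [this, zero_mul, zero_add]
  rfl

lemma cg_ipb (β : Mat n) {F G : E n → Mat n} (hF : CGm F) (hG : CGm G) :
    CG fun x => ipb β (F x) (G x) :=
  CG.sum fun i _ => CG.sum fun j _ =>
    (((cgm_const β).mul hF) i j).mul (((cgm_const β).mul hG) i j)

lemma cg_hsb (β : Mat n) {F : E n → Mat n} (hF : CGm F) : CG fun x => hs (β * F x) :=
  CG.sum fun i _ => CG.sum fun j _ => (((cgm_const β).mul hF) i j).sq

/-- matrix Poincaré for `β (F - λ G)`, `E F = 0` -/
theorem poin_mat {F G : E n → Mat n} (hF : C1m F) (hG : C1m G) (h0 : EM F = 0) (β : Mat n)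
    (lam : ℝ) :
    2 * lam * (∑ k, EE (fun x => ipb β (S3.dM k F x) (S3.dM k G x)) -
        EE (fun x => ipb β (F x) (G x))) -
      lam ^ 2 * ∑ k, EE (fun x => hs (β * S3.dM k G x)) ≤
    ∑ k, EE (fun x => hs (β * S3.dM k F x)) - EE (fun x => hs (β * F x)) := by
  have cF : C1m fun x => β * F x := LamB301.C1m.mul (LamB301.c1m_const β) hF
  have cG : C1m fun x => β * G x := LamB301.C1m.mul (LamB301.c1m_const β) hG
  have z : ∀ i j, EE (fun x => (β * F x) i j) = 0 := by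
    intro i j
    have h1 : ∀ x, (β * F x) i j = ∑ q, β i q * F x q j := fun x => Matrix.mul_apply
    rw [EE_congr h1, EE_sum fun q _ => ((hF q j).cg).smul _]
    refine Finset.sum_eq_zero fun q _ => ?_
    rw [EE_smul]
    have h2 : EE (fun x => F x q j) = EM F q j := rfl
    rw [h2, h0]
    simp
  have key : ∀ i j, EE (fun x => (β * F x) i j ^ 2) -
      2 * lam * EE (fun x => (β * F x) i j * (β * G x) i j) ≤
      ∑ k, (EE (fun x => (β * S3.dM k F x) i j ^ 2) -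
        2 * lam * EE (fun x => (β * S3.dM k F x) i j * (β * S3.dM k G x) i j) +
        lam ^ 2 * EE (fun x => (β * S3.dM k G x) i j ^ 2)) := by
    intro i j
    have h := poin_lin (cF i j) (cG i j) (z i j) lam
    simp only [pd_cmulM β hF, pd_cmulM β hG] at h
    exact h
  have hsum := Finset.sum_le_sum fun i (_ : i ∈ (Finset.univ : Finset (Fin n))) =>
    Finset.sum_le_sum fun j (_ : j ∈ (Finset.univ : Finset (Fin n))) => key i j
  have a1 : EE (fun x => hs (β * F x)) = ∑ i, ∑ j, EE (fun x => (β * F x) i j ^ 2) := by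
    unfold hs
    rw [EE_sum fun i _ => CG.sum fun j _ => (cF.cg i j).sq]
    exact Finset.sum_congr rfl fun i _ => EE_sum fun j _ => (cF.cg i j).sq
  have a2 : EE (fun x => ipb β (F x) (G x)) =
      ∑ i, ∑ j, EE (fun x => (β * F x) i j * (β * G x) i j) := by
    unfold ipb
    rw [EE_sum fun i _ => CG.sum fun j _ => (cF.cg i j).mul (cG.cg i j)]
    exact Finset.sum_congr rfl fun i _ => EE_sum fun j _ => (cF.cg i j).mul (cG.cg i j)
  have dF : ∀ k, CGm fun x => β * S3.dM k F x := fun k => (cgm_const β).mul (hF.cgd k)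
  have dG : ∀ k, CGm fun x => β * S3.dM k G x := fun k => (cgm_const β).mul (hG.cgd k)
  have a3 : ∀ k, EE (fun x => hs (β * S3.dM k F x)) =
      ∑ i, ∑ j, EE (fun x => (β * S3.dM k F x) i j ^ 2) := by
    intro k
    unfold hs
    rw [EE_sum fun i _ => CG.sum fun j _ => (dF k i j).sq]
    exact Finset.sum_congr rfl fun i _ => EE_sum fun j _ => (dF k i j).sq
  have a4 : ∀ k, EE (fun x => hs (β * S3.dM k G x)) =
      ∑ i, ∑ j, EE (fun x => (β * S3.dM k G x) i j ^ 2) := by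
    intro k
    unfold hs
    rw [EE_sum fun i _ => CG.sum fun j _ => (dG k i j).sq]
    exact Finset.sum_congr rfl fun i _ => EE_sum fun j _ => (dG k i j).sq
  have a5 : ∀ k, EE (fun x => ipb β (S3.dM k F x) (S3.dM k G x)) =
      ∑ i, ∑ j, EE (fun x => (β * S3.dM k F x) i j * (β * S3.dM k G x) i j) := by
    intro k
    unfold ipb
    rw [EE_sum fun i _ => CG.sum fun j _ => (dF k i j).mul (dG k i j)]
    exact Finset.sum_congr rfl fun i _ => EE_sum fun j _ => (dF k i j).mul (dG k i j)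
  rw [a1, a2]
  simp only [a3, a4, a5]
  have l1 : ∑ i, ∑ j, (EE (fun x => (β * F x) i j ^ 2) -
      2 * lam * EE (fun x => (β * F x) i j * (β * G x) i j)) =
      ∑ i, ∑ j, EE (fun x => (β * F x) i j ^ 2) -
      2 * lam * ∑ i, ∑ j, EE (fun x => (β * F x) i j * (β * G x) i j) := by
    simp only [Finset.sum_sub_distrib, ← Finset.mul_sum]
  have l2 : ∑ i, ∑ j, ∑ k, (EE (fun x => (β * S3.dM k F x) i j ^ 2) -
        2 * lam * EE (fun x => (β * S3.dM k F x) i j * (β * S3.dM k G x) i j) +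
        lam ^ 2 * EE (fun x => (β * S3.dM k G x) i j ^ 2)) =
      ∑ k, ∑ i, ∑ j, EE (fun x => (β * S3.dM k F x) i j ^ 2) -
      2 * lam * ∑ k, ∑ i, ∑ j, EE (fun x => (β * S3.dM k F x) i j * (β * S3.dM k G x) i j) +
      lam ^ 2 * ∑ k, ∑ i, ∑ j, EE (fun x => (β * S3.dM k G x) i j ^ 2) := by
    have sw : ∀ f : Fin n → Fin n → Fin n → ℝ,
        ∑ i, ∑ j, ∑ k, f i j k = ∑ k, ∑ i, ∑ j, f i j k := by
      intro f
      calc ∑ i, ∑ j, ∑ k, f i j k = ∑ i, ∑ k, ∑ j, f i j k :=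
            Finset.sum_congr rfl fun i _ => Finset.sum_comm
        _ = ∑ k, ∑ i, ∑ j, f i j k := Finset.sum_comm
    rw [sw]
    simp only [Finset.sum_sub_distrib, Finset.sum_add_distrib, ← Finset.mul_sum]
  rw [l1, l2] at hsum
  linarith

/-! ### pointwise kernel split -/

lemma cfc_aff (A : Mat n) (hA : A.IsHermitian) (f : ℝ → ℝ) (a c : ℝ) :
    _root_.cfc (fun z => a - c * f z) A = a • (1 : Mat n) - c • _root_.cfc f A := by
  obtain ⟨U, hU⟩ := exists_fr hA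
  refine conj_inj hU.o' ?_
  rw [hU.cfc, Matrix.mul_sub, Matrix.sub_mul, Matrix.mul_smul, Matrix.smul_mul, Matrix.mul_one,
    hU.o, Matrix.mul_smul, Matrix.smul_mul, hU.cfc]
  ext i j
  by_cases h : i = j
  · subst h; simp
  · simp [h]

lemma cfc_quad (A : Mat n) (hA : A.IsHermitian) (f : ℝ → ℝ) (a c : ℝ) :
    _root_.cfc (fun z => a * f z - c * f z ^ 2) A =
      a • _root_.cfc f A - c • (_root_.cfc f A * _root_.cfc f A) := by
  obtain ⟨U, hU⟩ := exists_fr hA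
  refine conj_inj hU.o' ?_
  rw [hU.cfc, Matrix.mul_sub, Matrix.sub_mul, Matrix.mul_smul, Matrix.smul_mul,
    Matrix.mul_smul, Matrix.smul_mul, Jord192.conj_mul hU.o', hU.cfc,
    Matrix.diagonal_mul_diagonal]
  ext i j
  by_cases h : i = j
  · subst h
    simp only [Matrix.sub_apply, Matrix.smul_apply, Matrix.diagonal_apply_eq, smul_eq_mul]
    ring
  · simp [h]

lemma cfc_id_mul (A : Mat n) (hA : A.IsHermitian) (f : ℝ → ℝ) :
    _root_.cfc (fun z => z * f z) A = A * _root_.cfc f A := by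
  obtain ⟨U, hU⟩ := exists_fr hA
  refine conj_inj hU.o' ?_
  rw [hU.cfc, Jord192.conj_mul hU.o', hU.cfc, hU.d, Matrix.diagonal_mul_diagonal]

lemma cfc_sub_cmul (A : Mat n) (hA : A.IsHermitian) (f g : ℝ → ℝ) (c : ℝ) :
    _root_.cfc (fun z => f z - c * g z) A = _root_.cfc f A - c • _root_.cfc g A := by
  obtain ⟨U, hU⟩ := exists_fr hA
  refine conj_inj hU.o' ?_
  rw [hU.cfc, Matrix.mul_sub, Matrix.sub_mul, Matrix.mul_smul, Matrix.smul_mul, hU.cfc, hU.cfc]
  ext i j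
  by_cases h : i = j
  · subst h; simp
  · simp [h]

/-- pointwise lower bound of `a tr b X D - c tr b D D`, `D = D v(A)[X]` -/
theorem f2 {A X β : Mat n} (hA : A.IsHermitian) (hX : Xᵀ = X) {v v1 : ℝ → ℝ} {a c t : ℝ}
    (ht : 0 < t) (hc : 0 ≤ c) (hac : c ≤ 2 * a)
    (hb : ∀ x ∈ spectrum ℝ A, 0 ≤ v1 x ∧ v1 x ≤ 1 / 2) :
    -(t * hs (β * X)) -
        1 / (4 * t) * hs (β * (KR v v1 A X * _root_.cfc (fun z => a - 2 * c * v1 z) A)) -
        c * hs (β * KR v v1 A X) ≤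
      a * (βᵀ * β * (X * DK v v1 A X)).trace -
        c * (βᵀ * β * (DK v v1 A X * DK v v1 A X)).trace := by
  set D := DK v v1 A X with hD
  set K := KR v v1 A X with hK
  set W := _root_.cfc v1 A with hW
  have hWt : Wᵀ = W := Jord192.cfc_transpose v1
  have hDt : Dᵀ = D := LamB301.DK_t v v1 A X hX
  have hDe : D = X * W + K := by
    rw [hK, Stein378.KR]; abel
  have e1 : (βᵀ * β * (X * D)).trace = ipb β X D := by rw [ipb_eq, hDt]
  have e2 : (βᵀ * β * (D * D)).trace = ipb β D D := by rw [ipb_eq, hDt]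
  have e3 : ipb β X D = ipb β X (X * W) + ipb β X K := by rw [hDe, ipb_add_right]
  have e4 : ipb β D D = ipb β (X * W) (X * W) + 2 * ipb β (X * W) K + ipb β K K := by
    rw [hDe, ipb_add_right, ipb_add_left, ipb_add_left, ipb_comm β K (X * W)]
    ring
  have e5 : ipb β (X * W) (X * W) = ipb β X (X * (W * W)) := by
    rw [ipb_mul_right, hWt, Matrix.mul_assoc]
  have e6 : ipb β (X * W) K = ipb β X (K * W) := by rw [ipb_mul_right, hWt]
  have e7 : a * ipb β X (X * W) - c * ipb β X (X * (W * W)) =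
      ipb β X (X * _root_.cfc (fun z => a * v1 z - c * v1 z ^ 2) A) := by
    rw [cfc_quad A hA, Matrix.mul_sub, Matrix.mul_smul, Matrix.mul_smul, sub_eq_add_neg (a • _),
      ← neg_smul, ipb_add_right, ipb_smul_right, ipb_smul_right]
    ring
  have e8 : a * ipb β X K - 2 * c * ipb β X (K * W) =
      ipb β X (K * _root_.cfc (fun z => a - 2 * c * v1 z) A) := by
    rw [cfc_aff A hA, Matrix.mul_sub, Matrix.mul_smul, Matrix.mul_smul, Matrix.mul_one,
      sub_eq_add_neg (a • _), ← neg_smul, ipb_add_right, ipb_smul_right, ipb_smul_right]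
    ring
  have p1 : 0 ≤ ipb β X (X * _root_.cfc (fun z => a * v1 z - c * v1 z ^ 2) A) := by
    refine ipb_cfc_nonneg β X hA fun x hx => ?_
    obtain ⟨h1, h2⟩ := hb x hx
    have : a * v1 x - c * v1 x ^ 2 = v1 x * (a - c * v1 x) := by ring
    rw [this]
    refine mul_nonneg h1 ?_
    nlinarith
  have p2 := ipb_young β X (K * _root_.cfc (fun z => a - 2 * c * v1 z) A) ht
  have p3 : ipb β K K = hs (β * K) := ipb_self β K
  rw [e1, e2, e3, e4, e5, e6, ← p3]
  linarith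

/-- kernel bound for `KR · w(A)` -/
lemma hs_KRw_le {A U : Mat n} {s : Fin n → ℝ} (h : Fr A U s) {f f' w : ℝ → ℝ} {sl : ℝ → ℝ → ℝ}
    {C : ℝ} (hk : ∀ a ∈ spectrum ℝ A, ∀ b ∈ spectrum ℝ A,
      ((dd1 f f' a b - f' b) * w b) ^ 2 ≤ C * sl a b) (X : Mat n) :
    hs (KR f f' A X * _root_.cfc w A) ≤ C * Jord192.slk sl U s X := by
  rw [← hs_conj h.o']
  unfold hs Jord192.slk
  rw [Finset.mul_sum]
  refine Finset.sum_le_sum fun i _ => ?_
  rw [Finset.mul_sum]
  refine Finset.sum_le_sum fun j _ => ?_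
  rw [Jord192.mul_cfc_frame h, Stein378.KR_frame h]
  have e : ((dd1 f f' (s i) (s j) - f' (s j)) * (Uᵀ * X * U) i j * w (s j)) ^ 2 =
      ((dd1 f f' (s i) (s j) - f' (s j)) * w (s j)) ^ 2 * (Uᵀ * X * U) i j ^ 2 := by ring
  rw [e, ← mul_assoc]
  exact mul_le_mul_of_nonneg_right (hk _ (h.mem_spec i) _ (h.mem_spec j)) (sq_nonneg _)

/-! ### the lower bound -/

section field

variable {Z : Fld n} {lo hi : ℝ} {v v1 F : ℝ → ℝ}

lemma dM_Mx (Z : Fld n) (k : Fin n) : S3.dM k (Mx Z) = S3.dZ Z k := by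
  funext x
  ext i j
  rfl

lemma dZ_t (hZ : MF Z lo hi) (k : Fin n) (x : E n) : (S3.dZ Z k x)ᵀ = S3.dZ Z k x := by
  ext i j
  have hs' : Z j i = Z i j := by
    funext y
    have := (hZ.h y).apply i j
    simpa [Mx] using this
  simp only [S3.dZ, Mx, Matrix.transpose_apply, Matrix.of_apply]
  rw [hs']

/-- `f1` -/
theorem f1 (hZ : MF Z lo hi) (hv : ∀ x ∈ Icc lo hi, HasDerivAt v (v1 x) x)
    (cv1 : ContinuousOn v1 (Icc lo hi)) (h0 : EM (Mx Z) = 0) (β : Mat n) (lam : ℝ) :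
    2 * lam * (∑ k, TE (fun x => βᵀ * β * (S3.dZ Z k x * DK v v1 (Mx Z x) (S3.dZ Z k x))) -
        TE (fun x => βᵀ * β * sf (fun z => z * v z) Z x)) -
      lam ^ 2 * ∑ k, TE (fun x => βᵀ * β *
        (DK v v1 (Mx Z x) (S3.dZ Z k x) * DK v v1 (Mx Z x) (S3.dZ Z k x))) ≤
    ∑ k, EE (fun x => hs (β * S3.dZ Z k x)) - EE (fun x => hs (β * Mx Z x)) := by
  have cZ : C1m (Mx Z) := fun i j => hZ.c i j
  have cV : C1m (sf v Z) := c1m_sf hZ hv cv1
  have h := poin_mat cZ cV h0 β lam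
  simp only [dM_Mx] at h
  have e1 : ∀ k, EE (fun x => ipb β (S3.dZ Z k x) (S3.dM k (sf v Z) x)) =
      TE (fun x => βᵀ * β * (S3.dZ Z k x * DK v v1 (Mx Z x) (S3.dZ Z k x))) := by
    intro k
    refine EE_congr fun x => ?_
    rw [dM_sf hZ hv, ipb_eq, LamB301.DK_t v v1 _ _ (dZ_t hZ k x)]
  have e2 : EE (fun x => ipb β (Mx Z x) (sf v Z x)) =
      TE (fun x => βᵀ * β * sf (fun z => z * v z) Z x) := by
    refine EE_congr fun x => ?_
    unfold sf
    rw [ipb_eq, Jord192.cfc_transpose]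
    change _ = (βᵀ * β * _root_.cfc (fun z => z * v z) (Mx Z x)).trace
    rw [cfc_id_mul _ (hZ.h x)]
  have e3 : ∀ k, EE (fun x => hs (β * S3.dM k (sf v Z) x)) =
      TE (fun x => βᵀ * β *
        (DK v v1 (Mx Z x) (S3.dZ Z k x) * DK v v1 (Mx Z x) (S3.dZ Z k x))) := by
    intro k
    refine EE_congr fun x => ?_
    rw [dM_sf hZ hv, ← ipb_self, ipb_eq, LamB301.DK_t v v1 _ _ (dZ_t hZ k x)]
  rw [e2] at h
  simp only [e1, e3] at h
  exact h

/-- `f3`: the direct lower bound, kernel terms exact -/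
theorem f3 (hZ : MF Z lo hi) (hv : ∀ x ∈ Icc lo hi, HasDerivAt v (v1 x) x)
    (cv1 : ContinuousOn v1 (Icc lo hi)) (hb : ∀ x ∈ Icc lo hi, 0 ≤ v1 x ∧ v1 x ≤ 1 / 2)
    (cF : ContinuousOn F (Icc lo hi)) (h0 : EM (Mx Z) = 0) (β : Mat n) {th lam t : ℝ}
    (hth : 0 ≤ th) (ht : 0 < t) (hc : 1 + th * lam ^ 2 ≤ 4 * th * lam) :
    TE (fun x => βᵀ * β * sf (fun z => F z - 2 * th * lam * (z * v z)) Z x) -
        t * ∑ k, EE (fun x => hs (β * S3.dZ Z k x)) -
        1 / (4 * t) * ∑ k, EE (fun x => hs (β * (KR v v1 (Mx Z x) (S3.dZ Z k x) *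
          _root_.cfc (fun z => 2 * th * lam - 2 * (1 + th * lam ^ 2) * v1 z) (Mx Z x)))) -
        (1 + th * lam ^ 2) * ∑ k, EE (fun x => hs (β * KR v v1 (Mx Z x) (S3.dZ Z k x))) ≤
      th * (∑ k, EE (fun x => hs (β * S3.dZ Z k x)) - EE (fun x => hs (β * Mx Z x))) +
        (TE (fun x => βᵀ * β * sf F Z x) - ∑ k, TE (fun x => βᵀ * β *
          (DK v v1 (Mx Z x) (S3.dZ Z k x) * DK v v1 (Mx Z x) (S3.dZ Z k x)))) := by
  have h1 := mul_le_mul_of_nonneg_left (f1 hZ hv cv1 h0 β lam) hth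
  have cB : CGm fun _ : E n => βᵀ * β := cgm_const _
  have cv : ContinuousOn v (Icc lo hi) := contOn_of_deriv hv
  have cSF : CGm (sf F Z) := LamB301.cgm_cfc hZ cF
  have cSz : CGm (sf (fun z => z * v z) Z) := LamB301.cgm_cfc hZ (continuousOn_id.mul cv)
  have e1 : TE (fun x => βᵀ * β * sf (fun z => F z - 2 * th * lam * (z * v z)) Z x) =
      TE (fun x => βᵀ * β * sf F Z x) -
        2 * th * lam * TE (fun x => βᵀ * β * sf (fun z => z * v z) Z x) := by
    rw [← TE_smul, ← TE_sub (cB.mul cSF) ((cB.mul cSz).smulc _)]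
    refine TE_congr fun x => ?_
    unfold sf
    rw [cfc_sub_cmul _ (hZ.h x), Matrix.mul_sub, Matrix.mul_smul]
  have cD : ∀ k, CGm fun x => DK v v1 (Mx Z x) (S3.dZ Z k x) := fun k =>
    LamB301.cgm_DK hZ hv cv1 k
  have cK : ∀ k, CGm fun x => KR v v1 (Mx Z x) (S3.dZ Z k x) := fun k =>
    LamB301.cgm_KR hZ hv cv1 k
  have cdZ : ∀ k, CGm (S3.dZ Z k) := fun k => cgm_dZ hZ k
  have cw : CGm fun x => _root_.cfc (fun z => 2 * th * lam - 2 * (1 + th * lam ^ 2) * v1 z)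
      (Mx Z x) := LamB301.cgm_cfc hZ
    (g := fun z => 2 * th * lam - 2 * (1 + th * lam ^ 2) * v1 z)
    (continuousOn_const.sub (continuousOn_const.mul cv1))
  have h2 : ∀ k, -(t * EE (fun x => hs (β * S3.dZ Z k x))) -
      1 / (4 * t) * EE (fun x => hs (β * (KR v v1 (Mx Z x) (S3.dZ Z k x) *
          _root_.cfc (fun z => 2 * th * lam - 2 * (1 + th * lam ^ 2) * v1 z) (Mx Z x)))) -
      (1 + th * lam ^ 2) * EE (fun x => hs (β * KR v v1 (Mx Z x) (S3.dZ Z k x))) ≤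
      2 * th * lam * TE (fun x => βᵀ * β * (S3.dZ Z k x * DK v v1 (Mx Z x) (S3.dZ Z k x))) -
      (1 + th * lam ^ 2) * TE (fun x => βᵀ * β *
          (DK v v1 (Mx Z x) (S3.dZ Z k x) * DK v v1 (Mx Z x) (S3.dZ Z k x))) := by
    intro k
    have g1 : CG fun x => t * hs (β * S3.dZ Z k x) := (cg_hsb β (cdZ k)).smul _
    have g2 : CG fun x => 1 / (4 * t) * hs (β * (KR v v1 (Mx Z x) (S3.dZ Z k x) *
          _root_.cfc (fun z => 2 * th * lam - 2 * (1 + th * lam ^ 2) * v1 z) (Mx Z x))) :=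
      (cg_hsb β ((cK k).mul cw)).smul _
    have g3 : CG fun x => (1 + th * lam ^ 2) * hs (β * KR v v1 (Mx Z x) (S3.dZ Z k x)) :=
      (cg_hsb β (cK k)).smul _
    have g4 : CG fun x => 2 * th * lam *
        (βᵀ * β * (S3.dZ Z k x * DK v v1 (Mx Z x) (S3.dZ Z k x))).trace :=
      ((cB.mul ((cdZ k).mul (cD k))).trace).smul _
    have g5 : CG fun x => (1 + th * lam ^ 2) *
        (βᵀ * β * (DK v v1 (Mx Z x) (S3.dZ Z k x) * DK v v1 (Mx Z x) (S3.dZ Z k x))).trace :=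
      ((cB.mul ((cD k).mul (cD k))).trace).smul _
    have hm := EE_mono ((g1.neg.sub g2).sub g3) (g4.sub g5) fun x =>
      f2 (β := β) (hZ.h x) (dZ_t hZ k x) (v := v) (v1 := v1) (a := 2 * th * lam)
        (c := 1 + th * lam ^ 2) (t := t) ht (by positivity) (by linarith) fun y hy =>
          hb y (hZ.s x hy)
    rw [EE_sub (g1.neg.sub g2) g3, EE_sub g1.neg g2, EE_sub g4 g5, EE_neg, EE_smul, EE_smul,
      EE_smul, EE_smul, EE_smul] at hm
    exact hm
  have h3 := Finset.sum_le_sum fun k (_ : k ∈ (Finset.univ : Finset (Fin n))) => h2 k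
  simp only [Finset.sum_sub_distrib, Finset.sum_neg_distrib, ← Finset.mul_sum] at h3
  rw [e1]
  linarith

/-- `f4`: the direct lower bound with a slack field `Sl` (sharp kernel hypotheses) -/
theorem f4 (hZ : MF Z lo hi) (hv : ∀ x ∈ Icc lo hi, HasDerivAt v (v1 x) x)
    (cv1 : ContinuousOn v1 (Icc lo hi)) (hb : ∀ x ∈ Icc lo hi, 0 ≤ v1 x ∧ v1 x ≤ 1 / 2)
    (cF : ContinuousOn F (Icc lo hi)) (h0 : EM (Mx Z) = 0) (β : Mat n) {th lam t : ℝ}
    (hth : 0 ≤ th) (ht : 0 < t) (hc : 1 + th * lam ^ 2 ≤ 4 * th * lam)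
    {Pn : ℝ} (hPn0 : 0 ≤ Pn) (hPn : ∀ X : Mat n, hs (β * X) ≤ Pn * hs X)
    {Sl : E n → ℝ} (cSl : CG Sl) {C1 C2 : ℝ}
    (hC1 : ∀ x, ∑ k, hs (KR v v1 (Mx Z x) (S3.dZ Z k x)) ≤ C1 * Sl x)
    (hC2 : ∀ x, ∑ k, hs (KR v v1 (Mx Z x) (S3.dZ Z k x) *
      _root_.cfc (fun z => 2 * th * lam - 2 * (1 + th * lam ^ 2) * v1 z) (Mx Z x)) ≤ C2 * Sl x) :
    TE (fun x => βᵀ * β * sf (fun z => F z - 2 * th * lam * (z * v z)) Z x) -
        t * ∑ k, EE (fun x => hs (β * S3.dZ Z k x)) -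
        Pn * (C2 / (4 * t) + (1 + th * lam ^ 2) * C1) * EE Sl ≤
      th * (∑ k, EE (fun x => hs (β * S3.dZ Z k x)) - EE (fun x => hs (β * Mx Z x))) +
        (TE (fun x => βᵀ * β * sf F Z x) - ∑ k, TE (fun x => βᵀ * β *
          (DK v v1 (Mx Z x) (S3.dZ Z k x) * DK v v1 (Mx Z x) (S3.dZ Z k x)))) := by
  refine le_trans ?_ (f3 hZ hv cv1 hb cF h0 β hth ht hc)
  have cK : ∀ k, CGm fun x => KR v v1 (Mx Z x) (S3.dZ Z k x) := fun k =>
    LamB301.cgm_KR hZ hv cv1 k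
  have cw : CGm fun x => _root_.cfc (fun z => 2 * th * lam - 2 * (1 + th * lam ^ 2) * v1 z)
      (Mx Z x) := LamB301.cgm_cfc hZ
    (g := fun z => 2 * th * lam - 2 * (1 + th * lam ^ 2) * v1 z)
    (continuousOn_const.sub (continuousOn_const.mul cv1))
  have a1 : ∑ k, EE (fun x => hs (β * KR v v1 (Mx Z x) (S3.dZ Z k x))) ≤ Pn * (C1 * EE Sl) := by
    rw [← EE_sum fun k _ => cg_hsb β (cK k), ← EE_smul, ← EE_smul]
    refine EE_mono (CG.sum fun k _ => cg_hsb β (cK k)) ((cSl.smul _).smul _) fun x => ?_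
    calc ∑ k, hs (β * KR v v1 (Mx Z x) (S3.dZ Z k x))
        ≤ ∑ k, Pn * hs (KR v v1 (Mx Z x) (S3.dZ Z k x)) := Finset.sum_le_sum fun k _ => hPn _
      _ = Pn * ∑ k, hs (KR v v1 (Mx Z x) (S3.dZ Z k x)) := by rw [Finset.mul_sum]
      _ ≤ _ := mul_le_mul_of_nonneg_left (hC1 x) hPn0
  have a2 : ∑ k, EE (fun x => hs (β * (KR v v1 (Mx Z x) (S3.dZ Z k x) *
      _root_.cfc (fun z => 2 * th * lam - 2 * (1 + th * lam ^ 2) * v1 z) (Mx Z x)))) ≤
      Pn * (C2 * EE Sl) := by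
    rw [← EE_sum fun k _ => cg_hsb β ((cK k).mul cw), ← EE_smul, ← EE_smul]
    refine EE_mono (CG.sum fun k _ => cg_hsb β ((cK k).mul cw)) ((cSl.smul _).smul _) fun x => ?_
    calc ∑ k, hs (β * (KR v v1 (Mx Z x) (S3.dZ Z k x) *
          _root_.cfc (fun z => 2 * th * lam - 2 * (1 + th * lam ^ 2) * v1 z) (Mx Z x)))
        ≤ ∑ k, Pn * hs (KR v v1 (Mx Z x) (S3.dZ Z k x) *
          _root_.cfc (fun z => 2 * th * lam - 2 * (1 + th * lam ^ 2) * v1 z) (Mx Z x)) :=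
          Finset.sum_le_sum fun k _ => hPn _
      _ = Pn * ∑ k, hs (KR v v1 (Mx Z x) (S3.dZ Z k x) *
          _root_.cfc (fun z => 2 * th * lam - 2 * (1 + th * lam ^ 2) * v1 z) (Mx Z x)) := by
          rw [Finset.mul_sum]
      _ ≤ _ := mul_le_mul_of_nonneg_left (hC2 x) hPn0
  have a3 := mul_le_mul_of_nonneg_left a1 (show 0 ≤ 1 + th * lam ^ 2 by positivity)
  have a4 := mul_le_mul_of_nonneg_left a2 (show 0 ≤ 1 / (4 * t) by positivity)
  have e : Pn * (C2 / (4 * t) + (1 + th * lam ^ 2) * C1) * EE Sl =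
      1 / (4 * t) * (Pn * (C2 * EE Sl)) + (1 + th * lam ^ 2) * (Pn * (C1 * EE Sl)) := by
    field_simp
  rw [e]
  linarith

/-- `Σ_k E |β ζ_k|² = Σ_k |β T_k|² + Σ_k E |β p_k|²` -/
lemma hsb_split (hZ : MF Z lo hi) {T : Fin n → Mat n} (hT : ∀ k, EM (S3.dZ Z k) = T k)
    (β : Mat n) (k : Fin n) :
    EE (fun x => hs (β * S3.dZ Z k x)) =
      hs (β * T k) + EE (fun x => hs (β * pk Z T k x)) := by
  have e : ∀ x, hs (β * S3.dZ Z k x) =
      hs (β * T k) + 2 * (βᵀ * β * pk Z T k x * (T k)ᵀ).trace + hs (β * pk Z T k x) := by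
    intro x
    have h1 : S3.dZ Z k x = T k + pk Z T k x := by unfold pk; abel
    rw [h1, ← ipb_self, ← ipb_self, ← ipb_self, ipb_add_right, ipb_add_left, ipb_add_left,
      ipb_comm β (T k) (pk Z T k x), ipb_eq β (pk Z T k x) (T k)]
    simp only [Matrix.mul_assoc]
    ring
  have c1 : CG fun x : E n => (βᵀ * β * pk Z T k x * (T k)ᵀ).trace :=
    (((cgm_const (βᵀ * β)).mul (cgm_pk hZ T k)).mul (cgm_const (T k)ᵀ)).trace
  have c2 : CG fun x => hs (β * pk Z T k x) := cg_hsb β (cgm_pk hZ T k)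
  rw [EE_congr e, EE_add ((cg_const _).add (c1.smul 2)) c2, EE_add (cg_const _) (c1.smul 2),
    EE_const, EE_smul]
  have h2 : EE (fun x => (βᵀ * β * pk Z T k x * (T k)ᵀ).trace) = 0 := by
    have h3 : EE (fun x => (βᵀ * β * pk Z T k x * (T k)ᵀ).trace) =
        TE (fun x => βᵀ * β * pk Z T k x * (T k)ᵀ) := rfl
    rw [h3]
    exact LamB301.EM_zero_tr (cgm_pk hZ T k) (LamB301.EM_pk hZ hT k) _ _
  rw [h2]
  ring

end field

end Crest.Agent.R253.LargeM626
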