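import Crest.Agent.R253.UFRow_759

/-!
Row 253 (S0391), helper759: Padé upper bounds of the logarithm, valid for ALL `u > -1`
(both sides of `0`), and their centred versions.
-/

set_option autoImplicit false

open Real Set

noncomputable section

namespace Crest.Agent.R253.LogPade759

open UFRow759 (log_pade)

/-- Padé `[3/2]`: `log (1+u) ≤ u (30 + 21 u + u²) / (3 (10 + 12 u + 3 u²))` for every `u > -1`
(error `u⁶/5400` near `0`, `5·10⁻⁵` at `u = 3/4`, `.007` at `u = 3`) -/
theorem log_pade32 {u : ℝ} (hu : -1 < u) :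
    Real.log (1 + u) ≤ u * (30 + 21 * u + u ^ 2) / (3 * (10 + 12 * u + 3 * u ^ 2)) := by
  set g : ℝ → ℝ := fun u => u * (30 + 21 * u + u ^ 2) / (3 * (10 + 12 * u + 3 * u ^ 2))
    - Real.log (1 + u) with hg
  have hD : ∀ x : ℝ, -1 < x → 0 < 10 + 12 * x + 3 * x ^ 2 := by
    intro x hx
    nlinarith [mul_pos (by linarith : (0:ℝ) < 1 + x) (by linarith : (0:ℝ) < 1 + x)]
  have hd : ∀ x : ℝ, -1 < x →
      HasDerivAt g (x ^ 5 / ((10 + 12 * x + 3 * x ^ 2) ^ 2 * (1 + x))) x := by
    intro x hx
    have h0 := hD x hx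
    have h1 : 3 * (10 + 12 * x + 3 * x ^ 2) ≠ 0 := by positivity
    have h2 : (1 + x) ≠ 0 := by linarith
    have a0 : HasDerivAt (fun u : ℝ => 30 + 21 * u) (21 * 1) x :=
      ((hasDerivAt_id x).const_mul 21).const_add 30
    have a1 : HasDerivAt (fun u : ℝ => u ^ 2) (2 * x) x := by
      simpa using hasDerivAt_pow 2 x
    have e1 : HasDerivAt (fun u : ℝ => u * (30 + 21 * u + u ^ 2))
        (1 * (30 + 21 * x + x ^ 2) + x * (21 * 1 + 2 * x)) x :=
      (hasDerivAt_id x).mul (a0.add a1)
    have b0 : HasDerivAt (fun u : ℝ => 10 + 12 * u) (12 * 1) x :=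
      ((hasDerivAt_id x).const_mul 12).const_add 10
    have e2 : HasDerivAt (fun u : ℝ => 3 * (10 + 12 * u + 3 * u ^ 2))
        (3 * (12 * 1 + 3 * (2 * x))) x := (b0.add (a1.const_mul 3)).const_mul 3
    have e3 : HasDerivAt (fun u : ℝ => Real.log (1 + u)) (1 / (1 + x)) x :=
      ((hasDerivAt_id x).const_add 1).log h2
    refine ((e1.div e2 h1).sub e3).congr_deriv ?_
    have h4 : (3 * (10 + 12 * x + 3 * x ^ 2)) ^ 2 ≠ 0 := pow_ne_zero 2 h1
    have h5 : (10 + 12 * x + 3 * x ^ 2) ^ 2 * (1 + x) ≠ 0 :=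
      mul_ne_zero (pow_ne_zero 2 h0.ne') h2
    rw [div_sub_div _ _ h4 h2, div_eq_div_iff (mul_ne_zero h4 h2) h5]
    ring
  have h0 : g 0 = 0 := by simp [hg]
  have key : 0 ≤ g u := by
    rcases le_total 0 u with h | h
    · have hm : MonotoneOn g (Ici 0) := by
        apply monotoneOn_of_deriv_nonneg (convex_Ici 0)
        · intro x hx
          exact (hd x (by have := mem_Ici.1 hx; linarith)).continuousAt.continuousWithinAt
        · intro x hx
          rw [interior_Ici] at hx
          exact (hd x (by have := mem_Ioi.1 hx; linarith)).differentiableAt.differentiableWithinAt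
        · intro x hx
          rw [interior_Ici] at hx
          have hx' := mem_Ioi.1 hx
          rw [(hd x (by linarith)).deriv]
          positivity
      have := hm (mem_Ici.2 le_rfl) (mem_Ici.2 h) h
      rwa [h0] at this
    · have hm : AntitoneOn g (Icc u 0) := by
        apply antitoneOn_of_deriv_nonpos (convex_Icc u 0)
        · intro x hx
          exact (hd x (by linarith [hx.1])).continuousAt.continuousWithinAt
        · intro x hx
          rw [interior_Icc] at hx
          exact (hd x (by linarith [hx.1])).differentiableAt.differentiableWithinAt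
        · intro x hx
          rw [interior_Icc] at hx
          rw [(hd x (by linarith [hx.1])).deriv]
          have hx5 : x ^ 5 ≤ 0 := by
            have h4 : 0 ≤ x ^ 4 := by positivity
            have : x ^ 5 = x ^ 4 * x := by ring
            rw [this]
            exact mul_nonpos_of_nonneg_of_nonpos h4 hx.2.le
          have hp : 0 < (10 + 12 * x + 3 * x ^ 2) ^ 2 * (1 + x) := by
            have h6 := hD x (by linarith [hx.1])
            have h7 : 0 < 1 + x := by linarith [hx.1]
            positivity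
          exact div_nonpos_of_nonpos_of_nonneg hx5 hp.le
      have := hm (left_mem_Icc.2 h) (right_mem_Icc.2 h) h
      rwa [h0] at this
  have := key
  simp only [hg] at this
  linarith

/-- centred `[2/1]`: `log y ≤ log c + (y-c)(y+5c)/(2c(2y+c))`, all `y, c > 0` -/
theorem log_le_center {y c : ℝ} (hy : 0 < y) (hc : 0 < c) :
    Real.log y ≤ Real.log c + (y - c) * (y + 5 * c) / (2 * c * (2 * y + c)) := by
  have hu : -1 < y / c - 1 := by have := div_pos hy hc; linarith
  have h := log_pade hu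
  have e1 : (1 : ℝ) + (y / c - 1) = y / c := by ring
  rw [e1, Real.log_div hy.ne' hc.ne'] at h
  have e2 : (y / c - 1) * (6 + (y / c - 1)) / (6 + 4 * (y / c - 1)) =
      (y - c) * (y + 5 * c) / (2 * c * (2 * y + c)) := by
    have h1 : 6 + 4 * (y / c - 1) = 2 * (2 * y + c) / c := by field_simp; ring
    have h2 : (y / c - 1) = (y - c) / c := by field_simp
    rw [h1, h2]
    have h3 : 0 < 2 * y + c := by positivity
    field_simp
    ring
  rw [e2] at h
  linarith

/-- centred `[3/2]`: `log y ≤ log c + (y-c)(y²+19cy+10c²)/(3c(3y²+6cy+c²))`, all `y, c > 0` -/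
theorem log_le_center32 {y c : ℝ} (hy : 0 < y) (hc : 0 < c) :
    Real.log y ≤ Real.log c +
      (y - c) * (y ^ 2 + 19 * c * y + 10 * c ^ 2) / (3 * c * (3 * y ^ 2 + 6 * c * y + c ^ 2)) := by
  have hu : -1 < y / c - 1 := by have := div_pos hy hc; linarith
  have h := log_pade32 hu
  have e1 : (1 : ℝ) + (y / c - 1) = y / c := by ring
  rw [e1, Real.log_div hy.ne' hc.ne'] at h
  have e2 : (y / c - 1) * (30 + 21 * (y / c - 1) + (y / c - 1) ^ 2) /
      (3 * (10 + 12 * (y / c - 1) + 3 * (y / c - 1) ^ 2)) =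
      (y - c) * (y ^ 2 + 19 * c * y + 10 * c ^ 2) / (3 * c * (3 * y ^ 2 + 6 * c * y + c ^ 2)) := by
    have h1 : 10 + 12 * (y / c - 1) + 3 * (y / c - 1) ^ 2 =
        (3 * y ^ 2 + 6 * c * y + c ^ 2) / c ^ 2 := by field_simp; ring
    have h2 : 30 + 21 * (y / c - 1) + (y / c - 1) ^ 2 =
        (y ^ 2 + 19 * c * y + 10 * c ^ 2) / c ^ 2 := by field_simp; ring
    have h3 : (y / c - 1) = (y - c) / c := by field_simp
    rw [h1, h2, h3]
    have h4 : 0 < 3 * y ^ 2 + 6 * c * y + c ^ 2 := by positivity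
    field_simp
  rw [e2] at h
  linarith

/-- `[3/2]` for `log A`, `A = s/(x+s)`: lower bound -/
theorem log_A_ge {x s : ℝ} (hs : 0 < s) (hx : 0 < x + s) :
    - (x * (x ^ 2 + 21 * s * x + 30 * s ^ 2) / (3 * s * (3 * x ^ 2 + 12 * s * x + 10 * s ^ 2))) ≤
      Real.log (s / (x + s)) := by
  have h := log_le_center32 hx hs
  rw [Real.log_div hs.ne' hx.ne']
  have e : (x + s - s) * ((x + s) ^ 2 + 19 * s * (x + s) + 10 * s ^ 2) /
      (3 * s * (3 * (x + s) ^ 2 + 6 * s * (x + s) + s ^ 2)) =
      x * (x ^ 2 + 21 * s * x + 30 * s ^ 2) / (3 * s * (3 * x ^ 2 + 12 * s * x + 10 * s ^ 2)) := by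
    congr 1 <;> ring
  rw [e] at h
  linarith

/-- numerical value from `[3/2]` at `u = 3/4` -/
theorem log_seven_four : Real.log (7 / 4) ≤ 741 / 1324 := by
  have h := log_pade32 (u := 3 / 4) (by norm_num)
  have e : (1 : ℝ) + 3 / 4 = 7 / 4 := by norm_num
  rw [e] at h
  refine h.trans ?_
  norm_num

end Crest.Agent.R253.LogPade759
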