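import Crest.Agent.R253.L0R_80

/-!
# Row 253: the terms of the dual loss in one real variable (helper80)
-/

set_option autoImplicit false

open MeasureTheory ProbabilityTheory Set Filter Topology Matrix
open scoped ContDiff

noncomputable section

namespace Crest.Agent.R253.TrC80

open Crest.Agent.R253.SpecCalc999 Crest.Agent.R253.SpecField321

variable {m n : ℕ}

lemma one_sub_cfc {S : Mat m} (hS : S.IsHermitian) (r : ℝ → ℝ) :
    1 - _root_.cfc r S = _root_.cfc (fun x => 1 - r x) S := by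
  rw [← cfc_one' hS, cfc_sub' hS]

lemma CC_mul_cfc {S : Mat m} (hS : S.IsHermitian) (A r : ℝ → ℝ) :
    CC A S * _root_.cfc r S = _root_.cfc (fun x => Real.sqrt (A x) * r x) S := by
  unfold CC
  rw [cfc_mul' hS]

/-- `Σ |C (1-r) T_k|² = tr (A (1-r)² x)` -/
theorem Ts.loss1 {T : Fin n → Mat m} {S : Mat m} (h : Ts T S) {A : ℝ → ℝ} (r : ℝ → ℝ)
    (hA : ∀ x, 0 ≤ x → 0 ≤ A x) :
    ∑ k, hs (CC A S * ((1 - _root_.cfc r S) * T k)) = TR (fun x => A x * (1 - r x) ^ 2 * x) S := by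
  have e : ∀ k, hs (CC A S * ((1 - _root_.cfc r S) * T k)) =
      hs (_root_.cfc (fun x => Real.sqrt (A x) * (1 - r x)) S * T k) := fun k => by
    rw [one_sub_cfc h.herm, ← Matrix.mul_assoc, CC_mul_cfc h.herm]
  rw [Finset.sum_congr rfl fun k _ => e k, h.sum_hs]
  exact TR_congr fun x hx => by rw [mul_pow, Real.sq_sqrt (hA x (spec_nonneg h.psd hx))]

theorem Ts.loss1' {T : Fin n → Mat m} {S : Mat m} (h : Ts T S) {A : ℝ → ℝ} (r : ℝ → ℝ)
    (hA : ∀ x, 0 ≤ x → 0 ≤ A x) :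
    ∑ k, hs (CC A S * (1 - _root_.cfc r S) * T k) = TR (fun x => A x * (1 - r x) ^ 2 * x) S := by
  rw [← h.loss1 r hA]
  exact Finset.sum_congr rfl fun k _ => by rw [Matrix.mul_assoc]

/-- `|C (1 - r M_T)|² = tr (A (1 - r x)²)` -/
theorem loss2 {S : Mat m} (hS : S.PosSemidef) {A : ℝ → ℝ} (r : ℝ → ℝ)
    (hA : ∀ x, 0 ≤ x → 0 ≤ A x) :
    hs (CC A S * (1 - _root_.cfc r S * S)) = TR (fun x => A x * (1 - r x * x) ^ 2) S := by
  have hH := hS.isHermitian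
  have e1 : _root_.cfc r S * S = _root_.cfc (fun x => r x * x) S := by
    conv_lhs => rw [show _root_.cfc r S * S =
      _root_.cfc r S * _root_.cfc (fun x : ℝ => x) S by rw [cfc_id'' hH]]
    rw [cfc_mul' hH]
  rw [e1, one_sub_cfc hH, CC_mul_cfc hH, hs_cfc hH]
  exact TR_congr fun x hx => by rw [mul_pow, Real.sq_sqrt (hA x (spec_nonneg hS hx))]

/-- `|C (1 - M_T)|² = tr (A (1 - x)²)` -/
theorem loss3 {S : Mat m} (hS : S.PosSemidef) {A : ℝ → ℝ} (hA : ∀ x, 0 ≤ x → 0 ≤ A x) :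
    hs (CC A S * (1 - S)) = TR (fun x => A x * (1 - x) ^ 2) S := by
  unfold CC
  rw [hs_cfc_one_sub hS.isHermitian]
  exact TR_congr fun x hx => by rw [Real.sq_sqrt (hA x (spec_nonneg hS hx))]

/-- `hK1` -/
theorem Ts.lossK {T : Fin n → Mat m} {S : Mat m} (h : Ts T S) {A r : ℝ → ℝ} {K : ℝ}
    (hA : ∀ x, 0 ≤ x → 0 ≤ A x) (hK0 : 0 ≤ K) (hK : ∀ x, 0 ≤ x → A x * r x ^ 2 * x ≤ K)
    (B : Fin n → Mat m) :
    hs (∑ k, CC A S * _root_.cfc r S * T k * B k) ≤ K * ∑ k, hs (B k) := by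
  rw [CC_mul_cfc h.herm]
  refine h.hs_sum_le hK0 (fun x hx => ?_) B
  rw [mul_pow, Real.sq_sqrt (hA x hx)]
  exact hK x hx

theorem Ts.lossK1 {T : Fin n → Mat m} {S : Mat m} (h : Ts T S) {A : ℝ → ℝ} {K : ℝ}
    (hA : ∀ x, 0 ≤ x → 0 ≤ A x) (hK0 : 0 ≤ K) (hK : ∀ x, 0 ≤ x → A x * x ≤ K)
    (B : Fin n → Mat m) :
    hs (∑ k, CC A S * T k * B k) ≤ K * ∑ k, hs (B k) := by
  unfold CC
  refine h.hs_sum_le hK0 (fun x hx => ?_) B
  rw [Real.sq_sqrt (hA x hx)]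
  exact hK x hx

end Crest.Agent.R253.TrC80
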