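import Crest.Agent.R253.MainT_321
import Crest.Agent.R253.L7_167
import Crest.Agent.R253.HPar_741
import Crest.Agent.R253.F2_711

/-!
# R253: MAIN (helper321): the frozen table with L7 (167), the parabolas of `h` (741), `F2` (711)
-/

set_option autoImplicit false

namespace Crest.Agent.R253.MainF321

open Crest.Agent.R253

/-- **MAIN** -/
theorem mainQ (n : ℕ) : Fin505.MainQ n :=
  Main321.mainQ (c := 1 / 200) (by norm_num) le_rfl
    ⟨720 / 10000, fun z => by have := HPar741.par_a z; linarith⟩
    ⟨650 / 10000, fun z => by have := HPar741.par_d z; linarith⟩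
    ⟨560 / 10000, fun z => by have := HPar741.par_f z; linarith⟩
    ⟨-(147 / 1000), fun z => F2n711.hF2_555b z⟩
    L7x167.L7 n

end Crest.Agent.R253.MainF321
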