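import Crest.Agent.R253.TabI_706
import Crest.Agent.R253.DualR_862
import Crest.Agent.R253.EO_629
import Crest.Agent.R253.Odd_451
import Crest.Agent.R253.PairK_37
import Crest.Agent.R253.KI_718
import Crest.Agent.R253.KY_688
import Crest.Agent.R253.HL_718
import Crest.Agent.R253.Lam_741

/-!
# Row 253: MAIN from two quadratic minorants (helper706)

`mainQ` : `MainQ n` from
`363/1000 + g z - 136/10000 z² ≤ hh z` and `555/1000 + g' z - 6/1000 z² ≤ F(z) - 3/2 z v(z)`.
-/

set_option autoImplicit false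

open MeasureTheory ProbabilityTheory Set Filter Topology Matrix
open scoped ContDiff

noncomputable section

namespace Crest.Agent.R253.MainI706

open Crest.Agent.R238.Gap Crest.Agent.R253.SpecCalc999 Crest.Agent.R253.Meh74
  Crest.Agent.R253.SpecField321 Crest.Agent.R253.S3 Crest.Agent.R253.LamB301
  Crest.Agent.R253.LamI301 Crest.Agent.R253.TrC80
open Crest.Agent.R253.DualP973 (Tm ef Lx MTm Mx_eq dk_eq c1_ef Yf Gf)
open Crest.Agent.R253.ErrT378 (Lam lam_ge)
open Crest.Agent.R253.Frame321 (Zf Uf Ff Uf_eq M_eq mf_Zf Zf_symm Slk)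
open Crest.Agent.R253.Mills37 (mu H0 kk ee)
open Crest.Agent.R253.Slack688 (aa H0_has)
open Crest.Agent.R253.ScalE688 (zf)
open Crest.Agent.R253.HFn741 (chi chi' hh bb2 chi_has aa_has' hh_pos aa_lt)
open Crest.Agent.R253.Inst321
open Crest.Agent.R253.Stein378 (ky)
open Crest.Agent.R253.TabI706

/-! ### scalar facts -/

lemma aa_pos (z : ℝ) : 0 < aa z := Crest.Agent.R253.Slack688.aa_pos z

/-- `hρ` with `c = 1/8`, `ρ = 3/8` -/
lemma s_rho (a b : ℝ) : |chi' b - aa b ^ 2 - aa a ^ 2 - 1 / 8| ≤ 3 / 8 := by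
  have h1 := hh_pos b
  have h2 := HL718.hh_lt b
  have h3 := aa_pos a
  have h4 := aa_lt a
  have e : chi' b - aa b ^ 2 = hh b := by unfold chi'; ring
  rw [e, abs_le]
  constructor <;> nlinarith

lemma s_kap (a : ℝ) : |aa a| ≤ 1 / 2 := by
  rw [abs_of_pos (aa_pos a)]; exact (aa_lt a).le

lemma s_kap4 (a : ℝ) : |aa a - 1 / 4| ≤ 1 / 4 := abs_wq_le a

/-- `0 ≤ chi' ≤ 3/4` -/
lemma chi'_le (z : ℝ) : chi' z ≤ 3 / 4 := by
  have h1 := HL718.hh_lt z
  have h3 := aa_pos z
  have h4 := aa_lt z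
  unfold chi'
  nlinarith

lemma chi_mono : Monotone chi :=
  monotone_of_hasDerivAt_nonneg chi_has fun z => by
    have := hh_pos z
    unfold chi'
    positivity

lemma chi_sub_anti : Antitone fun z => chi z - 3 / 4 * z := by
  refine antitone_of_hasDerivAt_nonpos
    (fun z => (chi_has z).sub ((hasDerivAt_id z).const_mul (3 / 4))) fun z => ?_
  have := chi'_le z
  simp only [mul_one, Pi.zero_apply]
  linarith

/-- `hg` -/
lemma s_chi (z : ℝ) : (chi z - chi 0 - 3 / 8 * z) ^ 2 ≤ 0 + 0 * z + 9 / 64 * z ^ 2 := by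
  rcases le_total 0 z with h | h
  · have h1 := chi_mono h
    have h2 := chi_sub_anti h
    simp only [mul_zero, sub_zero] at h2
    nlinarith
  · have h1 := chi_mono h
    have h2 := chi_sub_anti h
    simp only [mul_zero, sub_zero] at h2
    nlinarith

lemma w_mono : Monotone fun z => H0 z - 1 / 4 * z + 1 / 4 * z := by
  refine monotone_of_hasDerivAt_nonneg (f' := fun z => aa z) (fun z => ?_) fun z => (aa_pos z).le
  have := H0_has z
  simpa using this

/-- `hL` -/
lemma s_lip (x y : ℝ) : |(H0 x - 1 / 4 * x) - (H0 y - 1 / 4 * y)| ≤ 1 / 4 * |x - y| := by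
  have m1 : Monotone H0 := monotone_of_hasDerivAt_nonneg H0_has fun z => (aa_pos z).le
  have m2 : Antitone fun z => H0 z - 1 / 2 * z := by
    refine antitone_of_hasDerivAt_nonpos
      (fun z => (H0_has z).sub ((hasDerivAt_id z).const_mul (1 / 2))) fun z => ?_
    have := aa_lt z
    simp only [mul_one, Pi.zero_apply]
    linarith
  rcases le_total x y with h | h
  · have h1 := m1 h
    have h2 := m2 h
    simp only at h2
    rw [abs_of_nonpos (sub_nonpos.2 h), abs_le]
    constructor <;> linarith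
  · have h1 := m1 h
    have h2 := m2 h
    simp only at h2
    rw [abs_of_nonneg (sub_nonneg.2 h), abs_le]
    constructor <;> linarith

lemma s_lam (z : ℝ) : bb2 z ^ 2 ≤ 1 / 8 * (1 / 16 - wq z ^ 2) := by
  have h := HSc741.bb2_sq_le z
  have e : 1 / 16 - wq z ^ 2 = aa z * (1 / 2 - aa z) := by unfold wq; ring
  rwa [e]

lemma FF_cont : Continuous FF := cont_F0

variable {n : ℕ} {G : Fin n → E n → ℝ} {M N : Fld n} {V : E n → ℝ} {lo hi : ℝ}

lemma chi'_cont : Continuous chi' := by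
  have h1 : Continuous chi := continuous_iff_continuousAt.2 fun z => (chi_has z).continuousAt
  have e : chi' = fun z => 1 + z * chi z + aa z ^ 2 - FF z := by
    funext z
    have := FF_eq z
    linarith
  rw [e]
  exact (((continuous_const.add (continuous_id.mul h1)).add (aa_cont'.pow 2)).sub FF_cont)

/-! ### the three parts -/

/-- near part -/
theorem near (D : Fin505.Dat G M N V lo hi) (hz : Fin505.Nz M) {g : ℝ}
    (hpar : ∀ z, 363 / 1000 + g * z - 136 / 10000 * z ^ 2 ≤ hh z) :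
    TR (nf b1 al ep (3 / 4) (3 / 25) (7 / 2) 0 (9 / 64)) (MTm (Zf M)) -
      PW (nu b1 (3 / 8) (1 / 2) (1 / 10) (3 / 4) (1 / 5)) (Zf M) -
      HW (nh b1 ep (7 / 2) (9 / 64) (3 / 8)) (Zf M) -
      (1 / 25 / (2 * (3 / 25)) + 13 / 2000 / (1 / 5) + 1 / 10 * (13 / 500)) * EE (Slk M N) ≤
      Lam FF H0 aa (Zf M) (_root_.cfc b1 (MTm (Zf M))) := by
  refine nearR (mfZ D) (fun i j => hz i j) (v := H0) (v1 := aa) (χ := chi) (χ1 := chi')
    (F := FF) (h := hh) (c3 := chi 0) (c5 := 0) (c := 1 / 8) (γ := ga g)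
    (fun z _ => H0_has z) aa_cont'.continuousOn (fun z _ => chi_has z) chi'_cont.continuousOn
    (fun z _ => FF_eq z) (fun z _ => by unfold chi'; ring) (cgS D) (hSl D)
    (fun a _ b _ => KY688.ky_rho a b) (fun a _ b _ => KI718.kw_num a b)
    (fun a _ b _ => KI718.ke_num a b) (fun a _ b _ => s_rho a b) (fun a _ => s_kap a)
    (fun z _ => s_chi z) (by norm_num) (by norm_num) (by norm_num) (by norm_num) (by norm_num)
    (by norm_num) (by norm_num) (fun x hx => b1_sq hx) (fun x hx => (b1_abs hx).2) (by norm_num)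
    (fun x hx => b1_mul hx) (fun x _ z => ?_)
  unfold al ga ep
  split_ifs with h
  · exact hpar z
  · have := hh_pos z
    linarith

/-- far part -/
theorem far (D : Fin505.Dat G M N V lo hi) (hz : Fin505.Nz M) {g : ℝ}
    (hF2 : ∀ z, 555 / 1000 + g * z - 6 / 1000 * z ^ 2 ≤ FF z - 3 / 2 * (z * H0 z)) :
    TR (ff b2 (555 / 1000) (6 / 1000) (1 / 4) (1 / 7) (1 / 2) (7 / 25)) (MTm (Zf M)) -
      PW (fu b2 (1 / 4) (1 / 7) (1 / 2)) (Zf M) -
      HW (fh b2 (6 / 1000) (1 / 4) (1 / 2) (7 / 25)) (Zf M) -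
      (1 + 1 / (1 / 7)) * (13 / 500) * (9 / 10 + (9 / 10) ^ 2 / (4 * (1 / 2))) * EE (Slk M N) ≤
      Lam FF H0 aa (Zf M) (_root_.cfc b2 (MTm (Zf M))) := by
  have hZ := mfZ D
  have h0 : ∀ i j, EE (Zf M i j) = 0 := fun i j => hz i j
  have hS := (ts hZ).herm
  have hP := (ts hZ).psd
  have h1 := EO629.eo_ge hZ (F := FF) (v := H0) (v1 := aa) FF_cont.continuousOn
    (fun z _ => H0_has z) aa_cont'.continuousOn (T := Tm (Zf M)) (fun k => Tm_t hZ k)
    (fun k => rfl) (EM_ζ h0) (cgS D) (hSl D) (Ce := 13 / 500) (κ := 1 / 4) (ε := 1 / 7)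
    (bo := 9 / 10) (bn := 9 / 10) (θ := 1 / 2) (θ1 := 7 / 25)
    (fun a _ b _ => KI718.ke_num a b) (fun a _ => s_kap4 a) s_lip Odd451.go_nonneg
    (fun z _ => hF2 z) (by norm_num) (by norm_num) (by norm_num) (by norm_num)
    (b := _root_.cfc b2 (MTm (Zf M))) (psd_cfc hS fun x hx => b2_nonneg (spec_nonneg hP hx))
    (fun X => hs_cfc_le hS (fun x hx => b2_sq (spec_nonneg hP hx)) X)
    (fun X => tr_le_const hP (fun x hx => b2_le hx) X) (by norm_num)
  refine farR_of hZ h0 (le_trans (le_of_eq ?_) h1)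
  have e0 : ∑ k, Tm (Zf M) k * Tm (Zf M) k = MTm (Zf M) := rfl
  rw [e0]
  ring

/-- the loss -/
theorem loss (D : Fin505.Dat G M N V lo hi) (hz : Fin505.Nz M) :
    LossF M AA rr ≤ TR (gf AA rr (1 / 8) (10 / 11)) (MTm (Zf M)) +
      PW (gu AA (1 / 8) (10 / 11) (231 / 100)) (Zf M) + HW (gh AA (10 / 11)) (Zf M) +
      1 / (1 / 11) * (14 / 13 * (13 / 500) + 231 / 100 * (3 / 400)) * EE (Slk M N) := by
  have hZ := mfZ D
  have h0 : ∀ i j, EE (Zf M i j) = 0 := fun i j => hz i j
  have hT := ts hZ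
  have hP := hT.psd
  have h1 := DualR862.dualR hZ h0 (v := H0) (w := wq) (v2 := bb2)
    (fun z _ => by have := H0_has z; simpa [wq] using this)
    (fun z _ => wq_has z) wq_cont.continuousOn bb2_cont.continuousOn (lam := 1 / 8) (by norm_num)
    (fun z _ => s_lam z) (U := Uf M) (fun i j x => by
      have := LamI301.Mx_U D.mf x
      exact congrFun (congrFun this i) j)
    (CC AA (MTm (Zf M))) (_root_.cfc rr (MTm (Zf M))) (Pn := 14 / 13) (K1 := 231 / 100)
    (fun X => hs_cfc_le hT.herm (fun x hx => by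
      rw [Real.sq_sqrt (AA_pos (spec_nonneg hP hx)).le]
      exact AA_le (spec_nonneg hP hx)) X) (by norm_num) (by norm_num)
    (hT.lossK (fun x hx => (AA_pos hx).le) (by norm_num) fun x hx => K1_le hx)
    (cgS D) (al := 13 / 500) (be := 3 / 400)
    (fun x => by
      have := sum_KR_le D (f := H0) (f' := aa) (C := 13 / 500) (by norm_num) KI718.ke_num x
      rwa [wq_add])
    (fun x => sum_KR_le D (f := wq) (f' := bb2) (C := 3 / 400) (by norm_num) (fun a b => by
      have h := PairK37.ks_rho' a b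
      have e : dd1 wq bb2 a b = dd1 aa bb2 a b := by
        unfold dd1 wq
        split_ifs
        · rfl
        · congr 1; ring
      rw [e]
      exact h) x)
    (q0 := 10 / 11) (q1 := 1 / 11) (by norm_num) (by norm_num) (by norm_num)
  refine lossR_of hZ (fun x hx => (AA_pos hx).le) ?_
  unfold LossF
  refine h1.trans (le_of_eq ?_)
  ring

/-- **MAIN** from two quadratic minorants -/
theorem mainQ {g g' : ℝ} (hpar : ∀ z, 363 / 1000 + g * z - 136 / 10000 * z ^ 2 ≤ hh z)
    (hF2 : ∀ z, 555 / 1000 + g' * z - 6 / 1000 * z ^ 2 ≤ FF z - 3 / 2 * (z * H0 z)) (n : ℕ) :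
    Fin505.MainQ n := by
  refine FinQ214.mainQ_of_fun (c := 1 / 200) (by norm_num)
    (Φ := fun x => 1 / 200 * FinQ214.mg x) (fun x _ => le_rfl)
    fun G M N V lo hi D hz => ?_
  exact comb D hz (A := AA) (b1 := b1) (b2 := b2) (r := rr) (fun x hx => AA_pos hx)
    (fun x hx => one_sub_AA hx) (near D hz hpar) (far D hz hF2) (loss D hz) (by norm_num)
    (fun x hx => Phi hx) (fun x hx => hP hx) (fun x hx => hH hx)

end Crest.Agent.R253.MainI706
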