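import Crest.Agent.R253.Main_321
import Crest.Agent.R253.Bud_321

/-!
# R253: MAIN with the frozen table (helper321)
-/

set_option autoImplicit false

open MeasureTheory ProbabilityTheory Real Set Filter Topology Matrix
open scoped ContDiff

noncomputable section

namespace Crest.Agent.R253.Main321

open Crest.Agent.R238.Gap Crest.Agent.R253.SpecCalc999 Crest.Agent.R253.Meh74
  Crest.Agent.R253.SpecField321 Crest.Agent.R253.S3
open Crest.Agent.R253.Frame321 (Zf Uf Slk)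
open Crest.Agent.R253.DualP973 (MTm)
open Crest.Agent.R253.Mills37 (H0)
open Crest.Agent.R253.HFn741 (hh)
open Crest.Agent.R253.Inst321 (FF)
open Crest.Agent.R253.TrC80
open Crest.Agent.R253.TabF167 (b1 b2 A r al ep Phi)

variable {n : ℕ} {G : Fin n → E n → ℝ} {M N : Fld n} {V : E n → ℝ} {lo hi : ℝ}

/-- the three parabolas below `h`, chosen row by row -/
theorem par_rows
    (p1 : ∃ g : ℝ, ∀ z, 363 / 1000 + g * z - 136 / 10000 * z ^ 2 ≤ hh z)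
    (p2 : ∃ g : ℝ, ∀ z, 330 / 1000 + g * z - 7 / 1000 * z ^ 2 ≤ hh z)
    (p3 : ∃ g : ℝ, ∀ z, 295 / 1000 + g * z - 4 / 1000 * z ^ 2 ≤ hh z) :
    ∃ γ : ℝ → ℝ, ∀ x, 0 ≤ x → ∀ z, al x + γ x * z - ep x * z ^ 2 ≤ hh z := by
  have key : ∀ x : ℝ, ∃ g : ℝ, ∀ z, al x + g * z - ep x * z ^ 2 ≤ hh z := by
    intro x
    rcases le_or_gt x 5 with h | h
    · rw [TabF167.al_5 h, TabF167.ep_5 h]; exact p1
    · rcases le_or_gt x 11 with h2 | h2
      · rw [TabF167.al_11 h h2, TabF167.ep_11 h h2]; exact p2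
      · rcases le_or_gt x 60 with h3 | h3
        · rw [TabF167.al_60 h2 h3, TabF167.ep_60 h2 h3]; exact p3
        · rw [TabF167.al_far h3, TabF167.ep_far h3]
          exact ⟨0, fun z => by have := HFn741.hh_pos z; linarith⟩
  choose γ hγ using key
  exact ⟨γ, fun x _ => hγ x⟩

/-- **the combination with the frozen table** -/
theorem main_le (D : Fin505.Dat G M N V lo hi) (hz : Fin505.Nz M)
    (p1 : ∃ g : ℝ, ∀ z, 363 / 1000 + g * z - 136 / 10000 * z ^ 2 ≤ hh z)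
    (p2 : ∃ g : ℝ, ∀ z, 330 / 1000 + g * z - 7 / 1000 * z ^ 2 ≤ hh z)
    (p3 : ∃ g : ℝ, ∀ z, 295 / 1000 + g * z - 4 / 1000 * z ^ 2 ≤ hh z)
    (hF2 : ∃ c : ℝ, ∀ z, 555 / 1000 + c * z - 6 / 1000 * z ^ 2 ≤ FF z - 3 / 2 * (z * H0 z)) :
    1 / 200 * FinQ214.p2 M + TR Phi (MTm (Zf M)) ≤ DFun G M := by
  obtain ⟨γ, hγ⟩ := par_rows p1 p2 p3
  obtain ⟨c, hc⟩ := hF2
  exact comb D hz (A := A) (b1 := b1) (b2 := b2) (r := r)
    (fun x hx => Bud321.A_pos hx) (fun x _ => by rw [Bud321.A_eq]; ring)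
    (nearD D hz HL718.hh_lt (Cy := 1 / 25) (bo := 3 / 20) (bn := 3 / 20) (θ1 := 3 / 4)
      (θ2 := 3 / 20) (θ3 := 3 / 20) (θ4 := 7 / 2) KY688.ky_rho (by norm_num) (by norm_num)
      (by norm_num) (by norm_num) (by norm_num) (b := b1) (α := al) (γ := γ) (ε := ep)
      (fun x hx => by
        have := Bud321.b1_bd hx
        nlinarith [this.1, this.2])
      (fun x hx => (Bud321.b1_bd hx).2) (by norm_num) (fun x hx => Bud321.b1_sign hx) hγ)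
    (farD D hz (bo := 21 / 25) (bn := 21 / 25) (ep := 1 / 5) (th := 11 / 25) (th1 := 5 / 16) hc
      (by norm_num) (by norm_num) (by norm_num) (b := b2) (fun x hx => (Bud321.b2_bd hx).1)
      (fun x hx => by
        have := Bud321.b2_bd hx
        nlinarith [this.1, this.2])
      (fun x hx => (Bud321.b2_bd hx).2) (by norm_num))
    (lossD D hz (A := A) (r := r) (K1 := 12 / 5) (Am := 53 / 50) (q0 := 20 / 23) (q1 := 3 / 23)
      (fun x hx => (Bud321.A_pos hx).le) (fun x hx => Bud321.A_le hx) (by norm_num) (by norm_num)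
      (fun x hx => Bud321.hK hx) (by norm_num) (by norm_num) (by norm_num))
    Bud321.hS (fun x _ => (Bud321.Phi_eq x).le) (fun x hx => Bud321.hP hx)
    (fun x hx => Bud321.hH hx)

/-- **MAIN** -/
theorem mainN {c : ℝ} (hc : 0 < c) (hc2 : c ≤ 1 / 200)
    (p1 : ∃ g : ℝ, ∀ z, 363 / 1000 + g * z - 136 / 10000 * z ^ 2 ≤ hh z)
    (p2 : ∃ g : ℝ, ∀ z, 330 / 1000 + g * z - 7 / 1000 * z ^ 2 ≤ hh z)
    (p3 : ∃ g : ℝ, ∀ z, 295 / 1000 + g * z - 4 / 1000 * z ^ 2 ≤ hh z)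
    (hF2 : ∃ c : ℝ, ∀ z, 555 / 1000 + c * z - 6 / 1000 * z ^ 2 ≤ FF z - 3 / 2 * (z * H0 z))
    (hPhi : ∀ x : ℝ, 0 ≤ x → c * ((1 - x) ^ 2 / (1 + x)) ≤ Phi x) (n : ℕ) :
    Fin505.MainN n :=
  FinQ214.mainN_of_fun hc hPhi fun G M N V lo hi D hz => by
    have h1 := main_le D hz p1 p2 p3 hF2
    have h2 : c * FinQ214.p2 M ≤ 1 / 200 * FinQ214.p2 M :=
      mul_le_mul_of_nonneg_right hc2 FinQ214.p2_nonneg
    linarith

theorem mainQ {c : ℝ} (hc : 0 < c) (hc2 : c ≤ 1 / 200)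
    (p1 : ∃ g : ℝ, ∀ z, 363 / 1000 + g * z - 136 / 10000 * z ^ 2 ≤ hh z)
    (p2 : ∃ g : ℝ, ∀ z, 330 / 1000 + g * z - 7 / 1000 * z ^ 2 ≤ hh z)
    (p3 : ∃ g : ℝ, ∀ z, 295 / 1000 + g * z - 4 / 1000 * z ^ 2 ≤ hh z)
    (hF2 : ∃ c : ℝ, ∀ z, 555 / 1000 + c * z - 6 / 1000 * z ^ 2 ≤ FF z - 3 / 2 * (z * H0 z))
    (hPhi : ∀ x : ℝ, 0 ≤ x → c * ((1 - x) ^ 2 / (1 + x)) ≤ Phi x) (n : ℕ) :
    Fin505.MainQ n :=
  (mainN hc hc2 p1 p2 p3 hF2 hPhi n).toW.toQ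

end Crest.Agent.R253.Main321
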