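import Crest.Agent.R253.Join_214
import Crest.Agent.R253.Bud_214
import Crest.Agent.R253.HPar_741
import Crest.Agent.R253.F2_711

/-!
# Row 253: `MainQ n` from the one-variable inequality of the frozen table (helper214)
-/

set_option autoImplicit false

noncomputable section

namespace Crest.Agent.R253.Main214

open Crest.Agent.R253.TabF167 Crest.Agent.R253.Bud214 Crest.Agent.R253.HFn741
  Crest.Agent.R253.TrC80 Crest.Agent.R253.Inst321
open Crest.Agent.R253.Mills37 (H0 kk)

/-- slopes of the minorants -/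
def ga (x : ℝ) : ℝ :=
  if x ≤ 5 then 72 / 1000 else if x ≤ 11 then 65 / 1000 else if x ≤ 60 then 56 / 1000 else 0

theorem hm (x : ℝ) (z : ℝ) : al x + ga x * z - ep x * z ^ 2 ≤ hh z := by
  rcases le_or_gt x 5 with h5 | h5
  · have e : ga x = 72 / 1000 := by simp [ga, h5]
    rw [al_5 h5, ep_5 h5, e]
    have := HPar741.par_a z
    linarith
  rcases le_or_gt x 11 with h11 | h11
  · have e : ga x = 65 / 1000 := by simp [ga, not_le.2 h5, h11]
    rw [al_11 h5 h11, ep_11 h5 h11, e]
    have := HPar741.par_d z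
    linarith
  rcases le_or_gt x 60 with h60 | h60
  · have e : ga x = 56 / 1000 := by simp [ga, not_le.2 h5, not_le.2 h11, h60]
    rw [al_60 h11 h60, ep_60 h11 h60, e]
    have := HPar741.par_f z
    linarith
  · have e : ga x = 0 := by simp [ga, not_le.2 h5, not_le.2 h11, not_le.2 h60]
    rw [al_far h60, ep_far h60, e]
    have := hh_pos z
    linarith

/-- **`MainQ n`** from `L7` -/
theorem mainQ_of_L7 {n : ℕ} (L7 : ∀ x, 0 ≤ x → 1 / 200 * ((1 - x) ^ 2 / (1 + x)) ≤ Phi x) :
    Fin505.MainQ n := by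
  refine Join214.mainQ_of_real (A := A) (b1 := b1) (b2 := b2) (r := r) (α := al) (γ := ga)
    (ε := ep) (Φ := Phi) (c := 1 / 200) (bo := 3 / 20) (bn := 3 / 20) (bo2 := 21 / 25)
    (bn2 := 21 / 25) (θ1 := 3 / 4) (θ2 := 3 / 20) (θ3 := 3 / 20) (θ4 := 7 / 2) (θ := 11 / 25)
    (th1 := 5 / 16) (ep := 1 / 5) (a := 555 / 1000) (c2 := -(146 / 1000)) (e := 6 / 1000)
    (q0 := 20 / 23) (q1 := 3 / 23) (K1 := 12 / 5) (Am := 53 / 50)
    (by norm_num) (by norm_num) (by norm_num) (by norm_num) (by norm_num) (by norm_num)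
    (by norm_num) (by norm_num) (by norm_num) (by norm_num) (by norm_num)
    A_pos A_le (fun x _ => split x) b1_sq b1_le (by norm_num) b1_x (fun x _ z => hm x z)
    b2_nonneg b2_le b2_sq ?_ hK ?_ ?_ ?_ ?_ L7
  · intro z
    have := F2n711.hF2_555 z
    unfold FF
    linarith
  · norm_num
  · intro x _
    unfold Phi nf ff gf
    exact le_rfl
  · intro x hx
    exact hP x hx
  · intro x hx
    exact hH x hx

end Crest.Agent.R253.Main214
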