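import Crest.Agent.R253.Conv_80
import Crest.Agent.R253.EO_629
import Crest.Agent.R253.DualR_192
import Crest.Agent.R253.TabF_167
import Crest.Agent.R253.KI_718
import Crest.Agent.R253.KY_688
import Crest.Agent.R253.HL_718
import Crest.Agent.R253.Lam_741
import Crest.Agent.R253.Odd_451
import Crest.Agent.R253.ApproxN_944
import Crest.Agent.R253.Fin_505
import Crest.Agent.R253.Red_505

/-!
# Row 253: independent assembly (helper219)
-/

set_option autoImplicit false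

open MeasureTheory ProbabilityTheory Set Filter Topology Matrix
open scoped ContDiff

noncomputable section

namespace Crest.Agent.R253.Main219

open Crest.Agent.R238.Gap Crest.Agent.R253.SpecCalc999 Crest.Agent.R253.Meh74
  Crest.Agent.R253.SpecField321 Crest.Agent.R253.S3 Crest.Agent.R253.LamB301
  Crest.Agent.R253.LamI301
open Crest.Agent.R253.DualP973 (Tm ef Lx MTm Mx_eq dk_eq c1_ef Yf Gf)
open Crest.Agent.R253.ErrT378 (Lam lam_ge)
open Crest.Agent.R253.Frame321 (Zf Uf Ff Uf_eq M_eq mf_Zf Zf_symm Slk)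
open Crest.Agent.R253.Mills37 (mu H0 kk ee)
open Crest.Agent.R253.Slack688 (aa H0_has aa_pos)
open Crest.Agent.R253.ScalE688 (zf rho)
open Crest.Agent.R253.HFn741 (chi chi' hh bb2 chi_has aa_lt hh_pos chi'_pos)
open Crest.Agent.R253.Inst321
open Crest.Agent.R253.Stein378 (ky)
open Crest.Agent.R253.TrC80

variable {n : ℕ} {G : Fin n → E n → ℝ} {M N : Fld n} {V : E n → ℝ} {lo hi : ℝ}

lemma hh_lt (z : ℝ) : hh z < 1 / 2 := Crest.Agent.R253.HL718.hh_lt z

lemma chi'_lt (z : ℝ) : chi' z < 3 / 4 := by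
  have h1 := hh_lt z
  have h2 := aa_lt z
  have h3 := aa_pos z
  unfold chi'
  nlinarith

lemma lip {f f' : ℝ → ℝ} {K : ℝ} (hf : ∀ z, HasDerivAt f (f' z) z) (hK : ∀ z, |f' z| ≤ K)
    (x y : ℝ) : |f x - f y| ≤ K * |x - y| := by
  have := Convex.norm_image_sub_le_of_norm_hasDerivWithin_le (f := f) (f' := f') (s := univ)
    (C := K) (x := y) (y := x) (fun z _ => (hf z).hasDerivWithinAt) (fun z _ => hK z)
    convex_univ (mem_univ _) (mem_univ _)
  simpa [Real.norm_eq_abs] using this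

lemma chi_maj (z : ℝ) :
    (chi z - chi 0 - 3 / 8 * z) ^ 2 ≤ 0 + 0 * z + 9 / 64 * z ^ 2 := by
  have h := lip (f := fun z => chi z - 3 / 8 * z) (f' := fun z => chi' z - 3 / 8) (K := 3 / 8)
    (fun z => (chi_has z).sub (by simpa using (hasDerivAt_id z).const_mul (3 / 8 : ℝ)))
    (fun z => by
      have h1 := chi'_pos z
      have h2 := chi'_lt z
      rw [abs_le]; constructor <;> linarith) z 0
  have h2 : |chi z - chi 0 - 3 / 8 * z| ≤ 3 / 8 * |z| := by
    have e : chi z - 3 / 8 * z - (chi 0 - 3 / 8 * 0) = chi z - chi 0 - 3 / 8 * z := by ring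
    have h9 := h
    simp only [e, sub_zero] at h9
    exact h9
  have h3 : |chi z - chi 0 - 3 / 8 * z| ^ 2 ≤ (3 / 8 * |z|) ^ 2 :=
    pow_le_pow_left₀ (abs_nonneg _) h2 2
  rw [sq_abs, mul_pow, sq_abs] at h3
  linarith

lemma H0_lip (x y : ℝ) : |(H0 x - 1 / 4 * x) - (H0 y - 1 / 4 * y)| ≤ 1 / 4 * |x - y| :=
  lip (f := fun z => H0 z - 1 / 4 * z) (f' := fun z => aa z - 1 / 4)
    (fun z => (H0_has z).sub (by simpa using (hasDerivAt_id z).const_mul (1 / 4 : ℝ)))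
    (fun z => by
      have h1 := aa_pos z
      have h2 := aa_lt z
      rw [abs_le]; constructor <;> linarith) x y

lemma chi'_cont : Continuous chi' := by
  unfold chi' hh
  exact ((Crest.Agent.R253.ScalE688.aa_cont.pow 2).add
    (Crest.Agent.R253.ScalE688.aa_cont.add (Crest.Agent.R253.ScalE688.H0_cont.mul bb2_cont)))

lemma FF_cont : Continuous FF := by
  unfold FF
  exact (continuous_const.mul Crest.Agent.R253.ScalE688.kk_cont).sub
    (Crest.Agent.R253.ScalE688.H0_cont.pow 2)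

lemma h0Z (hz : Fin505.Nz M) : ∀ i j, EE (Zf M i j) = 0 := fun i j => hz i j

/-- the near part on the data -/
theorem nearD (D : Fin505.Dat G M N V lo hi) (hz : Fin505.Nz M)
    {θ1 θ2 θ3 θ4 bo bn : ℝ} (hθ1 : 0 < θ1) (hθ2 : 0 < θ2) (hθ3 : 0 < θ3) (hθ4 : 0 < θ4)
    {b α γ ε : ℝ → ℝ}
    (hbo : ∀ x, 0 ≤ x → b x ^ 2 ≤ bo ^ 2) (hbn : ∀ x, 0 ≤ x → b x ≤ bn) (hbn0 : 0 ≤ bn)
    (hbx : ∀ x, 0 ≤ x → 0 ≤ b x * (x - 1))
    (hm : ∀ x, 0 ≤ x → ∀ z, α x + γ x * z - ε x * z ^ 2 ≤ hh z) :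
    TR (nf b α ε θ1 θ2 θ4 0 (9 / 64)) (MTm (Zf M)) - PW (nu b (3 / 8) (1 / 2) bo θ1 θ3) (Zf M) -
      HW (nh b ε θ4 (9 / 64) (3 / 8)) (Zf M) -
      (1 / 25 / (2 * θ2) + 13 / 2000 / θ3 + bn * (13 / 500)) * EE (Slk M N) ≤
      Lam FF H0 aa (Zf M) (_root_.cfc b (MTm (Zf M))) := by
  refine nearR (χ := chi) (χ1 := chi') (h := hh) (sl := rho) (c := 1 / 8) (c3 := chi 0) (c5 := 0)
    (mfZ D) (h0Z hz) (fun z _ => H0_has z)
    Crest.Agent.R253.ScalE688.aa_cont.continuousOn (fun z _ => chi_has z)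
    chi'_cont.continuousOn (fun z _ => FF_eq z) (fun z _ => by unfold chi'; ring) (cgS D) (hSl D)
    (fun a _ b _ => Crest.Agent.R253.KY688.ky_rho a b)
    (fun a _ b _ => Crest.Agent.R253.KI718.kw_num a b)
    (fun a _ b _ => Crest.Agent.R253.KI718.ke_num a b)
    ?_ ?_ (fun z _ => chi_maj z) (by norm_num) (by norm_num) (by norm_num) hθ1 hθ2 hθ3 hθ4
    hbo hbn hbn0 hbx hm
  · intro a _ b _
    have h1 := hh_pos b
    have h2 := hh_lt b
    have h3 := aa_pos a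
    have h4 := aa_lt a
    have h5 : chi' b - aa b ^ 2 = hh b := by unfold chi'; ring
    rw [h5, abs_le]
    constructor <;> nlinarith
  · intro a _
    rw [abs_of_pos (aa_pos a)]
    exact (aa_lt a).le

/-- the far part on the data -/
theorem farD (D : Fin505.Dat G M N V lo hi) (hz : Fin505.Nz M)
    {ep th th1 bo bn a c e : ℝ} (hep : 0 < ep) (hth : 0 < th) (hth1 : 0 < th1)
    (hF2 : ∀ z, a + c * z - e * z ^ 2 ≤ FF z - 3 / 2 * (z * H0 z))
    {b : ℝ → ℝ} (hb0 : ∀ x, 0 ≤ x → 0 ≤ b x)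
    (hbo : ∀ x, 0 ≤ x → b x ^ 2 ≤ bo ^ 2) (hbn : ∀ x, 0 ≤ x → b x ≤ bn) (hbn0 : 0 ≤ bn) :
    TR (ff b a e (1 / 4) ep th th1) (MTm (Zf M)) - PW (fu b (1 / 4) ep th) (Zf M) -
      HW (fh b e (1 / 4) th th1) (Zf M) -
      (1 + 1 / ep) * (13 / 500) * (bn + bo ^ 2 / (4 * th)) * EE (Slk M N) ≤
      Lam FF H0 aa (Zf M) (_root_.cfc b (MTm (Zf M))) := by
  have hζ := mfZ D
  have hP := (ts hζ).psd
  have hS := (ts hζ).herm
  refine farR_of hζ (h0Z hz) ?_
  have h := Crest.Agent.R253.EO629.eo_ge (Z := Zf M) (F := FF) (v := H0) (v1 := aa)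
    (T := Tm (Zf M)) (sl := rho) (Sl := Slk M N) (Ce := 13 / 500) (κ := 1 / 4) (ε := ep)
    (a := a) (c := c) (e := e) (bo := bo) (bn := bn) (θ := th) (θ1 := th1)
    (b := _root_.cfc b (MTm (Zf M)))
    hζ FF_cont.continuousOn (fun z _ => H0_has z)
    Crest.Agent.R253.ScalE688.aa_cont.continuousOn (fun k => Tm_t hζ k) (fun k => rfl)
    (EM_ζ (h0Z hz)) (cgS D) (hSl D) (fun a _ b _ => Crest.Agent.R253.KI718.ke_num a b)
    (fun z _ => by
      have h1 := aa_pos z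
      have h2 := aa_lt z
      rw [abs_le]; constructor <;> linarith)
    H0_lip (fun z => Crest.Agent.R253.Odd451.go_nonneg z) (fun z _ => hF2 z) (by norm_num)
    hep hth hth1 (psd_cfc hS fun x hx => hb0 x (spec_nonneg hP hx))
    (fun X => hs_cfc_le hS (fun x hx => hbo x (spec_nonneg hP hx)) X)
    (fun X => tr_le_const hP hbn X) hbn0
  have e0 : ∑ k, Tm (Zf M) k * Tm (Zf M) k = MTm (Zf M) := rfl
  rw [e0] at h
  linarith

/-- the loss on the data -/
theorem lossD (D : Fin505.Dat G M N V lo hi) {A r : ℝ → ℝ} {Cs Amax K1 q0 q1 : ℝ}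
    (hCs : 0 ≤ Cs) (hKS : ∀ a b, (dd1 wq bb2 a b - bb2 b) ^ 2 ≤ Cs * rho a b)
    (hA : ∀ x, 0 ≤ x → 0 ≤ A x) (hAm : ∀ x, 0 ≤ x → A x ≤ Amax) (hAm0 : 0 ≤ Amax) (hK0 : 0 ≤ K1)
    (hK : ∀ x, 0 ≤ x → A x * r x ^ 2 * x ≤ K1) (hq0 : 0 < q0) (hq1 : 0 < q1)
    (hq : q0 + q1 = 1) :
    LossF M A r ≤ TR (gf A r (1 / 8) q0) (MTm (Zf M)) + PW (gu A (1 / 8) q0 K1) (Zf M) +
      HW (gh A q0) (Zf M) + 1 / q1 * (Amax * (13 / 500) + K1 * Cs) * EE (Slk M N) := by
  have hζ := mfZ D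
  have hT := ts hζ
  refine lossR_of hζ hA ?_
  have h := Crest.Agent.R253.DualR192.dualR (ζ := Zf M) (v := H0) (w := wq) (v2 := bb2)
    (lam := 1 / 8) (U := Uf M) (C := CC A (MTm (Zf M))) (b := _root_.cfc r (MTm (Zf M)))
    (Pn := Amax) (K1 := K1) (Sl := Slk M N) (al := 13 / 500) (be := Cs) (q0 := q0) (q1 := q1)
    hζ (fun x _ => by
      have := H0_has x
      have e : wq x + 1 / 4 = aa x := by unfold wq; ring
      rw [e]; exact this) (fun x _ => wq_has x) wq_cont.continuousOn bb2_cont.continuousOn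
    (by norm_num) (fun x _ => by
      have h1 := Crest.Agent.R253.HSc741.bb2_sq_le x
      have e : 1 / 16 - wq x ^ 2 = aa x * (1 / 2 - aa x) := by unfold wq; ring
      rw [e]; exact h1)
    (fun i j x => by
      have := LamI301.Mx_U D.mf x
      exact congrFun (congrFun this i) j)
    (fun X => hs_CC_le hT.psd hA hAm X) hAm0 hK0 (fun B => hT.lossK hA hK0 hK B) (cgS D)
    (fun x => by
      have e : (fun t => wq t + 1 / 4) = aa := wq_add
      rw [e]
      exact sum_KR_le D (by norm_num) (fun a b => Crest.Agent.R253.KI718.ke_num a b) x)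
    (fun x => sum_KR_le D hCs hKS x) hq0 hq1 hq
  unfold LossF
  refine h.trans (le_of_eq ?_)
  ring

/-! ### the budgets of the frozen table -/

open Crest.Agent.R253.TabF167 in
lemma b1_nonneg {x : ℝ} (h : 1 ≤ x) : 0 ≤ b1 x := by
  rcases le_or_gt x 60 with h2 | h2
  · rw [b1_mid h h2]
    exact div_nonneg (by nlinarith) (by linarith)
  · rw [b1_far h2]

open Crest.Agent.R253.TabF167 in
lemma b1_le {x : ℝ} (h : 1 ≤ x) : b1 x ≤ 3 / 20 := by
  rcases le_or_gt x 60 with h2 | h2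
  · rw [b1_mid h h2, div_le_iff₀ (by linarith)]
    linarith
  · rw [b1_far h2]; norm_num

open Crest.Agent.R253.TabF167 in
lemma b2_nonneg (x : ℝ) : 0 ≤ b2 x := by
  rcases le_or_gt x 2 with h | h
  · rw [b2_le2 h]
  · rcases le_or_gt x 60 with h2 | h2
    · rw [b2_mid h.le h2]
      exact div_nonneg (by nlinarith) (by linarith)
    · rw [b2_far h2]; norm_num

open Crest.Agent.R253.TabF167 in
lemma b2_le (x : ℝ) : b2 x ≤ 21 / 25 := by
  rcases le_or_gt x 2 with h | h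
  · rw [b2_le2 h]; norm_num
  · rcases le_or_gt x 60 with h2 | h2
    · rw [b2_mid h.le h2, div_le_iff₀ (by linarith)]
      linarith
    · rw [b2_far h2]

open Crest.Agent.R253.TabF167 in
lemma A_pos {x : ℝ} (_hx : 0 ≤ x) : 1 / 100 ≤ A x := by
  unfold A
  rcases le_or_gt x 1 with h | h
  · rw [b1_le1 h, b2_le2 (by linarith)]
    nlinarith
  · have h1 := b1_le h.le
    have h2 := b2_le x
    linarith

open Crest.Agent.R253.TabF167 in
lemma A_le {x : ℝ} (hx : 0 ≤ x) : A x ≤ 53 / 50 := by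
  unfold A
  have h2 := b2_nonneg x
  rcases le_or_gt x 1 with h | h
  · rw [b1_le1 h]
    nlinarith
  · have h1 := b1_nonneg h.le
    linarith

open Crest.Agent.R253.TabF167 in
lemma b1x {x : ℝ} (_hx : 0 ≤ x) : 0 ≤ b1 x * (x - 1) := by
  rcases le_or_gt x 1 with h | h
  · rw [b1_le1 h]
    nlinarith
  · exact mul_nonneg (b1_nonneg h.le) (by linarith)

open Crest.Agent.R253.TabF167 in
lemma b1_sq {x : ℝ} (hx : 0 ≤ x) : b1 x ^ 2 ≤ (3 / 20) ^ 2 := by
  rcases le_or_gt x 1 with h | h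
  · rw [b1_le1 h]
    nlinarith
  · have h1 := b1_nonneg h.le
    have h2 := b1_le h.le
    exact pow_le_pow_left₀ h1 h2 2

open Crest.Agent.R253.TabF167 in
lemma b1_le' {x : ℝ} (_hx : 0 ≤ x) : b1 x ≤ 3 / 20 := by
  rcases le_or_gt x 1 with h | h
  · rw [b1_le1 h]
    nlinarith
  · exact b1_le h.le

open Crest.Agent.R253.TabF167 in
lemma b2_sq (x : ℝ) : b2 x ^ 2 ≤ (21 / 25) ^ 2 :=
  pow_le_pow_left₀ (b2_nonneg x) (b2_le x) 2

open Crest.Agent.R253.TabF167 in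
/-- `K₁` -/
lemma K1_le {x : ℝ} (hx : 0 ≤ x) : A x * r x ^ 2 * x ≤ 12 / 5 := by
  have h16 : 0 < 16 + x := by linarith
  have e : A x * r x ^ 2 * x = 289 * x * A x / (16 + x) ^ 2 := by
    unfold r; field_simp; ring
  rw [e, div_le_iff₀ (by positivity)]
  rcases le_or_gt x 2 with h | h
  · have h1 := A_le hx
    have h2 := A_pos hx
    nlinarith [mul_nonneg hx (sub_nonneg.2 h1), sq_nonneg (x - 2)]
  · rcases le_or_gt x 60 with h2 | h2
    · unfold A
      rw [b1_mid (by linarith) h2, b2_mid h.le h2]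
      have p1 : 0 < x - 3 / 10 := by linarith
      have p2 : 0 < x + 9 := by linarith
      have e2 : 289 * x * (1 - 3 / 20 * (x - 1) / (x - 3 / 10) - 21 / 25 * (x - 2) / (x + 9)) =
          289 * x * ((x - 3 / 10) * (x + 9) - 3 / 20 * (x - 1) * (x + 9) -
            21 / 25 * (x - 2) * (x - 3 / 10)) / ((x - 3 / 10) * (x + 9)) := by
        rw [eq_div_iff (by positivity)]
        have q1 : (x - 3 / 10) ≠ 0 := p1.ne'
        have q2 : (x + 9) ≠ 0 := p2.ne'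
        have r1 : 3 / 20 * (x - 1) / (x - 3 / 10) * (x - 3 / 10) = 3 / 20 * (x - 1) :=
          div_mul_cancel₀ _ q1
        have r2 : 21 / 25 * (x - 2) / (x + 9) * (x + 9) = 21 / 25 * (x - 2) :=
          div_mul_cancel₀ _ q2
        calc 289 * x * (1 - 3 / 20 * (x - 1) / (x - 3 / 10) - 21 / 25 * (x - 2) / (x + 9)) *
              ((x - 3 / 10) * (x + 9)) =
            289 * x * ((x - 3 / 10) * (x + 9) -
              (3 / 20 * (x - 1) / (x - 3 / 10) * (x - 3 / 10)) * (x + 9) -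
              (21 / 25 * (x - 2) / (x + 9) * (x + 9)) * (x - 3 / 10)) := by ring
          _ = _ := by rw [r1, r2]
      rw [e2, div_le_iff₀ (by positivity)]
      nlinarith [mul_pos p1 p2, sq_nonneg (x - 6), mul_nonneg hx (sq_nonneg (x - 6)),
        mul_nonneg (sq_nonneg (x - 6)) (sq_nonneg (x + 5)),
        mul_nonneg (mul_nonneg hx hx) (sq_nonneg (x - 6)), mul_pos p1 p1]
    · unfold A
      rw [b1_far h2, b2_far h2]
      nlinarith [sq_nonneg (x - 16)]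

open Crest.Agent.R253.TabF167 in
lemma u_eq (x : ℝ) : 1 - TrC80.nu b1 (3 / 8) (1 / 2) (3 / 20) (3 / 4) (3 / 20) x -
    fu b2 (1 / 4) (1 / 5) (11 / 25) x - gu A (1 / 8) (20 / 23) (12 / 5) x =
    1 - (9 / 96 + 27 / 8000 + max (b1 x) 0 / 4) - (11 / 80 * b2 x + 11 / 100 +
      15 / 352 * b2 x ^ 2) - (23 / 60 * (1 - b1 x - b2 x) + 23 / 800) := by
  unfold TrC80.nu fu gu A
  ring

open Crest.Agent.R253.TabF167 in
lemma h_eq (x : ℝ) : 1 + nh b1 ep (7 / 2) (9 / 64) (3 / 8) x +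
    fh b2 (6 / 1000) (1 / 4) (11 / 25) (5 / 16) x + gh A (20 / 23) x =
    1 + (b1 x * (x - 1) * ep x + 63 / 256 * b1 x ^ 2 + 1 / 7 - 3 / 8 * b1 x) +
      (-(369 / 1000 * b2 x) + 1 / 10 - 33 / 200) - 23 / 60 * (1 - b1 x - b2 x) := by
  unfold nh fh gh A
  ring

open Crest.Agent.R253.TabF167 in
lemma bud_P {x : ℝ} (_hx : 0 ≤ x) : 1 / 200 ≤ 1 - TrC80.nu b1 (3 / 8) (1 / 2) (3 / 20) (3 / 4) (3 / 20) x -
    fu b2 (1 / 4) (1 / 5) (11 / 25) x - gu A (1 / 8) (20 / 23) (12 / 5) x := by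
  rw [u_eq]
  have s1 := b2_nonneg x
  have s2 := b2_le x
  rcases le_or_gt x 1 with h | h
  · have hb : b1 x = -(3 / 50) * (1 - x) := b1_le1 h
    have hn : b1 x ≤ 0 := by rw [hb]; nlinarith
    have hl : -(3 / 50) ≤ b1 x := by rw [hb]; nlinarith
    rw [max_eq_right hn]
    nlinarith
  · have hn := b1_nonneg h.le
    have hl := b1_le h.le
    rw [max_eq_left hn]
    nlinarith

open Crest.Agent.R253.TabF167 in
lemma bud_H {x : ℝ} (_hx : 0 ≤ x) : 2 * (1 / 200) ≤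
    2 * (1 - TrC80.nu b1 (3 / 8) (1 / 2) (3 / 20) (3 / 4) (3 / 20) x -
    fu b2 (1 / 4) (1 / 5) (11 / 25) x - gu A (1 / 8) (20 / 23) (12 / 5) x) -
    (1 + nh b1 ep (7 / 2) (9 / 64) (3 / 8) x +
    fh b2 (6 / 1000) (1 / 4) (11 / 25) (5 / 16) x + gh A (20 / 23) x) := by
  rw [u_eq, h_eq]
  have s1 := b2_nonneg x
  have s2 := b2_le x
  rcases le_or_gt x 1 with h | h
  · have hb : b1 x = -(3 / 50) * (1 - x) := b1_le1 h
    have hn : b1 x ≤ 0 := by rw [hb]; nlinarith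
    have hl : -(3 / 50) ≤ b1 x := by rw [hb]; nlinarith
    rw [max_eq_right hn, ep_5 (by linarith), b2_le2 (by linarith)]
    rw [hb]
    nlinarith [mul_nonneg _hx (sub_nonneg.2 h)]
  · have hn := b1_nonneg h.le
    have hl := b1_le h.le
    rw [max_eq_left hn]
    have key : b1 x * (x - 1) * ep x ≤ 1 / 25 := by
      rcases le_or_gt x 5 with h5 | h5
      · rw [ep_5 h5]
        nlinarith [mul_nonneg hn (sub_nonneg.2 h5)]
      · rcases le_or_gt x 11 with h11 | h11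
        · rw [ep_11 h5 h11]
          nlinarith [mul_nonneg hn (sub_nonneg.2 h11)]
        · rcases le_or_gt x 60 with h60 | h60
          · rw [ep_60 h11 h60]
            nlinarith [mul_nonneg hn (sub_nonneg.2 h60)]
          · rw [ep_far h60]; norm_num
    nlinarith [mul_nonneg s1 (sub_nonneg.2 s2), mul_nonneg hn (sub_nonneg.2 hl)]

/-- the open real-variable inputs -/
structure Inp : Prop where
  ks : ∀ a b, (dd1 wq bb2 a b - bb2 b) ^ 2 ≤ 3 / 400 * rho a b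
  par5 : ∃ g : ℝ, ∀ z, 363 / 1000 + g * z - 136 / 10000 * z ^ 2 ≤ hh z
  par11 : ∃ g : ℝ, ∀ z, 330 / 1000 + g * z - 7 / 1000 * z ^ 2 ≤ hh z
  par60 : ∃ g : ℝ, ∀ z, 295 / 1000 + g * z - 4 / 1000 * z ^ 2 ≤ hh z
  f2 : ∃ c : ℝ, ∀ z, 555 / 1000 + c * z - 6 / 1000 * z ^ 2 ≤ FF z - 3 / 2 * (z * H0 z)
  phi : ∀ x, 0 ≤ x → 1 / 200 * FinQ214.mg x ≤ TabF167.Phi x

theorem par_all (I : Inp) : ∃ γ : ℝ → ℝ, ∀ x, 0 ≤ x → ∀ z,
    TabF167.al x + γ x * z - TabF167.ep x * z ^ 2 ≤ hh z := by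
  obtain ⟨g5, h5⟩ := I.par5
  obtain ⟨g11, h11⟩ := I.par11
  obtain ⟨g60, h60⟩ := I.par60
  refine ⟨fun x => if x ≤ 5 then g5 else if x ≤ 11 then g11 else if x ≤ 60 then g60 else 0,
    fun x _ z => ?_⟩
  rcases le_or_gt x 5 with a | a
  · rw [TabF167.al_5 a, TabF167.ep_5 a]
    simpa [a] using h5 z
  · rcases le_or_gt x 11 with b | b
    · rw [TabF167.al_11 a b, TabF167.ep_11 a b]
      simpa [not_le.2 a, b] using h11 z
    · rcases le_or_gt x 60 with c | c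
      · rw [TabF167.al_60 b c, TabF167.ep_60 b c]
        simpa [not_le.2 a, not_le.2 b, c] using h60 z
      · rw [TabF167.al_far c, TabF167.ep_far c]
        simpa [not_le.2 a, not_le.2 b, not_le.2 c] using (hh_pos z).le

theorem mainQ (I : Inp) (n : ℕ) : Fin505.MainQ n := by
  refine FinQ214.mainQ_of_fun (c := 1 / 200) (by norm_num) I.phi ?_
  intro G M N V lo hi D hz
  obtain ⟨γ, hγ⟩ := par_all I
  obtain ⟨c2, hF2⟩ := I.f2
  refine comb D hz (A := TabF167.A) (b1 := TabF167.b1) (b2 := TabF167.b2) (r := TabF167.r)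
    (fun x hx => lt_of_lt_of_le (by norm_num) (A_pos hx))
    (fun x _ => by unfold TabF167.A; ring)
    (nearD D hz (θ1 := 3 / 4) (θ2 := 3 / 20) (θ3 := 3 / 20) (θ4 := 7 / 2) (bo := 3 / 20)
      (bn := 3 / 20) (by norm_num) (by norm_num) (by norm_num) (by norm_num)
      (fun x hx => b1_sq hx) (fun x hx => b1_le' hx) (by norm_num) (fun x hx => b1x hx) hγ)
    (farD D hz (ep := 1 / 5) (th := 11 / 25) (th1 := 5 / 16) (bo := 21 / 25) (bn := 21 / 25)
      (by norm_num) (by norm_num) (by norm_num) hF2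
      (fun x _ => b2_nonneg x) (fun x _ => b2_sq x) (fun x _ => b2_le x) (by norm_num))
    (lossD D (Cs := 3 / 400) (Amax := 53 / 50) (K1 := 12 / 5) (q0 := 20 / 23) (q1 := 3 / 23)
      (by norm_num) I.ks (fun x hx => le_trans (by norm_num) (A_pos hx)) (fun x hx => A_le hx)
      (by norm_num) (by norm_num) (fun x hx => K1_le hx) (by norm_num) (by norm_num)
      (by norm_num))
    (by norm_num) (fun x _ => ?_) (fun x hx => ?_) (fun x hx => ?_)
  · refine le_of_eq ?_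
    unfold TabF167.Phi nf ff gf
    ring
  · exact bud_P hx
  · exact bud_H hx

/-- S0391 from the six open real-variable inputs -/
theorem hyp391 (I : Inp) : Red505.Hyp391 := fun m _ f hf hf0 hf1 hfc hfl =>
  Fin505.S0391_ofQ (mainQ I m) (ApproxN944.approxN m) f hf hf0 hf1 hfc hfl

end Crest.Agent.R253.Main219
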