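import Crest.Agent.R253.AsmR_80
import Crest.Agent.R253.KI_718
import Crest.Agent.R253.Lam_741
import Crest.Agent.R253.Odd_451
import Crest.Agent.R253.Conv_80
import Crest.Agent.R253.EO_629
import Crest.Agent.R253.DualR_862
import Crest.Agent.R253.PairK_37
import Crest.Agent.R253.KY_688
import Crest.Agent.R253.HL_718
import Crest.Agent.R253.TabF_167

/-!
# R253: MAIN on the data, all numbers as parameters (helper321)
-/

set_option autoImplicit false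

open MeasureTheory ProbabilityTheory Real Set Filter Topology Matrix
open scoped ContDiff

noncomputable section

namespace Crest.Agent.R253.Main321

open Crest.Agent.R238.Gap Crest.Agent.R253.SpecCalc999 Crest.Agent.R253.Meh74
  Crest.Agent.R253.SpecField321 Crest.Agent.R253.S3
open Crest.Agent.R253.DualP973 (Tm ef Lx MTm Mx_eq dk_eq c1_ef Yf Gf)
open Crest.Agent.R253.ErrT378 (Lam lam_ge)
open Crest.Agent.R253.Frame321 (Zf Uf Slk)
open Crest.Agent.R253.Mills37 (mu H0 kk ee)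
open Crest.Agent.R253.Slack688 (aa H0_has)
open Crest.Agent.R253.ScalE688 (zf rho)
open Crest.Agent.R253.HFn741 (chi chi' hh bb2 chi_has aa_lt hh_pos)
open Crest.Agent.R253.Inst321
open Crest.Agent.R253.Stein378 (ky)
open Crest.Agent.R253.TrC80

variable {n : ℕ} {G : Fin n → E n → ℝ} {M N : Fld n} {V : E n → ℝ} {lo hi : ℝ}

lemma aa_cont : Continuous aa := Inst321.aa_cont'

lemma H0_cont : Continuous H0 := continuous_iff_continuousAt.2 fun z => (H0_has z).continuousAt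

lemma hh_cont : Continuous hh := by
  unfold hh
  exact aa_cont.add (H0_cont.mul bb2_cont)

lemma chi'_cont : Continuous chi' := by
  unfold chi'
  exact (aa_cont.pow 2).add hh_cont

lemma aa_pos (z : ℝ) : 0 < aa z := Crest.Agent.R253.Slack688.aa_pos z

/-- `|h(b) - v'(b')² - 1/8| ≤ 3/8` -/
lemma rho38 (hh2 : ∀ z, hh z < 1 / 2) (a b : ℝ) :
    |chi' b - aa b ^ 2 - aa a ^ 2 - 1 / 8| ≤ 3 / 8 := by
  have h1 := hh_pos b
  have h2 := hh2 b
  have h3 := aa_pos a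
  have h4 := aa_lt a
  have h5 : aa a ^ 2 ≤ 1 / 4 := by nlinarith
  have h6 : 0 ≤ aa a ^ 2 := sq_nonneg _
  have e : chi' b - aa b ^ 2 = hh b := by unfold chi'; ring
  rw [e, abs_le]
  constructor <;> linarith

/-- the majorant of `χ` : `c₄ = 3/8`, `a₅ = c₅ = 0`, `e₅ = 9/64` -/
lemma chi_maj (hh2 : ∀ z, hh z < 1 / 2) (z : ℝ) :
    (chi z - chi 0 - 3 / 8 * z) ^ 2 ≤ 0 + 0 * z + 9 / 64 * z ^ 2 := by
  have hd : ∀ t : ℝ, HasDerivAt (fun t => chi t - 3 / 8 * t) (chi' t - 3 / 8) t := fun t => by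
    have h1 := (chi_has t).sub ((hasDerivAt_id t).const_mul (3 / 8))
    have h2 : chi' t - 3 / 8 * 1 = chi' t - 3 / 8 := by ring
    rw [h2] at h1
    exact h1
  have hb : ∀ t : ℝ, |chi' t - 3 / 8| ≤ 3 / 8 := fun t => by
    have h1 := hh_pos t
    have h2 := hh2 t
    have h3 := aa_pos t
    have h4 := aa_lt t
    have h5 : aa t ^ 2 ≤ 1 / 4 := by nlinarith
    have h6 : 0 ≤ aa t ^ 2 := sq_nonneg _
    have e : chi' t = aa t ^ 2 + hh t := rfl
    rw [e, abs_le]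
    constructor <;> linarith
  have h := Convex.norm_image_sub_le_of_norm_hasDerivWithin_le
    (f := fun t => chi t - 3 / 8 * t) (f' := fun t => chi' t - 3 / 8) (C := 3 / 8)
    (s := univ) (fun t _ => (hd t).hasDerivWithinAt) (fun t _ => by
      rw [Real.norm_eq_abs]; exact hb t) convex_univ (mem_univ 0) (mem_univ z)
  rw [Real.norm_eq_abs, Real.norm_eq_abs] at h
  have e : chi z - 3 / 8 * z - (chi 0 - 3 / 8 * 0) = chi z - chi 0 - 3 / 8 * z := by ring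
  rw [e] at h
  have h2 : |chi z - chi 0 - 3 / 8 * z| ^ 2 ≤ (3 / 8 * |z - 0|) ^ 2 :=
    pow_le_pow_left₀ (abs_nonneg _) h 2
  rw [sq_abs, mul_pow, sq_abs] at h2
  nlinarith

/-- **near part on the data** -/
theorem nearD (D : Fin505.Dat G M N V lo hi) (hz : Fin505.Nz M) (hh2 : ∀ z, hh z < 1 / 2)
    {Cy bo bn θ1 θ2 θ3 θ4 : ℝ}
    (hy : ∀ a b, ky H0 aa chi chi' a b ^ 2 ≤ Cy * rho a b) (hC0 : 0 ≤ Cy)
    (hθ1 : 0 < θ1) (hθ2 : 0 < θ2) (hθ3 : 0 < θ3) (hθ4 : 0 < θ4) {b α γ ε : ℝ → ℝ}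
    (hbo : ∀ x, 0 ≤ x → b x ^ 2 ≤ bo ^ 2) (hbn : ∀ x, 0 ≤ x → b x ≤ bn) (hbn0 : 0 ≤ bn)
    (hbx : ∀ x, 0 ≤ x → 0 ≤ b x * (x - 1))
    (hm : ∀ x, 0 ≤ x → ∀ z, α x + γ x * z - ε x * z ^ 2 ≤ hh z) :
    TR (nf b α ε θ1 θ2 θ4 0 (9 / 64)) (MTm (Zf M)) - PW (nu b (3 / 8) (1 / 2) bo θ1 θ3) (Zf M) -
      HW (nh b ε θ4 (9 / 64) (3 / 8)) (Zf M) -
      (Cy / (2 * θ2) + 13 / 2000 / θ3 + bn * (13 / 500)) * EE (Slk M N) ≤
      Lam FF H0 aa (Zf M) (_root_.cfc b (MTm (Zf M))) :=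
  nearR (mfZ D) (fun i j => hz i j) (χ := chi) (χ1 := chi') (c := 1 / 8) (c3 := chi 0) (c5 := 0)
    (fun z _ => H0_has z) aa_cont.continuousOn
    (fun z _ => chi_has z) chi'_cont.continuousOn (fun z _ => FF_eq z)
    (fun z _ => by unfold chi'; ring) (cgS D) (hSl D)
    (fun a _ b _ => hy a b) (fun a _ b _ => KI718.kw_num a b) (fun a _ b _ => KI718.ke_num a b)
    (fun a _ b _ => rho38 hh2 a b)
    (fun a _ => by
      rw [abs_of_pos (aa_pos a)]; exact (aa_lt a).le)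
    (fun z _ => chi_maj hh2 z) hC0 (by norm_num) (by norm_num) hθ1 hθ2 hθ3 hθ4
    hbo hbn hbn0 hbx hm

/-- `|v(x) - x/4 - (v(y) - y/4)| ≤ |x - y|/4` -/
lemma lip_v (x y : ℝ) : |(H0 x - 1 / 4 * x) - (H0 y - 1 / 4 * y)| ≤ 1 / 4 * |x - y| := by
  have hd : ∀ t : ℝ, HasDerivAt (fun t => H0 t - 1 / 4 * t) (aa t - 1 / 4) t := fun t => by
    have h1 := (H0_has t).sub ((hasDerivAt_id t).const_mul (1 / 4))
    have h2 : aa t - 1 / 4 * 1 = aa t - 1 / 4 := by ring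
    rw [h2] at h1
    exact h1
  have h := Convex.norm_image_sub_le_of_norm_hasDerivWithin_le
    (f := fun t => H0 t - 1 / 4 * t) (f' := fun t => aa t - 1 / 4) (C := 1 / 4)
    (s := univ) (fun t _ => (hd t).hasDerivWithinAt) (fun t _ => by
      rw [Real.norm_eq_abs]; exact abs_wq_le t) convex_univ (mem_univ y) (mem_univ x)
  rw [Real.norm_eq_abs, Real.norm_eq_abs] at h
  exact h

lemma FF_cont : Continuous FF := cont_F0

/-- **far part on the data** -/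
theorem farD (D : Fin505.Dat G M N V lo hi) (hz : Fin505.Nz M) {a c e bo bn ep th th1 : ℝ}
    (hF2 : ∀ z, a + c * z - e * z ^ 2 ≤ FF z - 3 / 2 * (z * H0 z))
    (hep : 0 < ep) (hth : 0 < th) (hth1 : 0 < th1) {b : ℝ → ℝ}
    (hb0 : ∀ x, 0 ≤ x → 0 ≤ b x) (hbo : ∀ x, 0 ≤ x → b x ^ 2 ≤ bo ^ 2)
    (hbn : ∀ x, 0 ≤ x → b x ≤ bn) (hbn0 : 0 ≤ bn) :
    TR (ff b a e (1 / 4) ep th th1) (MTm (Zf M)) - PW (fu b (1 / 4) ep th) (Zf M) -
      HW (fh b e (1 / 4) th th1) (Zf M) -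
      (1 + 1 / ep) * (13 / 500) * (bn + bo ^ 2 / (4 * th)) * EE (Slk M N) ≤
      Lam FF H0 aa (Zf M) (_root_.cfc b (MTm (Zf M))) := by
  have hZ := mfZ D
  have h0 : ∀ i j, EE (Zf M i j) = 0 := fun i j => hz i j
  have hS := (ts hZ).herm
  have hP := (ts hZ).psd
  have h1 := EO629.eo_ge hZ FF_cont.continuousOn (fun z _ => H0_has z) aa_cont.continuousOn
    (T := Tm (Zf M)) (fun k => LamI301.Tm_t hZ k) (fun k => rfl) (LamI301.EM_ζ h0) (cgS D)
    (hSl D) (κ := 1 / 4) (ε := ep) (θ := th) (θ1 := th1) (bo := bo) (bn := bn)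
    (fun p _ q _ => KI718.ke_num p q) (fun z _ => abs_wq_le z) lip_v
    (fun z => Odd451.go_nonneg z) (fun z _ => hF2 z) (by norm_num) hep hth hth1
    (b := _root_.cfc b (MTm (Zf M))) (psd_cfc hS fun x hx => hb0 x (spec_nonneg hP hx))
    (fun X => hs_cfc_le hS (fun x hx => hbo x (spec_nonneg hP hx)) X)
    (fun X => tr_le_const hP hbn X) hbn0
  refine farR_of hZ h0 (le_trans (le_of_eq ?_) h1)
  have e0 : ∑ k, Tm (Zf M) k * Tm (Zf M) k = MTm (Zf M) := rfl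
  rw [e0]
  ring

/-- **loss on the data** -/
theorem lossD (D : Fin505.Dat G M N V lo hi) (hz : Fin505.Nz M) {A r : ℝ → ℝ} {K1 Am q0 q1 : ℝ}
    (hA : ∀ x, 0 ≤ x → 0 ≤ A x) (hAm : ∀ x, 0 ≤ x → A x ≤ Am) (hAm0 : 0 ≤ Am) (hK0 : 0 ≤ K1)
    (hK : ∀ x, 0 ≤ x → A x * r x ^ 2 * x ≤ K1) (hq0 : 0 < q0) (hq1 : 0 < q1)
    (hq : q0 + q1 = 1) :
    LossF M A r ≤ TR (gf A r (1 / 8) q0) (MTm (Zf M)) + PW (gu A (1 / 8) q0 K1) (Zf M) +
      HW (gh A q0) (Zf M) +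
      1 / q1 * (Am * (13 / 500) + K1 * (3 / 400)) * EE (Slk M N) := by
  have hZ := mfZ D
  have h0 : ∀ i j, EE (Zf M i j) = 0 := fun i j => hz i j
  have hP := (ts hZ).psd
  have hv : ∀ x ∈ Icc (zf lo) (zf hi), HasDerivAt H0 (wq x + 1 / 4) x := fun x _ => by
    have e : wq x + 1 / 4 = aa x := by unfold wq; ring
    rw [e]; exact H0_has x
  have hk1 : ∀ a b : ℝ, (dd1 H0 (fun t => wq t + 1 / 4) a b - (fun t => wq t + 1 / 4) b) ^ 2 ≤
      13 / 500 * rho a b := fun a b => by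
    rw [wq_add]; exact KI718.ke_num a b
  have hk2 : ∀ a b : ℝ, (dd1 wq bb2 a b - bb2 b) ^ 2 ≤ 3 / 400 * rho a b := fun a b => by
    have e : dd1 wq bb2 a b = dd1 aa bb2 a b := by
      unfold dd1 wq
      split_ifs
      · rfl
      · congr 1; ring
    rw [e]; exact PairK37.ks_rho' a b
  have h1 := DualR862.dualR hZ h0 hv (fun x _ => wq_has x) wq_cont.continuousOn
    bb2_cont.continuousOn (lam := 1 / 8) (by norm_num)
    (fun x _ => by
      have := HSc741.bb2_sq_le x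
      have e : aa x * (1 / 2 - aa x) = 1 / 16 - wq x ^ 2 := by unfold wq; ring
      rwa [e] at this)
    (U := Uf M) (fun i j x => congrFun (congrFun (LamI301.Mx_U D.mf x) i) j)
    (CC A (MTm (Zf M))) (_root_.cfc r (MTm (Zf M))) (Pn := Am) (K1 := K1)
    (hs_CC_le hP hA hAm) hAm0 hK0 ((ts hZ).lossK hA hK0 hK) (cgS D)
    (sum_KR_le D (by norm_num) hk1) (sum_KR_le D (by norm_num) hk2) hq0 hq1 hq
  refine lossR_of hZ hA (k := 1 / q1 * (Am * (13 / 500) + K1 * (3 / 400))) ?_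
  refine le_trans h1 (le_of_eq ?_)
  ring

end Crest.Agent.R253.Main321
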