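import Crest.Agent.R253.Join_812
import Crest.Agent.R253.Bud_812
import Crest.Agent.R253.HPT_741
import Crest.Agent.R253.L7c_167

/-!
# R253: `MainQ n` (helper812): the join at the frozen table
-/

set_option autoImplicit false

noncomputable section

namespace Crest.Agent.R253.Main812

open Crest.Agent.R253.TabF167

/-- **`MainQ n`** -/
theorem mainQ (n : ℕ) : Fin505.MainQ n :=
  Join812.mainQ_of_table (A := A) (b1 := b1) (b2 := b2) (r := r) (α := al) (γ := HPT741.ga)
    (ε := ep) (Φ := Phi) (c := 1 / 200) (bo := 3 / 20) (bn := 3 / 20) (θ1 := 3 / 4)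
    (θ2 := 3 / 20) (θ3 := 3 / 20) (θ4 := 7 / 2) (a := 555 / 1000) (c2 := -(146 / 1000))
    (e := 6 / 1000) (bo2 := 21 / 25) (bn2 := 21 / 25) (ep := 1 / 5) (th := 11 / 25)
    (th1 := 5 / 16) (Am := 53 / 50) (K1 := 12 / 5) (q0 := 20 / 23) (q1 := 3 / 23)
    (by norm_num) (fun _ _ => Bud812.A_pos) (fun x _ => Bud812.A_eq x)
    (by norm_num) (by norm_num) (by norm_num) (by norm_num)
    (fun _ hx => Bud812.b1_sq hx) (fun _ _ => Bud812.b1_le) (by norm_num)
    (fun _ _ => Bud812.b1_x) HPT741.hm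
    (by norm_num) (by norm_num) (by norm_num)
    (fun _ _ => Bud812.b2_nonneg) (fun _ _ => Bud812.b2_sq) (fun _ _ => Bud812.b2_le)
    (by norm_num) F2n711.hF2_555
    (fun _ hx => Bud812.A_le hx) (fun _ hx => Bud812.A_K hx)
    (by norm_num) (by norm_num) (by norm_num) Bud812.budS
    (fun _ hx => Bud812.budP hx) (fun _ hx => Bud812.budH hx)
    (fun x hx => L7x167.mg_le x hx) (fun x hx => L7x167.hPhi_comb x hx)

end Crest.Agent.R253.Main812
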