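import Mathlib

set_option autoImplicit false

open MeasureTheory Set Filter Topology

namespace Crest.Agent.R253.Mills930

/-- the Gaussian weight -/
noncomputable def w (x : ℝ) : ℝ := Real.exp (-(1/2) * x ^ 2)

lemma w_pos (x : ℝ) : 0 < w x := Real.exp_pos _

lemma w_cont : Continuous w := by unfold w; fun_prop

lemma w_int : Integrable w := integrable_exp_neg_mul_sq (by norm_num)

lemma w_deriv (x : ℝ) : HasDerivAt w (-x * w x) x := by
  have h : HasDerivAt (fun x : ℝ => -(1/2) * x ^ 2) (-(1/2) * (2 * x)) x := by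
    simpa using (hasDerivAt_pow 2 x).const_mul (-(1/2) : ℝ)
  exact (h.exp).congr_deriv (by unfold w; ring)

/-- Gaussian tail integral. -/
noncomputable def T (z : ℝ) : ℝ := ∫ x in Ioi z, w x

lemma T_eq (z : ℝ) : T z = T 0 - ∫ x in (0:ℝ)..z, w x := by
  have := intervalIntegral.integral_interval_add_Ioi (f := w) (μ := volume) (a := 0) (b := z)
    w_int.integrableOn w_int.integrableOn
  unfold T
  linarith

lemma T_deriv (z : ℝ) : HasDerivAt T (-w z) z := by
  have h1 : HasDerivAt (fun z => ∫ x in (0:ℝ)..z, w x) (w z) z :=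
    intervalIntegral.integral_hasDerivAt_right (w_int.intervalIntegrable)
      (w_cont.stronglyMeasurableAtFilter _ _) w_cont.continuousAt
  have h2 : T = fun z => T 0 - ∫ x in (0:ℝ)..z, w x := by
    funext z; exact T_eq z
  rw [h2]
  exact (h1.const_sub (T 0))

lemma T_pos (z : ℝ) : 0 < T z := by
  unfold T
  rw [setIntegral_pos_iff_support_of_nonneg_ae]
  · have : Function.support w = univ := by
      ext x; simp [Function.mem_support, (w_pos x).ne']
    rw [this, univ_inter]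
    simp
  · exact Eventually.of_forall fun x => (w_pos x).le
  · exact w_int.integrableOn

lemma T_tendsto : Tendsto T atTop (𝓝 0) := by
  have h1 : Tendsto (fun z => ∫ x in (0:ℝ)..z, w x) atTop (𝓝 (∫ x in Ioi (0:ℝ), w x)) :=
    intervalIntegral_tendsto_integral_Ioi 0 w_int.integrableOn tendsto_id
  have h2 : T = fun z => T 0 - ∫ x in (0:ℝ)..z, w x := by
    funext z; exact T_eq z
  rw [h2]
  have : Tendsto (fun z => T 0 - ∫ x in (0:ℝ)..z, w x) atTop (𝓝 (T 0 - ∫ x in Ioi (0:ℝ), w x)) :=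
    tendsto_const_nhds.sub h1
  simpa [T] using this

/-- Mills ratio. -/
noncomputable def M (z : ℝ) : ℝ := T z / w z

lemma M_pos (z : ℝ) : 0 < M z := div_pos (T_pos z) (w_pos z)

lemma M_deriv (z : ℝ) : HasDerivAt M (z * M z - 1) z := by
  have h := (T_deriv z).div (w_deriv z) (w_pos z).ne'
  refine h.congr_deriv ?_
  have := (w_pos z).ne'
  unfold M
  field_simp
  ring

/-- hazard function -/
noncomputable def r (z : ℝ) : ℝ := (M z)⁻¹

lemma r_pos (z : ℝ) : 0 < r z := inv_pos.mpr (M_pos z)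

noncomputable def m (z : ℝ) : ℝ := r z - z

lemma r_deriv (z : ℝ) : HasDerivAt r (r z * m z) z := by
  have h := (M_deriv z).inv (M_pos z).ne'
  refine h.congr_deriv ?_
  have := (M_pos z).ne'
  simp only [m, r]
  field_simp
  ring

lemma m_deriv (z : ℝ) : HasDerivAt m (r z * m z - 1) z := (r_deriv z).sub (hasDerivAt_id z)

/-- comparison of the Mills ratio with a rational function, upper bound -/
lemma T_le_of {φ φ' : ℝ → ℝ} {a : ℝ} (hd : ∀ z, a ≤ z → HasDerivAt φ (φ' z) z)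
    (hlim : Tendsto (fun z => φ z * w z) atTop (𝓝 0))
    (h : ∀ z, a ≤ z → 0 ≤ z * φ z - φ' z - 1) (z : ℝ) (hz : a ≤ z) : M z ≤ φ z := by
  -- D = T - φ w is monotone on [a,∞) with limit 0
  have hD : ∀ x, a ≤ x → HasDerivAt (fun x => T x - φ x * w x)
      (w x * (x * φ x - φ' x - 1)) x := by
    intro x hx
    exact ((T_deriv x).sub ((hd x hx).mul (w_deriv x))).congr_deriv (by ring)
  have hmono : MonotoneOn (fun x => T x - φ x * w x) (Ici a) := by
    apply monotoneOn_of_deriv_nonneg (convex_Ici a)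
    · intro x hx; exact (hD x hx).continuousAt.continuousWithinAt
    · intro x hx; rw [interior_Ici] at hx
      exact (hD x (le_of_lt hx)).differentiableAt.differentiableWithinAt
    · intro x hx; rw [interior_Ici] at hx
      rw [(hD x (le_of_lt hx)).deriv]
      exact mul_nonneg (w_pos x).le (h x (le_of_lt hx))
  have hl : Tendsto (fun x => T x - φ x * w x) atTop (𝓝 0) := by
    simpa using T_tendsto.sub hlim
  have : T z - φ z * w z ≤ 0 := by
    apply ge_of_tendsto hl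
    filter_upwards [eventually_ge_atTop z] with x hx
    exact hmono hz (le_trans hz hx) hx
  unfold M
  rw [div_le_iff₀ (w_pos z)]
  linarith

lemma T_ge_of {φ φ' : ℝ → ℝ} {a : ℝ} (hd : ∀ z, a ≤ z → HasDerivAt φ (φ' z) z)
    (hlim : Tendsto (fun z => φ z * w z) atTop (𝓝 0))
    (h : ∀ z, a ≤ z → z * φ z - φ' z - 1 ≤ 0) (z : ℝ) (hz : a ≤ z) : φ z ≤ M z := by
  have hD : ∀ x, a ≤ x → HasDerivAt (fun x => T x - φ x * w x)
      (w x * (x * φ x - φ' x - 1)) x := by
    intro x hx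
    exact ((T_deriv x).sub ((hd x hx).mul (w_deriv x))).congr_deriv (by ring)
  have hmono : AntitoneOn (fun x => T x - φ x * w x) (Ici a) := by
    apply antitoneOn_of_deriv_nonpos (convex_Ici a)
    · intro x hx; exact (hD x hx).continuousAt.continuousWithinAt
    · intro x hx; rw [interior_Ici] at hx
      exact (hD x (le_of_lt hx)).differentiableAt.differentiableWithinAt
    · intro x hx; rw [interior_Ici] at hx
      rw [(hD x (le_of_lt hx)).deriv]
      exact mul_nonpos_of_nonneg_of_nonpos (w_pos x).le (h x (le_of_lt hx))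
  have hl : Tendsto (fun x => T x - φ x * w x) atTop (𝓝 0) := by
    simpa using T_tendsto.sub hlim
  have : 0 ≤ T z - φ z * w z := by
    apply le_of_tendsto hl
    filter_upwards [eventually_ge_atTop z] with x hx
    exact hmono hz (le_trans hz hx) hx
  unfold M
  rw [le_div_iff₀ (w_pos z)]
  linarith

lemma w_tendsto : Tendsto w atTop (𝓝 0) := by
  have h1 : Tendsto (fun x : ℝ => (1/2) * x ^ 2) atTop atTop :=
    (tendsto_pow_atTop (by norm_num)).const_mul_atTop (by norm_num)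
  have h2 : Tendsto (fun x : ℝ => -((1/2) * x ^ 2)) atTop atBot :=
    tendsto_neg_atTop_atBot.comp h1
  have h3 := Real.tendsto_exp_atBot.comp h2
  refine h3.congr ?_
  intro x
  simp only [Function.comp, w]
  congr 1
  ring

/-- asymptotic partial sums -/
noncomputable def φ4 (z : ℝ) : ℝ := 1/z - 1/z^3 + 3/z^5 - 15/z^7
noncomputable def φ5 (z : ℝ) : ℝ := 1/z - 1/z^3 + 3/z^5 - 15/z^7 + 105/z^9

lemma φ4_deriv (z : ℝ) (hz : 1 ≤ z) :
    HasDerivAt φ4 (-1/z^2 + 3/z^4 - 15/z^6 + 105/z^8) z := by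
  have h0 : z ≠ 0 := by positivity
  have h1 : HasDerivAt (fun z : ℝ => z⁻¹ - (z^3)⁻¹ + 3 * (z^5)⁻¹ - 15 * (z^7)⁻¹)
      (-(z^2)⁻¹ - (-(3 * z^2) / (z^3)^2) + 3 * (-(5 * z^4) / (z^5)^2)
        - 15 * (-(7 * z^6) / (z^7)^2)) z := by
    have a1 := hasDerivAt_inv h0
    have a3 := (hasDerivAt_pow 3 z).inv (pow_ne_zero 3 h0)
    have a5 := ((hasDerivAt_pow 5 z).inv (pow_ne_zero 5 h0)).const_mul 3
    have a7 := ((hasDerivAt_pow 7 z).inv (pow_ne_zero 7 h0)).const_mul 15
    exact (((a1.sub a3).add a5).sub a7).congr_deriv (by norm_num)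
  have h2 : φ4 = (fun z : ℝ => z⁻¹ - (z^3)⁻¹ + 3 * (z^5)⁻¹ - 15 * (z^7)⁻¹) := by
    funext x; unfold φ4; simp only [one_div, div_eq_mul_inv]
    ring
  rw [h2]
  refine h1.congr_deriv ?_
  field_simp
  ring

lemma φ5_deriv (z : ℝ) (hz : 1 ≤ z) :
    HasDerivAt φ5 (-1/z^2 + 3/z^4 - 15/z^6 + 105/z^8 - 945/z^10) z := by
  have h0 : z ≠ 0 := by positivity
  have h1 : HasDerivAt (fun z : ℝ => φ4 z + 105 * (z^9)⁻¹)
      ((-1/z^2 + 3/z^4 - 15/z^6 + 105/z^8) + 105 * (-(9 * z^8) / (z^9)^2)) z := by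
    have a9 := ((hasDerivAt_pow 9 z).inv (pow_ne_zero 9 h0)).const_mul 105
    exact (φ4_deriv z hz).add (by simpa using a9)
  have h2 : φ5 = (fun z : ℝ => φ4 z + 105 * (z^9)⁻¹) := by
    funext x; unfold φ5 φ4; simp only [one_div, div_eq_mul_inv]
  rw [h2]
  refine h1.congr_deriv ?_
  field_simp
  ring

lemma φ_bdd_lim {φ : ℝ → ℝ} (h : Tendsto φ atTop (𝓝 0)) :
    Tendsto (fun z => φ z * w z) atTop (𝓝 0) := by
  simpa using h.mul w_tendsto

lemma inv_pow_tendsto (n : ℕ) (hn : n ≠ 0) : Tendsto (fun z : ℝ => (z^n)⁻¹) atTop (𝓝 0) :=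
  (tendsto_pow_atTop hn).inv_tendsto_atTop

lemma φ4_lim : Tendsto φ4 atTop (𝓝 0) := by
  have h := (((inv_pow_tendsto 1 (by norm_num)).sub (inv_pow_tendsto 3 (by norm_num))).add
    ((inv_pow_tendsto 5 (by norm_num)).const_mul 3)).sub
    ((inv_pow_tendsto 7 (by norm_num)).const_mul 15)
  have h2 : φ4 = (fun z : ℝ => (z^1)⁻¹ - (z^3)⁻¹ + 3 * (z^5)⁻¹ - 15 * (z^7)⁻¹) := by
    funext x; unfold φ4; simp only [one_div, div_eq_mul_inv]
    ring
  rw [h2]; simpa using h

lemma φ5_lim : Tendsto φ5 atTop (𝓝 0) := by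
  have h := φ4_lim.add ((inv_pow_tendsto 9 (by norm_num)).const_mul 105)
  have h2 : φ5 = (fun z : ℝ => φ4 z + 105 * (z^9)⁻¹) := by
    funext x; unfold φ5 φ4; simp only [one_div, div_eq_mul_inv]
  rw [h2]; simpa using h

lemma M_ge (z : ℝ) (hz : 1 ≤ z) : φ4 z ≤ M z := by
  apply T_ge_of (a := 1) φ4_deriv (φ_bdd_lim φ4_lim) _ z hz
  intro x hx
  have : x * φ4 x - (-1/x^2 + 3/x^4 - 15/x^6 + 105/x^8) - 1 = -105/x^8 := by
    unfold φ4
    have h0 : x ≠ 0 := by positivity
    field_simp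
    ring
  rw [this]
  have : 0 < x := by linarith
  rw [neg_div]
  simp only [Left.neg_nonpos_iff]
  positivity

lemma M_le (z : ℝ) (hz : 1 ≤ z) : M z ≤ φ5 z := by
  apply T_le_of (a := 1) φ5_deriv (φ_bdd_lim φ5_lim) _ z hz
  intro x hx
  have : x * φ5 x - (-1/x^2 + 3/x^4 - 15/x^6 + 105/x^8 - 945/x^10) - 1 = 945/x^10 := by
    unfold φ5
    have h0 : x ≠ 0 := by positivity
    field_simp
    ring
  rw [this]
  have : 0 < x := by linarith
  positivity

end Crest.Agent.R253.Mills930
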