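import Crest.Agent.R253.TrI_80
import Crest.Agent.R253.ErrT_378

/-!
# Row 253: the near part and the main term in one real variable (helper80)

* `SW_rows`: `E tr β(S) g(ζ) ≥ tr (β (a - e x))(S) - E tr (β e)(S) ηη` for row dependent minorants
  `a(x) + c(x) z - e(x) z² ≤ g(z)`.
* `lam_ge_R`: 378's `lam_ge` for `b = b₁(S)`.
-/

set_option autoImplicit false

open MeasureTheory ProbabilityTheory Set Filter Topology Matrix
open scoped ContDiff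

noncomputable section

namespace Crest.Agent.R253.TrC80

open Crest.Agent.R238.Gap Crest.Agent.R253.SpecCalc999 Crest.Agent.R253.Meh74
  Crest.Agent.R253.SpecField321 Crest.Agent.R253.S3 Crest.Agent.R253.LamB301
  Crest.Agent.R253.LamI301
open Crest.Agent.R253.DualP973 (Tm ef Lx MTm Mx_eq dk_eq c1_ef)
open Crest.Agent.R253.ErrT378 (Lam lam_ge)
open Crest.Agent.R253.Stein378 (ky)

variable {n : ℕ} {ζ : Fld n} {lo hi : ℝ}

/-! ### second moments, any sign -/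

lemma SW_sub_b (hζ : MF ζ lo hi) (b c : ℝ → ℝ) {g : ℝ → ℝ} (hg : ContinuousOn g (Icc lo hi)) :
    SW (fun x => b x - c x) g ζ = SW b g ζ - SW c g ζ := by
  have h := SW_add_b hζ (fun x => b x - c x) c hg
  simp only [sub_add_cancel] at h
  linarith

/-- `E tr b(S) ζ² = tr (x b)(S) + E tr b(S) ηηᵀ`, `b` of any sign -/
theorem SW_sq' (hζ : MF ζ lo hi) (h0 : ∀ i j, EE (ζ i j) = 0) (b : ℝ → ℝ) :
    SW b (fun z => z ^ 2) ζ = TR (fun x => b x * x) (MTm ζ) + HW b ζ := by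
  have e : b = fun x => max (b x) 0 - max (-b x) 0 := by
    funext x
    rcases le_total 0 (b x) with h | h
    · rw [max_eq_left h, max_eq_right (by linarith)]; ring
    · rw [max_eq_right h, max_eq_left (by linarith)]; ring
  have hp := SW_sq hζ h0 (b := fun x => max (b x) 0) fun x _ => le_max_right _ _
  have hm := SW_sq hζ h0 (b := fun x => max (-b x) 0) fun x _ => le_max_right _ _
  have hc : ContinuousOn (fun z : ℝ => z ^ 2) (Icc lo hi) := (continuous_pow 2).continuousOn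
  have h1 := SW_sub_b hζ (fun x => max (b x) 0) (fun x => max (-b x) 0) hc
  have h2 := HW_sub hζ (fun x => max (b x) 0) (fun x => max (-b x) 0)
  have h3 := TR_sub (ts hζ).herm (fun x => max (b x) 0 * x) (fun x => max (-b x) 0 * x)
  rw [← e] at h1 h2
  have e2 : (fun x => max (b x) 0 * x - max (-b x) 0 * x) = fun x => b x * x := by
    funext x
    rw [← sub_mul]
    congr 1
    exact (congrFun e x).symm
  rw [e2] at h3
  rw [h1, hp, hm, h2, h3]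
  ring

lemma tr_rows {S Z : Mat n} (hS : S.PosSemidef) (hZ : Z.IsHermitian) {β a c e g : ℝ → ℝ}
    (hβ : ∀ x, 0 ≤ x → 0 ≤ β x)
    (h : ∀ x, 0 ≤ x → ∀ z ∈ spectrum ℝ Z, a x + c x * z - e x * z ^ 2 ≤ g z) :
    TR (fun x => β x * a x) S + (_root_.cfc (fun x => β x * c x) S *
      _root_.cfc (fun z : ℝ => z) Z).trace -
      (_root_.cfc (fun x => β x * e x) S * _root_.cfc (fun z : ℝ => z ^ 2) Z).trace ≤
      (_root_.cfc β S * _root_.cfc g Z).trace := by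
  obtain ⟨U, hU⟩ := exists_fr hS.isHermitian
  rw [TR_frame hU, tr_mul_frame hU, tr_mul_frame hU, tr_mul_frame hU, ← Finset.sum_add_distrib,
    ← Finset.sum_sub_distrib]
  refine Finset.sum_le_sum fun i _ => ?_
  set s := hS.isHermitian.eigenvalues i with hs
  have hs0 : 0 ≤ s := spec_nonneg hS (hU.mem_spec i)
  have hp : (_root_.cfc (fun z => g z - (a s + c s * z - e s * z ^ 2)) Z).PosSemidef :=
    psd_cfc hZ fun z hz => by have := h s hs0 z hz; linarith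
  have e1 : _root_.cfc (fun z => g z - (a s + c s * z - e s * z ^ 2)) Z =
      _root_.cfc g Z - (a s • (1 : Mat n) + c s • _root_.cfc (fun z : ℝ => z) Z -
        e s • _root_.cfc (fun z : ℝ => z ^ 2) Z) := by
    rw [← cfc_one' hZ, cfc_smul' hZ, cfc_smul' hZ, cfc_smul' hZ, cfc_add' hZ, cfc_sub' hZ,
      cfc_sub' hZ]
    simp only [mul_one]
  have h2 := hp.conjTranspose_mul_mul_same U
  rw [conjTranspose_eq_transpose_of_trivial] at h2
  have h3 : 0 ≤ (Uᵀ * _root_.cfc (fun z => g z - (a s + c s * z - e s * z ^ 2)) Z * U) i i :=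
    h2.diag_nonneg
  have e2 : Uᵀ * (_root_.cfc g Z - (a s • (1 : Mat n) + c s • _root_.cfc (fun z : ℝ => z) Z -
        e s • _root_.cfc (fun z : ℝ => z ^ 2) Z)) * U =
      Uᵀ * _root_.cfc g Z * U - (a s • (1 : Mat n) + c s • (Uᵀ * _root_.cfc (fun z : ℝ => z) Z * U) -
        e s • (Uᵀ * _root_.cfc (fun z : ℝ => z ^ 2) Z * U)) := by
    simp only [Matrix.mul_sub, Matrix.sub_mul, Matrix.mul_add, Matrix.add_mul, Matrix.mul_smul,
      Matrix.smul_mul, Matrix.mul_one, hU.o]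
  rw [e1, e2] at h3
  simp only [Matrix.sub_apply, Matrix.add_apply, Matrix.smul_apply, smul_eq_mul,
    Matrix.one_apply_eq, mul_one] at h3
  have h4 := mul_nonneg (hβ s hs0) h3
  nlinarith [h4]

/-- **main term with row dependent quadratic minorants** -/
theorem SW_rows (hζ : MF ζ lo hi) (h0 : ∀ i j, EE (ζ i j) = 0) {β a c e g : ℝ → ℝ}
    (hg : ContinuousOn g (Icc lo hi)) (hβ : ∀ x, 0 ≤ x → 0 ≤ β x)
    (h : ∀ x, 0 ≤ x → ∀ z ∈ Icc lo hi, a x + c x * z - e x * z ^ 2 ≤ g z) :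
    TR (fun x => β x * a x) (MTm ζ) - TR (fun x => β x * e x * x) (MTm ζ) -
      HW (fun x => β x * e x) ζ ≤ SW β g ζ := by
  have hc : ContinuousOn (fun z : ℝ => z ^ 2) (Icc lo hi) := (continuous_pow 2).continuousOn
  have hi' : ContinuousOn (fun z : ℝ => z) (Icc lo hi) := continuousOn_id
  have h1 : EE (fun x => TR (fun x => β x * a x) (MTm ζ) +
      (_root_.cfc (fun x => β x * c x) (MTm ζ) * _root_.cfc (fun z : ℝ => z) (Mx ζ x)).trace -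
      (_root_.cfc (fun x => β x * e x) (MTm ζ) *
        _root_.cfc (fun z : ℝ => z ^ 2) (Mx ζ x)).trace) ≤ SW β g ζ :=
    EE_mono (((cg_const _).add (cg_SW hζ _ hi')).sub (cg_SW hζ _ hc)) (cg_SW hζ β hg) fun x =>
      tr_rows (ts hζ).psd (hζ.h x) hβ fun y hy z hz => h y hy z (hζ.s x hz)
  rw [EE_sub ((cg_const _).add (cg_SW hζ _ hi')) (cg_SW hζ _ hc),
    EE_add (cg_const _) (cg_SW hζ _ hi'), EE_const] at h1
  have h2 := SW_id hζ h0 (fun x => β x * c x)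
  have h3 := SW_sq' hζ h0 (fun x => β x * e x)
  unfold SW at h1 h2 h3 ⊢
  linarith

/-! ### 378's bound for `b = b₁(S)` -/

lemma pk_t (hζ : MF ζ lo hi) (k : Fin n) (x : E n) :
    (Mx (dk k (ef ζ)) x)ᵀ = Mx (dk k (ef ζ)) x := by
  rw [Mx_dk_ef hζ]
  unfold pk
  rw [Matrix.transpose_sub, dZ_t hζ, Tm_t hζ]

lemma ef_t (hζ : MF ζ lo hi) (h0 : ∀ i j, EE (ζ i j) = 0) (x : E n) :
    (Mx (ef ζ) x)ᵀ = Mx (ef ζ) x := by
  rw [Mx_ef h0]
  exact ErrT378.eta0_t hζ (fun k => Tm_t hζ k) x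

theorem lam_ge_R (hζ : MF ζ lo hi) (h0 : ∀ i j, EE (ζ i j) = 0) {v v1 χ χ1 F h : ℝ → ℝ}
    (hv : ∀ z ∈ Icc lo hi, HasDerivAt v (v1 z) z) (hv1 : ContinuousOn v1 (Icc lo hi))
    (hχ : ∀ z ∈ Icc lo hi, HasDerivAt χ (χ1 z) z) (hχ1 : ContinuousOn χ1 (Icc lo hi))
    (hF : ∀ z ∈ Icc lo hi, F z = 1 + z * χ z - χ1 z + v1 z ^ 2)
    (hh : ∀ z ∈ Icc lo hi, χ1 z - v1 z ^ 2 = h z)
    {sl : ℝ → ℝ → ℝ} {Sl : E n → ℝ} (cSl : CG Sl)
    (hSl : ∀ x, ∃ U s, Fr (Mx ζ x) U s ∧ ∑ k, Jord192.slk sl U s (S3.dZ ζ k x) ≤ Sl x)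
    {Cy Cw Ce c ρ κ bo bn θ1 θ2 θ3 θ4 c3 c4 a5 c5 e5 : ℝ}
    (hy : ∀ a ∈ Icc lo hi, ∀ b ∈ Icc lo hi, ky v v1 χ χ1 a b ^ 2 ≤ Cy * sl a b)
    (hw : ∀ a ∈ Icc lo hi, ∀ b ∈ Icc lo hi, (v1 a * (dd1 v v1 b a - v1 a)) ^ 2 ≤ Cw * sl a b)
    (he : ∀ a ∈ Icc lo hi, ∀ b ∈ Icc lo hi, (dd1 v v1 a b - v1 b) ^ 2 ≤ Ce * sl a b)
    (hρ : ∀ a ∈ Icc lo hi, ∀ b ∈ Icc lo hi, |χ1 b - v1 b ^ 2 - v1 a ^ 2 - c| ≤ ρ)
    (hκ : ∀ a ∈ Icc lo hi, |v1 a| ≤ κ)
    (hg : ∀ z ∈ Icc lo hi, (χ z - c3 - c4 * z) ^ 2 ≤ a5 + c5 * z + e5 * z ^ 2)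
    (hC0 : 0 ≤ Cy) (hC1 : 0 ≤ Cw) (hC2 : 0 ≤ Ce)
    (hθ1 : 0 < θ1) (hθ2 : 0 < θ2) (hθ3 : 0 < θ3) (hθ4 : 0 < θ4) {b : ℝ → ℝ}
    (hbo : ∀ x, 0 ≤ x → b x ^ 2 ≤ bo ^ 2) (hbn : ∀ x, 0 ≤ x → b x ≤ bn) (hbn0 : 0 ≤ bn) :
    TR b (MTm ζ) + SW (fun x => b x * (x - 1)) h ζ -
      (θ1 / 2 + θ2 / 2) * TR (fun x => b x ^ 2 * x) (MTm ζ) -
      (ρ ^ 2 / (2 * θ1) + θ3 * bo ^ 2) * PW (fun _ => 1) ζ -
      κ ^ 2 * PW (fun x => max (b x) 0) ζ -
      (Cy / (2 * θ2) + Cw / θ3 + bn * Ce) * EE Sl -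
      (θ4 / 2 * (a5 * TR (fun x => b x ^ 2) (MTm ζ) + e5 * (TR (fun x => b x ^ 2 * x) (MTm ζ) +
        HW (fun x => b x ^ 2) ζ)) + 1 / (2 * θ4) * HW (fun _ => 1) ζ) +
      c4 * HW b ζ ≤ Lam F v v1 ζ (_root_.cfc b (MTm ζ)) := by
  have hS := (ts hζ).herm
  have hP := (ts hζ).psd
  have e0 : ∑ k, Tm ζ k * Tm ζ k = MTm ζ := rfl
  have h1 := lam_ge hζ hv hv1 hχ hχ1 hF (T := Tm ζ) (fun k => Tm_t hζ k) (fun k => rfl)
    (EM_ζ h0) cSl hSl hy hw he hρ hκ hg hC0 hC1 hC2 hθ1 hθ2 hθ3 hθ4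
    (b := _root_.cfc b (MTm ζ)) (Q := _root_.cfc (fun x => max (b x) 0) (MTm ζ)) (bo := bo)
    (bn := bn) (cfc_tr hS b) (psd_cfc hS fun x _ => le_max_right _ _) ?_ ?_ ?_ hbn0
  · refine le_trans (le_of_eq ?_) h1
    rw [e0, cfc_mul' hS]
    have a1 : ((_root_.cfc (fun x => b x * b x) (MTm ζ)) * MTm ζ).trace =
        TR (fun x => b x ^ 2 * x) (MTm ζ) := by
      unfold TR
      conv_lhs => rw [show _root_.cfc (fun x => b x * b x) (MTm ζ) * MTm ζ =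
        _root_.cfc (fun x => b x * b x) (MTm ζ) * _root_.cfc (fun x : ℝ => x) (MTm ζ) by
          rw [cfc_id'' hS]]
      rw [cfc_mul' hS]
      simp only [sq]
    have a2 : (_root_.cfc (fun x => b x * b x) (MTm ζ)).trace = TR (fun x => b x ^ 2) (MTm ζ) := by
      unfold TR; simp only [sq]
    have a3 : TE (fun x => _root_.cfc b (MTm ζ) * (MTm ζ - 1) *
        sf (fun z => χ1 z - v1 z ^ 2) ζ x) = SW (fun x => b x * (x - 1)) h ζ := by
      refine EE_congr fun x => ?_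
      have b1 : _root_.cfc b (MTm ζ) * (MTm ζ - 1) =
          _root_.cfc (fun x => b x * (x - 1)) (MTm ζ) := by
        conv_lhs => rw [show MTm ζ - 1 = _root_.cfc (fun x : ℝ => x) (MTm ζ) -
          _root_.cfc (fun _ : ℝ => (1 : ℝ)) (MTm ζ) by rw [cfc_id'' hS, cfc_one' hS]]
        rw [cfc_sub' hS, cfc_mul' hS]
      have b2 : sf (fun z => χ1 z - v1 z ^ 2) ζ x = _root_.cfc h (Mx ζ x) :=
        cfc_congr fun z hz => hh z (hζ.s x hz)
      beta_reduce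
      rw [b1, b2]
    have a4 : ∑ k, EE (fun x => hs (pk ζ (Tm ζ) k x)) = PW (fun _ => 1) ζ := by
      rw [PW_one hζ, EE_sum fun k _ => cg_hs (cgm_p hζ k)]
      exact Finset.sum_congr rfl fun k _ => EE_congr fun x => by rw [Mx_dk_ef hζ]
    have a5' : ∑ k, TE (fun x => _root_.cfc (fun x => max (b x) 0) (MTm ζ) *
        (pk ζ (Tm ζ) k x * pk ζ (Tm ζ) k x)) = PW (fun x => max (b x) 0) ζ := by
      unfold PW TE
      rw [EE_sum fun k _ => ((cgm_const _).mul ((cgm_p hζ k).mul (cgm_tr' (cgm_p hζ k)))).trace]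
      refine Finset.sum_congr rfl fun k _ => EE_congr fun x => ?_
      beta_reduce
      rw [pk_t hζ, Mx_dk_ef hζ]
    have a6 : ∀ w : ℝ → ℝ, TE (fun x => _root_.cfc w (MTm ζ) *
        (eta0 ζ (Tm ζ) x * eta0 ζ (Tm ζ) x)) = HW w ζ := fun w => by
      refine EE_congr fun x => ?_
      beta_reduce
      rw [ef_t hζ h0, Mx_ef h0]
    have a7 : EE (fun x => hs (eta0 ζ (Tm ζ) x)) = HW (fun _ => 1) ζ := by
      rw [HW_one hζ]
      exact EE_congr fun x => by rw [Mx_ef h0]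
    have a8 : HW (fun x => b x * b x) ζ = HW (fun x => b x ^ 2) ζ := by simp only [sq]
    rw [a1, a2, a3, a4, a5', a6, a6, a7, a8]
    rfl
  · rw [cfc_sub' hS]
    exact psd_cfc hS fun x _ => sub_nonneg.2 (le_max_left _ _)
  · intro X
    exact hs_cfc_le hS (fun x hx => hbo x (spec_nonneg hP hx)) X
  · intro X
    have := tr_mul_mono hP (psd_mul_tr X) (f := fun x => max (b x) 0) (g := fun _ => bn)
      fun x hx => max_le (hbn x hx) hbn0
    refine this.trans (le_of_eq ?_)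
    have e9 : _root_.cfc (fun _ : ℝ => bn) (MTm ζ) = bn • (1 : Mat n) := by
      rw [← cfc_one' hS, cfc_smul' hS]; simp
    rw [e9, Matrix.smul_mul, Matrix.one_mul, Matrix.trace_smul, smul_eq_mul, hs_eq']

end Crest.Agent.R253.TrC80
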