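import Mathlib
import Crest.Agent.R332.FullTop

/-!
Row 253, normalisation (helper944): zero of a REAL SYMMETRIC matrix field on the order interval
`{d ≤ K ≤ R}` (Brouwer type theorem).
-/

set_option autoImplicit false

open Set Metric Matrix
open scoped InnerProductSpace

namespace Crest.Agent.R253.Norm944

variable {ι : Type*} [Fintype ι] [DecidableEq ι]

/-- the order interval `{d ≤ K ≤ R}` of real symmetric matrices -/
def Box (ι : Type*) [Fintype ι] (d R : ℝ) : Set (Matrix ι ι ℝ) :=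
  {K | (∀ i j, K i j = K j i) ∧ (∀ w : ι → ℝ, d * (w ⬝ᵥ w) ≤ w ⬝ᵥ (K *ᵥ w)) ∧
    ∀ w : ι → ℝ, w ⬝ᵥ (K *ᵥ w) ≤ R * (w ⬝ᵥ w)}

omit [DecidableEq ι] in
lemma symm_dot {B : Matrix ι ι ℝ} (hB : ∀ i j, B i j = B j i) (x y : ι → ℝ) :
    x ⬝ᵥ (B *ᵥ y) = y ⬝ᵥ (B *ᵥ x) := by
  have h : Bᵀ = B := by ext i j; exact hB j i
  rw [dotProduct_mulVec, ← mulVec_transpose, h, dotProduct_comm]

omit [DecidableEq ι] in
/-- Cauchy–Schwarz -/
lemma psd_cs {B : Matrix ι ι ℝ} (hB : ∀ i j, B i j = B j i)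
    (h0 : ∀ w : ι → ℝ, 0 ≤ w ⬝ᵥ (B *ᵥ w)) (u : ι → ℝ) {ε : ℝ} (hε : 0 ≤ ε)
    (h : ε * (u ⬝ᵥ (B *ᵥ u)) ≤ 1) (x : ι → ℝ) :
    ε * (x ⬝ᵥ (B *ᵥ u)) ^ 2 ≤ x ⬝ᵥ (B *ᵥ x) := by
  set b := x ⬝ᵥ (B *ᵥ u) with hb
  have h1 := h0 (x - (ε * b) • u)
  have h2 : (x - (ε * b) • u) ⬝ᵥ (B *ᵥ (x - (ε * b) • u)) =
      x ⬝ᵥ (B *ᵥ x) - 2 * (ε * b) * b + (ε * b) ^ 2 * (u ⬝ᵥ (B *ᵥ u)) := by
    rw [mulVec_sub, dotProduct_sub, sub_dotProduct, sub_dotProduct, mulVec_smul, dotProduct_smul,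
      smul_dotProduct, smul_dotProduct, dotProduct_smul, symm_dot hB u x]
    simp only [smul_eq_mul, ← hb]
    ring
  rw [h2] at h1
  have h3 : (ε * b) ^ 2 * (u ⬝ᵥ (B *ᵥ u)) ≤ ε * b ^ 2 := by
    have h4 : ε * b ^ 2 * (ε * (u ⬝ᵥ (B *ᵥ u))) ≤ ε * b ^ 2 * 1 :=
      mul_le_mul_of_nonneg_left h (by positivity)
    nlinarith
  nlinarith

omit [DecidableEq ι] in
lemma psd_zero {B : Matrix ι ι ℝ} (hB : ∀ i j, B i j = B j i)
    (h0 : ∀ w : ι → ℝ, 0 ≤ w ⬝ᵥ (B *ᵥ w)) {u : ι → ℝ} (hu : u ⬝ᵥ (B *ᵥ u) ≤ 0) : B *ᵥ u = 0 := by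
  have hx : ∀ x : ι → ℝ, x ⬝ᵥ (B *ᵥ u) = 0 := by
    intro x
    by_contra hne
    have hpos : 0 < (x ⬝ᵥ (B *ᵥ u)) ^ 2 := by positivity
    set ε := (x ⬝ᵥ (B *ᵥ x) + 1) / (x ⬝ᵥ (B *ᵥ u)) ^ 2 with hε
    have hx0 := h0 x
    have hε0 : 0 ≤ ε := by positivity
    have h1 := psd_cs hB h0 u hε0 (by nlinarith) x
    have h2 : ε * (x ⬝ᵥ (B *ᵥ u)) ^ 2 = x ⬝ᵥ (B *ᵥ x) + 1 := by
      rw [hε]; field_simp
    linarith
  have h1 := hx (B *ᵥ u)
  exact dotProduct_self_eq_zero.1 h1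

/-- the Frobenius pairing -/
def fr (A B : Matrix ι ι ℝ) : ℝ := ∑ i, ∑ j, A i j * B i j

omit [DecidableEq ι] in
lemma fr_vecMulVec (A : Matrix ι ι ℝ) (v : ι → ℝ) (c : ℝ) :
    fr A (c • vecMulVec v v) = c * (v ⬝ᵥ (A *ᵥ v)) := by
  unfold fr
  simp only [dotProduct, mulVec, Matrix.smul_apply, vecMulVec_apply, smul_eq_mul, Finset.mul_sum]
  exact Finset.sum_congr rfl fun i _ => Finset.sum_congr rfl fun j _ => by ring

/-- matrices as a Euclidean space -/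
abbrev EM (ι : Type*) [Fintype ι] := EuclideanSpace ℝ (ι × ι)

/-- the matrix of a vector -/
def toM (x : EM ι) : Matrix ι ι ℝ := fun i j => x (i, j)

/-- the vector of a matrix -/
noncomputable def ofM (K : Matrix ι ι ℝ) : EM ι := WithLp.toLp 2 fun p => K p.1 p.2

omit [DecidableEq ι] in
lemma toM_ofM (K : Matrix ι ι ℝ) : toM (ofM K) = K := by
  ext i j; rfl

omit [DecidableEq ι] in
lemma ofM_toM (x : EM ι) : ofM (toM x) = x := by
  ext p; rfl

omit [DecidableEq ι] in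
lemma inner_ofM (A B : Matrix ι ι ℝ) : ⟪ofM A, ofM B⟫_ℝ = fr A B := by
  rw [PiLp.inner_apply, Fintype.sum_prod_type]
  unfold fr
  refine Finset.sum_congr rfl fun i _ => Finset.sum_congr rfl fun j _ => ?_
  simp only [ofM, RCLike.inner_apply, conj_trivial]
  ring

omit [DecidableEq ι] in
lemma vmv_form (v w : ι → ℝ) (c : ℝ) : w ⬝ᵥ ((c • vecMulVec v v) *ᵥ w) = c * (w ⬝ᵥ v) ^ 2 := by
  rw [smul_mulVec, dotProduct_smul, vecMulVec_mulVec, smul_eq_mul]
  rw [dotProduct_comm v w]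
  simp only [op_smul_eq_smul, dotProduct_smul, smul_eq_mul]
  ring

omit [DecidableEq ι] in
lemma convex_Box (d R : ℝ) : Convex ℝ (toM ⁻¹' (Box ι d R)) := by
  intro x hx y hy a b ha hb hab
  obtain ⟨h1, h2, h3⟩ := hx
  obtain ⟨k1, k2, k3⟩ := hy
  have he : toM (a • x + b • y) = a • toM x + b • toM y := by
    ext i j
    simp [toM]
  have hq : ∀ w : ι → ℝ, w ⬝ᵥ ((a • toM x + b • toM y) *ᵥ w) =
      a * (w ⬝ᵥ (toM x *ᵥ w)) + b * (w ⬝ᵥ (toM y *ᵥ w)) := fun w => by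
    rw [add_mulVec, dotProduct_add, smul_mulVec, smul_mulVec, dotProduct_smul, dotProduct_smul]
    simp only [smul_eq_mul]
  refine ⟨?_, ?_, ?_⟩
  · intro i j
    rw [he]
    simp only [Matrix.add_apply, Matrix.smul_apply, h1 i j, k1 i j]
  · intro w
    rw [he, hq]
    have := mul_le_mul_of_nonneg_left (h2 w) ha
    have := mul_le_mul_of_nonneg_left (k2 w) hb
    have e : d * (w ⬝ᵥ w) = a * (d * (w ⬝ᵥ w)) + b * (d * (w ⬝ᵥ w)) := by
      rw [← add_mul, hab, one_mul]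
    linarith
  · intro w
    rw [he, hq]
    have := mul_le_mul_of_nonneg_left (h3 w) ha
    have := mul_le_mul_of_nonneg_left (k3 w) hb
    have e : R * (w ⬝ᵥ w) = a * (R * (w ⬝ᵥ w)) + b * (R * (w ⬝ᵥ w)) := by
      rw [← add_mul, hab, one_mul]
    linarith

lemma abs_entry_le {d R : ℝ} {K : Matrix ι ι ℝ} (hK : K ∈ Box ι d R) (i j : ι) :
    |K i j| ≤ 4 * (|d| + |R|) := by
  obtain ⟨h1, h2, h3⟩ := hK
  have hd : ∀ k, |K k k| ≤ |d| + |R| := by
    intro k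
    have a1 := h2 (Pi.single k 1)
    have a2 := h3 (Pi.single k 1)
    simp only [dotProduct_single, Pi.single_eq_same, mul_one, mulVec_single, single_dotProduct,
      one_mul, MulOpposite.op_one, one_smul, Matrix.col_apply] at a1 a2
    rw [abs_le]
    constructor
    · linarith [neg_abs_le d, abs_nonneg R]
    · linarith [le_abs_self R, abs_nonneg d]
  rcases eq_or_ne i j with rfl | hij
  · linarith [hd i, abs_nonneg d, abs_nonneg R]
  · have a1 := h2 (Pi.single i 1 + Pi.single j 1)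
    have a2 := h3 (Pi.single i 1 + Pi.single j 1)
    have e1 : ((Pi.single i 1 + Pi.single j 1 : ι → ℝ)) ⬝ᵥ (Pi.single i 1 + Pi.single j 1 : ι → ℝ) = 2 := by
      simp only [dotProduct_add, add_dotProduct, single_dotProduct, one_mul, Pi.single_eq_same,
        Pi.single_eq_of_ne hij, Pi.single_eq_of_ne hij.symm]
      norm_num
    have e2 : ((Pi.single i 1 + Pi.single j 1 : ι → ℝ)) ⬝ᵥ
        (K *ᵥ (Pi.single i 1 + Pi.single j 1 : ι → ℝ)) = K i i + K j j + 2 * K i j := by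
      simp only [mulVec_add, dotProduct_add, add_dotProduct, mulVec_single, single_dotProduct,
        one_mul, MulOpposite.op_one, one_smul, Matrix.col_apply]
      rw [h1 j i]
      ring
    rw [e1, e2] at a1 a2
    have b1 := abs_le.1 (hd i)
    have b2 := abs_le.1 (hd j)
    rw [abs_le]
    constructor
    · linarith [neg_abs_le d, le_abs_self R, abs_nonneg d, abs_nonneg R]
    · linarith [neg_abs_le d, le_abs_self R, abs_nonneg d, abs_nonneg R]

lemma isCompact_Box (d R : ℝ) : IsCompact (toM ⁻¹' (Box ι d R)) := by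
  have hc : ∀ i j, Continuous fun x : EM ι => toM x i j := fun i j => by
    unfold toM; fun_prop
  have hq : ∀ w : ι → ℝ, Continuous fun x : EM ι => w ⬝ᵥ (toM x *ᵥ w) := fun w => by
    unfold dotProduct mulVec dotProduct
    exact continuous_finsetSum _ fun i _ => continuous_const.mul
      (continuous_finsetSum _ fun j _ => (hc i j).mul continuous_const)
  have hcl : IsClosed (toM ⁻¹' (Box ι d R)) := by
    have : toM ⁻¹' (Box ι d R) = {x : EM ι | ∀ i j, toM x i j = toM x j i} ∩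
        ({x | ∀ w : ι → ℝ, d * (w ⬝ᵥ w) ≤ w ⬝ᵥ (toM x *ᵥ w)} ∩
        {x | ∀ w : ι → ℝ, w ⬝ᵥ (toM x *ᵥ w) ≤ R * (w ⬝ᵥ w)}) := rfl
    rw [this]
    refine IsClosed.inter ?_ (IsClosed.inter ?_ ?_)
    · simp only [Set.ofPred_forall]
      exact isClosed_iInter fun i => isClosed_iInter fun j => isClosed_eq (hc i j) (hc j i)
    · simp only [Set.ofPred_forall]
      exact isClosed_iInter fun w => isClosed_le continuous_const (hq w)
    · simp only [Set.ofPred_forall]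
      exact isClosed_iInter fun w => isClosed_le (hq w) continuous_const
  refine Metric.isCompact_of_isClosed_isBounded hcl ?_
  rw [isBounded_iff_forall_norm_le]
  refine ⟨Real.sqrt (∑ _p : ι × ι, (4 * (|d| + |R|)) ^ 2), fun x hx => ?_⟩
  rw [EuclideanSpace.norm_eq]
  refine Real.sqrt_le_sqrt (Finset.sum_le_sum fun p _ => ?_)
  have := abs_entry_le hx p.1 p.2
  have h2 : ‖x p‖ = |toM x p.1 p.2| := by rw [Real.norm_eq_abs]; rfl
  rw [h2]
  exact pow_le_pow_left₀ (abs_nonneg _) this 2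

/-- **zero of a real symmetric matrix field with inward/outward boundary behaviour** -/
theorem exists_zero (d R : ℝ) (hdR : d < R) (T : Matrix ι ι ℝ → Matrix ι ι ℝ)
    (hT : ∀ i j, ContinuousOn (fun x : EM ι => T (toM x) i j) (toM ⁻¹' (Box ι d R)))
    (hTs : ∀ K ∈ Box ι d R, ∀ i j, T K i j = T K j i)
    (htop : ∀ K ∈ Box ι d R, ∀ v : ι → ℝ, v ≠ 0 → K *ᵥ v = R • v → 0 < v ⬝ᵥ (T K *ᵥ v))
    (hbot : ∀ K ∈ Box ι d R, ∀ v : ι → ℝ, v ≠ 0 → K *ᵥ v = d • v → v ⬝ᵥ (T K *ᵥ v) ≤ 0) :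
    ∃ K ∈ Box ι d R, T K = 0 := by
  have hne : (toM ⁻¹' (Box ι d R)).Nonempty := by
    refine ⟨ofM (d • 1), ?_⟩
    show toM (ofM (d • (1 : Matrix ι ι ℝ))) ∈ Box ι d R
    rw [toM_ofM]
    refine ⟨?_, ?_, ?_⟩
    · intro i j
      rw [Matrix.smul_apply, Matrix.smul_apply, Matrix.one_apply, Matrix.one_apply]
      simp only [eq_comm]
    · intro w
      rw [smul_mulVec, one_mulVec, dotProduct_smul, smul_eq_mul]
    · intro w
      rw [smul_mulVec, one_mulVec, dotProduct_smul, smul_eq_mul]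
      have : 0 ≤ w ⬝ᵥ w := Finset.sum_nonneg fun i _ => mul_self_nonneg _
      exact mul_le_mul_of_nonneg_right hdR.le this
  obtain ⟨x, hx, hVI⟩ := Crest.Agent.R332.Full.hartman_stampacchia (toM ⁻¹' (Box ι d R)) hne
    (isCompact_Box d R) (convex_Box d R) (fun x => ofM (T (toM x))) (by
      have : (fun x : EM ι => ofM (T (toM x))) =
          (WithLp.toLp 2) ∘ fun x : EM ι => fun p : ι × ι => T (toM x) p.1 p.2 := rfl
      rw [this]
      refine (PiLp.continuous_toLp 2 _).comp_continuousOn ?_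
      exact continuousOn_pi.2 fun p => hT p.1 p.2)
  set K := toM x with hKx
  have hK : K ∈ Box ι d R := hx
  obtain ⟨hK1, hK2, hK3⟩ := hK
  have hS := hTs K hx
  have hVI' : ∀ D : Matrix ι ι ℝ, K + D ∈ Box ι d R → 0 ≤ fr (T K) D := by
    intro D hD
    have h1 := hVI (ofM (K + D)) (by
      show toM (ofM (K + D)) ∈ Box ι d R
      rw [toM_ofM]; exact hD)
    have h2 : ofM (K + D) - x = ofM D := by
      ext p
      have : x p = K p.1 p.2 := rfl
      simp only [ofM, PiLp.sub_apply, Matrix.add_apply, this]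
      ring
    rw [h2, inner_ofM] at h1
    exact h1
  have hKd : ∀ w : ι → ℝ, w ⬝ᵥ ((K - d • (1 : Matrix ι ι ℝ)) *ᵥ w) =
      w ⬝ᵥ (K *ᵥ w) - d * (w ⬝ᵥ w) := fun w => by
    rw [sub_mulVec, dotProduct_sub, smul_mulVec, one_mulVec, dotProduct_smul, smul_eq_mul]
  have hKR : ∀ w : ι → ℝ, w ⬝ᵥ ((R • (1 : Matrix ι ι ℝ) - K) *ᵥ w) =
      R * (w ⬝ᵥ w) - w ⬝ᵥ (K *ᵥ w) := fun w => by
    rw [sub_mulVec, dotProduct_sub, smul_mulVec, one_mulVec, dotProduct_smul, smul_eq_mul]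
  have hone : ∀ i j, (1 : Matrix ι ι ℝ) i j = (1 : Matrix ι ι ℝ) j i := fun i j => by
    rw [Matrix.one_apply, Matrix.one_apply]; simp only [eq_comm]
  have s1 : ∀ i j, (K - d • (1 : Matrix ι ι ℝ)) i j = (K - d • (1 : Matrix ι ι ℝ)) j i := by
    intro i j
    rw [Matrix.sub_apply, Matrix.sub_apply, Matrix.smul_apply, Matrix.smul_apply, hK1 i j, hone i j]
  have s2 : ∀ i j, (R • (1 : Matrix ι ι ℝ) - K) i j = (R • (1 : Matrix ι ι ℝ) - K) j i := by
    intro i j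
    rw [Matrix.sub_apply, Matrix.sub_apply, Matrix.smul_apply, Matrix.smul_apply, hK1 i j, hone i j]
  have p1 : ∀ w : ι → ℝ, 0 ≤ w ⬝ᵥ ((K - d • (1 : Matrix ι ι ℝ)) *ᵥ w) := fun w => by
    rw [hKd]; linarith [hK2 w]
  have p2 : ∀ w : ι → ℝ, 0 ≤ w ⬝ᵥ ((R • (1 : Matrix ι ι ℝ) - K) *ᵥ w) := fun w => by
    rw [hKR]; linarith [hK3 w]
  have vs : ∀ (v : ι → ℝ) (i j : ι), vecMulVec v v i j = vecMulVec v v j i := fun v i j => by
    rw [vecMulVec_apply, vecMulVec_apply, mul_comm]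
  have eform : ∀ (D : Matrix ι ι ℝ) (w : ι → ℝ), w ⬝ᵥ ((K + D) *ᵥ w) =
      w ⬝ᵥ (K *ᵥ w) + w ⬝ᵥ (D *ᵥ w) := fun D w => by
    rw [add_mulVec, dotProduct_add]
  -- downwards
  have hdown : ∀ u : ι → ℝ, ((K - d • (1 : Matrix ι ι ℝ)) *ᵥ u) ⬝ᵥ
      (T K *ᵥ ((K - d • (1 : Matrix ι ι ℝ)) *ᵥ u)) ≤ 0 := by
    intro u
    set B := K - d • (1 : Matrix ι ι ℝ) with hBdef
    set q := u ⬝ᵥ (B *ᵥ u) with hq
    have hq0 : 0 ≤ q := p1 u
    have hε : (0 : ℝ) < (1 + q)⁻¹ := by positivity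
    have hcs := psd_cs s1 p1 u hε.le (by
      rw [← hq, inv_mul_le_one₀ (by positivity)]; linarith)
    have h2 := hVI' ((-(1 + q)⁻¹) • vecMulVec (B *ᵥ u) (B *ᵥ u)) (by
      refine ⟨?_, ?_, ?_⟩
      · intro i j
        rw [Matrix.add_apply, Matrix.add_apply, Matrix.smul_apply, Matrix.smul_apply, hK1 i j,
          vs _ i j]
      · intro w
        rw [eform, vmv_form]
        have := hcs w
        rw [hKd] at this
        nlinarith
      · intro w
        rw [eform, vmv_form]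
        have := hK3 w
        have h3 : 0 ≤ (1 + q)⁻¹ * (w ⬝ᵥ (B *ᵥ u)) ^ 2 := by positivity
        nlinarith)
    rw [fr_vecMulVec] at h2
    by_contra hcon
    push Not at hcon
    have := mul_pos hε hcon
    linarith
  -- upwards
  have hup : ∀ u : ι → ℝ, 0 ≤ ((R • (1 : Matrix ι ι ℝ) - K) *ᵥ u) ⬝ᵥ
      (T K *ᵥ ((R • (1 : Matrix ι ι ℝ) - K) *ᵥ u)) := by
    intro u
    set B := R • (1 : Matrix ι ι ℝ) - K with hBdef
    set q := u ⬝ᵥ (B *ᵥ u) with hq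
    have hq0 : 0 ≤ q := p2 u
    have hε : (0 : ℝ) < (1 + q)⁻¹ := by positivity
    have hcs := psd_cs s2 p2 u hε.le (by
      rw [← hq, inv_mul_le_one₀ (by positivity)]; linarith)
    have h2 := hVI' (((1 + q)⁻¹) • vecMulVec (B *ᵥ u) (B *ᵥ u)) (by
      refine ⟨?_, ?_, ?_⟩
      · intro i j
        rw [Matrix.add_apply, Matrix.add_apply, Matrix.smul_apply, Matrix.smul_apply, hK1 i j,
          vs _ i j]
      · intro w
        rw [eform, vmv_form]
        have := hK2 w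
        have h3 : 0 ≤ (1 + q)⁻¹ * (w ⬝ᵥ (B *ᵥ u)) ^ 2 := by positivity
        nlinarith
      · intro w
        rw [eform, vmv_form]
        have := hcs w
        rw [hKR] at this
        nlinarith)
    rw [fr_vecMulVec] at h2
    by_contra hcon
    push Not at hcon
    have := mul_pos hε (neg_pos.2 hcon)
    linarith
  -- no top eigenvector
  have hnotop : ∀ v : ι → ℝ, (R • (1 : Matrix ι ι ℝ) - K) *ᵥ v = 0 → v = 0 := by
    intro v hv
    by_contra hv0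
    have hKv : K *ᵥ v = R • v := by
      rw [sub_mulVec, smul_mulVec, one_mulVec, sub_eq_zero] at hv
      exact hv.symm
    have h1 := htop K hx v hv0 hKv
    have h2 := hdown v
    have h3 : (K - d • (1 : Matrix ι ι ℝ)) *ᵥ v = (R - d) • v := by
      rw [sub_mulVec, hKv, smul_mulVec, one_mulVec, ← sub_smul]
    rw [h3, mulVec_smul, smul_dotProduct, dotProduct_smul, smul_eq_mul, smul_eq_mul] at h2
    have h4 : 0 < R - d := by linarith
    have := mul_pos h4 (mul_pos h4 h1)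
    linarith
  have hinj : Function.Injective ((R • (1 : Matrix ι ι ℝ) - K).mulVec) := by
    intro a b hab
    have : (R • (1 : Matrix ι ι ℝ) - K) *ᵥ (a - b) = 0 := by
      rw [mulVec_sub, sub_eq_zero]; exact hab
    exact sub_eq_zero.1 (hnotop _ this)
  have hunit : IsUnit (R • (1 : Matrix ι ι ℝ) - K) := Matrix.mulVec_injective_iff_isUnit.1 hinj
  have hTpsd : ∀ w : ι → ℝ, 0 ≤ w ⬝ᵥ (T K *ᵥ w) := by
    intro w
    obtain ⟨u, hu⟩ : ∃ u, (R • (1 : Matrix ι ι ℝ) - K) *ᵥ u = w := by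
      refine ⟨(R • (1 : Matrix ι ι ℝ) - K)⁻¹ *ᵥ w, ?_⟩
      rw [mulVec_mulVec, Matrix.mul_nonsing_inv _ ((Matrix.isUnit_iff_isUnit_det _).1 hunit),
        one_mulVec]
    have h1 := hup u
    rwa [hu] at h1
  have hTB : ∀ u : ι → ℝ, T K *ᵥ ((K - d • (1 : Matrix ι ι ℝ)) *ᵥ u) = 0 := fun u =>
    psd_zero hS hTpsd (hdown u)
  have hTB' : T K * (K - d • (1 : Matrix ι ι ℝ)) = 0 := by
    apply Matrix.ext_of_mulVec_single
    intro j
    rw [← mulVec_mulVec, hTB, zero_mulVec]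
  have hBT : (K - d • (1 : Matrix ι ι ℝ)) * T K = 0 := by
    have e1 : (T K)ᵀ = T K := by ext i j; exact hS j i
    have e2 : (K - d • (1 : Matrix ι ι ℝ))ᵀ = K - d • (1 : Matrix ι ι ℝ) := by
      ext i j; exact s1 j i
    have h1 := congrArg Matrix.transpose hTB'
    rw [Matrix.transpose_mul, e1, e2, Matrix.transpose_zero] at h1
    exact h1
  refine ⟨K, hx, ?_⟩
  apply Matrix.ext_of_mulVec_single
  intro j
  rw [zero_mulVec]
  set v := T K *ᵥ Pi.single j 1 with hv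
  by_contra hv0
  have hKv : K *ᵥ v = d • v := by
    have h1 : (K - d • (1 : Matrix ι ι ℝ)) *ᵥ v = 0 := by
      rw [hv, mulVec_mulVec, hBT, zero_mulVec]
    rw [sub_mulVec, smul_mulVec, one_mulVec, sub_eq_zero] at h1
    exact h1
  have h1 := hbot K hx v hv0 hKv
  have h3 : T K *ᵥ v = 0 := psd_zero hS hTpsd h1
  have h4 : v ⬝ᵥ v = 0 := by
    have h5 : v ⬝ᵥ v = Pi.single j (1 : ℝ) ⬝ᵥ (T K *ᵥ v) := by
      conv_lhs => rw [hv]
      rw [dotProduct_comm, ← hv, symm_dot hS]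
    rw [h5, h3, dotProduct_zero]
  exact hv0 (dotProduct_self_eq_zero.1 h4)

end Crest.Agent.R253.Norm944
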