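import Crest.Agent.R253.SpecCalc_999
import Crest.Agent.R253.Meh_74

/-!
# R253: `C¹` calculus of spectral functions of matrix fields (helper321)

* `Fr A U s` : `U` orthogonal, `Uᵀ A U = diag s`.
* `DK f f' A X` : the Daleckii–Krein map (frame free), `DK_frame` in any eigenframe.
* `hasFDerivAt_cfc`, `pd_cfc`, `c1_cfc` : derivative and `C1` of `x ↦ f(M x)`.
-/

set_option autoImplicit false

open Matrix Filter Topology Asymptotics Set
open scoped ContDiff

noncomputable section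

namespace Crest.Agent.R253.SpecField321

open Crest.Agent.R253.SpecCalc999 Crest.Agent.R253.Meh74 Crest.Agent.R238.Gap

variable {m n : ℕ}

/-! ### frames -/

/-- `U` is orthogonal and `Uᵀ A U = diag s` -/
structure Fr (A U : Mat m) (s : Fin m → ℝ) : Prop where
  o : Uᵀ * U = 1
  d : Uᵀ * A * U = Matrix.diagonal s

lemma Fr.o' {A U : Mat m} {s : Fin m → ℝ} (h : Fr A U s) : U * Uᵀ = 1 := mul_eq_one_comm.1 h.o

lemma conj_inj {U : Mat m} (h : U * Uᵀ = 1) {X Y : Mat m} (e : Uᵀ * X * U = Uᵀ * Y * U) : X = Y := by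
  have : ∀ Z : Mat m, U * (Uᵀ * Z * U) * Uᵀ = Z := fun Z => by
    calc U * (Uᵀ * Z * U) * Uᵀ = (U * Uᵀ) * Z * (U * Uᵀ) := by simp only [Matrix.mul_assoc]
      _ = Z := by rw [h, Matrix.one_mul, Matrix.mul_one]
  rw [← this X, e, this Y]

lemma Fr.eq {A U : Mat m} {s : Fin m → ℝ} (h : Fr A U s) : A = U * Matrix.diagonal s * Uᵀ := by
  rw [← h.d]
  calc A = (U * Uᵀ) * A * (U * Uᵀ) := by rw [h.o', Matrix.one_mul, Matrix.mul_one]
    _ = U * (Uᵀ * A * U) * Uᵀ := by simp only [Matrix.mul_assoc]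

lemma Fr.herm {A U : Mat m} {s : Fin m → ℝ} (h : Fr A U s) : A.IsHermitian := by
  rw [h.eq]
  unfold Matrix.IsHermitian
  rw [conjTranspose_eq_transpose_of_trivial, Matrix.transpose_mul, Matrix.transpose_mul,
    Matrix.transpose_transpose, Matrix.diagonal_transpose, Matrix.mul_assoc]

lemma exists_fr {A : Mat m} (hA : A.IsHermitian) : ∃ U : Mat m, Fr A U hA.eigenvalues := by
  have ho : ((hA.eigenvectorUnitary : Mat m))ᵀ * (hA.eigenvectorUnitary : Mat m) = 1 := by
    have := Unitary.coe_star_mul_self hA.eigenvectorUnitary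
    rwa [Matrix.star_eq_conjTranspose, conjTranspose_eq_transpose_of_trivial] at this
  refine ⟨(hA.eigenvectorUnitary : Mat m), ho, ?_⟩
  have h := hA.spectral_theorem
  rw [Unitary.conjStarAlgAut_apply, Matrix.star_eq_conjTranspose,
    conjTranspose_eq_transpose_of_trivial] at h
  have key : ∀ V D : Mat m, A = V * D * Vᵀ → Vᵀ * V = 1 → Vᵀ * A * V = D := by
    intro V D hV h1
    rw [hV]
    calc Vᵀ * (V * D * Vᵀ) * V = (Vᵀ * V) * D * (Vᵀ * V) := by simp only [Matrix.mul_assoc]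
      _ = D := by rw [h1, Matrix.one_mul, Matrix.mul_one]
  rw [key _ _ h ho]
  congr 1

lemma cfc_conj {U : Mat m} (hU : Uᵀ * U = 1) {A : Mat m} (hA : A.IsHermitian) (f : ℝ → ℝ) :
    cfc f (Uᵀ * A * U) = Uᵀ * cfc f A * U := by
  have hU' : U * Uᵀ = 1 := mul_eq_one_comm.1 hU
  have e : ∀ p : Polynomial ℝ, Polynomial.aeval (Uᵀ * A * U) p = Uᵀ * Polynomial.aeval A p * U := by
    intro p
    induction p using Polynomial.induction_on' with
    | add p q hp hq => rw [map_add, map_add, hp, hq, Matrix.mul_add, Matrix.add_mul]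
    | monomial k a =>
      rw [Polynomial.aeval_monomial, Polynomial.aeval_monomial]
      have hk : (Uᵀ * A * U) ^ k = Uᵀ * A ^ k * U := by
        induction k with
        | zero => simp [hU]
        | succ k ih =>
          rw [pow_succ, ih, pow_succ]
          calc Uᵀ * A ^ k * U * (Uᵀ * A * U) = Uᵀ * A ^ k * (U * Uᵀ) * A * U := by
                simp only [Matrix.mul_assoc]
            _ = Uᵀ * (A ^ k * A) * U := by rw [hU']; simp only [Matrix.mul_assoc, Matrix.mul_one]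
      rw [hk, Algebra.algebraMap_eq_smul_one, smul_mul_assoc, smul_mul_assoc, one_mul, one_mul,
        mul_smul_comm, smul_mul_assoc]
  have hB : (Uᵀ * A * U).IsHermitian := by
    have := isHermitian_conjTranspose_mul_mul U hA
    rwa [conjTranspose_eq_transpose_of_trivial] at this
  have hfin : (spectrum ℝ A ∪ spectrum ℝ (Uᵀ * A * U)).Finite :=
    (Set.toFinite _).union (Set.toFinite _)
  obtain ⟨p, hp⟩ : ∃ p : Polynomial ℝ,
      ∀ x ∈ (spectrum ℝ A ∪ spectrum ℝ (Uᵀ * A * U)), p.eval x = f x := by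
    classical
    refine ⟨Lagrange.interpolate hfin.toFinset id f, fun x hx => ?_⟩
    exact Lagrange.eval_interpolate_at_node f (Function.injective_id.injOn) (by simpa using hx)
  rw [cfc_congr (g := p.eval) fun x hx => (hp x (Or.inr hx)).symm,
    cfc_congr (a := A) (g := p.eval) fun x hx => (hp x (Or.inl hx)).symm,
    cfc_polynomial p _ (sa hB), cfc_polynomial p _ (sa hA), e]

lemma Fr.cfc {A U : Mat m} {s : Fin m → ℝ} (h : Fr A U s) (f : ℝ → ℝ) :
    Uᵀ * (_root_.cfc f A) * U = Matrix.diagonal fun i => f (s i) := by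
  rw [← cfc_conj h.o h.herm, h.d, cfc_diagonal]

lemma Fr.mem_spec {A U : Mat m} {s : Fin m → ℝ} (h : Fr A U s) (i : Fin m) :
    s i ∈ spectrum ℝ A := by
  have h1 : spectrum ℝ (Uᵀ * A * U) = spectrum ℝ A := by
    have hu : IsUnit U := by
      exact ⟨⟨U, Uᵀ, h.o', h.o⟩, rfl⟩
    obtain ⟨u, hu⟩ := hu
    have e : Uᵀ = ((u⁻¹ : (Mat m)ˣ) : Mat m) := by
      have : ((u⁻¹ : (Mat m)ˣ) : Mat m) = Uᵀ * ((u : Mat m) * ((u⁻¹ : (Mat m)ˣ) : Mat m)) := by
        rw [← Matrix.mul_assoc, hu, h.o, Matrix.one_mul]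
      rw [this, Units.mul_inv, Matrix.mul_one]
    rw [e, ← hu]
    exact spectrum.units_conjugate'
  rw [← h1, h.d, spectrum_diagonal]
  exact ⟨i, rfl⟩

/-! ### the Daleckii–Krein map -/

/-- spectral projection -/
def Pr (A : Mat m) (a : ℝ) : Mat m := _root_.cfc (fun x => if x = a then (1 : ℝ) else 0) A

/-- the spectrum as a finset -/
def sp (A : Mat m) : Finset ℝ := (Set.toFinite (spectrum ℝ A)).toFinset

/-- the Daleckii–Krein map `X ↦ D f(A)[X]` -/
def DK (f f' : ℝ → ℝ) (A X : Mat m) : Mat m :=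
  ∑ a ∈ sp A, ∑ b ∈ sp A, dd1 f f' a b • (Pr A a * X * Pr A b)

theorem DK_frame {A U : Mat m} {s : Fin m → ℝ} (h : Fr A U s) (f f' : ℝ → ℝ) (X : Mat m)
    (i j : Fin m) :
    (Uᵀ * DK f f' A X * U) i j = dd1 f f' (s i) (s j) * (Uᵀ * X * U) i j := by
  have hsp : ∀ i, s i ∈ sp A := fun i => by
    simpa [sp] using h.mem_spec i
  have e1 : ∀ a b, Uᵀ * (Pr A a * X * Pr A b) * U =
      (Matrix.diagonal fun i => if s i = a then (1 : ℝ) else 0) * (Uᵀ * X * U) *
      (Matrix.diagonal fun i => if s i = b then (1 : ℝ) else 0) := by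
    intro a b
    rw [← h.cfc (fun x => if x = a then (1 : ℝ) else 0), ← h.cfc (fun x => if x = b then (1 : ℝ) else 0)]
    change _ = (Uᵀ * Pr A a * U) * (Uᵀ * X * U) * (Uᵀ * Pr A b * U)
    calc Uᵀ * (Pr A a * X * Pr A b) * U
        = Uᵀ * Pr A a * (1 * X * 1) * Pr A b * U := by simp only [Matrix.mul_assoc, Matrix.one_mul, Matrix.mul_one]
      _ = Uᵀ * Pr A a * ((U * Uᵀ) * X * (U * Uᵀ)) * Pr A b * U := by rw [h.o']
      _ = _ := by simp only [Matrix.mul_assoc]
  unfold DK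
  rw [Matrix.mul_sum, Matrix.sum_mul, Matrix.sum_apply]
  have e2 : ∀ a ∈ sp A, (Uᵀ * (∑ b ∈ sp A, dd1 f f' a b • (Pr A a * X * Pr A b)) * U) i j =
      if s i = a then dd1 f f' (s i) (s j) * (Uᵀ * X * U) i j else 0 := by
    intro a _
    rw [Matrix.mul_sum, Matrix.sum_mul, Matrix.sum_apply]
    have e3 : ∀ b ∈ sp A, (Uᵀ * (dd1 f f' a b • (Pr A a * X * Pr A b)) * U) i j =
        if s j = b then (if s i = a then dd1 f f' (s i) (s j) * (Uᵀ * X * U) i j else 0) else 0 := by
      intro b _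
      rw [Matrix.mul_smul, Matrix.smul_mul, Matrix.smul_apply, e1, Matrix.mul_diagonal,
        Matrix.diagonal_mul, smul_eq_mul]
      by_cases hb : s j = b
      · by_cases ha : s i = a
        · simp [ha, hb]
        · simp [ha, hb]
      · simp [hb]
    rw [Finset.sum_congr rfl e3, Finset.sum_ite_eq, if_pos (hsp j)]
  rw [Finset.sum_congr rfl e2, Finset.sum_ite_eq, if_pos (hsp i)]

lemma DK_frame' {A U : Mat m} {s : Fin m → ℝ} (h : Fr A U s) (f f' : ℝ → ℝ) (X : Mat m) :
    Uᵀ * DK f f' A X * U = Matrix.of fun i j => dd1 f f' (s i) (s j) * (Uᵀ * X * U) i j := by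
  ext i j; rw [DK_frame h]; rfl

lemma DK_apply {A U : Mat m} {s : Fin m → ℝ} (h : Fr A U s) (f f' : ℝ → ℝ) (X : Mat m)
    (i j : Fin m) :
    DK f f' A X i j = ∑ a, ∑ b, U i a * (dd1 f f' (s a) (s b) * (Uᵀ * X * U) a b) * U j b := by
  have e : DK f f' A X = U * (Uᵀ * DK f f' A X * U) * Uᵀ := by
    calc DK f f' A X = (U * Uᵀ) * DK f f' A X * (U * Uᵀ) := by
          rw [h.o', Matrix.one_mul, Matrix.mul_one]
      _ = _ := by simp only [Matrix.mul_assoc]
  rw [e, DK_frame' h, Matrix.mul_apply]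
  simp only [Matrix.mul_apply, Matrix.of_apply, Matrix.transpose_apply, Finset.sum_mul]
  rw [Finset.sum_comm]

lemma DK_add (f f' : ℝ → ℝ) (A X Y : Mat m) : DK f f' A (X + Y) = DK f f' A X + DK f f' A Y := by
  unfold DK
  simp only [Matrix.mul_add, Matrix.add_mul, smul_add, Finset.sum_add_distrib]

lemma DK_smul (f f' : ℝ → ℝ) (A X : Mat m) (c : ℝ) : DK f f' A (c • X) = c • DK f f' A X := by
  unfold DK
  simp only [Matrix.mul_smul, Matrix.smul_mul, smul_comm _ c, Finset.smul_sum]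

/-- `DK` as a linear map -/
def DKl (f f' : ℝ → ℝ) (A : Mat m) : Mat m →ₗ[ℝ] Mat m where
  toFun := DK f f' A
  map_add' := DK_add f f' A
  map_smul' c X := DK_smul f f' A X c

lemma DK_sum {ι : Type*} (t : Finset ι) (f f' : ℝ → ℝ) (A : Mat m) (X : ι → Mat m) :
    DK f f' A (∑ i ∈ t, X i) = ∑ i ∈ t, DK f f' A (X i) :=
  map_sum (DKl f f' A) X t

lemma DK_zero (f f' : ℝ → ℝ) (A : Mat m) : DK f f' A 0 = 0 := (DKl f f' A).map_zero

/-- coefficients -/
lemma DK_coeff (f f' : ℝ → ℝ) (A X : Mat m) (i j : Fin m) :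
    DK f f' A X i j = ∑ c, ∑ d, X c d * DK f f' A (Matrix.single c d 1) i j := by
  conv_lhs => rw [Matrix.matrix_eq_sum_single X]
  rw [DK_sum, Matrix.sum_apply]
  refine Finset.sum_congr rfl fun c _ => ?_
  rw [DK_sum, Matrix.sum_apply]
  refine Finset.sum_congr rfl fun d _ => ?_
  have : (Matrix.single c d (X c d) : Mat m) = X c d • Matrix.single c d 1 := by
    rw [Matrix.smul_single, smul_eq_mul, mul_one]
  rw [this, DK_smul, Matrix.smul_apply, smul_eq_mul]

/-! ### Hilbert–Schmidt bound -/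

/-- the squared Hilbert–Schmidt norm -/
def hs (X : Mat m) : ℝ := ∑ i, ∑ j, X i j ^ 2

lemma hs_eq (X : Mat m) : hs X = (Xᵀ * X).trace := by
  unfold hs
  rw [Matrix.trace, Finset.sum_comm]
  refine Finset.sum_congr rfl fun j _ => ?_
  rw [Matrix.diag_apply, Matrix.mul_apply]
  exact Finset.sum_congr rfl fun i _ => by rw [Matrix.transpose_apply]; ring

lemma hs_conj {U : Mat m} (h : U * Uᵀ = 1) (X : Mat m) : hs (Uᵀ * X * U) = hs X := by
  rw [hs_eq, hs_eq]
  have : (Uᵀ * X * U)ᵀ * (Uᵀ * X * U) = Uᵀ * (Xᵀ * X * U) := by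
    rw [Matrix.transpose_mul, Matrix.transpose_mul, Matrix.transpose_transpose]
    calc Uᵀ * (Xᵀ * U) * (Uᵀ * X * U) = Uᵀ * (Xᵀ * (U * Uᵀ) * X * U) := by
          simp only [Matrix.mul_assoc]
      _ = _ := by rw [h, Matrix.mul_one]
  rw [this, Matrix.trace_mul_comm, Matrix.mul_assoc, h, Matrix.mul_one]

lemma hs_nonneg (X : Mat m) : 0 ≤ hs X :=
  Finset.sum_nonneg fun i _ => Finset.sum_nonneg fun j _ => sq_nonneg _

lemma sq_le_hs (X : Mat m) (i j : Fin m) : X i j ^ 2 ≤ hs X := by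
  unfold hs
  refine le_trans ?_ (Finset.single_le_sum (f := fun i => ∑ j, X i j ^ 2)
    (fun i _ => Finset.sum_nonneg fun j _ => sq_nonneg _) (Finset.mem_univ i))
  exact Finset.single_le_sum (f := fun j => X i j ^ 2) (fun _ _ => sq_nonneg _) (Finset.mem_univ j)

lemma hs_DK_le {A : Mat m} (hA : A.IsHermitian) {f f' : ℝ → ℝ} {C : ℝ}
    (hC : ∀ a ∈ spectrum ℝ A, ∀ b ∈ spectrum ℝ A, |dd1 f f' a b| ≤ C) (X : Mat m) :
    hs (DK f f' A X) ≤ C ^ 2 * hs X := by
  obtain ⟨U, hU⟩ := exists_fr hA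
  rw [← hs_conj hU.o' (DK f f' A X), ← hs_conj hU.o' X]
  unfold hs
  rw [Finset.mul_sum]
  refine Finset.sum_le_sum fun i _ => ?_
  rw [Finset.mul_sum]
  refine Finset.sum_le_sum fun j _ => ?_
  rw [DK_frame hU, mul_pow]
  refine mul_le_mul_of_nonneg_right ?_ (sq_nonneg _)
  have := hC _ (hU.mem_spec i) _ (hU.mem_spec j)
  rw [← sq_abs (dd1 f f' _ _)]
  exact pow_le_pow_left₀ (abs_nonneg _) this 2

lemma abs_DK_le {A : Mat m} (hA : A.IsHermitian) {f f' : ℝ → ℝ} {C : ℝ} (hC0 : 0 ≤ C)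
    (hC : ∀ a ∈ spectrum ℝ A, ∀ b ∈ spectrum ℝ A, |dd1 f f' a b| ≤ C) (X : Mat m) (i j : Fin m) :
    |DK f f' A X i j| ≤ C * ∑ c, ∑ d, |X c d| := by
  have h1 := (sq_le_hs (DK f f' A X) i j).trans (hs_DK_le hA hC X)
  have h2 : hs X ≤ (∑ c, ∑ d, |X c d|) ^ 2 := by
    unfold hs
    have e1 : ∀ c, ∑ d, X c d ^ 2 ≤ (∑ d, |X c d|) ^ 2 := fun c => by
      have := Finset.sum_sq_le_sq_sum_of_nonneg (s := Finset.univ) (f := fun d => |X c d|)
        (fun d _ => abs_nonneg _)
      simpa [sq_abs] using this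
    calc ∑ c, ∑ d, X c d ^ 2 ≤ ∑ c, (∑ d, |X c d|) ^ 2 := Finset.sum_le_sum fun c _ => e1 c
      _ ≤ _ := Finset.sum_sq_le_sq_sum_of_nonneg
          (fun c _ => Finset.sum_nonneg fun d _ => abs_nonneg _)
  have h3 : |DK f f' A X i j| ^ 2 ≤ (C * ∑ c, ∑ d, |X c d|) ^ 2 := by
    rw [sq_abs, mul_pow]
    exact h1.trans (mul_le_mul_of_nonneg_left h2 (sq_nonneg _))
  exact abs_le_of_sq_le_sq h3 (mul_nonneg hC0 (Finset.sum_nonneg fun c _ =>
    Finset.sum_nonneg fun d _ => abs_nonneg _)) |> fun h => by simpa using h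

/-! ### algebra in `(f, f')` -/

lemma dd1_add (f f' g g' : ℝ → ℝ) (x y : ℝ) :
    dd1 (fun t => f t + g t) (fun t => f' t + g' t) x y = dd1 f f' x y + dd1 g g' x y := by
  unfold dd1
  split_ifs
  · rfl
  · ring

lemma dd1_sub (f f' g g' : ℝ → ℝ) (x y : ℝ) :
    dd1 (fun t => f t - g t) (fun t => f' t - g' t) x y = dd1 f f' x y - dd1 g g' x y := by
  unfold dd1
  split_ifs
  · rfl
  · ring

lemma dd1_cmul (f f' : ℝ → ℝ) (c x y : ℝ) :
    dd1 (fun t => c * f t) (fun t => c * f' t) x y = c * dd1 f f' x y := by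
  unfold dd1
  split_ifs
  · rfl
  · ring

/-- Leibniz rule -/
lemma dd1_mul' (f f' g g' : ℝ → ℝ) (x y : ℝ) :
    dd1 (fun t => f t * g t) (fun t => f' t * g t + f t * g' t) x y =
      dd1 f f' x y * g y + f x * dd1 g g' x y := by
  unfold dd1
  split_ifs with h
  · subst h; ring
  · ring

lemma dd1_const (c x y : ℝ) : dd1 (fun _ => c) (fun _ => 0) x y = 0 := by
  unfold dd1; split_ifs <;> simp

lemma dd1_id (x y : ℝ) : dd1 (fun t => t) (fun _ => 1) x y = 1 := by
  unfold dd1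
  split_ifs with h
  · rfl
  · exact div_self (sub_ne_zero.2 h)

lemma DK_fadd (f f' g g' : ℝ → ℝ) (A X : Mat m) :
    DK (fun t => f t + g t) (fun t => f' t + g' t) A X = DK f f' A X + DK g g' A X := by
  unfold DK
  simp only [dd1_add, add_smul, Finset.sum_add_distrib]

lemma DK_fsub (f f' g g' : ℝ → ℝ) (A X : Mat m) :
    DK (fun t => f t - g t) (fun t => f' t - g' t) A X = DK f f' A X - DK g g' A X := by
  unfold DK
  simp only [dd1_sub, sub_smul, Finset.sum_sub_distrib]

lemma DK_cmul (f f' : ℝ → ℝ) (c : ℝ) (A X : Mat m) :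
    DK (fun t => c * f t) (fun t => c * f' t) A X = c • DK f f' A X := by
  unfold DK
  simp only [dd1_cmul, Finset.smul_sum, mul_smul]

/-- Leibniz rule for `DK` -/
lemma DK_mul {A : Mat m} (hA : A.IsHermitian) (f f' g g' : ℝ → ℝ) (X : Mat m) :
    DK (fun t => f t * g t) (fun t => f' t * g t + f t * g' t) A X =
      DK f f' A X * _root_.cfc g A + _root_.cfc f A * DK g g' A X := by
  obtain ⟨U, hU⟩ := exists_fr hA
  apply conj_inj hU.o'
  have e : Uᵀ * (DK f f' A X * _root_.cfc g A + _root_.cfc f A * DK g g' A X) * U =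
      (Uᵀ * DK f f' A X * U) * (Uᵀ * _root_.cfc g A * U) +
      (Uᵀ * _root_.cfc f A * U) * (Uᵀ * DK g g' A X * U) := by
    have h1 : ∀ Y Z : Mat m, Uᵀ * (Y * Z) * U = (Uᵀ * Y * U) * (Uᵀ * Z * U) := fun Y Z => by
      calc Uᵀ * (Y * Z) * U = Uᵀ * (Y * 1 * Z) * U := by rw [Matrix.mul_one]
        _ = Uᵀ * (Y * (U * Uᵀ) * Z) * U := by rw [hU.o']
        _ = _ := by simp only [Matrix.mul_assoc]
    rw [Matrix.mul_add, Matrix.add_mul, h1, h1]
  rw [e, hU.cfc, hU.cfc, DK_frame' hU, DK_frame' hU, DK_frame' hU]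
  ext i j
  rw [Matrix.add_apply, Matrix.mul_diagonal, Matrix.diagonal_mul]
  simp only [Matrix.of_apply, dd1_mul']
  ring

lemma DK_id {A : Mat m} (hA : A.IsHermitian) (X : Mat m) :
    DK (fun t => t) (fun _ => 1) A X = X := by
  obtain ⟨U, hU⟩ := exists_fr hA
  apply conj_inj hU.o'
  rw [DK_frame' hU]
  ext i j
  simp [dd1_id]

lemma DK_const {A : Mat m} (c : ℝ) (X : Mat m) : DK (fun _ => c) (fun _ => 0) A X = 0 := by
  unfold DK
  simp [dd1_const]

lemma cfc_id'' {A : Mat m} (hA : A.IsHermitian) : _root_.cfc (fun t : ℝ => t) A = A :=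
  cfc_id' ℝ A (sa hA)

/-! ### continuity -/

/-- polynomials: continuity of `(A, X) ↦ D p(A)[X]` -/
lemma tendsto_DK_poly (p : Polynomial ℝ) {τ : Type*} {l : Filter τ} {A X : τ → Mat m}
    {A0 X0 : Mat m} (hA : ∀ᶠ t in l, (A t).IsHermitian) (hA0 : A0.IsHermitian)
    (h1 : Tendsto A l (𝓝 A0)) (h2 : Tendsto X l (𝓝 X0)) :
    Tendsto (fun t => DK (fun x => p.eval x) (fun x => p.derivative.eval x) (A t) (X t)) l
      (𝓝 (DK (fun x => p.eval x) (fun x => p.derivative.eval x) A0 X0)) := by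
  induction p using Polynomial.induction_on' with
  | add p q hp hq =>
    simp only [Polynomial.eval_add, Polynomial.derivative_add, DK_fadd]
    exact hp.add hq
  | monomial k a =>
    have key : ∀ k : ℕ, Tendsto (fun t => DK (fun x => x ^ k) (fun x => k * x ^ (k - 1)) (A t) (X t)) l
        (𝓝 (DK (fun x => x ^ k) (fun x => k * x ^ (k - 1)) A0 X0)) := by
      intro k
      induction k with
      | zero =>
        have : ∀ B Y : Mat m, DK (fun x : ℝ => x ^ 0) (fun x => ((0 : ℕ) : ℝ) * x ^ (0 - 1)) B Y = 0 := by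
          intro B Y
          have := DK_const (A := B) 1 Y
          simpa using this
        simp only [this]
        exact tendsto_const_nhds
      | succ k ih =>
        have e : ∀ B Y : Mat m, B.IsHermitian →
            DK (fun x : ℝ => x ^ (k + 1)) (fun x => ((k + 1 : ℕ) : ℝ) * x ^ (k + 1 - 1)) B Y =
            DK (fun x => x ^ k) (fun x => k * x ^ (k - 1)) B Y * B + B ^ k * Y := by
          intro B Y hB
          have h3 := DK_mul hB (fun x => x ^ k) (fun x => k * x ^ (k - 1)) (fun t => t) (fun _ => 1) Y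
          have h4 : (fun x : ℝ => ((k + 1 : ℕ) : ℝ) * x ^ (k + 1 - 1)) =
              fun t : ℝ => (k : ℝ) * t ^ (k - 1) * t + t ^ k * 1 := by
            funext t
            rcases k with _ | k
            · simp
            · simp only [Nat.add_sub_cancel]; push_cast; ring
          rw [h4]
          have h5 : (fun x : ℝ => x ^ (k + 1)) = fun t => t ^ k * t := by funext t; ring
          rw [h5, h3, DK_id hB, cfc_id'' hB]
          congr 2
          rw [cfc_pow (fun x : ℝ => x) k B (contOn_spec _ _) (sa hB), cfc_id'' hB]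
        rw [e A0 X0 hA0]
        have h6 : Tendsto (fun t => DK (fun x => x ^ k) (fun x => k * x ^ (k - 1)) (A t) (X t) * A t +
            A t ^ k * X t) l (𝓝 (DK (fun x => x ^ k) (fun x => k * x ^ (k - 1)) A0 X0 * A0 + A0 ^ k * X0)) :=
          (ih.mul h1).add ((h1.pow k).mul h2)
        refine h6.congr' ?_
        filter_upwards [hA] with t ht
        rw [e _ _ ht]
    have e2 : ∀ B Y : Mat m, DK (fun x => (Polynomial.monomial k a).eval x)
        (fun x => (Polynomial.monomial k a).derivative.eval x) B Y =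
        a • DK (fun x => x ^ k) (fun x => k * x ^ (k - 1)) B Y := by
      intro B Y
      rw [← DK_cmul]
      congr 1
      · funext x; simp [Polynomial.eval_monomial]
      · funext x; simp [Polynomial.derivative_monomial, Polynomial.eval_monomial, mul_assoc]
    simp only [e2]
    exact (key k).const_smul a

/-- polynomial antiderivative -/
lemma exists_antideriv (q : Polynomial ℝ) : ∃ p : Polynomial ℝ, p.derivative = q := by
  induction q using Polynomial.induction_on' with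
  | add p q hp hq =>
    obtain ⟨a, ha⟩ := hp
    obtain ⟨b, hb⟩ := hq
    exact ⟨a + b, by rw [Polynomial.derivative_add, ha, hb]⟩
  | monomial k a =>
    refine ⟨Polynomial.monomial (k + 1) (a / (k + 1)), ?_⟩
    rw [Polynomial.derivative_monomial]
    congr 1
    push_cast
    field_simp

/-- mean value bound of the divided difference -/
lemma abs_dd1_le {lo hi : ℝ} {f f' : ℝ → ℝ} (hf : ∀ x ∈ Icc lo hi, HasDerivAt f (f' x) x) {C : ℝ}
    (hC : ∀ x ∈ Icc lo hi, |f' x| ≤ C) {x y : ℝ} (hx : x ∈ Icc lo hi) (hy : y ∈ Icc lo hi) :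
    |dd1 f f' x y| ≤ C := by
  unfold dd1
  split_ifs with h
  · exact hC x hx
  · have h1 := (convex_Icc lo hi).norm_image_sub_le_of_norm_hasDerivWithin_le
      (f := f) (f' := f') (C := C) (fun z hz => (hf z hz).hasDerivWithinAt)
      (fun z hz => by simpa using hC z hz) hy hx
    rw [abs_div]
    have h2 : 0 < |x - y| := abs_pos.2 (sub_ne_zero.2 h)
    rw [div_le_iff₀ h2]
    simpa using h1

theorem tendsto_DK {lo hi : ℝ} {f f' : ℝ → ℝ} (hf : ∀ x ∈ Icc lo hi, HasDerivAt f (f' x) x)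
    (hf' : ContinuousOn f' (Icc lo hi)) {τ : Type*} {l : Filter τ} {A X : τ → Mat m}
    {A0 X0 : Mat m} (hA : ∀ᶠ t in l, (A t).IsHermitian ∧ spectrum ℝ (A t) ⊆ Icc lo hi)
    (hA0 : A0.IsHermitian) (hA0I : spectrum ℝ A0 ⊆ Icc lo hi)
    (h1 : Tendsto A l (𝓝 A0)) (h2 : Tendsto X l (𝓝 X0)) (i j : Fin m) :
    Tendsto (fun t => DK f f' (A t) (X t) i j) l (𝓝 (DK f f' A0 X0 i j)) := by
  set N : Mat m → ℝ := fun Y => ∑ c, ∑ d, |Y c d| with hN
  have hNc : Tendsto (fun t => N (X t)) l (𝓝 (N X0)) := by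
    have : Continuous N := by
      refine continuous_finsetSum _ fun c _ => continuous_finsetSum _ fun d _ => ?_
      exact (continuous_apply_apply c d).abs
    exact (this.tendsto X0).comp h2
  have hN0 : ∀ Y, 0 ≤ N Y := fun Y => Finset.sum_nonneg fun c _ => Finset.sum_nonneg fun d _ => abs_nonneg _
  rw [Metric.tendsto_nhds]
  intro ε hε
  set B := N X0 + 1 with hB
  have hB0 : 0 < B := by have := hN0 X0; linarith
  obtain ⟨q, hq⟩ := exists_polynomial_near_of_continuousOn lo hi f' hf' (ε / (4 * B)) (by positivity)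
  obtain ⟨p, hp⟩ := exists_antideriv q
  have hd : ∀ x ∈ Icc lo hi, HasDerivAt (fun t => f t - p.eval t) (f' x - p.derivative.eval x) x :=
    fun x hx => (hf x hx).sub (p.hasDerivAt x)
  have hb : ∀ x ∈ Icc lo hi, |f' x - p.derivative.eval x| ≤ ε / (4 * B) := fun x hx => by
    have := (hq x hx).le
    rw [hp, abs_sub_comm]
    exact this
  have hdiff : ∀ {C Y : Mat m}, C.IsHermitian → spectrum ℝ C ⊆ Icc lo hi → N Y ≤ B →
      |DK f f' C Y i j - DK (fun x => p.eval x) (fun x => p.derivative.eval x) C Y i j| ≤ ε / 4 := by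
    intro C Y hC hCI hY
    have e1 := DK_fsub f f' (fun x => p.eval x) (fun x => p.derivative.eval x) C Y
    have e2 := congrFun (congrFun e1 i) j
    rw [Matrix.sub_apply] at e2
    rw [← e2]
    refine (abs_DK_le hC (C := ε / (4 * B)) (by positivity)
      (fun a ha b hb' => abs_dd1_le hd hb (hCI ha) (hCI hb')) Y i j).trans ?_
    calc ε / (4 * B) * ∑ c, ∑ d, |Y c d| ≤ ε / (4 * B) * B :=
          mul_le_mul_of_nonneg_left hY (by positivity)
      _ = ε / 4 := by field_simp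
  have hpol := tendsto_DK_poly p (hA.mono fun t ht => ht.1) hA0 h1 h2
  have hpol2 : Tendsto (fun t => DK (fun x => p.eval x) (fun x => p.derivative.eval x) (A t) (X t) i j) l
      (𝓝 (DK (fun x => p.eval x) (fun x => p.derivative.eval x) A0 X0 i j)) :=
    ((continuous_apply_apply i j).tendsto _).comp hpol
  have h3 := (Metric.tendsto_nhds.1 hpol2) (ε / 4) (by positivity)
  have h4 : ∀ᶠ t in l, N (X t) ≤ B := by
    have := (tendsto_order.1 hNc).2 B (by rw [hB]; linarith)
    exact this.mono fun t ht => ht.le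
  filter_upwards [h3, h4, hA] with t ht1 ht2 ht3
  have a1 := hdiff ht3.1 ht3.2 ht2
  have a2 := hdiff hA0 hA0I (Y := X0) (by rw [hB]; linarith)
  rw [Real.dist_eq] at ht1 ⊢
  have a3 := abs_le.1 a1
  have a4 := abs_le.1 a2
  have a5 := abs_lt.1 ht1
  rw [abs_lt]
  constructor <;> linarith

/-! ### Fréchet derivative -/

lemma hasFDerivAt_mul_vanish {F X : E n → ℝ} {x0 : E n} {X' : E n →L[ℝ] ℝ}
    (hF : ContinuousAt F x0) (hX : HasFDerivAt X X' x0) (h0 : X x0 = 0) :
    HasFDerivAt (fun x => F x * X x) (F x0 • X') x0 := by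
  rw [hasFDerivAt_iff_isLittleO] at hX ⊢
  have hFO : F =O[𝓝 x0] fun _ => (1 : ℝ) := hF.tendsto.isBigO_one ℝ
  have h1 : (fun x => F x * (X x - X x0 - X' (x - x0))) =o[𝓝 x0] fun x => x - x0 := by
    have := hFO.mul_isLittleO hX.norm_right
    simpa using this.norm_right
  have h2 : (fun x => (F x - F x0) * X' (x - x0)) =o[𝓝 x0] fun x => x - x0 := by
    have a : (fun x => F x - F x0) =o[𝓝 x0] fun _ => (1 : ℝ) := by
      rw [isLittleO_one_iff]
      have := hF.tendsto.sub_const (F x0)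
      rwa [sub_self] at this
    have b : (fun x => X' (x - x0)) =O[𝓝 x0] fun x => ‖x - x0‖ :=
      (X'.isBigO_sub (𝓝 x0) x0).norm_right |>.congr_left fun x => by simp
    have := a.mul_isBigO b
    simpa using this.norm_right
  refine (h1.add h2).congr_left fun x => ?_
  simp only [h0, ContinuousLinearMap.smul_apply, smul_eq_mul]
  ring

section field

variable {lo hi : ℝ} {f f' : ℝ → ℝ}

/-- the matrix at `x` -/
def Mx (M : Fin m → Fin m → E n → ℝ) (x : E n) : Mat m := Matrix.of fun i j => M i j x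

lemma continuousOn_dd1 (hf : ∀ x ∈ Icc lo hi, HasDerivAt f (f' x) x) {b : ℝ} (hb : b ∈ Icc lo hi) :
    ContinuousOn (fun x => dd1 f f' x b) (Icc lo hi) := by
  intro x hx
  by_cases h : x = b
  · subst h
    have h1 : Tendsto (fun y => dd1 f f' y x) (𝓝[≠] x) (𝓝 (f' x)) := by
      have := (hasDerivAt_iff_tendsto_slope.1 (hf x hx))
      refine this.congr' ?_
      filter_upwards [self_mem_nhdsWithin] with y hy
      unfold dd1
      have hy' : ¬ y = x := hy
      rw [if_neg hy', slope_def_field]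
    have h2 : ContinuousAt (fun y => dd1 f f' y x) x := by
      rw [continuousAt_iff_punctured_nhds]
      have : dd1 f f' x x = f' x := by unfold dd1; simp
      rw [this]; exact h1
    exact h2.continuousWithinAt
  · have h2 : ContinuousAt (fun y => dd1 f f' y b) x := by
      have : (fun y => dd1 f f' y b) =ᶠ[𝓝 x] fun y => (f y - f b) / (y - b) := by
        filter_upwards [isOpen_ne.mem_nhds h] with y hy
        unfold dd1
        rw [if_neg hy]
      refine ContinuousAt.congr ?_ this.symm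
      exact ((hf x hx).continuousAt.sub continuousAt_const).div
        (continuousAt_id.sub continuousAt_const) (sub_ne_zero.2 h)
    exact h2.continuousWithinAt

/-- the derivative at a point where the field is diagonal -/
lemma hasFDerivAt_cfc_diag {M : E n → Mat m} {x0 : E n} {s : Fin m → ℝ}
    (h0 : M x0 = Matrix.diagonal s) (hs0 : ∀ i, s i ∈ Icc lo hi)
    (hf : ∀ x ∈ Icc lo hi, HasDerivAt f (f' x) x)
    (hM : ∀ᶠ x in 𝓝 x0, (M x).IsHermitian ∧ spectrum ℝ (M x) ⊆ Icc lo hi)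
    {M' : Fin m → Fin m → (E n →L[ℝ] ℝ)}
    (hd : ∀ i j, HasFDerivAt (fun x => M x i j) (M' i j) x0) (i k : Fin m) :
    HasFDerivAt (fun x => _root_.cfc f (M x) i k) (dd1 f f' (s i) (s k) • M' i k) x0 := by
  classical
  have hev : (fun x => f (s k) * (if i = k then (1 : ℝ) else 0) +
      ∑ j, (_root_.cfc (fun t => dd1 f f' t (s k)) (M x)) i j * (M x j k - Matrix.diagonal s j k))
      =ᶠ[𝓝 x0] fun x => _root_.cfc f (M x) i k := by
    filter_upwards [hM] with x hx
    rw [cfc_factor hx.1 (X := M x - Matrix.diagonal s) (by simp) k f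
      (fun t => dd1 f f' t (s k)) (fun t => (dd1_mul f f' t (s k)).symm) i]
    simp only [Matrix.sub_apply]
  refine HasFDerivAt.congr_of_eventuallyEq ?_ hev.symm
  have hcont : ∀ j, ContinuousAt (fun x => (_root_.cfc (fun t => dd1 f f' t (s k)) (M x)) i j) x0 := by
    intro j
    refine tendsto_cfc_entry isCompact_Icc (continuousOn_dd1 hf (hs0 k)) hM ?_ ?_
      (fun a b => (hd a b).continuousAt.tendsto) i j
    · rw [h0]; exact Matrix.isHermitian_diagonal s
    · exact (hM.self_of_nhds).2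
  have hval : ∀ j, (_root_.cfc (fun t => dd1 f f' t (s k)) (M x0)) i j =
      if i = j then dd1 f f' (s i) (s k) else 0 := by
    intro j
    rw [h0, cfc_diagonal, Matrix.diagonal_apply]
  have h1 : ∀ j, HasFDerivAt (fun x => (_root_.cfc (fun t => dd1 f f' t (s k)) (M x)) i j *
      (M x j k - Matrix.diagonal s j k))
      ((if i = j then dd1 f f' (s i) (s k) else 0) • M' j k) x0 := by
    intro j
    rw [← hval j]
    exact hasFDerivAt_mul_vanish (hcont j) ((hd j k).sub_const _) (by rw [h0]; simp)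
  have h2 := (HasFDerivAt.fun_sum (u := Finset.univ) fun j _ => h1 j).const_add
    (f (s k) * (if i = k then (1 : ℝ) else 0))
  refine h2.congr_fderiv ?_
  rw [Finset.sum_eq_single i]
  · simp
  · intro b _ hb; simp [Ne.symm hb]
  · intro h; exact absurd (Finset.mem_univ _) h

theorem hasFDerivAt_cfc {M : E n → Mat m} {x0 : E n}
    (hf : ∀ x ∈ Icc lo hi, HasDerivAt f (f' x) x)
    (hM : ∀ᶠ x in 𝓝 x0, (M x).IsHermitian ∧ spectrum ℝ (M x) ⊆ Icc lo hi)
    {M' : Fin m → Fin m → (E n →L[ℝ] ℝ)}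
    (hd : ∀ i j, HasFDerivAt (fun x => M x i j) (M' i j) x0) (i j : Fin m) :
    HasFDerivAt (fun x => _root_.cfc f (M x) i j)
      (∑ c, ∑ d, DK f f' (M x0) (Matrix.single c d 1) i j • M' c d) x0 := by
  classical
  obtain ⟨U, hU⟩ := exists_fr (hM.self_of_nhds).1
  set s := (hM.self_of_nhds).1.eigenvalues with hs
  have hs0 : ∀ i, s i ∈ Icc lo hi := fun i => (hM.self_of_nhds).2 (hU.mem_spec i)
  -- the rotated field
  have hdU : ∀ a b, HasFDerivAt (fun x => (Uᵀ * M x * U) a b)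
      (∑ c, ∑ d, (U c a * U d b) • M' c d) x0 := by
    intro a b
    have e : (fun x => (Uᵀ * M x * U) a b) = fun x => ∑ c, ∑ d, (U c a * U d b) * M x c d := by
      funext x
      rw [Matrix.mul_apply]
      simp only [Matrix.mul_apply, Matrix.transpose_apply, Finset.sum_mul]
      rw [Finset.sum_comm]
      refine Finset.sum_congr rfl fun c _ => Finset.sum_congr rfl fun d _ => by ring
    rw [e]
    exact HasFDerivAt.fun_sum fun c _ => HasFDerivAt.fun_sum fun d _ => (hd c d).const_mul _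
  have hMU : ∀ᶠ x in 𝓝 x0, (Uᵀ * M x * U).IsHermitian ∧ spectrum ℝ (Uᵀ * M x * U) ⊆ Icc lo hi := by
    filter_upwards [hM] with x hx
    refine ⟨?_, ?_⟩
    · have := isHermitian_conjTranspose_mul_mul U hx.1
      rwa [conjTranspose_eq_transpose_of_trivial] at this
    · have hu : IsUnit U := ⟨⟨U, Uᵀ, hU.o', hU.o⟩, rfl⟩
      obtain ⟨u, hu⟩ := hu
      have e : Uᵀ = ((u⁻¹ : (Mat m)ˣ) : Mat m) := by
        have : ((u⁻¹ : (Mat m)ˣ) : Mat m) = Uᵀ * ((u : Mat m) * ((u⁻¹ : (Mat m)ˣ) : Mat m)) := by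
          rw [← Matrix.mul_assoc, hu, hU.o, Matrix.one_mul]
        rw [this, Units.mul_inv, Matrix.mul_one]
      rw [e, ← hu, spectrum.units_conjugate']
      exact hx.2
  have h3 := fun a b => hasFDerivAt_cfc_diag (f := f) (f' := f') (M := fun x => Uᵀ * M x * U)
    (x0 := x0) (s := s) hU.d hs0 hf hMU hdU a b
  have hev : (fun x => ∑ a, ∑ b, (U i a * U j b) * _root_.cfc f (Uᵀ * M x * U) a b)
      =ᶠ[𝓝 x0] fun x => _root_.cfc f (M x) i j := by
    filter_upwards [hM] with x hx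
    rw [cfc_conj hU.o hx.1]
    have e : _root_.cfc f (M x) = U * (Uᵀ * _root_.cfc f (M x) * U) * Uᵀ := by
      calc _root_.cfc f (M x) = (U * Uᵀ) * _root_.cfc f (M x) * (U * Uᵀ) := by
            rw [hU.o', Matrix.one_mul, Matrix.mul_one]
        _ = _ := by simp only [Matrix.mul_assoc]
    conv_rhs => rw [e]
    rw [Matrix.mul_apply]
    simp only [Matrix.mul_apply (M := U), Matrix.transpose_apply, Finset.sum_mul]
    rw [Finset.sum_comm]
    refine Finset.sum_congr rfl fun b _ => Finset.sum_congr rfl fun a _ => by ring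
  refine HasFDerivAt.congr_of_eventuallyEq ?_ hev.symm
  have h4 : HasFDerivAt (fun x => ∑ a, ∑ b, (U i a * U j b) * _root_.cfc f (Uᵀ * M x * U) a b)
      (∑ a, ∑ b, (U i a * U j b) • (dd1 f f' (s a) (s b) • ∑ c, ∑ d, (U c a * U d b) • M' c d)) x0 :=
    HasFDerivAt.fun_sum fun a _ => HasFDerivAt.fun_sum fun b _ => (h3 a b).const_mul _
  refine h4.congr_fderiv ?_
  ext v
  simp only [ContinuousLinearMap.sum_apply, ContinuousLinearMap.smul_apply, smul_eq_mul]
  have e5 : ∀ c d, DK f f' (M x0) (Matrix.single c d 1) i j =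
      ∑ a, ∑ b, U i a * (dd1 f f' (s a) (s b) * (U c a * U d b)) * U j b := by
    intro c d
    rw [DK_apply hU]
    refine Finset.sum_congr rfl fun a _ => Finset.sum_congr rfl fun b _ => ?_
    congr 3
    rw [Matrix.mul_apply, Finset.sum_eq_single d]
    · rw [Matrix.mul_apply, Finset.sum_eq_single c]
      · simp [Matrix.single_apply]
      · intro e _ he; simp [Matrix.single_apply, Ne.symm he]
      · intro h; exact absurd (Finset.mem_univ _) h
    · intro e _ he
      rw [Matrix.mul_apply]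
      have : ∑ k, Uᵀ a k * (Matrix.single c d (1:ℝ) : Mat m) k e = 0 :=
        Finset.sum_eq_zero fun k _ => by simp [Matrix.single_apply, Ne.symm he]
      rw [this, zero_mul]
    · intro h; exact absurd (Finset.mem_univ _) h
  simp only [e5, Finset.sum_mul, Finset.mul_sum]
  have sw : ∀ F : Fin m → Fin m → Fin m → Fin m → ℝ,
      ∑ a, ∑ b, ∑ c, ∑ d, F a b c d = ∑ c, ∑ d, ∑ a, ∑ b, F a b c d := by
    intro F
    calc ∑ a, ∑ b, ∑ c, ∑ d, F a b c d = ∑ a, ∑ c, ∑ b, ∑ d, F a b c d :=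
          Finset.sum_congr rfl fun a _ => Finset.sum_comm
      _ = ∑ c, ∑ a, ∑ b, ∑ d, F a b c d := Finset.sum_comm
      _ = ∑ c, ∑ a, ∑ d, ∑ b, F a b c d :=
          Finset.sum_congr rfl fun c _ => Finset.sum_congr rfl fun a _ => Finset.sum_comm
      _ = ∑ c, ∑ d, ∑ a, ∑ b, F a b c d := Finset.sum_congr rfl fun c _ => Finset.sum_comm
  rw [sw]
  refine Finset.sum_congr rfl fun c _ => Finset.sum_congr rfl fun d _ =>
    Finset.sum_congr rfl fun a _ => Finset.sum_congr rfl fun b _ => by ring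

/-- hypotheses on the matrix field -/
structure MF (M : Fin m → Fin m → E n → ℝ) (lo hi : ℝ) : Prop where
  c : ∀ i j, C1 (M i j)
  h : ∀ x, (Mx M x).IsHermitian
  s : ∀ x, spectrum ℝ (Mx M x) ⊆ Icc lo hi

variable {M : Fin m → Fin m → E n → ℝ}

theorem pd_cfc (hM : MF M lo hi) (hf : ∀ x ∈ Icc lo hi, HasDerivAt f (f' x) x) (x : E n)
    (i j : Fin m) (k : Fin n) :
    pd k (fun x => _root_.cfc f (Mx M x) i j) x =
      DK f f' (Mx M x) (Mx (fun a b => pd k (M a b)) x) i j := by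
  have h := hasFDerivAt_cfc (M := Mx M) (x0 := x) hf
    (Eventually.of_forall fun y => ⟨hM.h y, hM.s y⟩) (M' := fun a b => fderiv ℝ (M a b) x)
    (fun a b => ((hM.c a b).diff x).hasFDerivAt) i j
  unfold pd
  rw [h.fderiv, DK_coeff]
  simp only [ContinuousLinearMap.sum_apply, ContinuousLinearMap.smul_apply, smul_eq_mul]
  refine Finset.sum_congr rfl fun c _ => Finset.sum_congr rfl fun d _ => ?_
  rw [mul_comm]
  rfl

theorem c1_cfc (hM : MF M lo hi) (hf : ∀ x ∈ Icc lo hi, HasDerivAt f (f' x) x)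
    (hf' : ContinuousOn f' (Icc lo hi)) (i j : Fin m) :
    C1 (fun x => _root_.cfc f (Mx M x) i j) := by
  have hfd : ∀ x, HasFDerivAt (fun x => _root_.cfc f (Mx M x) i j)
      (∑ c, ∑ d, DK f f' (Mx M x) (Matrix.single c d 1) i j • fderiv ℝ (M c d) x) x := fun x =>
    hasFDerivAt_cfc (M := Mx M) (x0 := x) hf
      (Eventually.of_forall fun y => ⟨hM.h y, hM.s y⟩) (M' := fun a b => fderiv ℝ (M a b) x)
      (fun a b => ((hM.c a b).diff x).hasFDerivAt) i j
  have hMc : Continuous (Mx M) := by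
    refine continuous_pi fun a => continuous_pi fun b => ?_
    exact (hM.c a b).cont
  have hcD : ∀ c d, Continuous fun x => DK f f' (Mx M x) (Matrix.single c d 1) i j := by
    intro c d
    rw [continuous_iff_continuousAt]
    intro x
    exact tendsto_DK hf hf' (Eventually.of_forall fun y => ⟨hM.h y, hM.s y⟩) (hM.h x) (hM.s x)
      (hMc.tendsto x) tendsto_const_nhds i j
  obtain ⟨C, hC⟩ : ∃ C, ∀ x ∈ Icc lo hi, |f' x| ≤ C := by
    obtain ⟨C, hC⟩ := isCompact_Icc.exists_bound_of_continuousOn hf'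
    exact ⟨C, fun x hx => by simpa using hC x hx⟩
  obtain ⟨C0, hC0⟩ : ∃ C, ∀ x ∈ Icc lo hi, |f x| ≤ C := by
    obtain ⟨C, hC⟩ := isCompact_Icc.exists_bound_of_continuousOn
      (f := f) fun x hx => (hf x hx).continuousAt.continuousWithinAt
    exact ⟨C, fun x hx => by simpa using hC x hx⟩
  refine ⟨?_, ?_, ?_⟩
  · rw [contDiff_one_iff_fderiv]
    refine ⟨fun x => (hfd x).differentiableAt, ?_⟩
    have : (fderiv ℝ fun x => _root_.cfc f (Mx M x) i j) =
        fun x => ∑ c, ∑ d, DK f f' (Mx M x) (Matrix.single c d 1) i j • fderiv ℝ (M c d) x := by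
      funext x; exact (hfd x).fderiv
    rw [this]
    refine continuous_finsetSum _ fun c _ => continuous_finsetSum _ fun d _ => ?_
    exact (hcD c d).smul ((hM.c c d).c.continuous_fderiv one_ne_zero)
  · exact PG.of_bdd (K := C0) fun x => abs_cfc_entry_le (hM.h x) (hM.s x) (fun y hy => hC0 y hy) i j
  · intro k
    have h1 : PG fun x => max C 0 * ∑ c, ∑ d, |pd k (M c d) x| :=
      (pg_const (max C 0)).mul (PG.sum _ fun c _ => PG.sum _ fun d _ => ((hM.c c d).p k).abs)
    refine PG.mono h1 fun x => ?_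
    rw [pd_cfc hM hf]
    refine (abs_DK_le (hM.h x) (le_max_right C 0) (fun a ha b hb =>
      (abs_dd1_le hf hC (hM.s x ha) (hM.s x hb)).trans (le_max_left _ _)) _ i j).trans ?_
    exact le_abs_self _

/-- derivative in an eigenframe -/
theorem pd_cfc_frame (hM : MF M lo hi) (hf : ∀ x ∈ Icc lo hi, HasDerivAt f (f' x) x) (x : E n)
    {U : Mat m} {s : Fin m → ℝ} (hU : Fr (Mx M x) U s) (k : Fin n) (i j : Fin m) :
    (Uᵀ * Mx (fun a b => pd k (fun x => _root_.cfc f (Mx M x) a b)) x * U) i j =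
      dd1 f f' (s i) (s j) * (Uᵀ * Mx (fun a b => pd k (M a b)) x * U) i j := by
  have : Mx (fun a b => pd k (fun x => _root_.cfc f (Mx M x) a b)) x =
      DK f f' (Mx M x) (Mx (fun a b => pd k (M a b)) x) := by
    ext a b
    exact pd_cfc hM hf x a b k
  rw [this, DK_frame hU]

end field

end Crest.Agent.R253.SpecField321
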