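import Crest.Agent.R253.MAI_74
import Crest.Agent.R253.Mills_37
import Crest.Agent.R253.SpecField_321
import Crest.Agent.R253.NormZ_944

/-!
Row 253, normalisation (helper944), part A: the two-sided bound of `⟨w, E z(M) w⟩`.

`zf` is any function with `mu (zf x) = x` for `x > 0` (the inverse of the hazard function).
-/

set_option autoImplicit false

open MeasureTheory Matrix Set
open scoped Real

noncomputable section

namespace Crest.Agent.R253.Norm944

open Crest.Agent.R253.Mills37 Crest.Agent.R253.Meh74 Crest.Agent.R253.SpecField321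

/-! ### one variable -/

lemma tangent {f f' : ℝ → ℝ} (hf : ∀ z, HasDerivAt f (f' z) z) (hm : Monotone f') (z0 z : ℝ) :
    f z0 + f' z0 * (z - z0) ≤ f z := by
  rcases lt_trichotomy z z0 with h | h | h
  · obtain ⟨c, hc, he⟩ := exists_hasDerivAt_eq_slope f f' h
      (fun x _ => (hf x).continuousAt.continuousWithinAt) fun x _ => hf x
    have h1 : f' c ≤ f' z0 := hm hc.2.le
    rw [eq_div_iff (by linarith)] at he
    nlinarith
  · subst h; simp
  · obtain ⟨c, hc, he⟩ := exists_hasDerivAt_eq_slope f f' h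
      (fun x _ => (hf x).continuousAt.continuousWithinAt) fun x _ => hf x
    have h1 : f' z0 ≤ f' c := hm hc.1.le
    rw [eq_div_iff (by linarith)] at he
    nlinarith

lemma ee_zero : ee 0 = mu 0 := by simp [ee]

lemma mu_ee_mono : Monotone fun z => mu z * ee z := by
  refine monotone_of_hasDerivAt_nonneg (f' := fun z => mu z * ss z) (fun z => ?_) fun z =>
    (mul_pos (mu_pos z) (ss_pos z)).le
  have h := (cc_hasDerivAt z).const_sub 1
  refine (h.congr_deriv (by ring)).congr_of_eventuallyEq (Filter.Eventually.of_forall fun y => ?_)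
  simp only [cc]; ring

/-- tangent of the hazard function at `0` -/
lemma mu_tangent (z : ℝ) : mu 0 + mu 0 ^ 2 * z ≤ mu z := by
  have h := tangent mu_hasDerivAt mu_ee_mono 0 z
  simp only [ee_zero, sub_zero] at h
  nlinarith [h]

lemma inv_mu_hasDerivAt (z : ℝ) : HasDerivAt (fun z => (mu z)⁻¹) (-(ee z / mu z)) z := by
  have h := (mu_hasDerivAt z).inv (mu_pos z).ne'
  refine h.congr_deriv ?_
  have := (mu_pos z).ne'
  field_simp

/-- tangent of the Mills ratio at `0` -/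
lemma inv_mu_tangent (z : ℝ) : (mu 0)⁻¹ - z ≤ (mu z)⁻¹ := by
  have hm : Monotone fun z => -(ee z / mu z) := by
    refine monotone_of_hasDerivAt_nonneg (f' := fun z => ww z / mu z) (fun z => ?_) fun z =>
      (div_pos (ww_pos z) (mu_pos z)).le
    have h := ((ee_hasDerivAt z).div (mu_hasDerivAt z) (mu_pos z).ne').neg
    refine h.congr_deriv ?_
    have h2 := ww_add z
    have h3 := (mu_pos z).ne'
    have h4 : ww z = 1 + ee z ^ 2 - mu z * ee z := by linarith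
    rw [h4]
    field_simp
    ring
  have h := tangent inv_mu_hasDerivAt hm 0 z
  simp only [ee_zero, sub_zero, div_self (mu_pos 0).ne'] at h
  linarith

section
variable {zf : ℝ → ℝ} (hz : ∀ x, 0 < x → mu (zf x) = x)
include hz

lemma zf_upper {x : ℝ} (hx : 0 < x) : zf x ≤ (mu 0 ^ 2)⁻¹ * x - (mu 0)⁻¹ := by
  have h := mu_tangent (zf x)
  rw [hz x hx] at h
  have h0 := mu_pos 0
  have h1 : (mu 0 ^ 2)⁻¹ * (mu 0 + mu 0 ^ 2 * zf x) ≤ (mu 0 ^ 2)⁻¹ * x :=
    mul_le_mul_of_nonneg_left h (by positivity)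
  have h2 : (mu 0 ^ 2)⁻¹ * (mu 0 + mu 0 ^ 2 * zf x) = (mu 0)⁻¹ + zf x := by
    field_simp
  linarith

lemma zf_lower {x : ℝ} (hx : 0 < x) : (mu 0)⁻¹ - x⁻¹ ≤ zf x := by
  have h := inv_mu_tangent (zf x)
  rw [hz x hx] at h
  linarith

end

/-! ### quadratic forms of functions of a matrix -/

variable {m n : ℕ}

lemma qf_cfc {A U : Matrix (Fin m) (Fin m) ℝ} {s : Fin m → ℝ} (h : Fr A U s) (f : ℝ → ℝ)
    (w : Fin m → ℝ) : w ⬝ᵥ (cfc f A *ᵥ w) = ∑ i, f (s i) * (Uᵀ *ᵥ w) i ^ 2 := by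
  have h1 : cfc f A = U * Matrix.diagonal (fun i => f (s i)) * Uᵀ := by
    rw [← h.cfc f]
    calc cfc f A = (U * Uᵀ) * cfc f A * (U * Uᵀ) := by rw [h.o', Matrix.one_mul, Matrix.mul_one]
      _ = _ := by simp only [Matrix.mul_assoc]
  rw [h1, Matrix.mul_assoc, ← Matrix.mulVec_mulVec, dotProduct_mulVec, ← Matrix.mulVec_transpose,
    ← Matrix.mulVec_mulVec]
  simp only [dotProduct, Matrix.mulVec_diagonal]
  exact Finset.sum_congr rfl fun i _ => by ring

lemma qf_self {A U : Matrix (Fin m) (Fin m) ℝ} {s : Fin m → ℝ} (h : Fr A U s)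
    (w : Fin m → ℝ) : w ⬝ᵥ (A *ᵥ w) = ∑ i, s i * (Uᵀ *ᵥ w) i ^ 2 := by
  have h1 : A = U * Matrix.diagonal s * Uᵀ := h.eq
  conv_lhs => rw [h1]
  rw [Matrix.mul_assoc, ← Matrix.mulVec_mulVec, dotProduct_mulVec, ← Matrix.mulVec_transpose,
    ← Matrix.mulVec_mulVec]
  simp only [dotProduct, Matrix.mulVec_diagonal]
  exact Finset.sum_congr rfl fun i _ => by ring

lemma qf_one {A U : Matrix (Fin m) (Fin m) ℝ} {s : Fin m → ℝ} (h : Fr A U s)
    (w : Fin m → ℝ) : w ⬝ᵥ w = ∑ i, (Uᵀ *ᵥ w) i ^ 2 := by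
  have h1 : (Uᵀ *ᵥ w) ⬝ᵥ (Uᵀ *ᵥ w) = w ⬝ᵥ w := by
    rw [dotProduct_mulVec, ← Matrix.mulVec_transpose, Matrix.transpose_transpose,
      Matrix.mulVec_mulVec, h.o', Matrix.one_mulVec]
  rw [← h1]
  simp only [dotProduct]
  exact Finset.sum_congr rfl fun i _ => by ring

lemma qf_inv {A N U : Matrix (Fin m) (Fin m) ℝ} {s : Fin m → ℝ} (h : Fr A U s) (hN : N * A = 1)
    (hs : ∀ i, s i ≠ 0) (w : Fin m → ℝ) : w ⬝ᵥ (N *ᵥ w) = ∑ i, (s i)⁻¹ * (Uᵀ *ᵥ w) i ^ 2 := by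
  have h0 : A * (U * Matrix.diagonal (fun i => (s i)⁻¹) * Uᵀ) = 1 := by
    conv_lhs => rw [h.eq]
    calc U * Matrix.diagonal s * Uᵀ * (U * Matrix.diagonal (fun i => (s i)⁻¹) * Uᵀ)
        = U * (Matrix.diagonal s * (Uᵀ * U) * Matrix.diagonal (fun i => (s i)⁻¹)) * Uᵀ := by
          simp only [Matrix.mul_assoc]
      _ = 1 := by
          rw [h.o, Matrix.mul_one, Matrix.diagonal_mul_diagonal]
          have : (fun i => s i * (s i)⁻¹) = fun _ => (1 : ℝ) := by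
            funext i; exact mul_inv_cancel₀ (hs i)
          rw [this, Matrix.diagonal_one, Matrix.mul_one, h.o']
  have h1 : N = U * Matrix.diagonal (fun i => (s i)⁻¹) * Uᵀ := by
    calc N = N * (A * (U * Matrix.diagonal (fun i => (s i)⁻¹) * Uᵀ)) := by
          rw [h0, Matrix.mul_one]
      _ = _ := by rw [← Matrix.mul_assoc, hN, Matrix.one_mul]
  rw [h1, Matrix.mul_assoc, ← Matrix.mulVec_mulVec, dotProduct_mulVec, ← Matrix.mulVec_transpose,
    ← Matrix.mulVec_mulVec]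
  simp only [dotProduct, Matrix.mulVec_diagonal]
  exact Finset.sum_congr rfl fun i _ => by ring

section
variable {zf : ℝ → ℝ} (hz : ∀ x, 0 < x → mu (zf x) = x)
include hz

theorem qf_upper {A : Matrix (Fin m) (Fin m) ℝ} (hA : A.IsHermitian)
    (hp : ∀ x ∈ spectrum ℝ A, 0 < x) (w : Fin m → ℝ) :
    w ⬝ᵥ (cfc zf A *ᵥ w) ≤ (mu 0 ^ 2)⁻¹ * (w ⬝ᵥ (A *ᵥ w)) - (mu 0)⁻¹ * (w ⬝ᵥ w) := by
  obtain ⟨U, hU⟩ := exists_fr hA
  rw [qf_cfc hU, qf_self hU, qf_one hU, Finset.mul_sum, Finset.mul_sum, ← Finset.sum_sub_distrib]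
  refine Finset.sum_le_sum fun i _ => ?_
  have h := zf_upper hz (hp _ (hU.mem_spec i))
  nlinarith [sq_nonneg ((Uᵀ *ᵥ w) i)]

theorem qf_lower {A N : Matrix (Fin m) (Fin m) ℝ} (hA : A.IsHermitian) (hN : N * A = 1)
    (hp : ∀ x ∈ spectrum ℝ A, 0 < x) (w : Fin m → ℝ) :
    (mu 0)⁻¹ * (w ⬝ᵥ w) - w ⬝ᵥ (N *ᵥ w) ≤ w ⬝ᵥ (cfc zf A *ᵥ w) := by
  obtain ⟨U, hU⟩ := exists_fr hA
  rw [qf_cfc hU, qf_inv hU hN fun i => (hp _ (hU.mem_spec i)).ne', qf_one hU, Finset.mul_sum,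
    ← Finset.sum_sub_distrib]
  refine Finset.sum_le_sum fun i _ => ?_
  have h := zf_lower hz (hp _ (hU.mem_spec i))
  nlinarith [sq_nonneg ((Uᵀ *ᵥ w) i)]

end

end Crest.Agent.R253.Norm944
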