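import Crest.Agent.R253.NormA_944

/-!
Row 253, normalisation (helper944), part B: the integrated two-sided bound and the abstract zero
theorem for a family of Gaussian gradient data.
-/

set_option autoImplicit false

open MeasureTheory ProbabilityTheory Matrix Set
open scoped Real

noncomputable section

namespace Crest.Agent.R253.Norm944

open Crest.Agent.R253.Mills37 Crest.Agent.R253.Meh74 Crest.Agent.R253.SpecField321
open Crest.Agent.R238.Gap Crest.Agent.R238.GapPoinc Crest.Agent.R238.GapPc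

variable {n : ℕ}

/-- `w · x` -/
def lw (w : Fin n → ℝ) (x : E n) : ℝ := ∑ i, w i * x i

lemma c1_lw (w : Fin n → ℝ) : C1 (lw w) := C1.sum fun i _ => (c1_coord i).smul (w i)

lemma pd_lw (w : Fin n → ℝ) (k : Fin n) (x : E n) : pd k (lw w) x = w k := by
  have h : pd k (lw w) x = ∑ i, pd k (fun x : E n => w i * x i) x :=
    pd_sum' (f := fun i x => w i * x i) (fun i _ => (c1_coord i).smul (w i)) k x
  rw [h]
  have h2 : ∀ i, pd k (fun x : E n => w i * x i) x = w i * (if i = k then 1 else 0) := fun i => by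
    rw [(c1_const (w i)).pd_mul (c1_coord i) k x, pd_coord]
    simp [pd]
  simp_rw [h2]
  simp

/-- `E (w·x) f = Σ w_i E ∂_i f` -/
lemma int_lw {f : E n → ℝ} (hf : C1 f) (w : Fin n → ℝ) :
    ∫ x, lw w x * f x ∂(gam n) = ∑ i, w i * ∫ x, pd i f x ∂(gam n) := by
  have e : ∀ x, lw w x * f x = ∑ i, w i * (f x * x i) := fun x => by
    unfold lw
    rw [Finset.sum_mul]
    exact Finset.sum_congr rfl fun i _ => by ring
  simp_rw [e]
  rw [integral_finsetSum _ fun i _ => ?_]
  · refine Finset.sum_congr rfl fun i _ => ?_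
    rw [integral_const_mul, ibp_gam hf.c hf.g i (hf.p i)]
  · exact (integrable_of_PG (hf.cont.mul (c1_coord i).cont) (hf.g.mul (pg_coord i))).const_mul _

lemma int_lw_sq (w : Fin n → ℝ) : ∫ x, lw w x ^ 2 ∂(gam n) = w ⬝ᵥ w := by
  have h := int_lw (c1_lw w) w
  simp_rw [pd_lw] at h
  simp only [integral_const, measureReal_def, measure_univ, ENNReal.toReal_one, one_smul] at h
  simp_rw [sq]
  rw [h]
  rfl

/-- `w · G` -/
def wG (w : Fin n → ℝ) (G : Fin n → E n → ℝ) (x : E n) : ℝ := ∑ j, w j * G j x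

section
variable {G : Fin n → E n → ℝ} {M N : Fin n → Fin n → E n → ℝ} {V : E n → ℝ}

lemma c1_wG (hd : HD G M) (w : Fin n → ℝ) : C1 (wG w G) := C1.sum fun i _ => (hd.g i).smul (w i)

lemma pd_wG (hd : HD G M) (w : Fin n → ℝ) (k : Fin n) (x : E n) :
    pd k (wG w G) x = ∑ j, w j * M j k x := by
  have h : pd k (wG w G) x = ∑ j, pd k (fun x : E n => w j * G j x) x :=
    pd_sum' (f := fun j x => w j * G j x) (fun j _ => (hd.g j).smul (w j)) k x
  rw [h]
  refine Finset.sum_congr rfl fun j _ => ?_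
  rw [(c1_const (w j)).pd_mul (hd.g j) k x, hd.d j k]
  simp [pd]

lemma qf_Mx (A : Fin n → Fin n → E n → ℝ) (w : Fin n → ℝ) (x : E n) :
    w ⬝ᵥ (Mx A x *ᵥ w) = ∑ i, ∑ j, w i * (A i j x * w j) := by
  simp only [dotProduct, mulVec, Mx, Matrix.of_apply, Finset.mul_sum]

lemma int_qf {A : Fin n → Fin n → E n → ℝ} (hA : ∀ i j, Integrable (A i j) (gam n))
    (w : Fin n → ℝ) : ∫ x, w ⬝ᵥ (Mx A x *ᵥ w) ∂(gam n) =
      w ⬝ᵥ ((Matrix.of fun i j => ∫ x, A i j x ∂(gam n)) *ᵥ w) := by
  simp_rw [qf_Mx]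
  rw [integral_finsetSum _ fun i _ => ?_]
  · simp only [dotProduct, mulVec, Matrix.of_apply, Finset.mul_sum]
    refine Finset.sum_congr rfl fun i _ => ?_
    rw [integral_finsetSum _ fun j _ => ((hA i j).mul_const (w j)).const_mul (w i)]
    refine Finset.sum_congr rfl fun j _ => ?_
    rw [integral_const_mul, integral_mul_const]
  · exact integrable_finsetSum _ fun j _ => ((hA i j).mul_const (w j)).const_mul (w i)

lemma integrable_qf {A : Fin n → Fin n → E n → ℝ} (hA : ∀ i j, Integrable (A i j) (gam n))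
    (w : Fin n → ℝ) : Integrable (fun x => w ⬝ᵥ (Mx A x *ᵥ w)) (gam n) := by
  simp_rw [qf_Mx]
  exact integrable_finsetSum _ fun i _ => integrable_finsetSum _ fun j _ =>
    ((hA i j).mul_const (w j)).const_mul (w i)

/-- `E ⟨w, M w⟩ = E (w·x)(w·G)` -/
lemma int_M (hd : HD G M) (w : Fin n → ℝ) :
    ∫ x, w ⬝ᵥ (Mx M x *ᵥ w) ∂(gam n) = ∫ x, lw w x * wG w G x ∂(gam n) := by
  have hi : ∀ i j, Integrable (M i j) (gam n) := fun i j =>
    integrable_of_PG (hd.m i j).cont (hd.m i j).g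
  rw [int_qf hi, int_lw (c1_wG hd w) w]
  simp_rw [pd_wG hd]
  simp only [dotProduct, mulVec, Matrix.of_apply]
  refine Finset.sum_congr rfl fun i _ => ?_
  congr 1
  rw [integral_finsetSum _ fun j _ => (hi j i).const_mul (w j)]
  refine Finset.sum_congr rfl fun j _ => ?_
  rw [integral_const_mul, hd.s i j, mul_comm]

/-- `∂_w V (G)` -/
def wV (w : Fin n → ℝ) (G : Fin n → E n → ℝ) (V : E n → ℝ) (x : E n) : ℝ :=
  ∑ k, w k * pd k V (Gv G x)

/-- `V_k(G) = Σ_l (x_l N_kl - ∂_l N_kl)` -/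
lemma V_div (h : MA G M N V) (x : E n) (k : Fin n) :
    pd k V (Gv G x) = -∑ l, (pd l (N k l) x - x l * N k l x) := by
  rw [h.V_eq x k, Finset.sum_sub_distrib, h.div_N k x]
  unfold MA.be
  simp_rw [mul_add, Finset.sum_add_distrib]
  have : ∑ l, N k l x * x l = ∑ l, x l * N k l x := Finset.sum_congr rfl fun l _ => by ring
  rw [this]
  ring

/-- `E ⟨w, M⁻¹ w⟩ = E (w·x) (∂_w V)(G)` -/
lemma int_N (h : MA G M N V) (w : Fin n → ℝ) :
    ∫ x, w ⬝ᵥ (Mx N x *ᵥ w) ∂(gam n) = ∫ x, lw w x * wV w G V x ∂(gam n) := by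
  have hi : ∀ i j, Integrable (N i j) (gam n) := fun i j =>
    integrable_of_PG (h.n1 i j).cont (h.n1 i j).g
  have hj : ∀ k l, Integrable (fun x => lw w x * (pd l (N k l) x - x l * N k l x)) (gam n) :=
    fun k l => integrable_of_PG ((c1_lw w).cont.mul (((h.n1 k l).contp l).sub
      ((c1_coord l).cont.mul (h.n1 k l).cont))) ((c1_lw w).g.mul (((h.n1 k l).p l).sub
      ((pg_coord l).mul (h.n1 k l).g)))
  have e : ∀ x, lw w x * wV w G V x =
      ∑ k, ∑ l, -(w k) * (lw w x * (pd l (N k l) x - x l * N k l x)) := fun x => by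
    unfold wV
    simp_rw [V_div h x, Finset.mul_sum]
    refine Finset.sum_congr rfl fun k _ => ?_
    rw [← Finset.sum_neg_distrib, Finset.mul_sum, Finset.mul_sum]
    exact Finset.sum_congr rfl fun l _ => by ring
  simp_rw [e]
  rw [int_qf hi, integral_finsetSum _ fun k _ =>
    integrable_finsetSum _ fun l _ => (hj k l).const_mul _]
  simp only [dotProduct, mulVec, Matrix.of_apply, Finset.mul_sum]
  refine Finset.sum_congr rfl fun k _ => ?_
  rw [integral_finsetSum _ fun l _ => (hj k l).const_mul _]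
  refine Finset.sum_congr rfl fun l _ => ?_
  rw [integral_const_mul, ibp_prod (c1_lw w) (h.n1 k l) l]
  simp_rw [pd_lw]
  rw [integral_const_mul]
  ring

end

end Crest.Agent.R253.Norm944
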