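import Crest.Agent.R253.NormB_944
import Crest.Agent.R253.NormCont_666
import Crest.Agent.R253.Bind_441
import Crest.Agent.R253.ScalE_688

/-!
Row 253, normalisation (helper944), part C: signs of `⟨w, E z(M) w⟩` and the zero theorem for a
family of data `P_A`, `d ≤ A ≤ R`.
-/

set_option autoImplicit false

open MeasureTheory ProbabilityTheory Matrix Set
open scoped Real Topology

noncomputable section

namespace Crest.Agent.R253.Norm944

open Crest.Agent.R253.Mills37 Crest.Agent.R253.Meh74 Crest.Agent.R253.SpecField321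
open Crest.Agent.R238.Gap Crest.Agent.R238.GapPoinc Crest.Agent.R238.GapPc
open Crest.Agent.R253.Dual441 Crest.Agent.R253.NormCont666

variable {n : ℕ}

section
variable {G : Fin n → E n → ℝ} {M N : Fin n → Fin n → E n → ℝ} {V : E n → ℝ} {zf : ℝ → ℝ}

lemma int_lw_one (w : Fin n → ℝ) : ∫ x, lw w x ∂(gam n) = 0 := by
  have h := int_lw (c1_const (n := n) 1) w
  simp only [mul_one] at h
  rw [h]
  refine Finset.sum_eq_zero fun i _ => ?_
  have : ∀ x : E n, pd i (fun _ : E n => (1 : ℝ)) x = 0 := fun x => by simp [pd]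
  simp_rw [this]
  simp

lemma young {f : E n → ℝ} (hf : Continuous f) (hg : PG f) {w : Fin n → ℝ} (hw : w ⬝ᵥ w = 1)
    {a : ℝ} (ha : 0 < a) : ∫ x, lw w x * f x ∂(gam n) ≤ a / 2 + 1 / (2 * a) * ∫ x, f x ^ 2 ∂(gam n) := by
  have i1 : Integrable (fun x => lw w x * f x) (gam n) :=
    integrable_of_PG ((c1_lw w).cont.mul hf) ((c1_lw w).g.mul hg)
  have i2 : Integrable (fun x => lw w x ^ 2) (gam n) := by
    simp_rw [sq]
    exact integrable_of_PG ((c1_lw w).cont.mul (c1_lw w).cont) ((c1_lw w).g.mul (c1_lw w).g)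
  have i3 : Integrable (fun x => f x ^ 2) (gam n) := by
    simp_rw [sq]
    exact integrable_of_PG (hf.mul hf) (hg.mul hg)
  calc ∫ x, lw w x * f x ∂(gam n) ≤ ∫ x, (a / 2 * lw w x ^ 2 + 1 / (2 * a) * f x ^ 2) ∂(gam n) := by
        refine integral_mono i1 ((i2.const_mul _).add (i3.const_mul _)) fun x => ?_
        have h1 : 0 ≤ (a * lw w x - f x) ^ 2 / (2 * a) := by positivity
        have h2 : (a * lw w x - f x) ^ 2 / (2 * a) =
            a / 2 * lw w x ^ 2 + 1 / (2 * a) * f x ^ 2 - lw w x * f x := by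
          field_simp
          ring
        simp only
        linarith
    _ = a / 2 + 1 / (2 * a) * ∫ x, f x ^ 2 ∂(gam n) := by
        rw [integral_add (i2.const_mul _) (i3.const_mul _), integral_const_mul, integral_const_mul,
          int_lw_sq, hw, mul_one]

theorem form_upper (hz : ∀ x, 0 < x → mu (zf x) = x) (hd : HD G M)
    (hp : ∀ t, (Mx M t).IsHermitian ∧ ∀ x ∈ spectrum ℝ (Mx M t), 0 < x)
    (hi : ∀ i j, Integrable (fun t => cfc zf (Mx M t) i j) (gam n)) {w : Fin n → ℝ}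
    (hw : w ⬝ᵥ w = 1) (c : ℝ) (hv : ∫ t, (wG w G t - c) ^ 2 ∂(gam n) ≤ mu 0 ^ 2) :
    w ⬝ᵥ ((Matrix.of fun i j => ∫ t, cfc zf (Mx M t) i j ∂(gam n)) *ᵥ w) ≤ 0 := by
  have hM : ∀ i j, Integrable (M i j) (gam n) := fun i j =>
    integrable_of_PG (hd.m i j).cont (hd.m i j).g
  have hA : ∀ t, Mx (fun i j t => cfc zf (Mx M t) i j) t = cfc zf (Mx M t) := fun t => rfl
  have h1 := int_qf (A := fun i j t => cfc zf (Mx M t) i j) hi w
  rw [← h1]
  have i1 := integrable_qf (A := fun i j t => cfc zf (Mx M t) i j) hi w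
  have i2 := integrable_qf hM w
  have m0 := mu_pos 0
  have h2 : ∫ t, w ⬝ᵥ (Mx (fun i j t => cfc zf (Mx M t) i j) t *ᵥ w) ∂(gam n) ≤
      ∫ t, ((mu 0 ^ 2)⁻¹ * (w ⬝ᵥ (Mx M t *ᵥ w)) - (mu 0)⁻¹) ∂(gam n) := by
    refine integral_mono i1 ((i2.const_mul _).sub (integrable_const _)) fun t => ?_
    have := qf_upper hz (hp t).1 (hp t).2 w
    rw [hw, mul_one] at this
    exact this
  rw [integral_sub (i2.const_mul _) (integrable_const _), integral_const_mul, int_M hd w] at h2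
  simp only [integral_const, measureReal_def, measure_univ, ENNReal.toReal_one, one_smul] at h2
  have hc : Continuous fun t => wG w G t - c := (c1_wG hd w).cont.sub continuous_const
  have hg : PG fun t => wG w G t - c := ((c1_wG hd w).sub (c1_const c)).g
  have h3 : ∫ t, lw w t * wG w G t ∂(gam n) = ∫ t, lw w t * (wG w G t - c) ∂(gam n) := by
    have i3 : Integrable (fun t => lw w t * wG w G t) (gam n) :=
      integrable_of_PG ((c1_lw w).cont.mul (c1_wG hd w).cont) ((c1_lw w).g.mul (c1_wG hd w).g)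
    have i4 : Integrable (fun t => lw w t * c) (gam n) :=
      (integrable_of_PG (c1_lw w).cont (c1_lw w).g).mul_const c
    simp_rw [mul_sub]
    rw [integral_sub i3 i4, integral_mul_const, int_lw_one, zero_mul, sub_zero]
  have h4 := young hc hg hw m0
  have h5 : 1 / (2 * mu 0) * ∫ t, (wG w G t - c) ^ 2 ∂(gam n) ≤ 1 / (2 * mu 0) * mu 0 ^ 2 :=
    mul_le_mul_of_nonneg_left hv (by positivity)
  have h6 : mu 0 / 2 + 1 / (2 * mu 0) * mu 0 ^ 2 = mu 0 := by field_simp; ring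
  have h7 : ∫ t, lw w t * wG w G t ∂(gam n) ≤ mu 0 := by rw [h3]; linarith
  have h8 : (mu 0 ^ 2)⁻¹ * ∫ t, lw w t * wG w G t ∂(gam n) ≤ (mu 0 ^ 2)⁻¹ * mu 0 :=
    mul_le_mul_of_nonneg_left h7 (by positivity)
  have h9 : (mu 0 ^ 2)⁻¹ * mu 0 = (mu 0)⁻¹ := by field_simp
  linarith

lemma cont_wV (h : MA G M N V) (w : Fin n → ℝ) :
    Continuous (wV w G V) ∧ PG (wV w G V) := by
  have e : wV w G V = fun x => ∑ k, w k * -∑ l, (pd l (N k l) x - x l * N k l x) := by
    funext x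
    unfold wV
    exact Finset.sum_congr rfl fun k _ => by rw [V_div h x k]
  rw [e]
  constructor
  · exact continuous_finsetSum _ fun k _ => continuous_const.mul (continuous_finsetSum _
      fun l _ => ((h.n1 k l).contp l).sub ((c1_coord l).cont.mul (h.n1 k l).cont)).neg
  · have h2 : (fun x : E n => ∑ k, w k * -∑ l, (pd l (N k l) x - x l * N k l x)) =
        fun x => ∑ k, (-w k) * ∑ l, (pd l (N k l) x - x l * N k l x) := by
      funext x
      exact Finset.sum_congr rfl fun k _ => by ring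
    rw [h2]
    exact PG.sum _ fun k _ => (pg_const _).mul (PG.sum _ fun l _ =>
      ((h.n1 k l).p l).sub ((pg_coord l).mul (h.n1 k l).g))

theorem form_lower (hz : ∀ x, 0 < x → mu (zf x) = x) (h : MA G M N V)
    (hp : ∀ t, (Mx M t).IsHermitian ∧ ∀ x ∈ spectrum ℝ (Mx M t), 0 < x)
    (hi : ∀ i j, Integrable (fun t => cfc zf (Mx M t) i j) (gam n)) {w : Fin n → ℝ}
    (hw : w ⬝ᵥ w = 1) (hv : ∫ t, wV w G V t ^ 2 ∂(gam n) < (mu 0 ^ 2)⁻¹) :
    0 < w ⬝ᵥ ((Matrix.of fun i j => ∫ t, cfc zf (Mx M t) i j ∂(gam n)) *ᵥ w) := by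
  have hN : ∀ i j, Integrable (N i j) (gam n) := fun i j =>
    integrable_of_PG (h.n1 i j).cont (h.n1 i j).g
  have h1 := int_qf (A := fun i j t => cfc zf (Mx M t) i j) hi w
  rw [← h1]
  have i1 := integrable_qf (A := fun i j t => cfc zf (Mx M t) i j) hi w
  have i2 := integrable_qf hN w
  have m0 := mu_pos 0
  have hNM : ∀ t, Mx N t * Mx M t = 1 := fun t => by
    ext i j
    rw [Matrix.mul_apply, Matrix.one_apply]
    exact h.inv t i j
  have h2 : ∫ t, ((mu 0)⁻¹ - w ⬝ᵥ (Mx N t *ᵥ w)) ∂(gam n) ≤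
      ∫ t, w ⬝ᵥ (Mx (fun i j t => cfc zf (Mx M t) i j) t *ᵥ w) ∂(gam n) := by
    refine integral_mono ((integrable_const _).sub i2) i1 fun t => ?_
    have := qf_lower hz (hp t).1 (hNM t) (hp t).2 w
    rw [hw, mul_one] at this
    exact this
  rw [integral_sub (integrable_const _) i2, int_N h w] at h2
  simp only [integral_const, measureReal_def, measure_univ, ENNReal.toReal_one, one_smul] at h2
  obtain ⟨hc, hg⟩ := cont_wV h w
  have h4 := young hc hg hw (inv_pos.2 m0)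
  have h5 : 1 / (2 * (mu 0)⁻¹) * ∫ t, wV w G V t ^ 2 ∂(gam n) <
      1 / (2 * (mu 0)⁻¹) * (mu 0 ^ 2)⁻¹ :=
    mul_lt_mul_of_pos_left hv (by positivity)
  have h6 : (mu 0)⁻¹ / 2 + 1 / (2 * (mu 0)⁻¹) * (mu 0 ^ 2)⁻¹ = (mu 0)⁻¹ := by
    field_simp
    ring
  linarith

end

/-- `∫ (w·x - c)²` on the density side -/
lemma push_var {G : Fin n → E n → ℝ} {M : Fin n → Fin n → E n → ℝ} {f : (Fin n → ℝ) → ℝ}
    (h : ChVar56.Push G M f) (w : Fin n → ℝ) (c : ℝ) :
    ∫ t, (wG w G t - c) ^ 2 ∂(gam n) = ∫ x, (w ⬝ᵥ x - c) ^ 2 * f x :=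
  (h.integral fun x => (w ⬝ᵥ x - c) ^ 2).symm

/-- the derivative of `V` in direction `w`, at a point of `Fin n → ℝ` -/
def dV (w : Fin n → ℝ) (V : E n → ℝ) (x : Fin n → ℝ) : ℝ :=
  ∑ k, w k * pd k V (WithLp.toLp 2 x)

lemma push_fisher {G : Fin n → E n → ℝ} {M : Fin n → Fin n → E n → ℝ} {f : (Fin n → ℝ) → ℝ}
    (h : ChVar56.Push G M f) (w : Fin n → ℝ) (V : E n → ℝ) :
    ∫ t, wV w G V t ^ 2 ∂(gam n) = ∫ x, dV w V x ^ 2 * f x := by
  rw [h.integral fun x => dV w V x ^ 2]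
  refine integral_congr_ae (ae_of_all _ fun t => ?_)
  have : (WithLp.toLp 2 (ChVar56.Gp G t) : E n) = Gv G t := by
    ext i; rw [Gv_apply]; rfl
  simp only [dV, wV, this]

/-- everything about one member of the family -/
structure Sol (P : E n → ℝ) (lam lo hi K : ℝ) (v : E n → ℝ) (G : E n → E n) : Prop where
  sl : Sl P lam lo hi K v
  inv : IsInv v G
  ma : MA (Gi G) (Mi v G) (Ni v G) (Vl P v lam)
  push : ChVar56.Push (Gi G) (Mi v G) (den P v lam)
  wpsd : ∀ x (z : Fin n → ℝ), 0 ≤ ∑ i, ∑ j, MA.W (Gi G) (Mi v G) (Vl P v lam) i j x * z i * z j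

theorem exists_sol (h : Br.ExiU n) (c C2 C3 M0 M1 R0 : ℝ) : ∃ lo hi K : ℝ, 0 < lo ∧ lo ≤ hi ∧
    ∀ P : E n → ℝ, Br.PCB P c C2 C3 M0 M1 R0 → ∀ lam : ℝ, 0 < lam → lam ≤ 1 → lam * hi ≤ c →
      ∃ (v : E n → ℝ) (G : E n → E n), Sol P lam lo hi K v G := by
  obtain ⟨lo, hi, K, hlo, hlohi, H⟩ := exists_Sl h c C2 C3 M0 M1 R0
  refine ⟨lo, hi, K, hlo, hlohi, fun P hP lam h0 h1 h2 => ?_⟩
  obtain ⟨v, hv⟩ := H P hP lam h0 h1
  obtain ⟨G, hG, hma, _, hW, hpush⟩ := bind hP hv.nice hlo hlohi hv.ell h0.le h2 hv.eq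
  exact ⟨v, G, hv, hG, hma, hpush, hW⟩

section
variable {P v : E n → ℝ} {lam lo hi K : ℝ} {G : E n → E n}

lemma Sol.pos (h : Sol P lam lo hi K v G) (hlo : 0 < lo) (hlohi : lo ≤ hi) (t : E n) :
    (Mx (Mi v G) t).IsHermitian ∧ ∀ x ∈ spectrum ℝ (Mx (Mi v G) t), 0 < x := by
  have he := h.sl.ellM hlo hlohi G t
  refine ⟨ell_herm he, fun x hx => ?_⟩
  have := (ell_spec he hx).1
  have h2 : 0 < 1 / hi := by have := hlo.trans_le hlohi; positivity
  linarith

lemma zf_contOn' (hlo : 0 < lo) (hlohi : lo ≤ hi) :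
    ContinuousOn ScalE688.zf (Icc (1 / hi) (1 / lo)) := by
  refine ScalE688.zf_contOn.mono fun x hx => ?_
  have h2 : 0 < 1 / hi := by have := hlo.trans_le hlohi; positivity
  exact lt_of_lt_of_le h2 hx.1

lemma Sol.int_cfc (h : Sol P lam lo hi K v G) (hlo : 0 < lo) (hlohi : lo ≤ hi) (i j : Fin n) :
    Integrable (fun t => cfc ScalE688.zf (Mx (Mi v G) t) i j) (gam n) := by
  obtain ⟨C, hC⟩ := isCompact_Icc.exists_bound_of_continuousOn (zf_contOn' hlo hlohi)
  have hcont := h.sl.cont_cfc hlo hlohi h.inv (zf_contOn' hlo hlohi) i j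
  refine Integrable.of_bound (C := C) hcont.aestronglyMeasurable (Filter.Eventually.of_forall
    fun t => ?_)
  rw [Real.norm_eq_abs]
  exact h.sl.cfc_bd hlo hlohi G (fun x hx => by
    have := hC x hx
    rwa [Real.norm_eq_abs] at this) t i j

end

end Crest.Agent.R253.Norm944
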