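import Crest.Agent.R253.NormC_944

/-!
Row 253, normalisation (helper944), part D: the zero of `A ↦ E z(M_A)` for a family of data.
-/

set_option autoImplicit false

open MeasureTheory ProbabilityTheory Matrix Set
open scoped Real Topology

noncomputable section

namespace Crest.Agent.R253.Norm944

open Crest.Agent.R253.Mills37 Crest.Agent.R253.Meh74 Crest.Agent.R253.SpecField321
open Crest.Agent.R238.Gap Crest.Agent.R238.GapPoinc Crest.Agent.R238.GapPc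
open Crest.Agent.R253.Dual441 Crest.Agent.R253.NormCont666

variable {n : ℕ}

lemma unit_scale {ι : Type*} [Fintype ι] {A T : Matrix ι ι ℝ} {a : ℝ} {v : ι → ℝ} (hv : v ≠ 0)
    (hA : A *ᵥ v = a • v) : ∃ (w : ι → ℝ) (r : ℝ), 0 < r ∧ w ⬝ᵥ w = 1 ∧ A *ᵥ w = a • w ∧
      v ⬝ᵥ (T *ᵥ v) = r * (w ⬝ᵥ (T *ᵥ w)) := by
  have h0 : 0 < v ⬝ᵥ v := by
    have h1 : 0 ≤ v ⬝ᵥ v := Finset.sum_nonneg fun i _ => mul_self_nonneg _
    exact lt_of_le_of_ne h1 fun h => hv (dotProduct_self_eq_zero.1 h.symm)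
  set s := Real.sqrt (v ⬝ᵥ v) with hs
  have hs0 : 0 < s := Real.sqrt_pos.2 h0
  have hss : s * s = v ⬝ᵥ v := Real.mul_self_sqrt h0.le
  refine ⟨s⁻¹ • v, v ⬝ᵥ v, h0, ?_, ?_, ?_⟩
  · rw [smul_dotProduct, dotProduct_smul, smul_eq_mul, smul_eq_mul, ← hss]
    field_simp
  · rw [mulVec_smul, hA, smul_comm]
  · rw [mulVec_smul, smul_dotProduct, dotProduct_smul, smul_eq_mul, smul_eq_mul, ← hss]
    field_simp

/-- **zero of `A ↦ E z(M_A)`** -/
theorem exists_zero_family {d R : ℝ} (hdR : d < R) {lam lo hi K : ℝ}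
    (hlam : 0 < lam) (hlo : 0 < lo) (hlohi : lo ≤ hi) (Pf : Matrix (Fin n) (Fin n) ℝ → E n → ℝ)
    (hex : ∀ A ∈ Box (Fin n) d R, ∃ (v : E n → ℝ) (G : E n → E n), Sol (Pf A) lam lo hi K v G)
    (hPc : ∀ x₀ ∈ toM ⁻¹' (Box (Fin n) d R), ∀ ε : ℝ, 0 < ε →
      ∀ᶠ x in 𝓝[toM ⁻¹' (Box (Fin n) d R)] x₀, ∀ y, |Pf (toM x) y - Pf (toM x₀) y| ≤ ε)
    (hbot : ∀ A ∈ Box (Fin n) d R, ∀ (v : E n → ℝ) (G : E n → E n), Sol (Pf A) lam lo hi K v G →
      ∀ w : Fin n → ℝ, w ⬝ᵥ w = 1 → A *ᵥ w = d • w →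
        ∃ c : ℝ, ∫ x, (w ⬝ᵥ x - c) ^ 2 * den (Pf A) v lam x ≤ mu 0 ^ 2)
    (htop : ∀ A ∈ Box (Fin n) d R, ∀ (v : E n → ℝ) (G : E n → E n), Sol (Pf A) lam lo hi K v G →
      ∀ w : Fin n → ℝ, w ⬝ᵥ w = 1 → A *ᵥ w = R • w →
        ∫ x, dV w (Vl (Pf A) v lam) x ^ 2 * den (Pf A) v lam x < (mu 0 ^ 2)⁻¹) :
    ∃ A ∈ Box (Fin n) d R, ∃ (v : E n → ℝ) (G : E n → E n), Sol (Pf A) lam lo hi K v G ∧
      ∀ i j, ∫ t, cfc ScalE688.zf (Mx (Mi v G) t) i j ∂(gam n) = 0 := by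
  classical
  have hex' : ∀ A : Matrix (Fin n) (Fin n) ℝ, ∃ (v : E n → ℝ) (G : E n → E n),
      A ∈ Box (Fin n) d R → Sol (Pf A) lam lo hi K v G := by
    intro A
    by_cases hA : A ∈ Box (Fin n) d R
    · obtain ⟨v, G, h⟩ := hex A hA
      exact ⟨v, G, fun _ => h⟩
    · exact ⟨fun _ => 0, fun x => x, fun h => absurd h hA⟩
  choose vf Gf hS using hex'
  set T : Matrix (Fin n) (Fin n) ℝ → Matrix (Fin n) (Fin n) ℝ := fun A =>
    Matrix.of fun i j => ∫ t, cfc ScalE688.zf (Mx (Mi (vf A) (Gf A)) t) i j ∂(gam n) with hT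
  have hz : ∀ x, 0 < x → mu (ScalE688.zf x) = x := fun x hx => ScalE688.mu_zf hx
  obtain ⟨A, hA, hA0⟩ := exists_zero (ι := Fin n) d R hdR T
    (fun i j => continuousOn_int_cfc hlam hlo hlohi (S := toM ⁻¹' (Box (Fin n) d R))
      (Pf := fun x => Pf (toM x)) (vf := fun x => vf (toM x)) (Gf := fun x => Gf (toM x))
      (fun x hx => (hS _ hx).sl) (fun x hx => (hS _ hx).inv) hPc (zf_contOn' hlo hlohi) i j)
    (fun A hA i j => by
      have hsym : ∀ t, cfc ScalE688.zf (Mx (Mi (vf A) (Gf A)) t) i j =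
          cfc ScalE688.zf (Mx (Mi (vf A) (Gf A)) t) j i := fun t => by
        have h1 : (cfc ScalE688.zf (Mx (Mi (vf A) (Gf A)) t)).IsHermitian :=
          cfc_predicate ScalE688.zf _
        have := h1.apply j i
        simpa using this
      simp only [hT, Matrix.of_apply, hsym])
    (fun A hA v hv0 hv => by
      obtain ⟨w, r, hr, hw, hw2, hw3⟩ := unit_scale (T := T A) hv0 hv
      rw [hw3]
      refine mul_pos hr ?_
      have h := hS A hA
      refine form_lower hz h.ma (fun t => h.pos hlo hlohi t)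
        (fun i j => h.int_cfc hlo hlohi i j) hw ?_
      rw [push_fisher h.push]
      exact htop A hA _ _ h w hw hw2)
    (fun A hA v hv0 hv => by
      obtain ⟨w, r, hr, hw, hw2, hw3⟩ := unit_scale (T := T A) hv0 hv
      rw [hw3]
      refine mul_nonpos_of_nonneg_of_nonpos hr.le ?_
      have h := hS A hA
      obtain ⟨c, hc⟩ := hbot A hA _ _ h w hw hw2
      refine form_upper hz h.ma.hd (fun t => h.pos hlo hlohi t)
        (fun i j => h.int_cfc hlo hlohi i j) hw c ?_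
      rw [push_var h.push]
      exact hc)
  refine ⟨A, hA, vf A, Gf A, hS A hA, fun i j => ?_⟩
  have := congrFun (congrFun hA0 i) j
  exact this

/-! ### the inverse matrix as a continuous linear map -/

/-- `x ↦ A⁻¹ x` -/
def BA (A : Matrix (Fin n) (Fin n) ℝ) : E n →L[ℝ] E n :=
  Matrix.toEuclideanCLM (𝕜 := ℝ) (n := Fin n) A⁻¹

lemma BA_apply (A : Matrix (Fin n) (Fin n) ℝ) (x : E n) :
    BA A x = WithLp.toLp 2 (A⁻¹ *ᵥ (WithLp.ofLp x)) := rfl

lemma norm_toLp_sq (x : Fin n → ℝ) : ‖(WithLp.toLp 2 x : E n)‖ ^ 2 = x ⬝ᵥ x := by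
  rw [EuclideanSpace.norm_sq_eq]
  simp only [Real.norm_eq_abs, sq_abs, dotProduct]
  exact Finset.sum_congr rfl fun i _ => by ring

section
variable {d R : ℝ} {A : Matrix (Fin n) (Fin n) ℝ}

lemma Box.lower (hA : A ∈ Box (Fin n) d R) (hd : 0 < d) (y : Fin n → ℝ) :
    d ^ 2 * (y ⬝ᵥ y) ≤ (A *ᵥ y) ⬝ᵥ (A *ᵥ y) := by
  have h1 := hA.2.1 y
  -- `|d y - A y|² ≥ 0` and `y·Ay ≥ d |y|²`
  have h2 : 0 ≤ (A *ᵥ y - d • y) ⬝ᵥ (A *ᵥ y - d • y) :=
    Finset.sum_nonneg fun i _ => mul_self_nonneg _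
  rw [sub_dotProduct, dotProduct_sub, dotProduct_sub, smul_dotProduct, smul_dotProduct,
    dotProduct_smul, dotProduct_smul, dotProduct_comm (A *ᵥ y) y] at h2
  simp only [smul_eq_mul] at h2
  nlinarith

lemma Box.upper (hA : A ∈ Box (Fin n) d R) (hd : 0 < d) (hdR : d < R) (y : Fin n → ℝ) :
    (A *ᵥ y) ⬝ᵥ (A *ᵥ y) ≤ R ^ 2 * (y ⬝ᵥ y) := by
  have hp : ∀ w : Fin n → ℝ, 0 ≤ w ⬝ᵥ (A *ᵥ w) := fun w => by
    have h1 := hA.2.1 w
    have h2 : 0 ≤ w ⬝ᵥ w := Finset.sum_nonneg fun i _ => mul_self_nonneg _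
    have := mul_nonneg hd.le h2
    linarith
  have hR : 0 < R := hd.trans hdR
  have hyy : 0 ≤ y ⬝ᵥ y := Finset.sum_nonneg fun i _ => mul_self_nonneg _
  set q := y ⬝ᵥ (A *ᵥ y) with hq
  have hq0 := hp y
  have hqR : q ≤ R * (y ⬝ᵥ y) := hA.2.2 y
  set b := (A *ᵥ y) ⬝ᵥ (A *ᵥ y) with hb
  have hb0 : 0 ≤ b := Finset.sum_nonneg fun i _ => mul_self_nonneg _
  have hbR : (A *ᵥ y) ⬝ᵥ (A *ᵥ (A *ᵥ y)) ≤ R * b := hA.2.2 _
  rcases eq_or_lt_of_le hq0 with h0 | h0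
  · have h1 : A *ᵥ y = 0 := psd_zero hA.1 hp (le_of_eq h0.symm)
    have : b = 0 := by rw [hb, h1]; simp
    rw [this]; positivity
  · have h1 := psd_cs hA.1 hp y (ε := q⁻¹) (by positivity) (by
      rw [← hq, inv_mul_cancel₀ h0.ne']) (A *ᵥ y)
    rw [← hb] at h1
    have h2 : b ^ 2 ≤ q * (R * b) := by
      have h3 : q⁻¹ * b ^ 2 ≤ R * b := h1.trans hbR
      rwa [inv_mul_le_iff₀ h0] at h3
    rcases eq_or_lt_of_le hb0 with h4 | h4
    · rw [← h4]; positivity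
    · have h5 : b ≤ q * R := by
        by_contra hcon
        push Not at hcon
        nlinarith [mul_lt_mul_of_pos_right hcon h4]
      nlinarith [mul_le_mul_of_nonneg_right hqR hR.le]

lemma Box.unit (hA : A ∈ Box (Fin n) d R) (hd : 0 < d) : IsUnit A.det := by
  have hinj : Function.Injective A.mulVec := by
    intro a b hab
    have h1 : A *ᵥ (a - b) = 0 := by rw [mulVec_sub, sub_eq_zero]; exact hab
    have h2 := Box.lower hA hd (a - b)
    rw [h1, dotProduct_zero] at h2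
    have h3 : 0 ≤ (a - b) ⬝ᵥ (a - b) := Finset.sum_nonneg fun i _ => mul_self_nonneg _
    have h4 : (a - b) ⬝ᵥ (a - b) = 0 := by
      have : 0 < d ^ 2 := by positivity
      nlinarith
    exact sub_eq_zero.1 (dotProduct_self_eq_zero.1 h4)
  exact (Matrix.isUnit_iff_isUnit_det _).1 (Matrix.mulVec_injective_iff_isUnit.1 hinj)

/-- `A⁻¹` is between `1/R` and `1/d` -/
lemma BA_mem (hA : A ∈ Box (Fin n) d R) (hd : 0 < d) (hdR : d < R) (x : E n) :
    1 / R * ‖x‖ ≤ ‖BA A x‖ ∧ ‖BA A x‖ ≤ 1 / d * ‖x‖ := by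
  have hR : 0 < R := hd.trans hdR
  have hu := Box.unit hA hd
  set y : Fin n → ℝ := A⁻¹ *ᵥ (WithLp.ofLp x) with hy
  have hAy : A *ᵥ y = WithLp.ofLp x := by
    rw [hy, mulVec_mulVec, Matrix.mul_nonsing_inv _ hu, one_mulVec]
  have e1 : ‖BA A x‖ ^ 2 = y ⬝ᵥ y := by rw [BA_apply, norm_toLp_sq]
  have e2 : ‖x‖ ^ 2 = (A *ᵥ y) ⬝ᵥ (A *ᵥ y) := by
    rw [hAy, ← norm_toLp_sq]
  have h1 := Box.lower hA hd y
  have h2 := Box.upper hA hd hdR y
  rw [← e1, ← e2] at h1 h2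
  constructor
  · rw [one_div, inv_mul_le_iff₀ hR]
    refine le_of_sq_le_sq ?_ (by positivity)
    rw [mul_pow]; exact h2
  · rw [one_div, ← div_eq_inv_mul, le_div_iff₀' hd]
    refine le_of_sq_le_sq ?_ (by positivity)
    rw [mul_pow]; exact h1

end

/-- continuity of `A ↦ A⁻¹` as a linear map, on the box -/
lemma continuousOn_BA {d R : ℝ} (hd : 0 < d) :
    ContinuousOn (fun x : EM (Fin n) => BA (toM x)) (toM ⁻¹' (Box (Fin n) d R)) := by
  have h1 : Continuous fun x : EM (Fin n) => toM x := by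
    refine continuous_pi fun i => continuous_pi fun j => ?_
    unfold toM; fun_prop
  have h2 : ContinuousOn (fun x : EM (Fin n) => (toM x)⁻¹) (toM ⁻¹' (Box (Fin n) d R)) := by
    intro x hx
    have hu := Box.unit hx hd
    have h3 : ContinuousAt Ring.inverse (toM x).det :=
      NormedRing.inverse_continuousAt hu.unit
    exact ((continuousAt_matrix_inv _ h3).comp h1.continuousAt).continuousWithinAt
  have h4 : Continuous (fun M : Matrix (Fin n) (Fin n) ℝ =>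
      (Matrix.toEuclideanCLM (𝕜 := ℝ) (n := Fin n) M : E n →L[ℝ] E n)) := by
    exact LinearMap.continuous_of_finiteDimensional
      ((Matrix.toEuclideanCLM (𝕜 := ℝ) (n := Fin n)).toAlgEquiv.toLinearMap)
  exact h4.comp_continuousOn h2

end Crest.Agent.R253.Norm944
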