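import Crest.Agent.R253.NormD_944
import Crest.Agent.R253.LimZ_140
import Crest.Agent.R253.FamC_706

/-!
Row 253, normalisation (helper944), part X: `exists_zero_family` in the letters of `LimZ_140` and
`FamC_706` (`Pf A = PA P0 e (aL A⁻¹)`, `A` in the box `Ell d R A`).
-/

set_option autoImplicit false

open MeasureTheory ProbabilityTheory Matrix Set
open scoped Real Topology

noncomputable section

namespace Crest.Agent.R253.Norm944

open Crest.Agent.R253.Mills37 Crest.Agent.R253.Meh74 Crest.Agent.R253.SpecField321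
open Crest.Agent.R238.Gap Crest.Agent.R238.GapPoinc Crest.Agent.R238.GapPc
open Crest.Agent.R253.Dual441 Crest.Agent.R253.NormCont666
open Crest.Agent.R253.Lim140 (aL)
open Crest.Agent.R253.Fam706 (PA Bx)
open Crest.Agent.R253.Br (PDatB gr)
open Crest.GeometryTopology.Isotropic

variable {n : ℕ}

lemma Box_iff {d R : ℝ} {A : Matrix (Fin n) (Fin n) ℝ} :
    A ∈ Box (Fin n) d R ↔ Crest.Agent.R238.Ell d R A := by
  have e1 : ∀ z : Fin n → ℝ, z ⬝ᵥ z = ∑ i, z i ^ 2 := fun z => by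
    simp only [dotProduct]
    exact Finset.sum_congr rfl fun i _ => by ring
  have e2 : ∀ z : Fin n → ℝ, z ⬝ᵥ (A *ᵥ z) = ∑ i, ∑ j, A i j * z i * z j := fun z => by
    simp only [dotProduct, mulVec, Finset.mul_sum]
    exact Finset.sum_congr rfl fun i _ => Finset.sum_congr rfl fun j _ => by ring
  constructor
  · rintro ⟨h1, h2, h3⟩
    refine ⟨h1, fun z => ⟨?_, ?_⟩⟩
    · rw [← e1, ← e2]; exact h2 z
    · rw [← e1, ← e2]; exact h3 z
  · rintro ⟨h1, h2⟩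
    refine ⟨h1, fun z => ?_, fun z => ?_⟩
    · rw [e1, e2]; exact (h2 z).1
    · rw [e1, e2]; exact (h2 z).2

lemma BA_eq (A : Matrix (Fin n) (Fin n) ℝ) : BA A = aL A⁻¹ := rfl

lemma BA_mem_Bx {d R : ℝ} {A : Matrix (Fin n) (Fin n) ℝ} (hA : A ∈ Box (Fin n) d R) (hd : 0 < d)
    (hdR : d < R) : BA A ∈ Bx (n := n) (1 / R) (1 / d) := fun x => BA_mem hA hd hdR x

/-- continuity of the family in `A` -/
lemma hPc_PA {P0 : E n → ℝ} (hP : Crest.Agent.R238.Tst P0) {d R e : ℝ} (hd : 0 < d) (hdR : d < R)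
    (he : 0 < e) : ∀ x₀ ∈ toM ⁻¹' (Box (Fin n) d R), ∀ ε : ℝ, 0 < ε →
      ∀ᶠ x in 𝓝[toM ⁻¹' (Box (Fin n) d R)] x₀, ∀ y,
        |PA P0 e (BA (toM x)) y - PA P0 e (BA (toM x₀)) y| ≤ ε := by
  intro x₀ hx₀ ε hε
  have hR : 0 < R := hd.trans hdR
  have h1 := Crest.Agent.R253.Fam706.PA_unif hP (b1 := 1 / R) (b2 := 1 / d) (by positivity)
    (one_div_le_one_div_of_le hd hdR.le) he (BA_mem_Bx hx₀ hd hdR) hε
  have h2 : Filter.Tendsto (fun x : EM (Fin n) => BA (toM x)) (𝓝[toM ⁻¹' (Box (Fin n) d R)] x₀)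
      (𝓝[Bx (n := n) (1 / R) (1 / d)] (BA (toM x₀))) := by
    refine tendsto_nhdsWithin_iff.2 ⟨continuousOn_BA hd x₀ hx₀, ?_⟩
    filter_upwards [self_mem_nhdsWithin] with x hx
    exact BA_mem_Bx hx hd hdR
  exact h2.eventually h1

lemma dV_eq (w : Fin n → ℝ) (V : E n → ℝ) (x : Fin n → ℝ) :
    dV w V x = ∑ i, w i * gr V (WithLp.toLp 2 x) i := by
  unfold dV gr
  refine Finset.sum_congr rfl fun i _ => ?_
  have : pd i V (WithLp.toLp 2 x) =
      fderiv ℝ V (WithLp.toLp 2 x) (Crest.Agent.R238.ee i) := by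
    simp [pd, Crest.Agent.R238.ee]
  rw [this]

/-- **the zero of `A ↦ E z(M_A)` for the family `PA P0 e (aL A⁻¹)`** -/
theorem exists_zero_PA {P0 : E n → ℝ} (hP : Crest.Agent.R238.Tst P0) {d R e : ℝ} (hd : 0 < d)
    (hdR : d < R) (he : 0 < e) {lam lo hi K : ℝ} (hlam : 0 < lam) (hlo : 0 < lo) (hlohi : lo ≤ hi)
    {S I : ℝ} (hS : d ^ 2 * S ≤ mu 0 ^ 2) (hI : mu 0 ^ 2 * I < R ^ 2)
    (hex : ∀ A, Crest.Agent.R238.Ell d R A → ∃ (v : E n → ℝ) (G : E n → E n),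
      Sol (PA P0 e (aL A⁻¹)) lam lo hi K v G)
    (hmom : ∀ A, Crest.Agent.R238.Ell d R A → ∀ (v : E n → ℝ) (G : E n → E n),
      Sol (PA P0 e (aL A⁻¹)) lam lo hi K v G → ∀ (w : Fin n → ℝ) (a : ℝ), ∑ i, w i ^ 2 = 1 →
        A *ᵥ w = a • w →
        ∫ x, (∑ i, w i * (x i - densMean (den (PA P0 e (aL A⁻¹)) v lam) i)) ^ 2 *
            den (PA P0 e (aL A⁻¹)) v lam x ≤ a ^ 2 * S ∧
        a ^ 2 * ∫ x, (∑ i, w i * gr (Vl (PA P0 e (aL A⁻¹)) v lam) (WithLp.toLp 2 x) i) ^ 2 *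
          den (PA P0 e (aL A⁻¹)) v lam x ≤ I) :
    ∃ A, Crest.Agent.R238.Ell d R A ∧ ∃ (v : E n → ℝ) (G : E n → E n),
      Sol (PA P0 e (aL A⁻¹)) lam lo hi K v G ∧
      ∀ i j, ∫ t, cfc ScalE688.zf (Mx (Mi v G) t) i j ∂(gam n) = 0 := by
  have hR : 0 < R := hd.trans hdR
  have hm := mu_pos 0
  have hw2 : ∀ w : Fin n → ℝ, w ⬝ᵥ w = 1 → ∑ i, w i ^ 2 = 1 := fun w hw => by
    rw [← hw]
    simp only [dotProduct]
    exact Finset.sum_congr rfl fun i _ => by ring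
  obtain ⟨A, hA, v, G, h1, h2⟩ := exists_zero_family hdR hlam hlo hlohi
    (fun A => PA P0 e (BA A)) (fun A hA => hex A (Box_iff.1 hA)) (hPc_PA hP hd hdR he)
    (fun A hA v G hv w hw hAw => by
      obtain ⟨h1, -⟩ := hmom A (Box_iff.1 hA) v G hv w d (hw2 w hw) hAw
      refine ⟨∑ i, w i * densMean (den (PA P0 e (aL A⁻¹)) v lam) i, ?_⟩
      refine le_trans (le_of_eq ?_) (h1.trans hS)
      refine integral_congr_ae (ae_of_all _ fun x => ?_)
      have e1 : w ⬝ᵥ x - ∑ i, w i * densMean (den (PA P0 e (aL A⁻¹)) v lam) i =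
          ∑ i, w i * (x i - densMean (den (PA P0 e (aL A⁻¹)) v lam) i) := by
        simp only [dotProduct, mul_sub, Finset.sum_sub_distrib]
      simp only [e1]
      rfl)
    (fun A hA v G hv w hw hAw => by
      obtain ⟨-, h1⟩ := hmom A (Box_iff.1 hA) v G hv w R (hw2 w hw) hAw
      simp only [dV_eq]
      have h3 : R ^ 2 * ∫ x, (∑ i, w i * gr (Vl (PA P0 e (aL A⁻¹)) v lam) (WithLp.toLp 2 x) i) ^ 2 *
          den (PA P0 e (aL A⁻¹)) v lam x < R ^ 2 * (mu 0 ^ 2)⁻¹ := by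
        refine lt_of_le_of_lt h1 ?_
        rw [← div_eq_mul_inv, lt_div_iff₀ (by positivity), mul_comm]
        exact hI
      exact lt_of_mul_lt_mul_left h3 (by positivity))
  exact ⟨A, Box_iff.1 hA, v, G, h1, h2⟩

end Crest.Agent.R253.Norm944
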