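import Crest.Agent.R253.HLow_741

/-!
# Row 253 (helper836): the far-row functions `om c = 2 k - v² - c z v ≥ g0 + g1 z₊²`

`t = bb = 1/e`, `r = rr = t' = t² - z t - 1`, `a = aa = v'`, `u = 1 - a`:
`om c z = u (2 + (2 - c) z t - u t²)`, concave in `u`, `1 < (1 + r) u < 1 + t/10`.
* `rr_lt_line` : `r < al + s t²` when `(1 - s - al)² < 4 al (1 + al) s (1 - s)`;
* `om_ge` : `2 k - v² - (3/5) z v ≥ 3/10 + (11/25) z₊²`;
* `om_ge'` : `2 k - v² - (17/25) z v ≥ 1/3 + (2/5) z₊²`.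
-/

set_option autoImplicit false

open Filter Topology Set

namespace Crest.Agent.R253.Om836

open Crest.Agent.R253.Mills37 Crest.Agent.R253.Slack688 Crest.Agent.R253.V2451
open Crest.Agent.R253.HFn741

noncomputable section

/-! ### line barriers -/

lemma pos_of_mul_pos_right' {a b : ℝ} (h : 0 < a * b) (ha : 0 < a) : 0 < b :=
  (mul_pos_iff_of_pos_left ha).1 h

lemma lt_bb {z : ℝ} (h0 : 0 < z) : z < bb z := by
  have h1 := ee_lt h0
  have h2 := ee_pos z
  unfold bb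
  rw [lt_inv_comm₀ h0 h2]
  rwa [one_div] at h1

/-- **line barriers** -/
theorem rr_lt_line {al s : ℝ} (hal : 0 < al) (hs0 : 0 < s) (hs1 : s < 1)
    (hd : (1 - s - al) ^ 2 < 4 * (al * (1 + al)) * (s * (1 - s))) (z : ℝ) :
    rr z < al + s * bb z ^ 2 := by
  have hF : ∀ x, HasDerivAt (fun z => al + s * bb z ^ 2 - rr z)
      (((1 + al + (1 - s) * bb x ^ 2 + rr x) / bb x) * (al + s * bb x ^ 2 - rr x) -
        (al * (1 + al) + (s + al - 1) * bb x ^ 2 + s * (1 - s) * (bb x ^ 2) ^ 2) / bb x) x := by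
    intro x
    have hb := (bb_pos x).ne'
    have h := ((((bb_hasDerivAt x).pow 2).const_mul s).const_add al).sub (rr_hasDerivAt x)
    refine h.congr_deriv ?_
    field_simp
    ring
  have hN : ∀ x, 0 < (al * (1 + al) + (s + al - 1) * bb x ^ 2 +
      s * (1 - s) * (bb x ^ 2) ^ 2) / bb x := by
    intro x
    refine div_pos ?_ (bb_pos x)
    have h1 : 0 < s * (1 - s) := mul_pos hs0 (by linarith)
    have h2 : 0 < 4 * (s * (1 - s)) * (al * (1 + al) + (s + al - 1) * bb x ^ 2 +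
      s * (1 - s) * (bb x ^ 2) ^ 2) := by
      nlinarith [sq_nonneg (2 * (s * (1 - s)) * bb x ^ 2 + (s + al - 1))]
    exact pos_of_mul_pos_right' h2 (by positivity)
  have hlarge : ∀ x, 1 / s ≤ x → 0 < al + s * bb x ^ 2 - rr x := by
    intro x hx
    have h0 : 0 < 1 / s := by positivity
    have h1 : 1 / s < bb x := lt_of_le_of_lt hx (lt_bb (lt_of_lt_of_le h0 hx))
    have h2 : 1 < s * bb x := by
      rw [div_lt_iff₀ hs0] at h1; linarith
    have h3 : 1 < bb x := by nlinarith [bb_pos x]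
    have h4 := rr_lt_one x
    have h5 : 1 < s * bb x ^ 2 := by nlinarith
    linarith
  rcases lt_or_ge z (1 / s) with hz | hz
  · have := pos_left_of_ode (s := fun z => al + s * bb z ^ 2 - rr z) (b := 1 / s)
      (fun x _ => hF x) (fun x _ => hN x) (hlarge _ le_rfl).le z hz
    linarith
  · have := hlarge z hz
    linarith

/-- the line used below -/
lemma rr_lt (z : ℝ) : rr z < 29 / 200 + 9 / 20 * bb z ^ 2 :=
  rr_lt_line (by norm_num) (by norm_num) (by norm_num) (by norm_num) z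

/-! ### the variables `u = 1 - a`, `y = z t` -/

lemma H0_eq (z : ℝ) : H0 z = (1 - aa z) * bb z := by
  have he := (ee_pos z).ne'
  unfold aa bb
  field_simp
  ring

lemma zbb (z : ℝ) : z * bb z = bb z ^ 2 - 1 - rr z := by unfold rr; ring

lemma bb2_mul (z : ℝ) : bb2 z * bb z = (1 + rr z) * (1 - aa z) - 1 := by
  have hb := (bb_pos z).ne'
  have he : ee z = (bb z)⁻¹ := by unfold bb; rw [inv_inv]
  have hw : ww z = (1 + rr z) * (bb z)⁻¹ ^ 2 := by
    unfold ww rr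
    rw [he]
    field_simp
    ring
  unfold bb2
  rw [H0_eq, hw, he]
  field_simp

lemma one_lt_U (z : ℝ) : 1 < (1 + rr z) * (1 - aa z) := by
  have h := mul_pos (bb2_pos z) (bb_pos z)
  rw [bb2_mul] at h
  linarith

lemma U_lt (z : ℝ) : (1 + rr z) * (1 - aa z) < 1 + bb z / 10 := by
  have h := mul_lt_mul_of_pos_right (bb2_lt z) (bb_pos z)
  rw [bb2_mul] at h
  linarith

/-- **closed form** -/
theorem om_eq (c z : ℝ) : 2 * kk z - H0 z ^ 2 - c * (z * H0 z) =
    (1 - aa z) * (2 + (2 - c) * (z * bb z) - (1 - aa z) * bb z ^ 2) := by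
  have h := zv_sub z
  have h1 : z * H0 z = (1 - aa z) * (z * bb z) := by rw [H0_eq]; ring
  have h2 : kk z = 1 - aa z + z * H0 z := by linarith
  rw [h2, h1, H0_eq]
  ring

lemma aa_zero : aa 0 = 1 - Real.log 2 := by
  have hQ : Q 0 = 1 / 2 := by
    have := Q_neg 0
    rw [neg_zero] at this
    linarith
  have h1 : ee 0 = mu 0 := by unfold ee; ring
  have h2 : ee 0 * H0 0 = kk 0 := by rw [h1, mu_H0]
  unfold aa
  rw [h2]
  unfold kk
  rw [hQ, one_div, Real.log_inv]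
  ring

lemma aa_ge {z : ℝ} (hz : 0 ≤ z) : 3068 / 10000 < aa z := by
  have h := aa_strictMono.monotone hz
  rw [aa_zero] at h
  have := Real.log_two_lt_d9
  linarith

/-! ### concavity in `U` -/

lemma conc {A x T q U : ℝ} (hx : 0 ≤ x) (hq : 1 < q) (h1 : 1 ≤ U) (h2 : U ≤ q)
    (e1 : T ≤ A - x) (e2 : T ≤ A * q - x * q ^ 2) : T ≤ A * U - x * U ^ 2 := by
  have key : (q - 1) * (A * U - x * U ^ 2 - T) =
      (q - U) * (A - x - T) + (U - 1) * (A * q - x * q ^ 2 - T) +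
        x * (q - 1) * ((U - 1) * (q - U)) := by ring
  have h3 : 0 ≤ (q - 1) * (A * U - x * U ^ 2 - T) := by
    rw [key]
    have := mul_nonneg (sub_nonneg.2 h2) (sub_nonneg.2 e1)
    have := mul_nonneg (sub_nonneg.2 h1) (sub_nonneg.2 e2)
    have := mul_nonneg (mul_nonneg hx (sub_nonneg.2 hq.le))
      (mul_nonneg (sub_nonneg.2 h1) (sub_nonneg.2 h2))
    linarith
  have := nonneg_of_mul_nonneg_right h3 (by linarith : 0 < q - 1)
  linarith

/-! ### `z ≥ 0` -/

/-- for `z ≥ 0`, `κ = 2 - c`: both ends of the range of `u` -/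
lemma om_pos {κ g1 z : ℝ} (hz : 0 ≤ z) (hκ : g1 ≤ (2 * κ - 1) / 4)
    (hg1 : g1 ≤ 6932 / 10000 * κ - (6932 / 10000) ^ 2) :
    17 / 40 + g1 * (z * bb z) ≤ (1 - aa z) * (2 + κ * (z * bb z) - (1 - aa z) * bb z ^ 2) := by
  set y := z * bb z with hy
  have hy0 : 0 ≤ y := mul_nonneg hz (bb_pos z).le
  set R := 1 + rr z with hR
  have hR1 : R < 2 := by have := rr_lt_one z; linarith
  have hx : bb z ^ 2 = y + R := by rw [hy, zbb]; ring
  set u := 1 - aa z with hu
  have hu3 : u < 6932 / 10000 := by have := aa_ge hz; linarith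
  have hu1 : 1 < R * u := one_lt_U z
  have hu0 : 1 / 2 < u := by have := aa_lt z; linarith
  have hR0 : 0 < R := by have := rr_pos z; linarith
  rw [hx]
  -- `u (2 + κ y - u (y + R))`, `y`-coefficient `κ u - u²`, constant `2 u - R u²`
  have c0 : 17 / 40 ≤ 2 * u - R * u ^ 2 := by
    -- concave in `u` on `[1/R, .6932]`; with `R < 2`
    nlinarith
  have c1 : g1 ≤ κ * u - u ^ 2 := by
    nlinarith [mul_nonneg (sub_nonneg.2 hu0.le) (sub_nonneg.2 hu3.le)]
  nlinarith [mul_le_mul_of_nonneg_right c1 hy0]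

/-! ### `z ≤ 0` -/

lemma om_neg {κ g0 z : ℝ} (hz : z ≤ 0) (hκ : 1 ≤ κ) (hg0 : 0 ≤ g0)
    (hA : ∀ R : ℝ, 1 ≤ R → R ≤ 2 →
      g0 * R ^ 2 ≤ 2 * R - κ * R ^ 2 + (κ * R - 1) * ((R - 229 / 200) * (20 / 9)))
    (hB : ∀ t : ℝ, 0 ≤ t → t ^ 2 ≤ 2 →
      t ^ 2 * (1 + t / 10) ^ 2 ≤ (2 + κ * t ^ 2) * (1 + t / 10) - (κ * (1 + t / 10) + g0))
    (hC : ∀ t : ℝ, 0 ≤ t → t ^ 2 ≤ 2 →
      t ^ 2 * (1 + t / 10) ^ 2 ≤ (2 + κ * t ^ 2) * (1 + t / 10) * (229 / 200 + 9 / 20 * t ^ 2) -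
        (κ * (1 + t / 10) + g0) * (229 / 200 + 9 / 20 * t ^ 2) ^ 2) :
    g0 ≤ (1 - aa z) * (2 + κ * (z * bb z) - (1 - aa z) * bb z ^ 2) := by
  have ht := bb_pos z
  have hr0 := rr_pos z
  have hr1 := rr_lt_one z
  have hl := rr_lt z
  have hU1 := one_lt_U z
  have hU2 := U_lt z
  have hzb := zbb z
  have hzn : z * bb z ≤ 0 := mul_nonpos_of_nonpos_of_nonneg hz ht.le
  set t := bb z with htd
  set R := 1 + rr z with hR
  set u := 1 - aa z with hu
  have hR0 : 0 < R := by linarith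
  have hR1 : 1 ≤ R := by linarith
  have hR2 : R ≤ 2 := by linarith
  have hy : z * t = t ^ 2 - R := by rw [hzb]; ring
  have ht2 : t ^ 2 ≤ 2 := by nlinarith
  have hRl : R ≤ 229 / 200 + 9 / 20 * t ^ 2 := by linarith
  rw [hy]
  -- first end
  have e1 : g0 * R ^ 2 ≤ (2 + κ * (t ^ 2 - R)) * R - t ^ 2 := by
    have h1 := hA R hR1 hR2
    have h2 : (R - 229 / 200) * (20 / 9) ≤ t ^ 2 := by linarith
    have h3 : 0 ≤ κ * R - 1 := by nlinarith
    have h4 := mul_le_mul_of_nonneg_left h2 h3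
    nlinarith
  -- second end
  have e2 : g0 * R ^ 2 ≤ (2 + κ * (t ^ 2 - R)) * R * (1 + t / 10) - t ^ 2 * (1 + t / 10) ^ 2 := by
    have h1 := hB t ht.le ht2
    have h2 := hC t ht.le ht2
    have h3 := conc (A := (2 + κ * t ^ 2) * (1 + t / 10)) (x := κ * (1 + t / 10) + g0)
      (T := t ^ 2 * (1 + t / 10) ^ 2) (q := 229 / 200 + 9 / 20 * t ^ 2) (U := R)
      (by positivity) (by nlinarith) hR1 hRl h1 h2
    nlinarith
  have h3 := conc (A := (2 + κ * (t ^ 2 - R)) * R) (x := t ^ 2) (T := g0 * R ^ 2)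
    (q := 1 + t / 10) (U := R * u) (by positivity) (by linarith) hU1.le hU2.le e1
    (by linarith)
  have h4 : 0 ≤ R ^ 2 * (u * (2 + κ * (t ^ 2 - R) - u * t ^ 2) - g0) := by
    have : R ^ 2 * (u * (2 + κ * (t ^ 2 - R) - u * t ^ 2) - g0) =
      (2 + κ * (t ^ 2 - R)) * R * (R * u) - t ^ 2 * (R * u) ^ 2 - g0 * R ^ 2 := by ring
    rw [this]; linarith
  have h5 := nonneg_of_mul_nonneg_right h4 (by positivity : 0 < R ^ 2)
  linarith

/-! ### the two literal facts -/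

lemma sq_le_zbb {z : ℝ} (hz : 0 ≤ z) : z ^ 2 ≤ z * bb z := by
  rcases hz.eq_or_lt with h | h
  · rw [← h]; simp
  · have := lt_bb h
    nlinarith

theorem om_ge (z : ℝ) :
    3 / 10 + 11 / 25 * (max z 0) ^ 2 ≤ 2 * kk z - H0 z ^ 2 - 3 / 5 * (z * H0 z) := by
  rw [om_eq]
  rcases le_total z 0 with hz | hz
  · rw [max_eq_right hz]
    have h := om_neg (κ := 2 - 3 / 5) (g0 := 3 / 10) hz (by norm_num) (by norm_num)
      (fun R h1 h2 => by nlinarith [sq_nonneg (R - 1703 / 1270)])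
      (fun t h1 h2 => by nlinarith [sq_nonneg (t - 1), mul_nonneg h1 (sq_nonneg t)])
      (fun t ht _ => by
        nlinarith [mul_nonneg ht (sq_nonneg (t^2 - 13/25)), mul_nonneg ht (sq_nonneg (t - 18/25)),
          sq_nonneg (t^2 - 13/25), sq_nonneg (t - 18/25), sq_nonneg (t * (t - 18/25)),
          mul_nonneg ht (sq_nonneg (t*(t - 18/25)))])
    linarith
  · rw [max_eq_left hz]
    have h := om_pos (κ := 2 - 3 / 5) (g1 := 11 / 25) hz (by norm_num) (by norm_num)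
    have := sq_le_zbb hz
    linarith

theorem om_ge' (z : ℝ) :
    1 / 3 + 2 / 5 * (max z 0) ^ 2 ≤ 2 * kk z - H0 z ^ 2 - 17 / 25 * (z * H0 z) := by
  rw [om_eq]
  rcases le_total z 0 with hz | hz
  · rw [max_eq_right hz]
    have h := om_neg (κ := 2 - 17 / 25) (g0 := 1 / 3) hz (by norm_num) (by norm_num)
      (fun R h1 h2 => by nlinarith [sq_nonneg (R - 8057 / 5760)])
      (fun t h1 h2 => by nlinarith [sq_nonneg (t - 1), mul_nonneg h1 (sq_nonneg t)])
      (fun t ht _ => by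
        nlinarith [mul_nonneg ht (sq_nonneg (t^2 - 66/100)), mul_nonneg ht (sq_nonneg (t - 81/100)),
          sq_nonneg (t^2 - 66/100), sq_nonneg (t - 81/100), sq_nonneg (t * (t - 81/100)),
          mul_nonneg ht (sq_nonneg (t*(t - 81/100)))])
    linarith
  · rw [max_eq_left hz]
    have h := om_pos (κ := 2 - 17 / 25) (g1 := 2 / 5) hz (by norm_num) (by norm_num)
    have := sq_le_zbb hz
    linarith

end

end Crest.Agent.R253.Om836
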