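import Crest.Agent.R253.NearR_80

/-!
# Row 253: `TR`, `PW`, `HW` as finite sums over the eigenvalues of `M_T` (helper80)

`rows`: there are `s P H : Fin n → ℝ` with `0 ≤ s i`, `0 ≤ H i`, `2 H i ≤ P i` and
`TR g S = Σ g (s i)`, `PW w ζ = Σ w (s i) P i`, `HW w ζ = Σ w (s i) H i` for all `g, w`.
-/

set_option autoImplicit false

open MeasureTheory ProbabilityTheory Set Filter Topology Matrix
open scoped ContDiff

noncomputable section

namespace Crest.Agent.R253.TrC80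

open Crest.Agent.R238.Gap Crest.Agent.R253.SpecCalc999 Crest.Agent.R253.Meh74
  Crest.Agent.R253.SpecField321 Crest.Agent.R253.S3 Crest.Agent.R253.LamB301
  Crest.Agent.R253.LamI301
open Crest.Agent.R253.DualP973 (Tm ef Lx MTm Mx_eq dk_eq c1_ef)

variable {n : ℕ} {ζ : Fld n} {lo hi : ℝ}

/-- one row -/
def rowM (U : Mat n) (i : Fin n) : Mat n := Matrix.single i i 1 * Uᵀ

lemma hs_rowM (U X : Mat n) (i : Fin n) : hs (rowM U i * X) = (Uᵀ * (X * Xᵀ) * U) i i := by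
  have e1 : Uᵀ * (X * Xᵀ) * U = (Uᵀ * X) * (Uᵀ * X)ᵀ := by
    rw [Matrix.transpose_mul, Matrix.transpose_transpose]
    simp only [Matrix.mul_assoc]
  rw [e1, Matrix.mul_apply]
  unfold hs rowM
  rw [Matrix.mul_assoc]
  rw [Finset.sum_eq_single i]
  · refine Finset.sum_congr rfl fun j _ => ?_
    rw [Matrix.single_mul_apply_same, one_mul, Matrix.transpose_apply, sq]
  · intro a _ ha
    refine Finset.sum_eq_zero fun j _ => ?_
    rw [Matrix.single_mul_apply_of_ne _ _ _ _ _ ha]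
    norm_num
  · intro h; exact absurd (Finset.mem_univ _) h

theorem rows (hζ : MF ζ lo hi) : ∃ s P H : Fin n → ℝ, (∀ i, 0 ≤ s i) ∧ (∀ i, 0 ≤ H i) ∧
    (∀ i, 2 * H i ≤ P i) ∧ (∀ g, TR g (MTm ζ) = ∑ i, g (s i)) ∧
    (∀ w, PW w ζ = ∑ i, w (s i) * P i) ∧ ∀ w, HW w ζ = ∑ i, w (s i) * H i := by
  obtain ⟨U, hU⟩ := exists_fr (ts hζ).herm
  have cP : ∀ i, CG fun x => ∑ k, hs (rowM U i * Mx (dk k (ef ζ)) x) := fun i =>
    CG.sum fun k _ => cg_hs ((cgm_const _).mul (cgm_p hζ k))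
  have cH : ∀ i, CG fun x => hs (rowM U i * Mx (ef ζ) x) := fun i =>
    cg_hs ((cgm_const _).mul (cgm_η hζ))
  refine ⟨_, fun i => EE (fun x => ∑ k, hs (rowM U i * Mx (dk k (ef ζ)) x)),
    fun i => EE (fun x => hs (rowM U i * Mx (ef ζ) x)),
    fun i => spec_nonneg (ts hζ).psd (hU.mem_spec i), fun i => EE_nonneg fun x => hs_nonneg _,
    fun i => two_hs_le hζ _, fun g => TR_frame hU g, fun w => ?_, fun w => ?_⟩
  · unfold PW
    have e : ∀ x, ∑ k, (_root_.cfc w (MTm ζ) *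
        (Mx (dk k (ef ζ)) x * (Mx (dk k (ef ζ)) x)ᵀ)).trace =
        ∑ i, w ((ts hζ).herm.eigenvalues i) * ∑ k, hs (rowM U i * Mx (dk k (ef ζ)) x) := by
      intro x
      simp only [Finset.mul_sum]
      rw [Finset.sum_comm]
      refine Finset.sum_congr rfl fun k _ => ?_
      rw [tr_mul_frame hU]
      exact Finset.sum_congr rfl fun i _ => by rw [hs_rowM]
    rw [EE_congr e, EE_sum fun i _ => (cP i).smul _]
    exact Finset.sum_congr rfl fun i _ => EE_smul _ _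
  · unfold HW
    have e : ∀ x, (_root_.cfc w (MTm ζ) * (Mx (ef ζ) x * (Mx (ef ζ) x)ᵀ)).trace =
        ∑ i, w ((ts hζ).herm.eigenvalues i) * hs (rowM U i * Mx (ef ζ) x) := by
      intro x
      rw [tr_mul_frame hU]
      exact Finset.sum_congr rfl fun i _ => by rw [hs_rowM]
    rw [EE_congr e, EE_sum fun i _ => (cH i).smul _]
    exact Finset.sum_congr rfl fun i _ => EE_smul _ _

end Crest.Agent.R253.TrC80
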