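import Crest.Agent.R253.Spine_973
import Crest.Agent.R253.SpecField_321

/-!
# R253, E-route: helper732's (S3) (r253 #29645) for every constant matrix `K` commuting with
`M_T = Σ T_k²` (helper649).

* `CGm`: matrix fields with continuous entries of polynomial growth; `TE F = E tr F`.
* `S3b`: exact formula for `E tr K k(ζ)`, `k(z) = 1 + z v(z) - v'(z)`,
  `ζ = Σ x_k T_k + η` (Gaussian integration by parts).
* `S3c`: lower bound by `(1/2) tr K (1 - M_T)` + three error terms.
* `center_p`, `center_eta`: centring of the error terms.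
* `S3a`: `E tr K U²` through a weak test field.
-/

set_option autoImplicit false

open MeasureTheory ProbabilityTheory Set Filter Topology Matrix
open scoped ContDiff

noncomputable section

namespace Crest.Agent.R253.S3

open Crest.Agent.R238.Gap Crest.Agent.R253.Meh74 Crest.Agent.R253.SpecCalc999
  Crest.Agent.R253.SpecField321

variable {n : ℕ}

/-! ### matrix fields -/

/-- entries continuous of polynomial growth -/
def CGm (F : E n → Mat n) : Prop := ∀ i j, CG fun x => F x i j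

lemma cgm_const (A : Mat n) : CGm fun _ => A := fun i j => cg_const (A i j)

lemma CGm.add {F G : E n → Mat n} (hF : CGm F) (hG : CGm G) : CGm fun x => F x + G x :=
  fun i j => (hF i j).add (hG i j)

lemma CGm.sub {F G : E n → Mat n} (hF : CGm F) (hG : CGm G) : CGm fun x => F x - G x :=
  fun i j => (hF i j).sub (hG i j)

lemma CGm.mul {F G : E n → Mat n} (hF : CGm F) (hG : CGm G) : CGm fun x => F x * G x := by
  intro i j
  have h : CG fun x => ∑ p, F x i p * G x p j := CG.sum fun p _ => (hF i p).mul (hG p j)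
  exact h

lemma CGm.smulc {F : E n → Mat n} (c : ℝ) (hF : CGm F) : CGm fun x => c • F x :=
  fun i j => (hF i j).smul c

lemma CGm.smul {f : E n → ℝ} {F : E n → Mat n} (hf : CG f) (hF : CGm F) :
    CGm fun x => f x • F x := fun i j => hf.mul (hF i j)

lemma CGm.congr {F G : E n → Mat n} (hF : CGm F) (h : ∀ x, F x = G x) : CGm G := by
  have : F = G := funext h
  rwa [← this]

lemma CGm.sum {ι : Type*} {s : Finset ι} {F : ι → E n → Mat n} (hF : ∀ i ∈ s, CGm (F i)) :
    CGm fun x => ∑ i ∈ s, F i x := by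
  intro a b
  have h : CG fun x => ∑ i ∈ s, F i x a b := CG.sum fun i hi => hF i hi a b
  have e : (fun x => ∑ i ∈ s, F i x a b) = fun x => (∑ i ∈ s, F i x) a b := by
    funext x
    rw [Matrix.sum_apply]
  rwa [e] at h

lemma CGm.trace {F : E n → Mat n} (hF : CGm F) : CG fun x => (F x).trace := by
  have h : CG fun x => ∑ i, F x i i := CG.sum fun i _ => hF i i
  exact h

/-- `E tr F` -/
def TE (F : E n → Mat n) : ℝ := EE fun x => (F x).trace

lemma TE_add {F G : E n → Mat n} (hF : CGm F) (hG : CGm G) :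
    TE (fun x => F x + G x) = TE F + TE G := by
  unfold TE
  rw [← EE_add hF.trace hG.trace]
  exact EE_congr fun x => Matrix.trace_add _ _

lemma TE_sub {F G : E n → Mat n} (hF : CGm F) (hG : CGm G) :
    TE (fun x => F x - G x) = TE F - TE G := by
  unfold TE
  rw [← EE_sub hF.trace hG.trace]
  exact EE_congr fun x => Matrix.trace_sub _ _

lemma TE_smul (c : ℝ) (F : E n → Mat n) : TE (fun x => c • F x) = c * TE F := by
  unfold TE
  rw [← EE_smul]
  exact EE_congr fun x => Matrix.trace_smul _ _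

lemma TE_sum {ι : Type*} {s : Finset ι} {F : ι → E n → Mat n} (hF : ∀ i ∈ s, CGm (F i)) :
    TE (fun x => ∑ i ∈ s, F i x) = ∑ i ∈ s, TE (F i) := by
  unfold TE
  rw [← EE_sum fun i hi => (hF i hi).trace]
  exact EE_congr fun x => Matrix.trace_sum _ _

lemma TE_const (A : Mat n) : TE (fun _ => A) = A.trace := EE_const _

lemma TE_congr {F G : E n → Mat n} (h : ∀ x, F x = G x) : TE F = TE G := by
  have : F = G := funext h
  rw [this]

lemma TE_mono {F G : E n → Mat n} (hF : CGm F) (hG : CGm G)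
    (h : ∀ x, (F x).trace ≤ (G x).trace) : TE F ≤ TE G := EE_mono hF.trace hG.trace h

/-- derivative of a matrix field -/
def dM (k : Fin n) (F : E n → Mat n) (x : E n) : Mat n := Matrix.of fun i j =>
  pd k (fun y => F y i j) x

/-- entries `C1` -/
def C1m (F : E n → Mat n) : Prop := ∀ i j, C1 fun x => F x i j

lemma C1m.cg {F : E n → Mat n} (hF : C1m F) : CGm F := fun i j => (hF i j).cg
lemma C1m.cgd {F : E n → Mat n} (hF : C1m F) (k : Fin n) : CGm (dM k F) :=
  fun i j => (hF i j).cgp k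

lemma trace_three (A X B : Mat n) : (A * X * B).trace = ∑ i, ∑ j, (B * A) j i * X i j := by
  rw [Matrix.mul_assoc, Matrix.trace_mul_comm, Matrix.mul_assoc, ← Matrix.trace_mul_comm (B * A),
    Matrix.trace_mul_comm (B * A)]
  rw [Matrix.trace]
  simp only [Matrix.diag_apply, Matrix.mul_apply (M := X)]
  exact Finset.sum_congr rfl fun i _ => Finset.sum_congr rfl fun j _ => mul_comm _ _

/-- Gaussian integration by parts under the trace -/
lemma ibp_tr {F : E n → Mat n} (hF : C1m F) (A B : Mat n) (k : Fin n) :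
    EE (fun x => x k * (A * F x * B).trace) = TE fun x => A * dM k F x * B := by
  have hc : C1 fun x => ∑ i, ∑ j, (B * A) j i * F x i j :=
    C1.sum fun i _ => C1.sum fun j _ => (hF i j).smul _
  have h1 : ∀ x, pd k (fun x => ∑ i, ∑ j, (B * A) j i * F x i j) x =
      (A * dM k F x * B).trace := by
    intro x
    rw [pd_sum' (f := fun i x => ∑ j, (B * A) j i * F x i j) fun i _ =>
      C1.sum fun j _ => (hF i j).smul _, trace_three]
    refine Finset.sum_congr rfl fun i _ => ?_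
    rw [pd_sum' (f := fun j x => (B * A) j i * F x i j) fun j _ => (hF i j).smul _]
    refine Finset.sum_congr rfl fun j _ => ?_
    rw [C1.pd_mul (c1_const _) (hF i j)]
    have : pd k (fun _ : E n => (B * A) j i) x = 0 := by simp [pd]
    rw [this, zero_mul]
    simp [dM]
  have h2 := ibp_gam hc.c hc.g k (hc.p k)
  unfold TE EE
  have h3 : ∀ x : E n, x k * (A * F x * B).trace =
      (∑ i, ∑ j, (B * A) j i * F x i j) * x k := by
    intro x
    rw [trace_three, mul_comm]
  simp only [h3]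
  rw [h2]
  exact integral_congr_ae (Eventually.of_forall h1)

/-! ### spectral functions -/

lemma cfc_k {A : Mat n} (hA : A.IsHermitian) {lo hi : ℝ} (hs : spectrum ℝ A ⊆ Icc lo hi)
    {v v1 k : ℝ → ℝ} (hk : ∀ z ∈ Icc lo hi, k z = 1 + z * v z - v1 z) :
    _root_.cfc k A = 1 + _root_.cfc v A * A - _root_.cfc v1 A := by
  obtain ⟨U, hU⟩ := exists_fr hA
  apply conj_inj hU.o'
  have e : Uᵀ * (1 + _root_.cfc v A * A - _root_.cfc v1 A) * U =
      1 + (Uᵀ * _root_.cfc v A * U) * (Uᵀ * A * U) - Uᵀ * _root_.cfc v1 A * U := by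
    have h1 : Uᵀ * (_root_.cfc v A * A) * U = (Uᵀ * _root_.cfc v A * U) * (Uᵀ * A * U) := by
      calc Uᵀ * (_root_.cfc v A * A) * U = Uᵀ * (_root_.cfc v A * 1 * A) * U := by
            rw [Matrix.mul_one]
        _ = Uᵀ * (_root_.cfc v A * (U * Uᵀ) * A) * U := by rw [hU.o']
        _ = _ := by simp only [Matrix.mul_assoc]
    rw [Matrix.mul_sub, Matrix.sub_mul, Matrix.mul_add, Matrix.add_mul, h1, Matrix.mul_one, hU.o]
  rw [e, hU.cfc, hU.cfc, hU.cfc, hU.d, Matrix.diagonal_mul_diagonal]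
  ext i j
  by_cases hij : i = j
  · subst hij
    simp only [Matrix.sub_apply, Matrix.add_apply, Matrix.diagonal_apply_eq, Matrix.one_apply_eq]
    rw [hk _ (hs (hU.mem_spec i))]
    ring
  · simp [Matrix.diagonal_apply_ne _ hij, Matrix.one_apply_ne hij]

/-- `KL f f' A X = D f(A)[X] - f'(A) X` -/
def KL (f f' : ℝ → ℝ) (A X : Mat n) : Mat n := DK f f' A X - _root_.cfc f' A * X

section field

variable {Z : Fld n} {lo hi : ℝ} {v v1 v2 k : ℝ → ℝ}

/-- `v(ζ)` -/
def sf (f : ℝ → ℝ) (Z : Fld n) (x : E n) : Mat n := _root_.cfc f (Mx Z x)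

/-- `∂_k ζ` -/
def dZ (Z : Fld n) (k : Fin n) (x : E n) : Mat n := Mx (fun a b => pd k (Z a b)) x

/-- `η = ζ - Σ x_k T_k` -/
def eta0 (Z : Fld n) (T : Fin n → Mat n) (x : E n) : Mat n := Mx Z x - ∑ k, x k • T k

/-- `p_k = ∂_k ζ - T_k` -/
def pk (Z : Fld n) (T : Fin n → Mat n) (k : Fin n) (x : E n) : Mat n := dZ Z k x - T k

lemma c1m_sf (hZ : MF Z lo hi) (hv : ∀ x ∈ Icc lo hi, HasDerivAt v (v1 x) x)
    (hv1 : ContinuousOn v1 (Icc lo hi)) : C1m (sf v Z) := fun i j => c1_cfc hZ hv hv1 i j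

lemma dM_sf (hZ : MF Z lo hi) (hv : ∀ x ∈ Icc lo hi, HasDerivAt v (v1 x) x) (k : Fin n)
    (x : E n) : dM k (sf v Z) x = DK v v1 (Mx Z x) (dZ Z k x) := by
  ext i j
  exact pd_cfc hZ hv x i j k

lemma cgm_Mx (hZ : MF Z lo hi) : CGm (Mx Z) := fun i j => (hZ.c i j).cg
lemma cgm_dZ (hZ : MF Z lo hi) (k : Fin n) : CGm (dZ Z k) := fun i j => (hZ.c i j).cgp k

lemma cgm_lin (T : Fin n → Mat n) : CGm fun x : E n => ∑ k, x k • T k :=
  CGm.sum fun k _ => CGm.smul (cg_coord k) (cgm_const (T k))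

lemma cgm_eta0 (hZ : MF Z lo hi) (T : Fin n → Mat n) : CGm (eta0 Z T) :=
  (cgm_Mx hZ).sub (cgm_lin T)

lemma cgm_pk (hZ : MF Z lo hi) (T : Fin n → Mat n) (k : Fin n) : CGm (pk Z T k) :=
  (cgm_dZ hZ k).sub (cgm_const (T k))

lemma contOn_of_deriv {f f' : ℝ → ℝ} (hf : ∀ x ∈ Icc lo hi, HasDerivAt f (f' x) x) :
    ContinuousOn f (Icc lo hi) := fun x hx => (hf x hx).continuousAt.continuousWithinAt

/-- **(S3b)** -/
theorem S3b (hZ : MF Z lo hi) (hv : ∀ x ∈ Icc lo hi, HasDerivAt v (v1 x) x)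
    (hv1 : ∀ x ∈ Icc lo hi, HasDerivAt v1 (v2 x) x) (hv2 : ContinuousOn v2 (Icc lo hi))
    (hk : ∀ z ∈ Icc lo hi, k z = 1 + z * v z - v1 z) (T : Fin n → Mat n) (K : Mat n)
    (hK : K * (∑ k, T k * T k) = (∑ k, T k * T k) * K) :
    TE (fun x => K * sf k Z x) - (K * ∑ k, T k * T k).trace =
      (K * (1 - ∑ k, T k * T k)).trace
      - TE (fun x => sf v1 Z x * (K * (1 - ∑ k, T k * T k)))
      + ∑ k, TE (fun x => K * (sf v1 Z x * pk Z T k x) * T k)
      + ∑ k, TE (fun x => K * KL v v1 (Mx Z x) (dZ Z k x) * T k)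
      + TE (fun x => K * (sf v Z x * eta0 Z T x)) := by
  set MT : Mat n := ∑ k, T k * T k with hMT
  have cV : C1m (sf v Z) := c1m_sf hZ hv (contOn_of_deriv hv1)
  have cV1 : C1m (sf v1 Z) := c1m_sf hZ hv1 hv2
  have cK : CGm fun _ : E n => K := cgm_const K
  have cη := cgm_eta0 hZ T
  -- step 1: k(ζ)
  have e1 : ∀ x, K * sf k Z x = K + K * (sf v Z x * Mx Z x) - K * sf v1 Z x := by
    intro x
    unfold sf
    rw [cfc_k (hZ.h x) (hZ.s x) hk, Matrix.mul_sub, Matrix.mul_add, Matrix.mul_one]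
  have e2 : ∀ x, K * (sf v Z x * Mx Z x) =
      (∑ k, x k • (K * sf v Z x * T k)) + K * (sf v Z x * eta0 Z T x) := by
    intro x
    have h0 : Mx Z x = (∑ k, x k • T k) + eta0 Z T x := by
      unfold eta0; abel
    conv_lhs => rw [h0]
    rw [Matrix.mul_add, Matrix.mul_add, ← Matrix.mul_assoc, Matrix.mul_sum]
    congr 1
    refine Finset.sum_congr rfl fun k _ => ?_
    rw [Matrix.mul_smul]
  have cKV : CGm fun x => K * (sf v Z x * eta0 Z T x) := cK.mul (cV.cg.mul cη)
  have cKVT : ∀ k, CGm fun x => K * sf v Z x * T k := fun k =>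
    (cK.mul cV.cg).mul (cgm_const _)
  have cxs : ∀ k : Fin n, CGm fun x => x k • (K * sf v Z x * T k) := fun k =>
    CGm.smul (cg_coord k) (cKVT k)
  have e3 : TE (fun x => K * sf k Z x) =
      K.trace + (∑ k, EE (fun x => x k * (K * sf v Z x * T k).trace)
        + TE (fun x => K * (sf v Z x * eta0 Z T x))) - TE (fun x => K * sf v1 Z x) := by
    have h1 : TE (fun x => K * sf k Z x) =
        TE (fun x => (K + ((∑ k, x k • (K * sf v Z x * T k)) + K * (sf v Z x * eta0 Z T x)))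
          - K * sf v1 Z x) := TE_congr fun x => by rw [e1 x, e2 x]
    rw [h1, TE_sub (cK.add ((CGm.sum fun k _ => cxs k).add cKV)) (cK.mul cV1.cg),
      TE_add cK ((CGm.sum fun k _ => cxs k).add cKV), TE_const,
      TE_add (CGm.sum fun k _ => cxs k) cKV, TE_sum fun k _ => cxs k]
    have h2 : ∀ k, TE (fun x : E n => x k • (K * sf v Z x * T k)) =
        EE (fun x => x k * (K * sf v Z x * T k).trace) := fun k =>
      EE_congr fun x => by rw [Matrix.trace_smul, smul_eq_mul]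
    simp only [h2]
  -- step 2: integration by parts
  have e4 : ∀ k, EE (fun x => x k * (K * sf v Z x * T k).trace) =
      TE (fun x => K * (sf v1 Z x * T k) * T k)
      + TE (fun x => K * (sf v1 Z x * pk Z T k x) * T k)
      + TE (fun x => K * KL v v1 (Mx Z x) (dZ Z k x) * T k) := by
    intro k
    have c1 : CGm fun x => K * (sf v1 Z x * T k) * T k :=
      (cK.mul (cV1.cg.mul (cgm_const _))).mul (cgm_const _)
    have c2 : CGm fun x => K * (sf v1 Z x * pk Z T k x) * T k :=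
      (cK.mul (cV1.cg.mul (cgm_pk hZ T k))).mul (cgm_const _)
    have c3' : CGm fun x => KL v v1 (Mx Z x) (dZ Z k x) := by
      refine ((cV.cgd k).sub (cV1.cg.mul (cgm_dZ hZ k))).congr fun x => ?_
      rw [dM_sf hZ hv]
      rfl
    have c3 : CGm fun x => K * KL v v1 (Mx Z x) (dZ Z k x) * T k :=
      (cK.mul c3').mul (cgm_const _)
    rw [ibp_tr cV K (T k) k, ← TE_add c1 c2, ← TE_add (c1.add c2) c3]
    refine TE_congr fun x => ?_
    rw [dM_sf hZ hv]
    have h1 : DK v v1 (Mx Z x) (dZ Z k x) =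
        sf v1 Z x * T k + sf v1 Z x * pk Z T k x + KL v v1 (Mx Z x) (dZ Z k x) := by
      unfold KL pk sf
      rw [Matrix.mul_sub]
      abel
    conv_lhs => rw [h1]
    simp only [Matrix.mul_add, Matrix.add_mul]
  -- step 3: the main term
  have e5 : ∑ k, TE (fun x => K * (sf v1 Z x * T k) * T k) = TE (fun x => K * sf v1 Z x * MT) := by
    rw [← TE_sum fun k _ => (cK.mul (cV1.cg.mul (cgm_const (T k)))).mul (cgm_const (T k))]
    refine TE_congr fun x => ?_
    rw [hMT, Matrix.mul_sum]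
    exact Finset.sum_congr rfl fun k _ => by simp only [Matrix.mul_assoc]
  have e6 : TE (fun x => K * sf v1 Z x * MT) = TE (fun x => sf v1 Z x * (K * MT)) := by
    unfold TE
    refine EE_congr fun x => ?_
    change (K * sf v1 Z x * MT).trace = (sf v1 Z x * (K * MT)).trace
    rw [Matrix.mul_assoc, Matrix.trace_mul_comm, Matrix.mul_assoc, hK]
  have e7 : TE (fun x => K * sf v1 Z x) = TE (fun x => sf v1 Z x * K) := by
    unfold TE
    exact EE_congr fun x => Matrix.trace_mul_comm _ _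
  have e8 : TE (fun x => sf v1 Z x * (K * (1 - MT))) =
      TE (fun x => sf v1 Z x * K) - TE (fun x => sf v1 Z x * (K * MT)) := by
    rw [← TE_sub (cV1.cg.mul cK) (cV1.cg.mul (cgm_const _))]
    exact TE_congr fun x => by rw [← Matrix.mul_sub, Matrix.mul_sub K, Matrix.mul_one]
  have e9 : (K * (1 - MT)).trace = K.trace - (K * MT).trace := by
    rw [Matrix.mul_sub, Matrix.mul_one, Matrix.trace_sub]
  rw [e3, e8, e9, ← e6, ← e5, ← e7]
  simp only [e4, Finset.sum_add_distrib]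
  ring

/-! ### traces against positive matrices -/

lemma tr_frame {A U W : Mat n} {s : Fin n → ℝ} (hU : Fr A U s) (f : ℝ → ℝ) :
    (_root_.cfc f A * W).trace = ∑ i, f (s i) * (Uᵀ * W * U) i i := by
  have h1 : (_root_.cfc f A * W).trace =
      ((Uᵀ * _root_.cfc f A * U) * (Uᵀ * W * U)).trace := by
    calc (_root_.cfc f A * W).trace = ((U * Uᵀ) * _root_.cfc f A * (U * Uᵀ) * W).trace := by
          rw [hU.o', Matrix.one_mul, Matrix.mul_one]
      _ = (U * (Uᵀ * _root_.cfc f A * (U * Uᵀ) * W)).trace := by simp only [Matrix.mul_assoc]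
      _ = ((Uᵀ * _root_.cfc f A * (U * Uᵀ) * W) * U).trace := Matrix.trace_mul_comm _ _
      _ = _ := by simp only [Matrix.mul_assoc]
  rw [h1, hU.cfc, Matrix.trace]
  refine Finset.sum_congr rfl fun i _ => ?_
  rw [Matrix.diag_apply, Matrix.diagonal_mul]

lemma conj_diag_nonneg {W : Mat n} (hW : W.PosSemidef) (U : Mat n) (i : Fin n) :
    0 ≤ (Uᵀ * W * U) i i := by
  have h := hW.conjTranspose_mul_mul_same U
  rw [conjTranspose_eq_transpose_of_trivial] at h
  exact h.diag_nonneg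

lemma tr_frame_one {A U W : Mat n} {s : Fin n → ℝ} (hU : Fr A U s) :
    W.trace = ∑ i, (Uᵀ * W * U) i i := by
  have h : (Uᵀ * W * U).trace = W.trace := by
    rw [Matrix.trace_mul_comm, ← Matrix.mul_assoc, hU.o', Matrix.one_mul]
  rw [← h]
  rfl

lemma tr_cfc_le {A W : Mat n} (hA : A.IsHermitian) {f : ℝ → ℝ} {C : ℝ}
    (hf : ∀ z ∈ spectrum ℝ A, f z ≤ C) (hW : W.PosSemidef) :
    (_root_.cfc f A * W).trace ≤ C * W.trace := by
  obtain ⟨U, hU⟩ := exists_fr hA
  rw [tr_frame hU, tr_frame_one (W := W) hU, Finset.mul_sum]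
  exact Finset.sum_le_sum fun i _ =>
    mul_le_mul_of_nonneg_right (hf _ (hU.mem_spec i)) (conj_diag_nonneg hW U i)

lemma le_tr_cfc {A W : Mat n} (hA : A.IsHermitian) {f : ℝ → ℝ} {C : ℝ}
    (hf : ∀ z ∈ spectrum ℝ A, C ≤ f z) (hW : W.PosSemidef) :
    C * W.trace ≤ (_root_.cfc f A * W).trace := by
  obtain ⟨U, hU⟩ := exists_fr hA
  rw [tr_frame hU, tr_frame_one (W := W) hU, Finset.mul_sum]
  exact Finset.sum_le_sum fun i _ =>
    mul_le_mul_of_nonneg_right (hf _ (hU.mem_spec i)) (conj_diag_nonneg hW U i)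

/-- **(S3c)** -/
theorem S3c (hZ : MF Z lo hi) (hv : ∀ x ∈ Icc lo hi, HasDerivAt v (v1 x) x)
    (hv1 : ∀ x ∈ Icc lo hi, HasDerivAt v1 (v2 x) x) (hv2 : ContinuousOn v2 (Icc lo hi))
    (hk : ∀ z ∈ Icc lo hi, k z = 1 + z * v z - v1 z) (T : Fin n → Mat n) (K : Mat n)
    (hK : K * (∑ k, T k * T k) = (∑ k, T k * T k) * K)
    (hP : (K * (1 - ∑ k, T k * T k)).PosSemidef) {C : ℝ} (hC : ∀ z ∈ Icc lo hi, v1 z ≤ C) :
    (1 - C) * (K * (1 - ∑ k, T k * T k)).trace
      + ∑ k, TE (fun x => K * (sf v1 Z x * pk Z T k x) * T k)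
      + ∑ k, TE (fun x => K * KL v v1 (Mx Z x) (dZ Z k x) * T k)
      + TE (fun x => K * (sf v Z x * eta0 Z T x)) ≤
    TE (fun x => K * sf k Z x) - (K * ∑ k, T k * T k).trace := by
  rw [S3b hZ hv hv1 hv2 hk T K hK]
  have cV1 : C1m (sf v1 Z) := c1m_sf hZ hv1 hv2
  have h1 : TE (fun x => sf v1 Z x * (K * (1 - ∑ k, T k * T k))) ≤
      C * (K * (1 - ∑ k, T k * T k)).trace := by
    have h2 : TE (fun x => sf v1 Z x * (K * (1 - ∑ k, T k * T k))) ≤
        TE (fun _ => C • (K * (1 - ∑ k, T k * T k))) := by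
      refine TE_mono (cV1.cg.mul (cgm_const _)) (cgm_const _) fun x => ?_
      rw [Matrix.trace_smul, smul_eq_mul]
      exact tr_cfc_le (hZ.h x) (fun z hz => hC z (hZ.s x hz)) hP
    rwa [TE_const, Matrix.trace_smul, smul_eq_mul] at h2
  linarith

/-! ### centring -/

/-- entrywise expectation -/
def EM (F : E n → Mat n) : Mat n := Matrix.of fun i j => EE fun x => F x i j

lemma TE_AFB {F : E n → Mat n} (hF : CGm F) (A B : Mat n) :
    TE (fun x => A * F x * B) = (A * EM F * B).trace := by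
  unfold TE
  have h1 : ∀ x, (A * F x * B).trace = ∑ i, ∑ j, (B * A) j i * F x i j := fun x =>
    trace_three _ _ _
  simp only [h1]
  rw [trace_three, EE_sum2 fun i j => (hF i j).smul _]
  exact Finset.sum_congr rfl fun i _ => Finset.sum_congr rfl fun j _ => EE_smul _ _

lemma TE_AF {F : E n → Mat n} (hF : CGm F) (A : Mat n) :
    TE (fun x => A * F x) = (A * EM F).trace := by
  have h := TE_AFB hF A 1
  simpa using h

lemma sf_sub_const (hZ : MF Z lo hi) (f : ℝ → ℝ) (c : ℝ) (x : E n) :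
    sf (fun z => f z - c) Z x = sf f Z x - c • (1 : Mat n) := by
  unfold sf
  obtain ⟨U, hU⟩ := exists_fr (hZ.h x)
  apply conj_inj hU.o'
  rw [hU.cfc, Matrix.mul_sub, Matrix.sub_mul, hU.cfc, Matrix.mul_smul, Matrix.smul_mul,
    Matrix.mul_one, hU.o]
  ext i j
  by_cases hij : i = j
  · subst hij; simp
  · simp [Matrix.diagonal_apply_ne _ hij, Matrix.one_apply_ne hij]

/-- `v'` may be replaced by `v' - c` in the `p`-term as soon as `E p_k = 0`. -/
theorem center_p (hZ : MF Z lo hi) (hv1 : ∀ x ∈ Icc lo hi, HasDerivAt v1 (v2 x) x)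
    (hv2 : ContinuousOn v2 (Icc lo hi)) (T : Fin n → Mat n) (K : Mat n) (k : Fin n)
    (h0 : EM (pk Z T k) = 0) (c : ℝ) :
    TE (fun x => K * (sf v1 Z x * pk Z T k x) * T k) =
      TE (fun x => K * (sf (fun z => v1 z - c) Z x * pk Z T k x) * T k) := by
  have cV1 : C1m (sf v1 Z) := c1m_sf hZ hv1 hv2
  have cp := cgm_pk hZ T k
  have cK : CGm fun _ : E n => K := cgm_const K
  have e1 : ∀ x, K * (sf (fun z => v1 z - c) Z x * pk Z T k x) * T k =
      K * (sf v1 Z x * pk Z T k x) * T k - c • (K * pk Z T k x * T k) := by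
    intro x
    rw [sf_sub_const hZ, Matrix.sub_mul, Matrix.smul_mul, Matrix.one_mul, Matrix.mul_sub,
      Matrix.sub_mul, Matrix.mul_smul, Matrix.smul_mul]
  have e2 : TE (fun x => K * (sf (fun z => v1 z - c) Z x * pk Z T k x) * T k) =
      TE (fun x => K * (sf v1 Z x * pk Z T k x) * T k) - c * TE (fun x => K * pk Z T k x * T k) := by
    rw [← TE_smul, ← TE_sub ((cK.mul (cV1.cg.mul cp)).mul (cgm_const _))
      (((cK.mul cp).mul (cgm_const _)).smulc c)]
    exact TE_congr e1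
  rw [e2, TE_AFB cp, h0, Matrix.mul_zero, Matrix.zero_mul, Matrix.trace_zero]
  ring

/-- first moments of `η` -/
lemma EM_x_eta (hZ : MF Z lo hi) (T : Fin n → Mat n) (hT : ∀ k, EM (dZ Z k) = T k) (k : Fin n) :
    EM (fun x => x k • eta0 Z T x) = 0 := by
  ext i j
  have h1 : ∀ x : E n, (x k • eta0 Z T x) i j =
      Z i j x * x k - ∑ l, (T l i j) * (x l * x k) := by
    intro x
    have e : (x k • eta0 Z T x) i j = x k * (Z i j x - (∑ l, x l • T l) i j) := rfl
    rw [e, Matrix.sum_apply]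
    simp only [Matrix.smul_apply, smul_eq_mul, mul_sub, Finset.mul_sum]
    rw [mul_comm (x k) (Z i j x)]
    congr 1
    exact Finset.sum_congr rfl fun l _ => by ring
  have h2 : ∀ f : E n → ℝ, C1 f → EE (fun x => f x * x k) = EE (pd k f) := fun f hf =>
    ibp_gam hf.c hf.g k (hf.p k)
  have h3 : ∀ l, EE (fun x : E n => x l * x k) = if l = k then 1 else 0 := by
    intro l
    rw [h2 _ (c1_coord l)]
    have h4 : pd k (fun x : E n => x l) = fun _ => if l = k then (1 : ℝ) else 0 := by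
      funext x
      exact pd_coord k l x
    rw [h4, EE_const]
  change EE (fun x => (x k • eta0 Z T x) i j) = 0
  simp only [h1]
  rw [EE_sub ((hZ.c i j).cg.mul (cg_coord k))
    (CG.sum fun l _ => ((cg_coord l).mul (cg_coord k)).smul _), h2 _ (hZ.c i j),
    EE_sum fun l _ => ((cg_coord l).mul (cg_coord k)).smul _]
  have h6 : EE (pd k (Z i j)) = T k i j := by
    rw [← hT k]; rfl
  simp only [EE_smul, h3]
  rw [h6]
  simp

lemma EM_x (k : Fin n) (B : Mat n) : EM (fun x : E n => x k • B) = 0 := by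
  ext i j
  change EE (fun x : E n => x k * B i j) = 0
  have h1 := ibp_gam (c1_const (n := n) (1 : ℝ)).c (c1_const (1 : ℝ)).g k ((c1_const (1 : ℝ)).p k)
  have h2 : EE (fun x : E n => x k * B i j) = B i j * EE (fun x : E n => x k) := by
    rw [← EE_smul]
    exact EE_congr fun x => mul_comm _ _
  have h3 : EE (fun x : E n => x k) = 0 := by
    unfold EE
    have h4 : (fun x : E n => (1 : ℝ) * x k) = fun x : E n => x k := by
      funext x; rw [one_mul]
    rw [h4] at h1
    rw [h1]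
    have h5 : pd k (fun _ : E n => (1 : ℝ)) = fun _ => 0 := by
      funext x; simp [pd]
    rw [h5]; simp
  rw [h2, h3, mul_zero]

/-- mean of `η` -/
lemma EM_eta (hZ : MF Z lo hi) (T : Fin n → Mat n) (h0 : EM (Mx Z) = 0) :
    EM (eta0 Z T) = 0 := by
  ext i j
  change EE (fun x => (Mx Z x - ∑ k, x k • T k) i j) = 0
  have e1 : ∀ x : E n, (Mx Z x - ∑ k, x k • T k) i j = Z i j x - ∑ k, (x k * T k i j) := by
    intro x
    rw [Matrix.sub_apply, Matrix.sum_apply]
    rfl
  simp only [e1]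
  rw [EE_sub (hZ.c i j).cg (CG.sum fun k _ => (cg_coord k).mulc _),
    EE_sum fun k _ => (cg_coord k).mulc _]
  have e2 : EE (Z i j) = 0 := by
    have h := congrFun (congrFun h0 i) j
    exact h
  have e3 : ∀ k, EE (fun x : E n => x k * T k i j) = 0 := fun k => by
    have h := congrFun (congrFun (EM_x k (T k)) i) j
    exact h
  rw [e2]
  simp [e3]

lemma sf_affine (hZ : MF Z lo hi) (f : ℝ → ℝ) (c0 c1 : ℝ) (x : E n) :
    sf (fun z => f z - c0 - c1 * z) Z x = sf f Z x - c0 • (1 : Mat n) - c1 • Mx Z x := by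
  unfold sf
  obtain ⟨U, hU⟩ := exists_fr (hZ.h x)
  apply conj_inj hU.o'
  rw [hU.cfc, Matrix.mul_sub, Matrix.sub_mul, Matrix.mul_sub, Matrix.sub_mul, hU.cfc,
    Matrix.mul_smul, Matrix.smul_mul, Matrix.mul_one, hU.o, Matrix.mul_smul, Matrix.smul_mul, hU.d]
  ext i j
  by_cases hij : i = j
  · subst hij; simp
  · simp [Matrix.diagonal_apply_ne _ hij, Matrix.one_apply_ne hij]

/-- centring of the `η`-term: `v(z)` may be replaced by `v(z) - c0 - c1 z` at the price of
`c1 E tr K η²`. -/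
theorem center_eta (hZ : MF Z lo hi) (hv : ∀ x ∈ Icc lo hi, HasDerivAt v (v1 x) x)
    (hv1 : ContinuousOn v1 (Icc lo hi)) (T : Fin n → Mat n) (hT : ∀ k, EM (dZ Z k) = T k)
    (h0 : EM (Mx Z) = 0) (K : Mat n) (c0 c1 : ℝ) :
    TE (fun x => K * (sf v Z x * eta0 Z T x)) =
      TE (fun x => K * (sf (fun z => v z - c0 - c1 * z) Z x * eta0 Z T x))
      + c1 * TE (fun x => K * (eta0 Z T x * eta0 Z T x)) := by
  have cV : C1m (sf v Z) := c1m_sf hZ hv hv1
  have cη := cgm_eta0 hZ T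
  have cK : CGm fun _ : E n => K := cgm_const K
  have cr : CGm (sf (fun z => v z - c0 - c1 * z) Z) :=
    ((cV.cg.sub (cgm_const (c0 • (1 : Mat n)))).sub ((cgm_Mx hZ).smulc c1)).congr fun x =>
      (sf_affine hZ v c0 c1 x).symm
  have cx : ∀ k : Fin n, CGm fun x : E n => x k • eta0 Z T x := fun k =>
    CGm.smul (cg_coord k) cη
  have e1 : ∀ x, K * (sf v Z x * eta0 Z T x) =
      K * (sf (fun z => v z - c0 - c1 * z) Z x * eta0 Z T x)
        + c0 • (K * eta0 Z T x)
        + c1 • (∑ k, (K * T k) * (x k • eta0 Z T x)) + c1 • (K * (eta0 Z T x * eta0 Z T x)) := by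
    intro x
    rw [sf_affine hZ]
    have h1 : Mx Z x = (∑ k, x k • T k) + eta0 Z T x := by unfold eta0; abel
    have h2 : K * (Mx Z x * eta0 Z T x) =
        (∑ k, (K * T k) * (x k • eta0 Z T x)) + K * (eta0 Z T x * eta0 Z T x) := by
      conv_lhs => rw [h1]
      rw [Matrix.add_mul, Matrix.mul_add, Matrix.sum_mul, Matrix.mul_sum]
      congr 1
      refine Finset.sum_congr rfl fun k _ => ?_
      rw [Matrix.smul_mul, Matrix.mul_smul, Matrix.mul_smul, Matrix.mul_assoc]
    rw [Matrix.sub_mul, Matrix.sub_mul, Matrix.smul_mul, Matrix.smul_mul, Matrix.one_mul,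
      Matrix.mul_sub, Matrix.mul_sub, Matrix.mul_smul, Matrix.mul_smul, h2, smul_add]
    abel
  have a1 : CGm fun x => K * (sf (fun z => v z - c0 - c1 * z) Z x * eta0 Z T x) :=
    cK.mul (cr.mul cη)
  have a2 : CGm fun x => K * eta0 Z T x := cK.mul cη
  have a3 : ∀ k ∈ (Finset.univ : Finset (Fin n)), CGm fun x : E n =>
      (K * T k) * (x k • eta0 Z T x) := fun k _ => (cgm_const _).mul (cx k)
  have a4 : CGm fun x => K * (eta0 Z T x * eta0 Z T x) := cK.mul (cη.mul cη)
  rw [TE_congr e1, TE_add (((a1.add (a2.smulc c0))).add ((CGm.sum a3).smulc c1)) (a4.smulc c1),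
    TE_add (a1.add (a2.smulc c0)) ((CGm.sum a3).smulc c1), TE_add a1 (a2.smulc c0),
    TE_smul, TE_smul, TE_smul, TE_sum a3, TE_AF cη, EM_eta hZ T h0]
  have e2 : ∀ k, TE (fun x : E n => (K * T k) * (x k • eta0 Z T x)) = 0 := fun k => by
    rw [TE_AF (cx k), EM_x_eta hZ T hT k, Matrix.mul_zero, Matrix.trace_zero]
  simp only [e2, Finset.sum_const_zero, Matrix.trace_zero, mul_zero, add_zero]

end field

/-! ### Young inequalities for the error terms -/

lemma abs_sum_mul_le {ι κ : Type*} (s : Finset ι) (t : Finset κ) (a b : ι → κ → ℝ) {θ : ℝ}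
    (hθ : 0 < θ) : |∑ i ∈ s, ∑ j ∈ t, a i j * b i j| ≤
      θ / 2 * ∑ i ∈ s, ∑ j ∈ t, a i j ^ 2 + 1 / (2 * θ) * ∑ i ∈ s, ∑ j ∈ t, b i j ^ 2 := by
  refine (Finset.abs_sum_le_sum_abs _ _).trans ?_
  rw [Finset.mul_sum, Finset.mul_sum, ← Finset.sum_add_distrib]
  refine Finset.sum_le_sum fun i _ => ?_
  refine (Finset.abs_sum_le_sum_abs _ _).trans ?_
  rw [Finset.mul_sum, Finset.mul_sum, ← Finset.sum_add_distrib]
  refine Finset.sum_le_sum fun j _ => ?_
  rw [abs_mul, ← sq_abs (a i j), ← sq_abs (b i j)]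
  have h1 : θ / 2 * |a i j| ^ 2 + 1 / (2 * θ) * |b i j| ^ 2 - |a i j| * |b i j| =
      (θ * |a i j| - |b i j|) ^ 2 / (2 * θ) := by
    field_simp
    ring
  have h2 : 0 ≤ (θ * |a i j| - |b i j|) ^ 2 / (2 * θ) := by positivity
  linarith

/-- `|tr A X B| ≤ (θ/2) |B A|² + (1/2θ) |X|²` -/
lemma abs_trace_three_le (A X B : Mat n) {θ : ℝ} (hθ : 0 < θ) :
    |(A * X * B).trace| ≤ θ / 2 * hs (B * A) + 1 / (2 * θ) * hs X := by
  rw [trace_three]
  have h := abs_sum_mul_le Finset.univ Finset.univ (fun i j => (B * A) j i) (fun i j => X i j) hθ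
  have h1 : ∑ i, ∑ j, ((B * A) j i) ^ 2 = hs (B * A) := by
    unfold SpecField321.hs
    exact Finset.sum_comm
  rw [h1] at h
  exact h

lemma cg_hs {F : E n → Mat n} (hF : CGm F) : CG fun x => hs (F x) :=
  CG.sum fun i _ => CG.sum fun j _ => (hF i j).sq

/-- expectation form, sum over `k` -/
lemma abs_sum_TE_le {F : Fin n → E n → Mat n} (hF : ∀ k, CGm (F k)) (A : Mat n)
    (B : Fin n → Mat n) {θ : ℝ} (hθ : 0 < θ) :
    |∑ k, TE (fun x => A * F k x * B k)| ≤
      θ / 2 * ∑ k, hs (B k * A) + 1 / (2 * θ) * ∑ k, EE (fun x => hs (F k x)) := by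
  refine (Finset.abs_sum_le_sum_abs _ _).trans ?_
  rw [Finset.mul_sum, Finset.mul_sum, ← Finset.sum_add_distrib]
  refine Finset.sum_le_sum fun k _ => ?_
  have c1 : CGm fun x => A * F k x * B k := ((cgm_const A).mul (hF k)).mul (cgm_const (B k))
  have h1 : ∀ x, |(A * F k x * B k).trace| ≤ θ / 2 * hs (B k * A) + 1 / (2 * θ) * hs (F k x) :=
    fun x => abs_trace_three_le A (F k x) (B k) hθ
  have c2 : CG fun x : E n => θ / 2 * hs (B k * A) + 1 / (2 * θ) * hs (F k x) :=
    (cg_const _).add ((cg_hs (hF k)).smul _)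
  have h2 : EE (fun x : E n => θ / 2 * hs (B k * A) + 1 / (2 * θ) * hs (F k x)) =
      θ / 2 * hs (B k * A) + 1 / (2 * θ) * EE (fun x => hs (F k x)) := by
    rw [EE_add (cg_const _) ((cg_hs (hF k)).smul _), EE_const, EE_smul]
  rw [← h2, abs_le]
  constructor
  · have h3 := EE_mono c2.neg c1.trace fun x => (abs_le.mp (h1 x)).1
    rw [EE_neg] at h3
    exact h3
  · exact EE_mono c1.trace c2 fun x => (abs_le.mp (h1 x)).2

/-- `|f(A) X|² ≤ C² |X|²` if `|f| ≤ C` on the spectrum -/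
lemma hs_cfc_mul_le {A : Mat n} (hA : A.IsHermitian) {f : ℝ → ℝ} {C : ℝ}
    (hf : ∀ z ∈ spectrum ℝ A, |f z| ≤ C) (X : Mat n) :
    hs (_root_.cfc f A * X) ≤ C ^ 2 * hs X := by
  obtain ⟨U, hU⟩ := exists_fr hA
  have h1 : hs (_root_.cfc f A * X) = hs (Uᵀ * (_root_.cfc f A * X) * U) :=
    (hs_conj hU.o' _).symm
  have h2 : hs X = hs (Uᵀ * X * U) := (hs_conj hU.o' _).symm
  have h3 : Uᵀ * (_root_.cfc f A * X) * U = (Uᵀ * _root_.cfc f A * U) * (Uᵀ * X * U) := by
    calc Uᵀ * (_root_.cfc f A * X) * U = Uᵀ * (_root_.cfc f A * 1 * X) * U := by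
          rw [Matrix.mul_one]
      _ = Uᵀ * (_root_.cfc f A * (U * Uᵀ) * X) * U := by rw [hU.o']
      _ = _ := by simp only [Matrix.mul_assoc]
  rw [h1, h2, h3, hU.cfc]
  unfold SpecField321.hs
  rw [Finset.mul_sum]
  refine Finset.sum_le_sum fun i _ => ?_
  rw [Finset.mul_sum]
  refine Finset.sum_le_sum fun j _ => ?_
  rw [Matrix.diagonal_mul, mul_pow]
  refine mul_le_mul_of_nonneg_right ?_ (sq_nonneg _)
  rw [← sq_abs (f (hA.eigenvalues i))]
  exact pow_le_pow_left₀ (abs_nonneg _) (hf _ (hU.mem_spec i)) 2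

/-! ### (S3a): `E tr K U²` through a (weak) test field -/

/-- half anticommutator -/
def jd (A B : Mat n) : Mat n := (1 / 2 : ℝ) • (A * B + B * A)

lemma jd_transpose {A B : Mat n} (hA : Aᵀ = A) (hB : Bᵀ = B) : (jd A B)ᵀ = jd A B := by
  unfold jd
  rw [Matrix.transpose_smul, Matrix.transpose_add, Matrix.transpose_mul, Matrix.transpose_mul,
    hA, hB, add_comm]

lemma trace_jd_mul (K A B : Mat n) (hAB : A * B = B * A) :
    (jd K A * B).trace = (K * (A * B)).trace := by
  unfold jd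
  rw [Matrix.smul_mul, Matrix.trace_smul, Matrix.add_mul, Matrix.trace_add, Matrix.mul_assoc,
    Matrix.mul_assoc, Matrix.trace_mul_comm A, Matrix.mul_assoc, ← hAB]
  simp only [smul_eq_mul]
  ring

lemma sum_EE_mul {F G : E n → Mat n} (hF : CGm F) (hG : CGm G) :
    ∑ i, ∑ j, EE (fun x => F x i j * G x i j) = TE (fun x => (G x)ᵀ * F x) := by
  have h : ∀ x, ((G x)ᵀ * F x).trace = ∑ i, ∑ j, F x i j * G x i j := by
    intro x
    rw [Matrix.trace, Finset.sum_comm]
    simp only [Matrix.diag_apply, Matrix.mul_apply, Matrix.transpose_apply]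
    exact Finset.sum_congr rfl fun i _ => Finset.sum_congr rfl fun j _ => mul_comm _ _
  unfold TE
  simp only [h]
  exact (EE_sum2 (f := fun i j x => F x i j * G x i j) fun i j => (hF i j).mul (hG i j)).symm

lemma Mx_transpose {A : Fld n} (hs : ∀ i j, A i j = A j i) (x : E n) : (Mx A x)ᵀ = Mx A x := by
  ext i j
  change A j i x = A i j x
  rw [hs j i]

lemma dZ_transpose {A : Fld n} (hs : ∀ i j, A i j = A j i) (k : Fin n) (x : E n) :
    (dZ A k x)ᵀ = dZ A k x := by
  ext i j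
  change pd k (A j i) x = pd k (A i j) x
  rw [hs j i]

lemma c1m_jd {U : Fld n} (hU : ∀ i j, C1 (U i j)) (K : Mat n) :
    C1m fun x => jd K (Mx U x) := by
  intro i j
  have h : C1 fun x => (1 / 2 : ℝ) * ((∑ p, K i p * U p j x) + ∑ p, U i p x * K p j) :=
    ((C1.sum fun p _ => (hU p j).smul (K i p)).add
      (C1.sum fun p _ => (hU i p).mul (c1_const (K p j)))).smul _
  exact h

lemma dM_jd {U : Fld n} (hU : ∀ i j, C1 (U i j)) (K : Mat n) (k : Fin n) (x : E n) :
    dM k (fun x => jd K (Mx U x)) x = jd K (dZ U k x) := by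
  ext i j
  change pd k (fun x => (1 / 2 : ℝ) * ((∑ p, K i p * U p j x) + ∑ p, U i p x * K p j)) x =
    (1 / 2 : ℝ) * ((∑ p, K i p * pd k (U p j) x) + ∑ p, pd k (U i p) x * K p j)
  have c1 : ∀ p ∈ (Finset.univ : Finset (Fin n)), C1 fun x => K i p * U p j x :=
    fun p _ => (hU p j).smul (K i p)
  have c2 : ∀ p ∈ (Finset.univ : Finset (Fin n)), C1 fun x => U i p x * K p j :=
    fun p _ => (hU i p).mul (c1_const (K p j))
  have z1 : ∀ c : ℝ, pd k (fun _ : E n => c) x = 0 := fun c => by simp [pd]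
  rw [C1.pd_mul (c1_const _) ((C1.sum c1).add (C1.sum c2)), z1, zero_mul,
    C1.pd_add (C1.sum c1) (C1.sum c2), pd_sum' c1, pd_sum' c2]
  have e1 : ∀ p, pd k (fun x => K i p * U p j x) x = K i p * pd k (U p j) x := fun p => by
    rw [C1.pd_mul (c1_const _) (hU p j), z1]; ring
  have e2 : ∀ p, pd k (fun x => U i p x * K p j) x = pd k (U i p) x * K p j := fun p => by
    rw [C1.pd_mul (hU i p) (c1_const _), z1]; ring
  simp only [e1, e2]
  ring

/-- **(S3a)**: `M = U + D*Y + G` weakly. -/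
theorem S3a {M U G : Fld n} {Y : Fin n → Fld n} (hM : ∀ i j, CG (M i j))
    (hU : ∀ i j, C1 (U i j)) (hUs : ∀ i j, U i j = U j i)
    (hY : ∀ k i j, CG (Y k i j)) (hG : ∀ i j, CG (G i j))
    (hcom : ∀ x, Mx U x * Mx M x = Mx M x * Mx U x)
    (hw : ∀ i j (φ : E n → ℝ), C1 φ → EE (fun x => M i j x * φ x) =
      EE (fun x => U i j x * φ x) + (∑ k, EE (fun x => Y k i j x * pd k φ x))
        + EE (fun x => G i j x * φ x))
    (K : Mat n) (hK : Kᵀ = K) :
    TE (fun x => K * (Mx U x * Mx U x)) =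
      TE (fun x => K * (Mx U x * Mx M x)) - ∑ k, TE (fun x => K * (dZ U k x * dZ U k x))
      + ∑ k, TE (fun x => jd K (dZ U k x) * (dZ U k x - Mx (Y k) x))
      - TE (fun x => jd K (Mx U x) * Mx G x) := by
  have cM : CGm (Mx M) := fun i j => hM i j
  have cU : CGm (Mx U) := fun i j => (hU i j).cg
  have cG : CGm (Mx G) := fun i j => hG i j
  have cY : ∀ k, CGm (Mx (Y k)) := fun k i j => hY k i j
  have cdU : ∀ k, CGm (dZ U k) := fun k i j => (hU i j).cgp k
  have cK : CGm fun _ : E n => K := cgm_const K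
  have cJ1 := c1m_jd hU K
  have cJ : CGm fun x => jd K (Mx U x) := cJ1.cg
  have cJk : ∀ k, CGm fun x => jd K (dZ U k x) := fun k =>
    (cJ1.cgd k).congr fun x => dM_jd hU K k x
  have h1 : ∑ i, ∑ j, EE (fun x => M i j x * jd K (Mx U x) i j) =
      ∑ i, ∑ j, (EE (fun x => U i j x * jd K (Mx U x) i j)
        + (∑ k, EE (fun x => Y k i j x * jd K (dZ U k x) i j))
        + EE (fun x => G i j x * jd K (Mx U x) i j)) := by
    refine Finset.sum_congr rfl fun i _ => Finset.sum_congr rfl fun j _ => ?_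
    rw [hw i j _ (cJ1 i j)]
    refine congrArg₂ _ (congrArg₂ _ rfl ?_) rfl
    refine Finset.sum_congr rfl fun k _ => EE_congr fun x => ?_
    have h := congrFun (congrFun (dM_jd hU K k x) i) j
    rw [← h]
    rfl
  simp only [Finset.sum_add_distrib] at h1
  have e1 : ∑ i, ∑ j, EE (fun x => M i j x * jd K (Mx U x) i j) =
      TE (fun x => K * (Mx U x * Mx M x)) := by
    have h := sum_EE_mul (F := Mx M) cM cJ
    refine (show _ = TE (fun x => (jd K (Mx U x))ᵀ * Mx M x) from h).trans ?_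
    unfold TE
    refine EE_congr fun x => ?_
    change ((jd K (Mx U x))ᵀ * Mx M x).trace = (K * (Mx U x * Mx M x)).trace
    rw [jd_transpose hK (Mx_transpose hUs x)]
    exact trace_jd_mul K _ _ (hcom x)
  have e2 : ∑ i, ∑ j, EE (fun x => U i j x * jd K (Mx U x) i j) =
      TE (fun x => K * (Mx U x * Mx U x)) := by
    have h := sum_EE_mul (F := Mx U) cU cJ
    refine (show _ = TE (fun x => (jd K (Mx U x))ᵀ * Mx U x) from h).trans ?_
    unfold TE
    refine EE_congr fun x => ?_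
    change ((jd K (Mx U x))ᵀ * Mx U x).trace = (K * (Mx U x * Mx U x)).trace
    rw [jd_transpose hK (Mx_transpose hUs x)]
    exact trace_jd_mul K _ _ rfl
  have e3 : ∑ i, ∑ j, EE (fun x => G i j x * jd K (Mx U x) i j) =
      TE (fun x => jd K (Mx U x) * Mx G x) := by
    have h := sum_EE_mul (F := Mx G) cG cJ
    refine (show _ = TE (fun x => (jd K (Mx U x))ᵀ * Mx G x) from h).trans ?_
    exact TE_congr fun x => by rw [jd_transpose hK (Mx_transpose hUs x)]
  have e4 : ∑ i, ∑ j, ∑ k, EE (fun x => Y k i j x * jd K (dZ U k x) i j) =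
      ∑ k, TE (fun x => jd K (dZ U k x) * Mx (Y k) x) := by
    have h : ∀ k, ∑ i, ∑ j, EE (fun x => Y k i j x * jd K (dZ U k x) i j) =
        TE (fun x => jd K (dZ U k x) * Mx (Y k) x) := by
      intro k
      have h := sum_EE_mul (F := Mx (Y k)) (cY k) (cJk k)
      refine (show _ = TE (fun x => (jd K (dZ U k x))ᵀ * Mx (Y k) x) from h).trans ?_
      exact TE_congr fun x => by rw [jd_transpose hK (dZ_transpose hUs k x)]
    simp only [← h]
    rw [Finset.sum_congr rfl fun i _ => Finset.sum_comm, Finset.sum_comm]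
  have e5 : ∀ k, TE (fun x => jd K (dZ U k x) * Mx (Y k) x) =
      TE (fun x => K * (dZ U k x * dZ U k x))
        - TE (fun x => jd K (dZ U k x) * (dZ U k x - Mx (Y k) x)) := by
    intro k
    have c1 : CGm fun x => K * (dZ U k x * dZ U k x) := cK.mul ((cdU k).mul (cdU k))
    have c2 : CGm fun x => jd K (dZ U k x) * (dZ U k x - Mx (Y k) x) :=
      (cJk k).mul ((cdU k).sub (cY k))
    unfold TE
    rw [← EE_sub c1.trace c2.trace]
    refine EE_congr fun x => ?_
    rw [Matrix.mul_sub, Matrix.trace_sub, trace_jd_mul K _ _ rfl]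
    ring
  rw [e1, e2, e3, e4] at h1
  simp only [e5, Finset.sum_sub_distrib] at h1
  linarith

end Crest.Agent.R253.S3
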