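import Crest.Agent.R253.FrameT_321
import Crest.Agent.R253.DualPB_973
import Crest.Agent.R253.S3_649
import Crest.Agent.R253.FinDefs_505
import Crest.Agent.R253.Trunc_518

/-!
# R253: dictionary of letters, and rows in an eigenframe of `M_T` (helper321)
-/

set_option autoImplicit false

open Matrix Filter Topology Set
open scoped ContDiff

noncomputable section

namespace Crest.Agent.R253.Rows321

open Crest.Agent.R238.Gap Crest.Agent.R238.GapPoinc Crest.Agent.R238.GapPc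
open Crest.Agent.R253.SpecCalc999 Crest.Agent.R253.Meh74 Crest.Agent.R253.SpecField321
open Crest.Agent.R253.DualP973
open Crest.Agent.R253.Frame321 (Zf Uf Ff Slk)

variable {n : ℕ}

/-! ### the dictionary -/

section dict

variable {ζ M : Fld n} {lo hi : ℝ}

lemma Tk_eq (M : Fld n) (k : Fin n) : Fin505.Tk M k = Tm (Zf M) k := rfl

lemma dM_eq (ζ : Fld n) (x : E n) (k : Fin n) : Frame321.dM ζ x k = Mx (dk k ζ) x := rfl

lemma dZ_eq (ζ : Fld n) (x : E n) (k : Fin n) : S3.dZ ζ k x = Mx (dk k ζ) x := rfl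

lemma EM_dZ (ζ : Fld n) (k : Fin n) : S3.EM (S3.dZ ζ k) = Tm ζ k := rfl

lemma TE_eq (F : E n → Mat n) : S3.TE F = EE fun x => (F x).trace := rfl

lemma nz_EE (h : Fin505.Nz M) (i j : Fin n) : EE (Zf M i j) = 0 := h i j

lemma EM_Mx (h : ∀ i j, EE (ζ i j) = 0) : S3.EM (Mx ζ) = 0 := by
  ext i j
  exact h i j

lemma eta0_eq (h0 : ∀ i j, EE (ζ i j) = 0) (x : E n) :
    S3.eta0 ζ (Tm ζ) x = Mx (ef ζ) x := by
  have h1 := Mx_eq h0 x
  unfold S3.eta0
  rw [h1]
  unfold Lx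
  abel

lemma pk_eq (hζ : MF ζ lo hi) (k : Fin n) (x : E n) :
    S3.pk ζ (Tm ζ) k x = Mx (dk k (ef ζ)) x := by
  unfold S3.pk
  rw [dZ_eq, dk_eq hζ k x]
  abel

lemma Mar_eq (h : Fin505.Nz M) : Fin505.Mar M =
    EE (fun x => hs (Mx (ef (Zf M)) x)) + hs (1 - MTm (Zf M)) := by
  unfold Fin505.Mar MTm
  congr 1
  refine EE_congr fun x => ?_
  have h1 := Mx_eq (ζ := Zf M) (fun i j => h i j) x
  rw [h1]
  unfold Lx
  congr 1
  simp only [Tk_eq]
  abel

lemma dh2_hs (ζ : Fld n) (x : E n) : dh2 ζ x = ∑ k, hs (Mx (dk k ζ) x) := Frame321.dh2_eq ζ x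

lemma hs2_hs (ζ : Fld n) (x : E n) : hs2 ζ x = hs (Mx ζ x) := rfl

end dict

/-! ### rows, matrix level -/

/-- row `i` of `Vᵀ X`, squared norm -/
def rq (V X : Mat n) (i : Fin n) : ℝ := ∑ j, (Vᵀ * X) i j ^ 2

lemma rq_nonneg (V X : Mat n) (i : Fin n) : 0 ≤ rq V X i :=
  Finset.sum_nonneg fun _ _ => sq_nonneg _

/-- `diag c Vᵀ` -/
def DV (c : Fin n → ℝ) (V : Mat n) : Mat n := Matrix.diagonal c * Vᵀ

lemma hs_DV (c : Fin n → ℝ) (V X : Mat n) : hs (DV c V * X) = ∑ i, c i ^ 2 * rq V X i := by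
  unfold hs DV rq
  refine Finset.sum_congr rfl fun i _ => ?_
  rw [Finset.mul_sum]
  refine Finset.sum_congr rfl fun j _ => ?_
  rw [Matrix.mul_assoc, Matrix.diagonal_mul, mul_pow]

lemma sum_rq {V : Mat n} (hV : V * Vᵀ = 1) (X : Mat n) : ∑ i, rq V X i = hs X := by
  have h1 : hs (Vᵀ * X) = hs X := by
    rw [hs_eq, hs_eq, Matrix.transpose_mul, Matrix.transpose_transpose]
    rw [show Xᵀ * V * (Vᵀ * X) = Xᵀ * (V * Vᵀ) * X by simp only [Matrix.mul_assoc], hV,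
      Matrix.mul_one]
  rw [← h1]
  rfl

lemma DV_psd (c : Fin n → ℝ) (V : Mat n) :
    (DV c V)ᵀ * DV c V = V * Matrix.diagonal (fun i => c i ^ 2) * Vᵀ := by
  unfold DV
  rw [Matrix.transpose_mul, Matrix.transpose_transpose, Matrix.diagonal_transpose]
  rw [show V * Matrix.diagonal c * (Matrix.diagonal c * Vᵀ) =
    V * (Matrix.diagonal c * Matrix.diagonal c) * Vᵀ by simp only [Matrix.mul_assoc],
    Matrix.diagonal_mul_diagonal]
  simp only [sq]

lemma hs_DV_le {c : Fin n → ℝ} {V : Mat n} (hV : V * Vᵀ = 1) {K : ℝ} (hc : ∀ i, c i ^ 2 ≤ K)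
    (X : Mat n) : hs (DV c V * X) ≤ K * hs X := by
  rw [hs_DV, ← sum_rq hV X, Finset.mul_sum]
  exact Finset.sum_le_sum fun i _ => mul_le_mul_of_nonneg_right (hc i) (rq_nonneg _ _ _)

section frame

variable {V : Mat n} {τ : Fin n → ℝ} {T : Fin n → Mat n}

/-- `Σ_k |row i of Vᵀ T_k|² = τ_i` in an eigenframe of `Σ T_k²` -/
lemma sum_rq_T (hT : ∀ k, (T k)ᵀ = T k) (hV : Fr (∑ k, T k * T k) V τ) (i : Fin n) :
    ∑ k, rq V (T k) i = τ i := by
  have h1 : ∀ k, rq V (T k) i = (Vᵀ * (T k * T k) * V) i i := by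
    intro k
    have : Vᵀ * (T k * T k) * V = (Vᵀ * T k) * (Vᵀ * T k)ᵀ := by
      rw [Matrix.transpose_mul, Matrix.transpose_transpose, hT k]
      simp only [Matrix.mul_assoc]
    rw [this, Matrix.mul_apply]
    unfold rq
    exact Finset.sum_congr rfl fun j _ => by rw [Matrix.transpose_apply, sq]
  have h2 : ∑ k, (Vᵀ * (T k * T k) * V) i i = (Vᵀ * (∑ k, T k * T k) * V) i i := by
    rw [Matrix.mul_sum, Matrix.sum_mul, Matrix.sum_apply]
  simp only [h1]
  rw [h2, hV.d, Matrix.diagonal_apply_eq]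

lemma tau_nonneg (hT : ∀ k, (T k)ᵀ = T k) (hV : Fr (∑ k, T k * T k) V τ) (i : Fin n) :
    0 ≤ τ i := by
  rw [← sum_rq_T hT hV i]
  exact Finset.sum_nonneg fun k _ => rq_nonneg _ _ _

lemma sum_hs_DV_T (hT : ∀ k, (T k)ᵀ = T k) (hV : Fr (∑ k, T k * T k) V τ) (c : Fin n → ℝ) :
    ∑ k, hs (DV c V * T k) = ∑ i, c i ^ 2 * τ i := by
  simp only [hs_DV]
  rw [Finset.sum_comm]
  refine Finset.sum_congr rfl fun i _ => ?_
  rw [← Finset.mul_sum, sum_rq_T hT hV]

/-- **left row contraction**: `|Σ_k C T_k B_k|² ≤ K Σ |B_k|²` if `c_i² τ_i ≤ K` -/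
theorem hs_sum_left (hT : ∀ k, (T k)ᵀ = T k) (hV : Fr (∑ k, T k * T k) V τ) {c : Fin n → ℝ}
    {K : ℝ} (hK : 0 ≤ K) (hc : ∀ i, c i ^ 2 * τ i ≤ K) (B : Fin n → Mat n) :
    hs (∑ k, DV c V * T k * B k) ≤ K * ∑ k, hs (B k) := by
  have h1 : hs (∑ k, DV c V * T k * B k) = hs (∑ k, (B k)ᵀ * (T k * (DV c V)ᵀ)) := by
    have e : (∑ k, (B k)ᵀ * (T k * (DV c V)ᵀ)) = (∑ k, DV c V * T k * B k)ᵀ := by
      rw [Matrix.transpose_sum]
      refine Finset.sum_congr rfl fun k _ => ?_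
      rw [Matrix.transpose_mul, Matrix.transpose_mul, hT k]
    rw [e, Trunc518.hs_transpose]
  have h2 : Jord192.RowC (fun k => T k * (DV c V)ᵀ) K := by
    intro w
    have e1 : ∀ k, ∑ a, (∑ j, (T k * (DV c V)ᵀ) a j * w j) ^ 2 =
        ((T k * (DV c V)ᵀ).mulVec w) ⬝ᵥ ((T k * (DV c V)ᵀ).mulVec w) := by
      intro k
      unfold dotProduct Matrix.mulVec dotProduct
      exact Finset.sum_congr rfl fun a _ => by rw [sq]
    have e2 : ∀ k, ((T k * (DV c V)ᵀ).mulVec w) ⬝ᵥ ((T k * (DV c V)ᵀ).mulVec w) =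
        w ⬝ᵥ ((DV c V * (T k * T k) * (DV c V)ᵀ).mulVec w) := by
      intro k
      rw [Matrix.dotProduct_mulVec, ← Matrix.mulVec_transpose, dotProduct_comm,
        Matrix.mulVec_mulVec]
      congr 2
      rw [Matrix.transpose_mul, Matrix.transpose_transpose, hT k]
      simp only [Matrix.mul_assoc]
    have e3 : ∑ k, w ⬝ᵥ ((DV c V * (T k * T k) * (DV c V)ᵀ).mulVec w) =
        w ⬝ᵥ ((DV c V * (∑ k, T k * T k) * (DV c V)ᵀ).mulVec w) := by
      rw [Matrix.mul_sum, Matrix.sum_mul, Matrix.sum_mulVec, dotProduct_sum]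
    have e4 : DV c V * (∑ k, T k * T k) * (DV c V)ᵀ =
        Matrix.diagonal (fun i => c i ^ 2 * τ i) := by
      unfold DV
      rw [Matrix.transpose_mul, Matrix.transpose_transpose, Matrix.diagonal_transpose]
      rw [show Matrix.diagonal c * Vᵀ * (∑ k, T k * T k) * (V * Matrix.diagonal c) =
        Matrix.diagonal c * (Vᵀ * (∑ k, T k * T k) * V) * Matrix.diagonal c by
          simp only [Matrix.mul_assoc], hV.d, Matrix.diagonal_mul_diagonal,
        Matrix.diagonal_mul_diagonal]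
      congr 1; funext i; ring
    simp only [e1, e2]
    rw [e3, e4]
    unfold dotProduct
    rw [Finset.mul_sum]
    refine Finset.sum_le_sum fun i _ => ?_
    rw [Matrix.mulVec_diagonal]
    have := mul_le_mul_of_nonneg_right (hc i) (sq_nonneg (w i))
    nlinarith [this]
  rw [h1]
  refine (Jord192.hs_sum_mul_le hK h2 fun k => (B k)ᵀ).trans (le_of_eq ?_)
  congr 1
  exact Finset.sum_congr rfl fun k _ => Trunc518.hs_transpose _

/-- `C (1 - b M_T)` for `b = V diag β Vᵀ` -/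
lemma hs_DV_one_sub (hV : Fr (∑ k, T k * T k) V τ) (c β : Fin n → ℝ) :
    hs (DV c V * (1 - V * Matrix.diagonal β * Vᵀ * ∑ k, T k * T k)) =
      ∑ i, c i ^ 2 * (1 - β i * τ i) ^ 2 := by
  have e : DV c V * (1 - V * Matrix.diagonal β * Vᵀ * ∑ k, T k * T k) =
      Matrix.diagonal (fun i => c i * (1 - β i * τ i)) * Vᵀ := by
    unfold DV
    rw [hV.eq]
    have h1 : Vᵀ * (V * Matrix.diagonal β * Vᵀ * (V * Matrix.diagonal τ * Vᵀ)) =
        Matrix.diagonal (fun i => β i * τ i) * Vᵀ := by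
      calc Vᵀ * (V * Matrix.diagonal β * Vᵀ * (V * Matrix.diagonal τ * Vᵀ)) =
          (Vᵀ * V) * Matrix.diagonal β * (Vᵀ * V) * Matrix.diagonal τ * Vᵀ := by
            simp only [Matrix.mul_assoc]
        _ = _ := by rw [hV.o, Matrix.one_mul, Matrix.mul_one, Matrix.diagonal_mul_diagonal]
    rw [Matrix.mul_sub, Matrix.mul_one, Matrix.mul_assoc, h1, ← Matrix.mul_assoc,
      Matrix.diagonal_mul_diagonal, ← Matrix.sub_mul, Matrix.diagonal_sub]
    congr 2; funext i; ring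
  rw [e]
  have h2 : hs (Matrix.diagonal (fun i => c i * (1 - β i * τ i)) * Vᵀ) =
      ∑ i, (c i * (1 - β i * τ i)) ^ 2 * rq V 1 i := by
    have := hs_DV (fun i => c i * (1 - β i * τ i)) V 1
    rw [Matrix.mul_one] at this
    exact this
  rw [h2]
  refine Finset.sum_congr rfl fun i _ => ?_
  have h3 : rq V 1 i = 1 := by
    unfold rq
    rw [Matrix.mul_one]
    have h4 := congrFun (congrFun hV.o i) i
    rw [Matrix.mul_apply, Matrix.one_apply_eq] at h4
    rw [← h4]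
    exact Finset.sum_congr rfl fun j _ => by rw [Matrix.transpose_apply, sq]
  rw [h3, mul_pow, mul_one]

end frame

end Crest.Agent.R253.Rows321
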