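import Crest.Agent.R253.Conc_930

/-!
helper930, row 253.  The variance `s(z)` of the Gaussian truncated to `[z, ∞)` is a decreasing bijection
`ℝ → (0,1)`; limits at `-∞`; the inverse function `zi`.
-/

set_option autoImplicit false

open MeasureTheory Set Filter Topology

namespace Crest.Agent.R253.SInv930

open Crest.Agent.R253.Mills930 Crest.Agent.R253.Hazard930 Crest.Agent.R253.Curve930
open Crest.Agent.R253.Conc930

lemma s_strictAnti : StrictAnti s := by
  apply strictAnti_of_deriv_neg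
  intro z
  rw [(s_deriv z).deriv]
  have := mul_pos (r_pos z) (K_pos z)
  linarith

lemma s_cont : Continuous s :=
  continuous_iff_continuousAt.mpr fun z => (s_deriv z).continuousAt

/-! ### limits at `-∞` -/

lemma T_total : ∫ x, w x = Real.sqrt (2 * Real.pi) := by
  unfold w
  have h := integral_gaussian (1/2)
  rw [h]
  congr 1
  ring

lemma T_add (z : ℝ) : T z = Real.sqrt (2 * Real.pi) - ∫ x in Iic z, w x := by
  have h := intervalIntegral.integral_Iic_add_Ioi (w_int.integrableOn (s := Iic z))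
    (w_int.integrableOn (s := Ioi z))
  rw [T_total] at h
  unfold T
  linarith

lemma T_bot : Tendsto T atBot (𝓝 (Real.sqrt (2 * Real.pi))) := by
  have h : Tendsto (fun z => ∫ x in Iic z, w x) atBot (𝓝 0) := by
    exact tendsto_integral_Iic_zero tendsto_id
  have h2 := (tendsto_const_nhds (x := Real.sqrt (2 * Real.pi))).sub h
  rw [sub_zero] at h2
  exact h2.congr fun z => (T_add z).symm


lemma w_neg (z : ℝ) : w (-z) = w z := by unfold w; congr 1; ring

lemma w_le (y : ℝ) (hy : 2 ≤ y) : w y ≤ Real.exp (-y) := by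
  unfold w
  apply Real.exp_le_exp.mpr
  nlinarith

lemma pow_w_top (n : ℕ) : Tendsto (fun y : ℝ => y ^ n * w y) atTop (𝓝 0) := by
  refine squeeze_zero' ?_ ?_ (Real.tendsto_pow_mul_exp_neg_atTop_nhds_zero n)
  · filter_upwards [eventually_ge_atTop (0:ℝ)] with y hy
    exact mul_nonneg (pow_nonneg hy n) (w_pos y).le
  · filter_upwards [eventually_ge_atTop (2:ℝ)] with y hy
    exact mul_le_mul_of_nonneg_left (w_le y hy) (pow_nonneg (by linarith) n)

lemma pow_w_bot (n : ℕ) : Tendsto (fun z : ℝ => z ^ n * w z) atBot (𝓝 0) := by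
  have h := (pow_w_top n).comp tendsto_neg_atBot_atTop
  have h2 := h.const_mul ((-1:ℝ)^n)
  rw [mul_zero] at h2
  refine h2.congr fun z => ?_
  simp only [Function.comp_apply]
  rw [w_neg, ← mul_assoc, ← mul_pow]
  congr 2
  ring

lemma r_eq' (z : ℝ) : r z = w z / T z := by
  unfold r M
  rw [inv_div]

lemma pow_r_bot (n : ℕ) : Tendsto (fun z : ℝ => z ^ n * r z) atBot (𝓝 0) := by
  have h := (pow_w_bot n).div T_bot (Real.sqrt_pos.mpr (by positivity)).ne'
  rw [zero_div] at h
  refine h.congr fun z => ?_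
  rw [r_eq', Pi.div_apply]
  ring

lemma r_bot : Tendsto r atBot (𝓝 0) := by
  have h := pow_r_bot 0
  simpa using h

lemma rm_bot : Tendsto (fun z => r z * m z) atBot (𝓝 0) := by
  have h := (r_bot.mul r_bot).sub (pow_r_bot 1)
  simp only [mul_zero, sub_zero, pow_one] at h
  refine h.congr fun z => ?_
  unfold m; ring

lemma s_bot : Tendsto s atBot (𝓝 1) := by
  have h := (tendsto_const_nhds (x := (1:ℝ))).sub rm_bot
  rw [sub_zero] at h
  exact h

lemma s_surj {y : ℝ} (hy : y ∈ Ioo (0:ℝ) 1) : ∃ z, s z = y := by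
  have h1 : ∃ a, s a ≤ y := ((s_lim.eventually_le_const hy.1).exists)
  have h2 : ∃ b, y ≤ s b := ((s_bot.eventually_const_le hy.2).exists)
  exact mem_range_of_exists_le_of_exists_ge s_cont h1 h2

/-! ### the inverse -/

noncomputable def zi : ℝ → ℝ := Function.invFun s

lemma zi_s (z : ℝ) : zi (s z) = z := Function.leftInverse_invFun s_strictAnti.injective z

lemma s_zi {y : ℝ} (hy : y ∈ Ioo (0:ℝ) 1) : s (zi y) = y := by
  obtain ⟨z, rfl⟩ := s_surj hy
  rw [zi_s]

lemma s_mem (z : ℝ) : s z ∈ Ioo (0:ℝ) 1 := ⟨s_pos z, s_lt_one z⟩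

lemma zi_strictAntiOn : StrictAntiOn zi (Ioo 0 1) := by
  intro a ha b hb hab
  by_contra h
  push Not at h
  have := s_strictAnti.antitone h
  rw [s_zi ha, s_zi hb] at this
  linarith

lemma zi_contAt {y : ℝ} (hy : y ∈ Ioo (0:ℝ) 1) : ContinuousAt zi y := by
  have hm : StrictMonoOn (fun y => -zi y) (Ioo 0 1) := fun a ha b hb hab => by
    have := zi_strictAntiOn ha hb hab
    simpa using this
  have h := hm.continuousAt_of_image_mem_nhds (Ioo_mem_nhds hy.1 hy.2) ?_
  · have h2 := h.neg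
    have h3 : (-fun y => -zi y) = zi := by funext x; simp
    rw [h3] at h2
    exact h2
  · have : (fun y => -zi y) '' Ioo 0 1 = univ := by
      apply eq_univ_of_forall
      intro x
      exact ⟨s (-x), s_mem _, by simp [zi_s]⟩
    rw [this]
    exact univ_mem

lemma zi_deriv {y : ℝ} (hy : y ∈ Ioo (0:ℝ) 1) :
    HasDerivAt zi (-(r (zi y) * K (zi y)))⁻¹ y := by
  refine HasDerivAt.of_local_left_inverse (zi_contAt hy) (s_deriv (zi y)) ?_ ?_
  · have := mul_pos (r_pos (zi y)) (K_pos (zi y))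
    linarith
  · filter_upwards [Ioo_mem_nhds hy.1 hy.2] with x hx
    exact s_zi hx

lemma zi_top : Tendsto zi (𝓝[>] 0) atTop := by
  rw [tendsto_atTop]
  intro b
  have h1 : Ioo (0:ℝ) (s b) ∈ 𝓝[>] (0:ℝ) := Ioo_mem_nhdsGT (s_pos b)
  filter_upwards [h1] with y hy
  by_contra h
  push Not at h
  have := s_strictAnti h
  rw [s_zi ⟨hy.1, hy.2.trans (s_lt_one b)⟩] at this
  linarith [hy.2]

lemma zi_bot : Tendsto zi (𝓝[<] 1) atBot := by
  rw [tendsto_atBot]
  intro b
  have h1 : Ioo (s b) (1:ℝ) ∈ 𝓝[<] (1:ℝ) := Ioo_mem_nhdsLT (s_lt_one b)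
  filter_upwards [h1] with y hy
  by_contra h
  push Not at h
  have := s_strictAnti h
  rw [s_zi ⟨(s_pos b).trans hy.1, hy.2⟩] at this
  linarith [hy.1]

end Crest.Agent.R253.SInv930
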