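/-
helper999, row 253.  The wrapper of the Bellman step, part D: most general form.
* `bell_jet_dir`, `second_order_dir` : second order condition in an arbitrary direction `u`.
* `BellX` : the exact-kernel form of the tensor inequality at a normalised state (one direction `u`
  suffices); `bellX_of_control` : any diagonal positive control; `entropy_geX` the conclusion.
-/
import Crest.Agent.R253.WrapC_999

set_option autoImplicit false
open Matrix Filter Topology MeasureTheory Set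
open Crest.GeometryTopology.Isotropic

namespace Crest.Agent.R253.Wrap999

open Crest.Agent.R253.SpecCalc999 Crest.Agent.R253.Jet999 Crest.Agent.R253.MJet999
open Crest.Agent.R253.Bell999 Crest.Agent.R253.Cpt435

variable {m : ℕ}

/-- the Bellman jet in direction `u` -/
theorem bell_jet_dir {τ : Type*} {l : Filter τ} {r : τ → ℝ} (hr : Tendsto r l (𝓝 0))
    {A G : τ → Mat m} {M : Mat m} {s u : Fin m → ℝ}
    (hA : MJet2 l r A 1 M (-(vecMulVec u u))) (hG : MJet2 l r G (Matrix.diagonal s) 0 (vecMulVec u u))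
    (hAH : ∀ᶠ t in l, (A t).IsHermitian) (hGH : ∀ᶠ t in l, (G t).IsHermitian)
    (hM : ∀ i j, M i j = M j i) (hs : ∀ i, s i ∈ Set.Icc (0 : ℝ) 1)
    (hsp : ∀ᶠ t in l, spectrum ℝ (Sm (A t) (G t)) ⊆ Set.Icc 0 1)
    {f f' f'' : ℝ → ℝ} (hf : ContinuousOn f (Set.Icc 0 1))
    (hp : ∀ i, Peano2 f f' f'' (Set.Icc 0 1) (s i))
    {h : τ → ℝ} {h0 h1 : ℝ} (hh : Jet2 l r h h0 h1 (-(u ⬝ᵥ u) / 2)) :
    Jet2 l r (fun t => h t - (1 / 2) * Real.log (A t).det - (_root_.cfc f (Sm (A t) (G t))).trace)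
      (h0 - ∑ i, f (s i))
      (h1 - (1 / 2) * M.trace - ∑ i, f' (s i) * (s i * M i i))
      ((1 / 4) * (∑ i, ∑ j, M i j ^ 2) - (1 / 2) * (∑ i, ∑ j, s i * s j * dd1 f' f'' (s i) (s j) * M i j ^ 2)
        - ∑ i, (1 - s i) * f' (s i) * u i ^ 2) := by
  have hS := Sm_jet hr hA hG hAH
  have hSX : ∀ i j, (Matrix.of fun i k => (s i + s k) / 2 * M i k : Mat m) i j =
      (Matrix.of fun i k => (s i + s k) / 2 * M i k : Mat m) j i := by
    intro i j; simp only [Matrix.of_apply]; rw [hM i j, add_comm (s i) (s j)]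
  have hH : ∀ᶠ t in l, (Sm (A t) (G t)).IsHermitian ∧ spectrum ℝ (Sm (A t) (G t)) ⊆ Set.Icc 0 1 := by
    filter_upwards [hGH, hsp] with t h1 h2 using ⟨Sm_isHermitian h1, h2⟩
  have hT := MJet2.trace_cfc hr hS isCompact_Icc hs hf hp hH hSX
  have hD := hA.log_det hr hAH
  have key := (hh.sub (hD.const_mul (1 / 2))).sub hT
  refine key.congr (fun t => rfl) (by ring) ?_ ?_
  · congr 1
    refine Finset.sum_congr rfl fun i _ => ?_
    simp only [Matrix.of_apply]; ring
  · have e1 : (-(vecMulVec u u) : Mat m).trace = -(u ⬝ᵥ u) := by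
      rw [Matrix.trace_neg]
      simp only [Matrix.trace, Matrix.diag_apply, vecMulVec_apply, dotProduct]
    have e2 : (M * M).trace = ∑ i, ∑ j, M i j ^ 2 := by
      simp only [Matrix.trace, Matrix.diag_apply, Matrix.mul_apply]
      refine Finset.sum_congr rfl fun i _ => Finset.sum_congr rfl fun j _ => ?_
      rw [hM j i]; ring
    have e3 : ∑ i, f' (s i) * (Matrix.of (fun i k => (s i + s k) / 2 * (-(vecMulVec u u) : Mat m) i k
        + ∑ j, (s j / 4 - (s i + s k) / 8) * M i j * M j k + (vecMulVec u u : Mat m) i k) : Mat m) i i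
        = (∑ i, (1 - s i) * f' (s i) * u i ^ 2)
          + (1 / 4) * ∑ i, ∑ j, f' (s i) * (s j - s i) * M i j ^ 2 := by
      rw [Finset.mul_sum, ← Finset.sum_add_distrib]
      refine Finset.sum_congr rfl fun i _ => ?_
      simp only [Matrix.of_apply, Matrix.neg_apply, vecMulVec_apply]
      have e5 : ∑ j, (s j / 4 - (s i + s i) / 8) * M i j * M j i =
          (1 / 4) * ∑ j, (s j - s i) * M i j ^ 2 := by
        rw [Finset.mul_sum]
        refine Finset.sum_congr rfl fun j _ => ?_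
        rw [hM j i]; ring
      have e6 : ∑ j, f' (s i) * (s j - s i) * M i j ^ 2 = f' (s i) * ∑ j, (s j - s i) * M i j ^ 2 := by
        rw [Finset.mul_sum]
        exact Finset.sum_congr rfl fun j _ => by ring
      rw [e5, e6]
      ring
    have e7 : ∑ i, ∑ j, f' (s i) * (s j - s i) * M i j ^ 2 =
        - (1 / 2) * ∑ i, ∑ j, dd1 f' f'' (s i) (s j) * (s i - s j) ^ 2 * M i j ^ 2 := by
      have e8 : ∑ i, ∑ j, f' (s i) * (s j - s i) * M i j ^ 2 =
          ∑ i, ∑ j, f' (s j) * (s i - s j) * M i j ^ 2 := by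
        rw [Finset.sum_comm]
        refine Finset.sum_congr rfl fun i _ => Finset.sum_congr rfl fun j _ => ?_
        rw [hM j i]
      have e9 : ∑ i, ∑ j, f' (s i) * (s j - s i) * M i j ^ 2 + ∑ i, ∑ j, f' (s j) * (s i - s j) * M i j ^ 2
          = - ∑ i, ∑ j, dd1 f' f'' (s i) (s j) * (s i - s j) ^ 2 * M i j ^ 2 := by
        rw [← Finset.sum_add_distrib, ← Finset.sum_neg_distrib]
        refine Finset.sum_congr rfl fun i _ => ?_
        rw [← Finset.sum_add_distrib, ← Finset.sum_neg_distrib]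
        refine Finset.sum_congr rfl fun j _ => ?_
        have := dd1_mul f' f'' (s i) (s j)
        calc f' (s i) * (s j - s i) * M i j ^ 2 + f' (s j) * (s i - s j) * M i j ^ 2
            = - ((f' (s i) - f' (s j)) * (s i - s j) * M i j ^ 2) := by ring
          _ = _ := by rw [← this]; ring
      rw [← e8] at e9
      linarith
    rw [e1, e2, e3, e7]
    have e10 : ∑ i, ∑ j, dd1 f' f'' (s i) (s j) * ((Matrix.of fun i k => (s i + s k) / 2 * M i k : Mat m) i j) ^ 2
        = (1 / 4) * ∑ i, ∑ j, dd1 f' f'' (s i) (s j) * (s i - s j) ^ 2 * M i j ^ 2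
          + ∑ i, ∑ j, s i * s j * dd1 f' f'' (s i) (s j) * M i j ^ 2 := by
      simp only [Finset.mul_sum]
      rw [← Finset.sum_add_distrib]
      refine Finset.sum_congr rfl fun i _ => ?_
      rw [← Finset.sum_add_distrib]
      refine Finset.sum_congr rfl fun j _ => ?_
      simp only [Matrix.of_apply]; ring
    rw [e10]
    ring

/-- second order condition at a minimiser in normal position, arbitrary direction `u` -/
theorem second_order_dir {f f' f'' : ℝ → ℝ} {p : (Fin m → ℝ) → ℝ} {s : Fin m → ℝ}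
    (h : SLC p (diagonal s)) (hA : densCov p = 1) (hs : ∀ i, s i ∈ Icc (0 : ℝ) 1)
    (hf : ContinuousOn f (Icc 0 1)) (hp : ∀ i, Peano2 f f' f'' (Icc 0 1) (s i))
    (hmin : ∀ (p' : (Fin m → ℝ) → ℝ) (G' : Mat m), SLC p' G' → Dl f p (diagonal s) ≤ Dl f p' G')
    (u : Fin m → ℝ) :
    ∑ i, (1 - s i) * f' (s i) * u i ^ 2 ≤ (1 / 4) * (∑ i, ∑ j, Mu p u i j ^ 2)
      - (1 / 2) * (∑ i, ∑ j, s i * s j * dd1 f' f'' (s i) (s j) * Mu p u i j ^ 2) := by
  set M : Mat m := Matrix.of fun i j => Mu p u i j with hM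
  have hAu : ∀ i, Au p u i = u i := by
    intro i; unfold Au; rw [hA, one_mulVec]
  have hr := tendsto_id_punctured
  have jA : MJet2 (𝓝[≠] (0 : ℝ)) (fun t => t) (fun t => densCov (tl p u t)) 1 M
      (-(vecMulVec u u)) := by
    intro i j
    have h1 := jet_of_T2 (T2_densCov_tl h u i j)
    refine h1.congr (fun t => rfl) (by rw [hA]) rfl ?_
    rw [hAu, hAu]
    simp only [Matrix.neg_apply, vecMulVec_apply]
  have jG : MJet2 (𝓝[≠] (0 : ℝ)) (fun t => t) (fun t => tlG (diagonal s) u t) (diagonal s) 0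
      (vecMulVec u u) := by
    intro i j
    have h1 : Jet2 (𝓝[≠] (0 : ℝ)) (fun t => t)
        (fun t : ℝ => (diagonal s : Mat m) i j + (vecMulVec u u : Mat m) i j * t ^ 2)
        ((diagonal s : Mat m) i j + (vecMulVec u u : Mat m) i j * 0)
        (0 + (vecMulVec u u : Mat m) i j * 0)
        (0 + (vecMulVec u u : Mat m) i j * 1) :=
      (Jet2.const _).add (Jet2.self_sq.const_mul _)
    refine h1.congr (fun t => ?_) (by ring) (by simp) (by ring)
    simp only [tlG, Matrix.add_apply, Matrix.smul_apply, smul_eq_mul]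
    ring
  have jh : Jet2 (𝓝[≠] (0 : ℝ)) (fun t => t) (fun t => diffEntropy (tl p u t)) (diffEntropy p)
      (-(∫ x, cl p u x * (p x * Real.log (p x)))) (-(u ⬝ᵥ u) / 2) := by
    refine (jet_of_T2 (T2_diffEntropy_tl h u)).congr (fun t => rfl) rfl rfl ?_
    rw [hA, one_mulVec]
  have hev : ∀ᶠ t in 𝓝[≠] (0 : ℝ), SLC (tl p u t) (tlG (diagonal s) u t) :=
    nhdsWithin_le_nhds (h.tl u)
  have hM' : ∀ i j, M i j = M j i := by
    intro i j
    simp only [hM, Matrix.of_apply]
    exact Mu_symm p u i j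
  have key := bell_jet_dir hr jA jG (hev.mono fun t ht => densCov_symm _)
    (hev.mono fun t ht => ht.psd.isHermitian) hM' hs (hev.mono fun t ht => SLC_spec ht) hf hp jh
  have key2 := (key.const_mul (-1))
  have h0 : diffEntropy p - ∑ i, f (s i) = Dl f p (diagonal s) := by
    unfold Dl
    rw [hA, det_one, Real.log_one, mul_zero, sub_zero]
    congr 1
    have h1 : Sm (1 : Mat m) (diagonal s) = diagonal s := by
      unfold Sm rt
      have h5 : _root_.cfc Real.sqrt (1 : Mat m) = 1 := by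
        rw [← Matrix.diagonal_one, cfc_diagonal, Real.sqrt_one]
      rw [h5, Matrix.one_mul, Matrix.mul_one]
    rw [h1, cfc_diagonal]
    simp [Matrix.trace]
  have hmx := Jet2.max_principle key2 (by
    filter_upwards [hev] with t ht
    have h1 := hmin _ _ ht
    rw [← h0] at h1
    unfold Dl at h1
    linarith)
  have h2 := hmx.2
  simp only [hM, Matrix.of_apply] at h2
  linarith

/-- the scalar facts used by the general wrapper -/
structure Scal.Good0 (D : Scal) : Prop where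
  l_zero : D.l 0 = 0
  l_one : D.l 1 = (1 / 2) * Real.log (2 * Real.pi * Real.exp 1) - 1
  l_cont : ContinuousOn D.l (Icc 0 1)
  l_peano : ∀ s ∈ Ico (0 : ℝ) 1, Peano2 D.l D.l1 D.l2 (Icc 0 1) s

/-- the exact kernel `Γ(s,t) = 1/4 - s t l'[s,t] / 2` -/
noncomputable def Ker (D : Scal) (s t : ℝ) : ℝ := 1 / 4 - s * t * dd1 D.l1 D.l2 s t / 2

/-- exact-kernel form of the tensor inequality: at a normalised state with `S ≠ 1` some direction `u`
violates the second order condition of the regularised functional -/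
def BellX (D : Scal) (m : ℕ) : Prop :=
  ∀ (p : (Fin m → ℝ) → ℝ) (s : Fin m → ℝ), SLC p (diagonal s) → densCov p = 1 →
    (∀ i, s i ∈ Icc (0 : ℝ) 1) → (∃ i, s i < 1) → ∀ lam ∈ Ioo (0 : ℝ) 1,
      ∃ u : Fin m → ℝ, ∑ j, ∑ k, Ker D (lam * s j) (lam * s k) * Mu p u j k ^ 2 <
        ∑ i, (1 - s i) * (lam * D.l1 (lam * s i) + 2 * (1 - lam)) * u i ^ 2

lemma fl_cont0 {D : Scal} (hD : D.Good0) {lam : ℝ} (hlam : lam ∈ Ioo (0 : ℝ) 1) :
    ContinuousOn (fl D lam) (Icc 0 1) := by
  unfold fl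
  refine ContinuousOn.add ?_ (by fun_prop)
  exact hD.l_cont.comp (by fun_prop) fun x hx => Ico_subset_Icc_self (mem_Icc_of hlam hx)

lemma fl_peano0 {D : Scal} (hD : D.Good0) {lam : ℝ} (hlam : lam ∈ Ioo (0 : ℝ) 1) {s : ℝ}
    (hs : s ∈ Icc (0 : ℝ) 1) : Peano2 (fl D lam) (fl1 D lam) (fl2 D lam) (Icc 0 1) s := by
  have h1 := hD.l_peano (lam * s) (mem_Icc_of hlam hs)
  have ht : Tendsto (fun x => lam * x) (𝓝[Icc 0 1] s) (𝓝[Icc 0 1] (lam * s)) := by
    refine tendsto_nhdsWithin_iff.2 ⟨?_, ?_⟩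
    · have : Continuous fun x : ℝ => lam * x := by fun_prop
      exact (this.tendsto s).mono_left nhdsWithin_le_nhds
    · filter_upwards [self_mem_nhdsWithin] with x hx
      exact Ico_subset_Icc_self (mem_Icc_of hlam hx)
  have h2 := h1.comp_tendsto ht
  unfold Peano2
  have h3 : (fun x => fl D lam x - fl D lam s - fl1 D lam s * (x - s) -
      fl2 D lam s / 2 * (x - s) ^ 2) = ((fun x => D.l x - D.l (lam * s) -
        D.l1 (lam * s) * (x - lam * s) - D.l2 (lam * s) / 2 * (x - lam * s) ^ 2) ∘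
        fun x => lam * x) := by
    funext x
    simp only [fl, fl1, fl2, Function.comp_apply]
    ring
  rw [h3]
  refine h2.trans_isBigO ?_
  have h4 : ((fun x : ℝ => (x - lam * s) ^ 2) ∘ fun x => lam * x) =
      fun x => lam ^ 2 * (x - s) ^ 2 := by
    funext x; simp only [Function.comp_apply]; ring
  rw [h4]
  exact Asymptotics.isBigO_const_mul_self _ _ _

section main

variable {D : Scal}

theorem Dl_lowerX (hD : D.Good0) (hB : BellX D m) (hGE : GaussEnd m) {lam : ℝ}
    (hlam : lam ∈ Ioo (0 : ℝ) 1) {p : (Fin m → ℝ) → ℝ} {G : Mat m} (hp : SLC p G) :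
    (m : ℝ) * ((1 / 2) * Real.log (2 * Real.pi * Real.exp 1) - D.l lam - 2 * (1 - lam)) ≤
      Dl (fl D lam) p G := by
  obtain ⟨p0, G0, h0, hmin⟩ := exists_min (fl_cont0 hD hlam) ⟨p, G, hp⟩
  obtain ⟨T, s, hT, h1, hcov, hs, hG⟩ := exists_position h0
  have hval : Dl (fl D lam) (aff p0 T 0) (diagonal s) = Dl (fl D lam) p0 G0 := by
    rw [← hG]; exact Dl_aff _ h0 hT 0
  have hmin' : ∀ (p' : (Fin m → ℝ) → ℝ) (G' : Mat m), SLC p' G' →
      Dl (fl D lam) (aff p0 T 0) (diagonal s) ≤ Dl (fl D lam) p' G' := fun p' G' h' => by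
    rw [hval]; exact hmin p' G' h'
  refine le_trans ?_ (hmin' p G hp)
  set p1 := aff p0 T 0 with hp1
  have hall : ∀ i, s i = 1 := by
    by_contra hcon
    push Not at hcon
    obtain ⟨i0, hi0⟩ := hcon
    have hi0' : s i0 < 1 := lt_of_le_of_ne (hs i0).2 hi0
    obtain ⟨u, hle⟩ := hB p1 s h1 hcov hs ⟨i0, hi0'⟩ lam hlam
    have h2 := second_order_dir h1 hcov hs (fl_cont0 hD hlam)
      (fun i => fl_peano0 hD hlam (hs i)) hmin' u
    have h3 : (1 / 4) * (∑ i, ∑ j, Mu p1 u i j ^ 2)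
        - (1 / 2) * (∑ i, ∑ j, s i * s j * dd1 (fl1 D lam) (fl2 D lam) (s i) (s j) *
          Mu p1 u i j ^ 2) =
        ∑ j, ∑ k, Ker D (lam * s j) (lam * s k) * Mu p1 u j k ^ 2 := by
      simp only [Finset.mul_sum]
      rw [← Finset.sum_sub_distrib]
      refine Finset.sum_congr rfl fun i _ => ?_
      rw [← Finset.sum_sub_distrib]
      refine Finset.sum_congr rfl fun j _ => ?_
      rw [fl_dd1 hlam]
      unfold Ker
      ring
    rw [h3] at h2
    simp only [fl1] at h2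
    linarith
  have hs1 : (diagonal s : Mat m) = 1 := by
    have : s = fun _ => 1 := funext hall
    rw [this, Matrix.diagonal_one]
  rw [hs1] at h1 ⊢
  have h2 := hGE p1 h1 hcov
  have h3 : (_root_.cfc (fl D lam) (Sm (1 : Mat m) (1 : Mat m))).trace =
      m * (D.l lam + 2 * (1 - lam)) := by
    have h5 : _root_.cfc Real.sqrt (1 : Mat m) = 1 := by
      rw [← Matrix.diagonal_one, cfc_diagonal, Real.sqrt_one]
    have h4 : Sm (1 : Mat m) 1 = Matrix.diagonal fun _ => 1 := by
      unfold Sm rt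
      rw [h5, Matrix.one_mul, Matrix.mul_one, Matrix.diagonal_one]
    rw [h4, cfc_diagonal]
    simp [Matrix.trace, fl, mul_add]
  unfold Dl
  rw [hcov, h3, det_one, Real.log_one]
  linarith

/-- **the Bellman inequality on the class, exact-kernel form** -/
theorem bellmanX (hD : D.Good0) (hB : BellX D m) (hGE : GaussEnd m)
    {p : (Fin m → ℝ) → ℝ} {G : Mat m} (hp : SLC p G) : (m : ℝ) ≤ Dl D.l p G := by
  have hS := Sm_isHermitian (A := densCov p) hp.psd.isHermitian
  have hspec : ∀ i, hS.eigenvalues i ∈ Icc (0 : ℝ) 1 := fun i =>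
    SLC_spec hp (hS.eigenvalues_mem_spectrum_real i)
  have h0 : Ioo (0 : ℝ) 1 ∈ 𝓝[<] (1 : ℝ) := Ioo_mem_nhdsLT zero_lt_one
  have h1 : Tendsto (fun lam : ℝ => D.l lam) (𝓝[<] 1) (𝓝 (D.l 1)) := by
    have h2 : Tendsto D.l (𝓝[Icc 0 1] 1) (𝓝 (D.l 1)) := hD.l_cont 1 ⟨zero_le_one, le_rfl⟩
    refine h2.mono_left ?_
    rw [← nhdsWithin_inter_of_mem h0]
    exact nhdsWithin_mono _ fun x hx => ⟨hx.1.1.le, hx.1.2.le⟩
  have h2 : ∀ i, Tendsto (fun lam : ℝ => fl D lam (hS.eigenvalues i)) (𝓝[<] 1)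
      (𝓝 (D.l (hS.eigenvalues i))) := by
    intro i
    set x := hS.eigenvalues i with hx
    have h3 : Tendsto (fun lam : ℝ => lam * x) (𝓝[<] 1) (𝓝[Icc 0 1] x) := by
      refine tendsto_nhdsWithin_iff.2 ⟨?_, ?_⟩
      · have : Continuous fun lam : ℝ => lam * x := by fun_prop
        have h4 := (this.tendsto 1).mono_left (nhdsWithin_le_nhds (s := Iio (1 : ℝ)))
        rwa [one_mul] at h4
      · filter_upwards [h0] with lam hlam
        exact Ico_subset_Icc_self (mem_Icc_of hlam (hspec i))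
    have h4 : Tendsto (fun lam : ℝ => D.l (lam * x)) (𝓝[<] 1) (𝓝 (D.l x)) :=
      (hD.l_cont x (hspec i)).tendsto.comp h3
    have h5 : Tendsto (fun lam : ℝ => 2 * (1 - lam) * x) (𝓝[<] 1) (𝓝 0) := by
      have : Continuous fun lam : ℝ => 2 * (1 - lam) * x := by fun_prop
      have h6 := (this.tendsto 1).mono_left (nhdsWithin_le_nhds (s := Iio (1 : ℝ)))
      simpa using h6
    have h6 := h4.add h5
    rw [add_zero] at h6
    exact h6
  have h3 : Tendsto (fun lam => Dl (fl D lam) p G) (𝓝[<] 1) (𝓝 (Dl D.l p G)) := by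
    unfold Dl
    simp only [trace_cfc hS]
    exact tendsto_const_nhds.sub (tendsto_finsetSum _ fun i _ => h2 i)
  have h4 : Tendsto (fun lam : ℝ => (m : ℝ) * ((1 / 2) * Real.log (2 * Real.pi * Real.exp 1) -
      D.l lam - 2 * (1 - lam))) (𝓝[<] 1) (𝓝 ((m : ℝ) * ((1 / 2) *
        Real.log (2 * Real.pi * Real.exp 1) - D.l 1 - 0))) := by
    refine Tendsto.const_mul _ ((tendsto_const_nhds.sub h1).sub ?_)
    have : Continuous fun lam : ℝ => 2 * (1 - lam) := by fun_prop
    have h6 := (this.tendsto 1).mono_left (nhdsWithin_le_nhds (s := Iio (1 : ℝ)))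
    simpa using h6
  rw [hD.l_one] at h4
  have h5 : (m : ℝ) * ((1 / 2) * Real.log (2 * Real.pi * Real.exp 1) -
      ((1 / 2) * Real.log (2 * Real.pi * Real.exp 1) - 1) - 0) = m := by ring
  rw [h5] at h4
  refine le_of_tendsto_of_tendsto h4 h3 ?_
  filter_upwards [h0] with lam hlam
  exact Dl_lowerX hD hB hGE hlam hp

/-- **the entropy inequality, exact-kernel form** -/
theorem entropy_geX (hD : D.Good0) (hB : BellX D m) (hGE : GaussEnd m)
    {p : (Fin m → ℝ) → ℝ} (hp : LCD p) :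
    (m : ℝ) + Real.log (densCov p).det / 2 ≤ diffEntropy p := by
  have h1 := bellmanX hD hB hGE (SLC.of_LCD hp)
  have h2 : Dl D.l p 0 = diffEntropy p - (1 / 2) * Real.log (densCov p).det := by
    unfold Dl Sm
    rw [Matrix.mul_zero, Matrix.zero_mul]
    have h1 : (0 : Mat m) = Matrix.diagonal fun _ => 0 := by simp
    rw [h1, cfc_diagonal]
    simp [Matrix.trace, hD.l_zero]
  rw [h2] at h1
  linarith

/-- the coordinate directions -/
lemma Mu_single (p : (Fin m → ℝ) → ℝ) (a i j : Fin m) :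
    Mu p (Pi.single a 1) i j = densM3 p i j a := by
  unfold Mu
  rw [Finset.sum_eq_single a]
  · simp
  · intro b _ hb; simp [Pi.single_eq_of_ne hb]
  · intro h; exact absurd (Finset.mem_univ _) h

/-- a diagonal positive control gives `BellX` -/
theorem bellX_of_control
    (H : ∀ (p : (Fin m → ℝ) → ℝ) (s : Fin m → ℝ), SLC p (diagonal s) → densCov p = 1 →
      (∀ i, s i ∈ Icc (0 : ℝ) 1) → (∃ i, s i < 1) → ∀ lam ∈ Ioo (0 : ℝ) 1,
      ∃ c : Fin m → ℝ, (∀ i, 0 ≤ c i) ∧
        ∑ a, c a * ∑ j, ∑ k, Ker D (lam * s j) (lam * s k) * densM3 p j k a ^ 2 <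
          ∑ a, c a * ((1 - s a) * (lam * D.l1 (lam * s a) + 2 * (1 - lam)))) : BellX D m := by
  intro p s h hA hs hex lam hlam
  obtain ⟨c, hc, hle⟩ := H p s h hA hs hex lam hlam
  by_contra hcon
  push Not at hcon
  have h1 : ∑ a, c a * ((1 - s a) * (lam * D.l1 (lam * s a) + 2 * (1 - lam))) ≤
      ∑ a, c a * ∑ j, ∑ k, Ker D (lam * s j) (lam * s k) * densM3 p j k a ^ 2 := by
    refine Finset.sum_le_sum fun a _ => mul_le_mul_of_nonneg_left ?_ (hc a)
    have h2 := hcon (Pi.single a 1)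
    simp only [Mu_single] at h2
    have h3 : ∑ i, (1 - s i) * (lam * D.l1 (lam * s i) + 2 * (1 - lam)) *
        (Pi.single a (1 : ℝ) : Fin m → ℝ) i ^ 2 =
        (1 - s a) * (lam * D.l1 (lam * s a) + 2 * (1 - lam)) := by
      rw [Finset.sum_eq_single a]
      · simp
      · intro b _ hb; simp [Pi.single_eq_of_ne hb]
      · intro h; exact absurd (Finset.mem_univ _) h
    rwa [h3] at h2
  linarith

end main

end Crest.Agent.R253.Wrap999
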