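import Crest.Agent.R253.LFun_930
import Crest.Agent.R253.WrapD_999

/-!
helper930, row 253.  The scalar data of the Bellman function (`D930`) are good (`Scal.Good`, `Scal.Good0`),
and further scalar facts: `Γ(s) = 1/4 - s² l''(s)/2 = q(s)²` is increasing, `l'` is decreasing, `l' ≤ 1`,
`κ₃² Γ = (1-s) l'(s)`.
-/

set_option autoImplicit false

open MeasureTheory Set Filter Topology

namespace Crest.Agent.R253.Scal930

open Crest.Agent.R253.Mills930 Crest.Agent.R253.Hazard930 Crest.Agent.R253.Curve930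
open Crest.Agent.R253.Conc930 Crest.Agent.R253.SInv930 Crest.Agent.R253.LFun930
open Crest.Agent.R253.Wrap999 Crest.Agent.R253.SpecCalc999

/-! ### `p1 > 0`, `Γ` is decreasing in `z` -/

lemma p1_pos (z : ℝ) : 0 < p1 z := by
  by_contra hcon
  push Not at hcon
  have hm : StrictAntiOn p (Ici z) := by
    apply strictAntiOn_of_deriv_neg (convex_Ici z)
    · intro x _; exact (p_deriv x).continuousAt.continuousWithinAt
    · intro x hx; rw [interior_Ici] at hx
      rw [(p_deriv x).deriv]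
      have := p1_antitone hx
      exact mul_neg_of_neg_of_pos (by linarith) (g_pos x)
  have h1 : 2 ≤ p z := by
    apply le_of_tendsto p_lim
    filter_upwards [eventually_ge_atTop z] with x hx
    exact hm.antitoneOn (mem_Ici.mpr le_rfl) (mem_Ici.mpr hx) hx
  linarith [p_lt z]

lemma G1_neg (z : ℝ) : G1 z < 0 := by
  have h := p1_pos z
  unfold p1 at h
  have h2 : 0 < 2 * q z ^ 3 := by have := q_pos z; positivity
  rw [div_pos_iff_of_pos_right h2] at h
  linarith

lemma Gam_strictAnti : StrictAnti Gam := by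
  apply strictAnti_of_deriv_neg
  intro z
  rw [(Gam_deriv z).deriv]
  exact mul_neg_of_neg_of_pos (G1_neg z) (g_pos z)

/-! ### the data -/

noncomputable def qf (y : ℝ) : ℝ := if y ≤ 0 then 1 / 2 else q (zi y)

noncomputable def k2f (y : ℝ) : ℝ :=
  if y ≤ 0 then 4 else if 1 ≤ y then 0 else r (zi y) ^ 2 * K (zi y) ^ 2 / s (zi y) ^ 3

noncomputable def D930 : Scal := ⟨l, l1, l2, qf, k2f⟩

theorem D930_good0 : D930.Good0 where
  l_zero := l_zero
  l_one := l_one
  l_cont := l_cont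
  l_peano := fun _ hs => l_peano hs

lemma qf_mid {y : ℝ} (hy : 0 < y) : qf y = q (zi y) := by
  unfold qf; rw [if_neg (not_le.mpr hy)]

lemma qf_zero : qf 0 = 1 / 2 := by unfold qf; rw [if_pos le_rfl]

lemma qf_pos (y : ℝ) : 0 < qf y := by
  unfold qf; split_ifs
  · norm_num
  · exact q_pos _

lemma qf_ge (y : ℝ) : 1 / 2 ≤ qf y := by
  unfold qf; split_ifs
  · exact le_rfl
  · exact (q_gt _).le

lemma Gam_eq (z : ℝ) : Gam z = 1 / 4 * (1 + V (L z) (u z)) := by
  unfold Gam V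
  rw [Ep_eq]
  have hu0 : u z ≠ 0 := by have := u_gt z; positivity
  have hu1 : u z - 1 ≠ 0 := by have := u_gt z; intro h; linarith
  field_simp
  ring

/-- `Γ(s) = 1/4 - s² l''(s)/2 = q(s)²`. -/
lemma qf_sq {y : ℝ} (hy : y ∈ Ico (0:ℝ) 1) : qf y ^ 2 = 1 / 4 - y ^ 2 * l2 y / 2 := by
  rcases hy.1.eq_or_lt with h0 | h0
  · rw [← h0, qf_zero]; norm_num
  · rw [qf_mid h0, l2_mid h0, q_sq, Gam_eq]
    have hs : s (zi y) = y := s_zi ⟨h0, hy.2⟩
    have hu : u (zi y) = 1 / y := by unfold u; rw [hs]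
    have : y ^ 2 * (u (zi y)) ^ 2 = 1 := by rw [hu]; field_simp
    linear_combination (-(V (L (zi y)) (u (zi y)) / 4)) * this

/-- `q` is increasing in `s` -/
lemma qf_mono {a b : ℝ} (hab : a ≤ b) (hb : b < 1) : qf a ≤ qf b := by
  rcases le_or_gt a 0 with ha | ha
  · have : qf a = 1 / 2 := by unfold qf; rw [if_pos ha]
    rw [this]; exact qf_ge b
  · rcases hab.eq_or_lt with h | h
    · rw [h]
    · have hz := zi_strictAntiOn ⟨ha, h.trans hb⟩ ⟨ha.trans h, hb⟩ h
      have h3 := Gam_strictAnti hz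
      rw [qf_mid ha, qf_mid (ha.trans h)]
      exact Real.sqrt_le_sqrt h3.le

lemma l1_le_one {y : ℝ} : l1 y ≤ 1 := by
  unfold l1; split_ifs
  · exact le_rfl
  · have := L_lt_two (zi y); linarith

lemma l1_pos (y : ℝ) : 0 < l1 y := by
  unfold l1; split_ifs
  · norm_num
  · have := L_pos (zi y); linarith

/-- `l'` is decreasing -/
lemma l1_anti {a b : ℝ} (hab : a ≤ b) (hb : b < 1) : l1 b ≤ l1 a := by
  rcases le_or_gt a 0 with ha | ha
  · have : l1 a = 1 := by unfold l1; rw [if_pos ha]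
    rw [this]; exact l1_le_one
  · rcases hab.eq_or_lt with h | h
    · rw [h]
    · have hz := zi_strictAntiOn ⟨ha, h.trans hb⟩ ⟨ha.trans h, hb⟩ h
      have h3 := L_strictMono hz
      rw [l1_mid ha, l1_mid (ha.trans h)]
      linarith

lemma k2_Gam (z : ℝ) : r z ^ 2 * K z ^ 2 / s z ^ 3 * Gam z = (1 - s z) * (L z / 2) := by
  unfold Gam
  rw [Ep_eq, f_eq, P_eq]
  have h1 : s z ≠ 0 := (s_pos z).ne'
  have h2 : K z ≠ 0 := (K_pos z).ne'
  have h3 : 1 - s z ≠ 0 := by have := s_lt_one z; linarith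
  have e : r z ^ 2 * m z ^ 2 = (1 - s z) ^ 2 := by rw [← rm_eq]; ring
  field_simp
  linear_combination 8 * L z * e

/-- `κ₃² Γ = (1-s) l'(s)` -/
lemma k2_eq {y : ℝ} (hy : y ∈ Ico (0:ℝ) 1) : k2f y * qf y ^ 2 = (1 - y) * l1 y := by
  rcases hy.1.eq_or_lt with h0 | h0
  · rw [← h0, qf_zero, l1_zero]; unfold k2f; rw [if_pos le_rfl]; norm_num
  · rw [qf_mid h0, q_sq, l1_mid h0]
    unfold k2f
    rw [if_neg (not_le.mpr h0), if_neg (not_le.mpr hy.2), k2_Gam, s_zi ⟨h0, hy.2⟩]

lemma k2_nonneg {y : ℝ} : 0 ≤ k2f y := by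
  unfold k2f; split_ifs
  · norm_num
  · exact le_rfl
  · have h1 := s_pos (zi y); positivity

/-- `Γ(s,t) ≤ q(s) q(t)` -/
lemma ker_le {a b : ℝ} (ha : a ∈ Ico (0:ℝ) 1) (hb : b ∈ Ico (0:ℝ) 1) :
    1 / 4 - a * b * dd1 l1 l2 a b / 2 ≤ qf a * qf b := by
  rcases ha.1.eq_or_lt with h0 | ha0
  · rw [← h0, zero_mul, zero_mul, zero_div, sub_zero, qf_zero]
    have := qf_ge b
    linarith
  rcases hb.1.eq_or_lt with h0 | hb0
  · rw [← h0, mul_zero, zero_mul, zero_div, sub_zero, qf_zero]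
    have := qf_ge a
    linarith
  wlog hab : b ≤ a generalizing a b with H
  · have h := H hb ha hb0 ha0 (le_of_not_ge hab)
    have e1 : dd1 l1 l2 b a = dd1 l1 l2 a b := by
      unfold dd1
      have hne : a ≠ b := by rintro rfl; exact hab le_rfl
      rw [if_neg hne, if_neg hne.symm, ← neg_sub (l1 a) (l1 b), ← neg_sub a b, neg_div_neg_eq]
    rw [e1, mul_comm b a, mul_comm (qf b)] at h
    exact h
  rcases hab.eq_or_lt with h | h
  · subst h
    have e : dd1 l1 l2 b b = l2 b := by unfold dd1; rw [if_pos rfl]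
    rw [e]
    have := qf_sq hb
    nlinarith
  · have hz := zi_strictAntiOn ⟨hb0, hb.2⟩ ⟨ha0, ha.2⟩ h
    have hp := pair_le hz.le
    have hua : u (zi a) = 1 / a := by unfold u; rw [s_zi ⟨ha0, ha.2⟩]
    have hub : u (zi b) = 1 / b := by unfold u; rw [s_zi ⟨hb0, hb.2⟩]
    have hne : a ≠ b := h.ne'
    have e : dd1 l1 l2 a b = (L (zi a) / 2 - L (zi b) / 2) / (a - b) := by
      unfold dd1; rw [if_neg hne, l1_mid ha0, l1_mid hb0]
    rw [e, qf_mid ha0, qf_mid hb0]
    have hu : 0 < u (zi b) - u (zi a) := by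
      have := u_strictMono hz; linarith
    have e2 : a * b / (a - b) = (u (zi b) - u (zi a))⁻¹ := by
      rw [hua, hub]
      have h1 : a - b ≠ 0 := sub_ne_zero.mpr hne
      have h2 : 1 / b - 1 / a = (a - b) / (a * b) := by field_simp
      rw [h2, inv_div]
    have e3 : 1 / 4 - a * b * ((L (zi a) / 2 - L (zi b) / 2) / (a - b)) / 2 =
        1 / 4 * (((L (zi b) + u (zi b)) - (L (zi a) + u (zi a))) * (u (zi b) - u (zi a))⁻¹) := by
      have h1 : a * b * ((L (zi a) / 2 - L (zi b) / 2) / (a - b)) =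
          (L (zi a) - L (zi b)) / 2 * (a * b / (a - b)) := by ring
      have h4 : (u (zi b) - u (zi a)) * (u (zi b) - u (zi a))⁻¹ = 1 := mul_inv_cancel₀ hu.ne'
      rw [h1, e2]
      linear_combination (-1/4) * h4
    rw [e3]
    have h5 : ((L (zi b) + u (zi b)) - (L (zi a) + u (zi a))) * (u (zi b) - u (zi a))⁻¹ ≤
        4 * (q (zi a) * q (zi b)) := by
      rw [← div_eq_mul_inv, div_le_iff₀ hu]
      linarith
    linarith

theorem D930_good : D930.Good where
  l_zero := l_zero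
  l_one := l_one
  l_cont := l_cont
  l_peano := fun _ hs => l_peano hs
  q_pos := fun _ _ => qf_pos _
  pair := fun _ hs _ ht => ker_le hs ht
  step := by
    intro lam hlam y hy
    show k2f y * qf (lam * y) ^ 2 ≤ (1 - y) * (lam * l1 (lam * y) + (1 - lam))
    rcases hy.2.eq_or_lt with h1 | h1
    · rw [h1]
      have : k2f 1 = 0 := by unfold k2f; rw [if_neg (by norm_num), if_pos le_rfl]
      rw [this]; simp
    · have hle : lam * y ≤ y := by nlinarith [hy.1, hlam.2]
      have h2 : qf (lam * y) ^ 2 ≤ qf y ^ 2 :=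
        pow_le_pow_left₀ (qf_pos _).le (qf_mono hle h1) 2
      have h3 : k2f y * qf (lam * y) ^ 2 ≤ (1 - y) * l1 y := by
        rw [← k2_eq ⟨hy.1, h1⟩]
        exact mul_le_mul_of_nonneg_left h2 k2_nonneg
      refine h3.trans (mul_le_mul_of_nonneg_left ?_ (by linarith))
      have h4 := l1_anti hle h1
      have h5 : l1 (lam * y) ≤ 1 := l1_le_one
      nlinarith [hlam.1, hlam.2]

end Crest.Agent.R253.Scal930
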