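import Crest.Agent.R238.Hol4

/-!
Row 253, T6 node B1 (helper706): the solution operator of `L₀ - lam` on ALL bounded Hölder
functions (no evenness), with Hölder bounds of `v`, `Dv`, `D²v`.  Port of R238 Hol1/Hol4 (helper718)
with the kernel `cos^lam`.
-/

set_option autoImplicit false
set_option maxSynthPendingDepth 3

open MeasureTheory Set Filter
open scoped ContDiff Topology

namespace Crest.Agent.R253.Sol706

open Crest.Agent.R238

variable {n : ℕ}

/-- facts about the heat family which are used -/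
structure HG (a C N : ℝ) (r : E n → ℝ) (F : ℝ → E n → ℝ)
    (F1 : ℝ → E n → (E n →L[ℝ] ℝ)) (F2 : ℝ → E n → (E n →L[ℝ] E n →L[ℝ] ℝ)) : Prop where
  nn : 0 ≤ C
  nN : 0 ≤ N
  zero : ∀ x, F 0 x = r x
  d1 : ∀ s, 0 < s → ∀ x, HasFDerivAt (F s) (F1 s x) x
  d2 : ∀ s, 0 < s → ∀ x, HasFDerivAt (F1 s) (F2 s x) x
  b0 : ∀ s x, |F s x| ≤ N
  h0 : ∀ s x y, |F s x - F s y| ≤ N * ‖x - y‖ ^ a
  b1 : ∀ s, 0 < s → ∀ x, ‖F1 s x‖ ≤ C * s ^ (a - 1)
  b2 : ∀ s, 0 < s → ∀ x, ‖F2 s x‖ ≤ C * s ^ (a - 2)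
  b3 : ∀ s, 0 < s → ∀ x y, ‖F2 s x - F2 s y‖ ≤ C * s ^ (a - 3) * ‖x - y‖
  cF : Continuous fun q : ℝ × E n => F q.1 q.2
  c1 : ContinuousOn (fun q : ℝ × E n => F1 q.1 q.2) (Ioi 0 ×ˢ univ)
  c2 : ContinuousOn (fun q : ℝ × E n => F2 q.1 q.2) (Ioi 0 ×ˢ univ)
  dp : ∀ x, ∀ p ∈ JJ, HasDerivAt (fun p => F (Real.sin p) (Real.cos p • x))
    (Real.cos p * Real.sin p * trB (F2 (Real.sin p) (Real.cos p • x))
      - Real.sin p * F1 (Real.sin p) (Real.cos p • x) x) p

/-- `cos^b` is integrable on `JJ` for `b > -1` -/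
theorem integrableOn_cos_rpow {b : ℝ} (hb : -1 < b) :
    IntegrableOn (fun p : ℝ => Real.cos p ^ b) JJ := by
  have hb' : ∃ b' : ℝ, -1 < b' ∧ b' < 0 ∧ b' ≤ b := ⟨min b (-1 / 2), by
    refine lt_min hb (by norm_num), by
    exact lt_of_le_of_lt (min_le_right _ _) (by norm_num), min_le_left _ _⟩
  obtain ⟨b', h1, h2, h3⟩ := hb'
  have hsin : IntegrableOn (fun p : ℝ => Real.sin p ^ b') JJ := by
    have := integrableOn_sin_rpow (a := b' + 1) (by linarith) (by linarith)
    simpa using this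
  have hcos : IntegrableOn (fun p : ℝ => Real.cos p ^ b') JJ := by
    have hpi := Real.pi_pos
    have e : IntervalIntegrable (fun p : ℝ => Real.sin p ^ b') volume 0 (Real.pi / 2) :=
      (intervalIntegrable_iff_integrableOn_Ioo_of_le (by positivity)).2 hsin
    have e2 := e.comp_sub_left (Real.pi / 2)
    simp only [sub_zero, sub_self, Real.sin_pi_div_two_sub] at e2
    exact (intervalIntegrable_iff_integrableOn_Ioo_of_le (by positivity)).1 e2.symm
  refine Integrable.mono' hcos ?_ ?_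
  · have : ContinuousOn (fun p : ℝ => Real.cos p ^ b) JJ := by
      intro p hp
      exact ((Real.continuous_cos.continuousAt).rpow_const
        (Or.inl (JJ.cos_pos hp).ne')).continuousWithinAt
    exact this.aestronglyMeasurable measurableSet_JJ
  · filter_upwards [ae_restrict_mem measurableSet_JJ] with p hp
    have hc := JJ.cos_pos hp
    rw [Real.norm_of_nonneg (Real.rpow_nonneg hc.le _)]
    exact Real.rpow_le_rpow_of_exponent_ge hc (Real.cos_le_one p) h3

/-- constant -/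
noncomputable def cl (lam : ℝ) : ℝ := ∫ p in JJ, Real.cos p ^ (lam - 1)

theorem cl_nonneg (lam : ℝ) : 0 ≤ cl lam :=
  setIntegral_nonneg measurableSet_JJ fun p hp => Real.rpow_nonneg (JJ.cos_pos hp).le _

/-- integrands -/
noncomputable def B0 (lam : ℝ) (F : ℝ → E n → ℝ) (x : E n) (p : ℝ) : ℝ :=
  (Real.sin p * Real.cos p ^ (lam - 1)) * F (Real.sin p) (Real.cos p • x)

noncomputable def B1 (lam : ℝ) (F1 : ℝ → E n → (E n →L[ℝ] ℝ)) (x : E n) (p : ℝ) : E n →L[ℝ] ℝ :=
  (Real.sin p * Real.cos p ^ lam) • F1 (Real.sin p) (Real.cos p • x)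

noncomputable def B2 (lam : ℝ) (F2 : ℝ → E n → (E n →L[ℝ] E n →L[ℝ] ℝ)) (x : E n) (p : ℝ) :
    E n →L[ℝ] E n →L[ℝ] ℝ :=
  (Real.sin p * Real.cos p ^ (lam + 1)) • F2 (Real.sin p) (Real.cos p • x)

namespace HG

variable {a C N lam : ℝ} {r : E n → ℝ} {F : ℝ → E n → ℝ}
  {F1 : ℝ → E n → (E n →L[ℝ] ℝ)} {F2 : ℝ → E n → (E n →L[ℝ] E n →L[ℝ] ℝ)}

theorem cosr_le_one {b p : ℝ} (hb : 0 ≤ b) (hp : p ∈ JJ) : Real.cos p ^ b ≤ 1 :=
  Real.rpow_le_one (JJ.cos_pos hp).le (Real.cos_le_one p) hb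

theorem B0_le (h : HG a C N r F F1 F2) (x : E n) {p : ℝ} (hp : p ∈ JJ) :
    |B0 lam F x p| ≤ N * Real.cos p ^ (lam - 1) := by
  have hs := JJ.sin_pos hp
  have hc := Real.rpow_nonneg (JJ.cos_pos hp).le (lam - 1)
  unfold B0
  rw [abs_mul, abs_of_nonneg (mul_nonneg hs.le hc)]
  have h1 : Real.sin p * Real.cos p ^ (lam - 1) ≤ 1 * Real.cos p ^ (lam - 1) :=
    mul_le_mul_of_nonneg_right (Real.sin_le_one p) hc
  calc _ ≤ (1 * Real.cos p ^ (lam - 1)) * N :=
        mul_le_mul h1 (h.b0 _ _) (abs_nonneg _) (by simpa using hc)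
    _ = _ := by ring

theorem B0_sub_le (h : HG a C N r F F1 F2) (ha : 0 < a) (x y : E n) {p : ℝ} (hp : p ∈ JJ) :
    |B0 lam F x p - B0 lam F y p| ≤ N * ‖x - y‖ ^ a * Real.cos p ^ (lam - 1) := by
  have hs := JJ.sin_pos hp
  have hcp := JJ.cos_pos hp
  have hc := Real.rpow_nonneg hcp.le (lam - 1)
  unfold B0
  rw [← mul_sub, abs_mul, abs_of_nonneg (mul_nonneg hs.le hc)]
  have h1 : Real.sin p * Real.cos p ^ (lam - 1) ≤ 1 * Real.cos p ^ (lam - 1) :=
    mul_le_mul_of_nonneg_right (Real.sin_le_one p) hc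
  have h2 := h.h0 (Real.sin p) (Real.cos p • x) (Real.cos p • y)
  have h3 : ‖Real.cos p • x - Real.cos p • y‖ ^ a ≤ ‖x - y‖ ^ a := by
    refine Real.rpow_le_rpow (norm_nonneg _) ?_ ha.le
    rw [← smul_sub, norm_smul, Real.norm_of_nonneg hcp.le]
    exact mul_le_of_le_one_left (norm_nonneg _) (Real.cos_le_one p)
  have h4 : |F (Real.sin p) (Real.cos p • x) - F (Real.sin p) (Real.cos p • y)|
      ≤ N * ‖x - y‖ ^ a := h2.trans (mul_le_mul_of_nonneg_left h3 h.nN)
  calc _ ≤ (1 * Real.cos p ^ (lam - 1)) * (N * ‖x - y‖ ^ a) :=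
        mul_le_mul h1 h4 (abs_nonneg _) (by simpa using hc)
    _ = _ := by ring

theorem B1_le (h : HG a C N r F F1 F2) (ha : 0 < a) (hl : 0 < lam) (x : E n) {p : ℝ}
    (hp : p ∈ JJ) : ‖B1 lam F1 x p‖ ≤ C := by
  have hs := JJ.sin_pos hp
  have hc := Real.rpow_nonneg (JJ.cos_pos hp).le lam
  unfold B1
  rw [norm_smul, Real.norm_of_nonneg (mul_nonneg hs.le hc)]
  have h1 := h.b1 _ hs (Real.cos p • x)
  have h2 : Real.sin p ^ a ≤ 1 := Real.rpow_le_one hs.le (Real.sin_le_one p) ha.le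
  calc Real.sin p * Real.cos p ^ lam * ‖F1 (Real.sin p) (Real.cos p • x)‖
      ≤ Real.sin p * Real.cos p ^ lam * (C * Real.sin p ^ (a - 1)) :=
        mul_le_mul_of_nonneg_left h1 (mul_nonneg hs.le hc)
    _ = C * (Real.sin p * Real.sin p ^ (a - 1)) * Real.cos p ^ lam := by ring
    _ = C * Real.sin p ^ a * Real.cos p ^ lam := by rw [HF.rp1 hs]
    _ ≤ C * 1 * 1 := by
        refine mul_le_mul (mul_le_mul_of_nonneg_left h2 h.nn) (cosr_le_one hl.le hp) hc ?_
        simpa using h.nn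
    _ = C := by ring

theorem B2_le (h : HG a C N r F F1 F2) (hl : 0 < lam) (x : E n) {p : ℝ} (hp : p ∈ JJ) :
    ‖B2 lam F2 x p‖ ≤ C * Real.sin p ^ (a - 1) := by
  have hs := JJ.sin_pos hp
  have hc := Real.rpow_nonneg (JJ.cos_pos hp).le (lam + 1)
  have hsa := Real.rpow_nonneg hs.le (a - 1)
  unfold B2
  rw [norm_smul, Real.norm_of_nonneg (mul_nonneg hs.le hc)]
  calc Real.sin p * Real.cos p ^ (lam + 1) * ‖F2 (Real.sin p) (Real.cos p • x)‖
      ≤ Real.sin p * Real.cos p ^ (lam + 1) * (C * Real.sin p ^ (a - 2)) :=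
        mul_le_mul_of_nonneg_left (h.b2 _ hs _) (mul_nonneg hs.le hc)
    _ = C * (Real.sin p * Real.sin p ^ (a - 2)) * Real.cos p ^ (lam + 1) := by ring
    _ = C * Real.sin p ^ (a - 1) * Real.cos p ^ (lam + 1) := by rw [HF.rp2 hs]
    _ ≤ C * Real.sin p ^ (a - 1) * 1 :=
        mul_le_mul_of_nonneg_left (cosr_le_one (by linarith) hp) (mul_nonneg h.nn hsa)
    _ = _ := by ring

theorem B2_sub_le (h : HG a C N r F F1 F2) (hl : 0 < lam) (x y : E n) {p : ℝ} (hp : p ∈ JJ) :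
    ‖B2 lam F2 x p - B2 lam F2 y p‖ ≤ C * (Real.sin p ^ (a - 2) * ‖x - y‖) := by
  have hs := JJ.sin_pos hp
  have hcp := JJ.cos_pos hp
  have hc := Real.rpow_nonneg hcp.le (lam + 1)
  have hsa := Real.rpow_nonneg hs.le (a - 2)
  unfold B2
  rw [← smul_sub, norm_smul, Real.norm_of_nonneg (mul_nonneg hs.le hc)]
  have h1 := h.b3 _ hs (Real.cos p • x) (Real.cos p • y)
  rw [← smul_sub, norm_smul, Real.norm_of_nonneg hcp.le] at h1
  have h3 : Real.cos p * ‖x - y‖ ≤ ‖x - y‖ :=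
    mul_le_of_le_one_left (norm_nonneg _) (Real.cos_le_one p)
  have h4 : Real.cos p ^ (lam + 1) * (Real.cos p * ‖x - y‖) ≤ 1 * ‖x - y‖ :=
    mul_le_mul (cosr_le_one (by linarith) hp) h3 (by positivity) zero_le_one
  calc Real.sin p * Real.cos p ^ (lam + 1) *
        ‖F2 (Real.sin p) (Real.cos p • x) - F2 (Real.sin p) (Real.cos p • y)‖
      ≤ Real.sin p * Real.cos p ^ (lam + 1) * (C * Real.sin p ^ (a - 3) * (Real.cos p * ‖x - y‖)) :=
        mul_le_mul_of_nonneg_left h1 (mul_nonneg hs.le hc)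
    _ = C * (Real.sin p * Real.sin p ^ (a - 3)) *
        (Real.cos p ^ (lam + 1) * (Real.cos p * ‖x - y‖)) := by ring
    _ = C * Real.sin p ^ (a - 2) *
        (Real.cos p ^ (lam + 1) * (Real.cos p * ‖x - y‖)) := by rw [HF.rp3 hs]
    _ ≤ C * Real.sin p ^ (a - 2) * (1 * ‖x - y‖) :=
        mul_le_mul_of_nonneg_left h4 (mul_nonneg h.nn hsa)
    _ = _ := by ring

theorem cosr_cont (b : ℝ) : ContinuousOn (fun p : ℝ => Real.cos p ^ b) JJ := by
  intro p hp
  exact ((Real.continuous_cos.continuousAt).rpow_const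
    (Or.inl (JJ.cos_pos hp).ne')).continuousWithinAt

theorem B0_cont (h : HG a C N r F F1 F2) (x : E n) : ContinuousOn (B0 lam F x) JJ := by
  unfold B0
  refine ContinuousOn.mul (Real.continuous_sin.continuousOn.mul (cosr_cont _)) ?_
  exact (h.cF.comp (HF.cont_curve x)).continuousOn

theorem B1_cont (h : HG a C N r F F1 F2) (x : E n) : ContinuousOn (B1 lam F1 x) JJ := by
  unfold B1
  refine ContinuousOn.smul (Real.continuous_sin.continuousOn.mul (cosr_cont _)) ?_
  exact h.c1.comp (HF.cont_curve x).continuousOn fun p hp => ⟨JJ.sin_pos hp, mem_univ _⟩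

theorem B2_cont (h : HG a C N r F F1 F2) (x : E n) : ContinuousOn (B2 lam F2 x) JJ := by
  unfold B2
  refine ContinuousOn.smul (Real.continuous_sin.continuousOn.mul (cosr_cont _)) ?_
  exact h.c2.comp (HF.cont_curve x).continuousOn fun p hp => ⟨JJ.sin_pos hp, mem_univ _⟩

theorem int_one_JJ : IntegrableOn (fun _ : ℝ => (1 : ℝ)) JJ := by
  have : volume JJ < ⊤ := by unfold JJ; simp
  exact integrableOn_const this.ne

theorem vol_JJ : ∫ _ in JJ, (1 : ℝ) = Real.pi / 2 := by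
  have hpi := Real.pi_pos
  unfold JJ
  rw [← integral_Ioc_eq_integral_Ioo, ← intervalIntegral.integral_of_le (by positivity)]
  simp

theorem B0_int (h : HG a C N r F F1 F2) (hl : 0 < lam) (x : E n) :
    IntegrableOn (B0 lam F x) JJ := by
  refine Integrable.mono' ((integrableOn_cos_rpow (b := lam - 1) (by linarith)).const_mul N)
    ((h.B0_cont x).aestronglyMeasurable measurableSet_JJ) ?_
  filter_upwards [ae_restrict_mem measurableSet_JJ] with p hp
  exact h.B0_le x hp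

theorem B1_int (h : HG a C N r F F1 F2) (ha : 0 < a) (hl : 0 < lam) (x : E n) :
    IntegrableOn (B1 lam F1 x) JJ := by
  refine Integrable.mono' (int_one_JJ.const_mul C)
    ((h.B1_cont x).aestronglyMeasurable measurableSet_JJ) ?_
  filter_upwards [ae_restrict_mem measurableSet_JJ] with p hp
  simpa using h.B1_le ha hl x hp

theorem B2_int (h : HG a C N r F F1 F2) (ha : 0 < a) (ha1 : a < 1) (hl : 0 < lam) (x : E n) :
    IntegrableOn (B2 lam F2 x) JJ := by
  refine Integrable.mono' ((integrableOn_sin_rpow ha ha1).const_mul C)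
    ((h.B2_cont x).aestronglyMeasurable measurableSet_JJ) ?_
  filter_upwards [ae_restrict_mem measurableSet_JJ] with p hp
  exact h.B2_le hl x hp

theorem B0_deriv (h : HG a C N r F F1 F2) (x : E n) {p : ℝ} (hp : p ∈ JJ) :
    HasFDerivAt (fun x => B0 lam F x p) (B1 lam F1 x p) x := by
  have hs := JJ.sin_pos hp
  have hc := JJ.cos_pos hp
  have h1 : HasFDerivAt (fun x : E n => F (Real.sin p) (Real.cos p • x))
      ((F1 (Real.sin p) (Real.cos p • x)).comp (Real.cos p • ContinuousLinearMap.id ℝ (E n))) x :=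
    (h.d1 _ hs _).comp x ((hasFDerivAt_id x).const_smul (Real.cos p))
  have h2 := h1.const_mul (Real.sin p * Real.cos p ^ (lam - 1))
  refine h2.congr_fderiv ?_
  unfold B1
  have e := HF.rp1 hc lam
  ext v
  simp only [smul_apply, ContinuousLinearMap.comp_apply,
    ContinuousLinearMap.id_apply, map_smul, smul_eq_mul]
  rw [← e]; ring

theorem B1_deriv (h : HG a C N r F F1 F2) (x : E n) {p : ℝ} (hp : p ∈ JJ) :
    HasFDerivAt (fun x => B1 lam F1 x p) (B2 lam F2 x p) x := by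
  have hs := JJ.sin_pos hp
  have hc := JJ.cos_pos hp
  have h1 : HasFDerivAt (fun x : E n => F1 (Real.sin p) (Real.cos p • x))
      ((F2 (Real.sin p) (Real.cos p • x)).comp (Real.cos p • ContinuousLinearMap.id ℝ (E n))) x :=
    (h.d2 _ hs _).comp x ((hasFDerivAt_id x).const_smul (Real.cos p))
  have h2 := h1.const_smul (Real.sin p * Real.cos p ^ lam)
  refine h2.congr_fderiv ?_
  unfold B2
  have e := HF.rp1 hc (lam + 1)
  rw [show lam + 1 - 1 = lam by ring] at e
  ext v w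
  simp only [smul_apply, ContinuousLinearMap.comp_apply,
    ContinuousLinearMap.id_apply, map_smul, smul_eq_mul]
  rw [← e]; ring

/-- the three integrals -/
noncomputable def V0 (lam : ℝ) (F : ℝ → E n → ℝ) (x : E n) : ℝ := - ∫ p in JJ, B0 lam F x p

noncomputable def V1 (lam : ℝ) (F1 : ℝ → E n → (E n →L[ℝ] ℝ)) (x : E n) : E n →L[ℝ] ℝ :=
  - ∫ p in JJ, B1 lam F1 x p

noncomputable def V2 (lam : ℝ) (F2 : ℝ → E n → (E n →L[ℝ] E n →L[ℝ] ℝ)) (x : E n) :
    E n →L[ℝ] E n →L[ℝ] ℝ := - ∫ p in JJ, B2 lam F2 x p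

theorem V0_deriv (h : HG a C N r F F1 F2) (ha : 0 < a) (hl : 0 < lam) (x : E n) :
    HasFDerivAt (V0 lam F) (V1 lam F1 x) x := by
  have h1 := hasFDerivAt_integral_of_dominated_of_fderiv_le (𝕜 := ℝ)
    (μ := volume.restrict JJ) (F := fun x p => B0 lam F x p) (F' := fun x p => B1 lam F1 x p)
    (x₀ := x) (s := Metric.ball x 1) (bound := fun _ => C * 1)
    (Metric.ball_mem_nhds x one_pos)
    (Eventually.of_forall fun y => (h.B0_cont y).aestronglyMeasurable measurableSet_JJ)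
    (h.B0_int hl x) ((h.B1_cont x).aestronglyMeasurable measurableSet_JJ)
    (by
      filter_upwards [ae_restrict_mem measurableSet_JJ] with p hp y hy
      simpa using h.B1_le ha hl y hp)
    (int_one_JJ.const_mul C)
    (by
      filter_upwards [ae_restrict_mem measurableSet_JJ] with p hp y _
      exact h.B0_deriv y hp)
  exact h1.neg

theorem V1_deriv (h : HG a C N r F F1 F2) (ha : 0 < a) (ha1 : a < 1) (hl : 0 < lam) (x : E n) :
    HasFDerivAt (V1 lam F1) (V2 lam F2 x) x := by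
  have h1 := hasFDerivAt_integral_of_dominated_of_fderiv_le (𝕜 := ℝ)
    (μ := volume.restrict JJ) (F := fun x p => B1 lam F1 x p) (F' := fun x p => B2 lam F2 x p)
    (x₀ := x) (s := Metric.ball x 1) (bound := fun p => C * Real.sin p ^ (a - 1))
    (Metric.ball_mem_nhds x one_pos)
    (Eventually.of_forall fun y => (h.B1_cont y).aestronglyMeasurable measurableSet_JJ)
    (h.B1_int ha hl x) ((h.B2_cont x).aestronglyMeasurable measurableSet_JJ)
    (by
      filter_upwards [ae_restrict_mem measurableSet_JJ] with p hp y hy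
      exact h.B2_le hl y hp)
    ((integrableOn_sin_rpow ha ha1).const_mul C)
    (by
      filter_upwards [ae_restrict_mem measurableSet_JJ] with p hp y _
      exact h.B1_deriv y hp)
  exact h1.neg

theorem V0_bd (h : HG a C N r F F1 F2) (hl : 0 < lam) (x : E n) :
    |V0 lam F x| ≤ N * cl lam := by
  unfold V0 cl
  rw [abs_neg, ← integral_const_mul, ← Real.norm_eq_abs]
  refine norm_integral_le_of_norm_le
    ((integrableOn_cos_rpow (b := lam - 1) (by linarith)).const_mul N) ?_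
  filter_upwards [ae_restrict_mem measurableSet_JJ] with p hp
  exact h.B0_le x hp

theorem V0_hol (h : HG a C N r F F1 F2) (ha : 0 < a) (hl : 0 < lam) (x y : E n) :
    |V0 lam F x - V0 lam F y| ≤ N * cl lam * ‖x - y‖ ^ a := by
  have e : V0 lam F x - V0 lam F y = - ∫ p in JJ, (B0 lam F x p - B0 lam F y p) := by
    unfold V0
    rw [integral_sub (h.B0_int hl x) (h.B0_int hl y)]; ring
  have e2 : N * cl lam * ‖x - y‖ ^ a
      = ∫ p in JJ, N * ‖x - y‖ ^ a * Real.cos p ^ (lam - 1) := by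
    rw [integral_const_mul, cl]; ring
  rw [e, abs_neg, ← Real.norm_eq_abs, e2]
  refine norm_integral_le_of_norm_le
    ((integrableOn_cos_rpow (b := lam - 1) (by linarith)).const_mul _) ?_
  filter_upwards [ae_restrict_mem measurableSet_JJ] with p hp
  exact h.B0_sub_le ha x y hp

theorem V1_bd (h : HG a C N r F F1 F2) (ha : 0 < a) (hl : 0 < lam) (x : E n) :
    ‖V1 lam F1 x‖ ≤ C * (Real.pi / 2) := by
  unfold V1
  rw [norm_neg, ← vol_JJ, ← integral_const_mul]
  refine norm_integral_le_of_norm_le (int_one_JJ.const_mul C) ?_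
  filter_upwards [ae_restrict_mem measurableSet_JJ] with p hp
  simpa using h.B1_le ha hl x hp

theorem V2_hol (h : HG a C N r F F1 F2) (ha : 0 < a) (ha1 : a < 1) (hl : 0 < lam) (x y : E n) :
    ‖V2 lam F2 x - V2 lam F2 y‖ ≤ C * cg a * ‖x - y‖ ^ a := by
  by_cases hxy : x = y
  · subst hxy; simp [Real.zero_rpow ha.ne']
  have hδ : 0 < ‖x - y‖ := norm_pos_iff.2 (sub_ne_zero.2 hxy)
  have e : V2 lam F2 x - V2 lam F2 y = - ∫ p in JJ, (B2 lam F2 x p - B2 lam F2 y p) := by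
    unfold V2
    rw [integral_sub (h.B2_int ha ha1 hl x) (h.B2_int ha ha1 hl y)]; abel
  rw [e, norm_neg]
  refine split_bound ha ha1 h.nn hδ (fun p hp => ?_) (fun p hp => h.B2_sub_le hl x y hp)
  refine (norm_sub_le _ _).trans ?_
  have h1 := h.B2_le hl x hp
  have h2 := h.B2_le hl y hp
  linarith

theorem V2_bd (h : HG a C N r F F1 F2) (ha : 0 < a) (ha1 : a < 1) (hl : 0 < lam) (x : E n) :
    ‖V2 lam F2 x‖ ≤ C * HF.cs a := by
  unfold V2 HF.cs
  rw [norm_neg, ← integral_const_mul]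
  refine norm_integral_le_of_norm_le ((integrableOn_sin_rpow ha ha1).const_mul C) ?_
  filter_upwards [ae_restrict_mem measurableSet_JJ] with p hp
  exact h.B2_le hl x hp

/-- the primitive -/
noncomputable def PP (lam : ℝ) (F : ℝ → E n → ℝ) (x : E n) (p : ℝ) : ℝ :=
  Real.cos p ^ lam * F (Real.sin p) (Real.cos p • x)

theorem PP_cont (h : HG a C N r F F1 F2) (hl : 0 < lam) (x : E n) : Continuous (PP lam F x) := by
  unfold PP
  exact (Real.continuous_cos.rpow_const fun _ => Or.inr hl.le).mul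
    (h.cF.comp (HF.cont_curve x))

theorem PP_deriv (h : HG a C N r F F1 F2) (x : E n) {p : ℝ} (hp : p ∈ JJ) :
    HasDerivAt (PP lam F x) (trB (B2 lam F2 x p) - B1 lam F1 x p x - lam * B0 lam F x p) p := by
  have hs := JJ.sin_pos hp
  have hc := JJ.cos_pos hp
  have h1 := h.dp x p hp
  have h2 : HasDerivAt (fun p : ℝ => Real.cos p ^ lam) (-Real.sin p * lam * Real.cos p ^ (lam - 1)) p :=
    (Real.hasDerivAt_cos p).rpow_const (Or.inl hc.ne')
  have h3 := h2.mul h1
  refine h3.congr_deriv ?_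
  have e1 : trB (B2 lam F2 x p)
      = Real.sin p * Real.cos p ^ (lam + 1) * trB (F2 (Real.sin p) (Real.cos p • x)) := by
    simp only [trB, B2, smul_apply, smul_eq_mul, Finset.mul_sum]
  have e := HF.rp1 hc (lam + 1)
  rw [show lam + 1 - 1 = lam by ring] at e
  rw [e1]
  simp only [B1, B0, smul_apply, smul_eq_mul]
  rw [← e]; ring

theorem pde (h : HG a C N r F F1 F2) (ha : 0 < a) (ha1 : a < 1) (hl : 0 < lam) (x : E n) :
    trB (V2 lam F2 x) - V1 lam F1 x x - lam * V0 lam F x = r x := by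
  have hpi : (0 : ℝ) ≤ Real.pi / 2 := by positivity
  obtain ⟨i1, e1⟩ := HF.trB_int (h.B2_int ha ha1 hl x)
  have i3 := h.B1_int ha hl x
  have i3' : IntegrableOn (fun p => B1 lam F1 x p x) JJ :=
    (ContinuousLinearMap.apply ℝ ℝ x).integrable_comp i3
  have i4 := h.B0_int hl x
  have i4' : IntegrableOn (fun p => lam * B0 lam F x p) JJ := i4.const_mul lam
  have i5 : IntegrableOn
      (fun p => trB (B2 lam F2 x p) - B1 lam F1 x p x - lam * B0 lam F x p) JJ :=
    (i1.sub i3').sub i4'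
  have h1 := intervalIntegral.integral_eq_sub_of_hasDerivAt_of_le hpi (h.PP_cont hl x).continuousOn
    (fun p hp => h.PP_deriv x (show p ∈ JJ from hp))
    ((intervalIntegrable_iff_integrableOn_Ioo_of_le hpi).2 i5)
  rw [intervalIntegral.integral_of_le hpi, integral_Ioc_eq_integral_Ioo] at h1
  have h2 : ∫ p in JJ, (trB (B2 lam F2 x p) - B1 lam F1 x p x - lam * B0 lam F x p)
      = trB (∫ p in JJ, B2 lam F2 x p) - (∫ p in JJ, B1 lam F1 x p) x
        - lam * ∫ p in JJ, B0 lam F x p := by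
    have j1 : IntegrableOn (fun p => trB (B2 lam F2 x p) - B1 lam F1 x p x) JJ := i1.sub i3'
    rw [integral_sub j1 i4', integral_sub i1 i3', e1, ContinuousLinearMap.integral_apply i3,
      integral_const_mul]
  have h3 : ∫ p in JJ, (trB (B2 lam F2 x p) - B1 lam F1 x p x - lam * B0 lam F x p)
      = PP lam F x (Real.pi / 2) - PP lam F x 0 := h1
  rw [h2] at h3
  have h4 : PP lam F x (Real.pi / 2) = 0 := by simp [PP, Real.zero_rpow hl.ne']
  have h5 : PP lam F x 0 = r x := by simp [PP, h.zero]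
  rw [h4, h5] at h3
  have tn : ∀ B : E n →L[ℝ] E n →L[ℝ] ℝ, trB (-B) = - trB B := by
    intro B; simp [trB]
  simp only [V2, V1, V0, tn, neg_apply]
  linarith

end HG

/-- bounded + Lipschitz implies Hölder -/
theorem hol_of_lip {a A B d t : ℝ} (ha : 0 < a) (ha1 : a < 1) (hA : 0 ≤ A) (hB : 0 ≤ B)
    (ht : 0 ≤ t) (h1 : d ≤ A) (h2 : d ≤ B * t) : d ≤ (A + B) * t ^ a := by
  have h0 : 0 ≤ t ^ a := Real.rpow_nonneg ht a
  rcases le_total t 1 with h | h
  · have h3 : t ≤ t ^ a := by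
      rcases ht.eq_or_lt with h0 | h0
      · rw [← h0]; exact Real.rpow_nonneg le_rfl a
      · calc t = t ^ (1 : ℝ) := (Real.rpow_one _).symm
          _ ≤ t ^ a := Real.rpow_le_rpow_of_exponent_ge h0 h ha1.le
    calc d ≤ B * t := h2
      _ ≤ B * t ^ a := mul_le_mul_of_nonneg_left h3 hB
      _ ≤ (A + B) * t ^ a := mul_le_mul_of_nonneg_right (by linarith) h0
  · have h3 : 1 ≤ t ^ a := Real.one_le_rpow h ha.le
    calc d ≤ A * 1 := by linarith
      _ ≤ (A + B) * t ^ a := mul_le_mul (by linarith) h3 zero_le_one (by linarith)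

namespace HG

variable {a C N lam : ℝ} {r : E n → ℝ} {F : ℝ → E n → ℝ}
  {F1 : ℝ → E n → (E n →L[ℝ] ℝ)} {F2 : ℝ → E n → (E n →L[ℝ] E n →L[ℝ] ℝ)}

/-- RESULT of the abstract part -/
theorem sol (h : HG a C N r F F1 F2) (ha : 0 < a) (ha1 : a < 1) (hl : 0 < lam) :
    ∃ v : E n → ℝ, ContDiff ℝ 2 v ∧ HB a (N * cl lam) v ∧
      (∀ i, HB a (C * (Real.pi + HF.cs a)) (fun x => fderiv ℝ v x (ee i))) ∧
      (∀ i j, HB a (C * (HF.cs a + cg a)) (fun x => Hs v x i j)) ∧
      ∀ x, LA (fun _ => (1 : Matrix (Fin n) (Fin n) ℝ)) v x - lam * v x = r x := by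
  set v := V0 lam F with hv
  have d0 : ∀ x, HasFDerivAt v (V1 lam F1 x) x := fun x => h.V0_deriv ha hl x
  have d1 : ∀ x, HasFDerivAt (V1 lam F1) (V2 lam F2 x) x := fun x => h.V1_deriv ha ha1 hl x
  have f0 : fderiv ℝ v = V1 lam F1 := funext fun x => (d0 x).fderiv
  have f1 : fderiv ℝ (V1 lam F1) = V2 lam F2 := funext fun x => (d1 x).fderiv
  have hcs := HF.cs_nonneg a
  have hcg := cg_pos ha ha1
  have hpi := Real.pi_pos
  have hH : ∀ x i j, Hs v x i j = V2 lam F2 x (ee i) (ee j) := by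
    intro x i j
    simp only [Hs, f0, f1]
  have c2 : Continuous (V2 lam F2) := by
    rw [continuous_iff_continuousAt]
    intro x
    have t1 : Tendsto (fun y : E n => C * cg a * ‖y - x‖ ^ a) (𝓝 x) (𝓝 0) := by
      have t2 : Continuous fun y : E n => C * cg a * ‖y - x‖ ^ a :=
        continuous_const.mul ((continuous_norm.comp
          (continuous_id.sub continuous_const)).rpow_const fun _ => Or.inr ha.le)
      have t3 := t2.tendsto x
      simpa [Real.zero_rpow ha.ne'] using t3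
    rw [ContinuousAt, tendsto_iff_norm_sub_tendsto_zero]
    exact squeeze_zero (fun _ => norm_nonneg _) (fun y => h.V2_hol ha ha1 hl y x) t1
  have hne : ∀ i : Fin n, ‖(ee i : E n)‖ = 1 := fun i => by simp
  have hap : ∀ (B : E n →L[ℝ] E n →L[ℝ] ℝ) (i j : Fin n), |B (ee i) (ee j)| ≤ ‖B‖ := by
    intro B i j
    have := B.le_opNorm₂ (ee i : E n) (ee j)
    rwa [hne, hne, mul_one, mul_one] at this
  have hap1 : ∀ (B : E n →L[ℝ] ℝ) (i : Fin n), |B (ee i)| ≤ ‖B‖ := by
    intro B i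
    have := B.le_opNorm (ee i : E n)
    rwa [hne, mul_one] at this
  refine ⟨v, ?_, ⟨fun x => h.V0_bd hl x, fun x y => h.V0_hol ha hl x y⟩,
    fun i => ⟨fun x => ?_, fun x y => ?_⟩, fun i j => ⟨fun x => ?_, fun x y => ?_⟩, fun x => ?_⟩
  · have e : (2 : WithTop ℕ∞) = (1 : ℕ) + 1 := by norm_num
    rw [e, contDiff_succ_iff_hasFDerivAt]
    refine ⟨V1 lam F1, ?_, d0⟩
    exact_mod_cast contDiff_one_iff_hasFDerivAt.2 ⟨V2 lam F2, c2, d1⟩
  · show |fderiv ℝ v x (ee i)| ≤ _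
    rw [f0]
    refine (hap1 _ i).trans ((h.V1_bd ha hl x).trans ?_)
    exact mul_le_mul_of_nonneg_left (by linarith) h.nn
  · show |fderiv ℝ v x (ee i) - fderiv ℝ v y (ee i)| ≤ _
    rw [f0, ← sub_apply]
    refine (hap1 _ i).trans ?_
    have l1 : ‖V1 lam F1 x - V1 lam F1 y‖ ≤ C * Real.pi := by
      refine (norm_sub_le _ _).trans ?_
      have := h.V1_bd ha hl x
      have := h.V1_bd ha hl y
      linarith
    have l2 : ‖V1 lam F1 x - V1 lam F1 y‖ ≤ C * HF.cs a * ‖x - y‖ :=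
      (convex_univ (𝕜 := ℝ) (E := E n)).norm_image_sub_le_of_norm_hasFDerivWithin_le
        (f := V1 lam F1) (f' := V2 lam F2) (C := C * HF.cs a)
        (fun x _ => (d1 x).hasFDerivWithinAt) (fun x _ => h.V2_bd ha ha1 hl x) (mem_univ y)
        (mem_univ x)
    have l3 := hol_of_lip ha ha1 (mul_nonneg h.nn hpi.le) (mul_nonneg h.nn hcs)
      (norm_nonneg (x - y)) l1 l2
    rwa [← mul_add] at l3
  · show |Hs v x i j| ≤ _
    rw [hH]
    refine (hap _ i j).trans ((h.V2_bd ha ha1 hl x).trans ?_)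
    exact mul_le_mul_of_nonneg_left (by linarith) h.nn
  · show |Hs v x i j - Hs v y i j| ≤ _
    rw [hH, hH]
    have e : V2 lam F2 x (ee i) (ee j) - V2 lam F2 y (ee i) (ee j)
        = (V2 lam F2 x - V2 lam F2 y) (ee i) (ee j) := by
      simp
    rw [e]
    refine (hap _ i j).trans ((h.V2_hol ha ha1 hl x y).trans ?_)
    refine mul_le_mul_of_nonneg_right ?_ (Real.rpow_nonneg (norm_nonneg _) _)
    exact mul_le_mul_of_nonneg_left (by linarith) h.nn
  · have e1 : ∑ i, ∑ j, (1 : Matrix (Fin n) (Fin n) ℝ) i j * Hs v x i j = trB (V2 lam F2 x) := by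
      unfold trB
      refine Finset.sum_congr rfl fun i _ => ?_
      rw [Finset.sum_eq_single i]
      · rw [Matrix.one_apply_eq, one_mul, hH]
      · intro j _ hj
        rw [Matrix.one_apply_ne (Ne.symm hj), zero_mul]
      · intro hi; exact absurd (Finset.mem_univ i) hi
    unfold LA
    rw [e1, f0]
    exact h.pde ha ha1 hl x

end HG

/-! ### the heat family -/

open Crest.Agent.R238.HolK Crest.Agent.R338.HO

theorem g0_nonneg (z : E n) : 0 ≤ g0 n z := by rw [g0_apply]; exact (Real.exp_pos _).le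

theorem FF_bd {r : E n → ℝ} (hr : Continuous r) {N : ℝ} (hN : ∀ x, |r x| ≤ N) (s : ℝ) (x : E n) :
    |FF r s x| ≤ N := by
  have hc := cn_pos n
  have hp := int_g0_pos n
  have h1 : ‖ZZ r (g0 n) s x‖ ≤ ∫ z, N * g0 n z := by
    unfold ZZ
    refine norm_integral_le_of_norm_le ((g0 n).integrable.const_mul N)
      (Eventually.of_forall fun z => ?_)
    rw [norm_smul, Real.norm_eq_abs, Real.norm_of_nonneg (g0_nonneg z)]
    exact mul_le_mul_of_nonneg_right (hN _) (g0_nonneg z)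
  rw [integral_const_mul, Real.norm_eq_abs] at h1
  unfold FF
  rw [abs_mul, abs_of_pos hc]
  calc cn n * |ZZ r (g0 n) s x| ≤ cn n * (N * ∫ z, g0 n z) := mul_le_mul_of_nonneg_left h1 hc.le
    _ = N := by rw [cn]; field_simp

theorem FF_hol {a : ℝ} {r : E n → ℝ} (hr : Continuous r) {N : ℝ} (h : HB a N r)
    (s : ℝ) (x y : E n) : |FF r s x - FF r s y| ≤ N * ‖x - y‖ ^ a := by
  have hc := cn_pos n
  have hp := int_g0_pos n
  have e : ZZ r (g0 n) s x - ZZ r (g0 n) s y
      = ∫ z, (r (x + s • z) - r (y + s • z)) • g0 n z := by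
    unfold ZZ
    rw [← integral_sub (ZZ_int hr h.1 (g0 n) s x) (ZZ_int hr h.1 (g0 n) s y)]
    refine integral_congr_ae (Eventually.of_forall fun z => ?_)
    simp only [smul_eq_mul]; ring
  have h1 : ‖ZZ r (g0 n) s x - ZZ r (g0 n) s y‖ ≤ ∫ z, (N * ‖x - y‖ ^ a) * g0 n z := by
    rw [e]
    refine norm_integral_le_of_norm_le ((g0 n).integrable.const_mul _)
      (Eventually.of_forall fun z => ?_)
    rw [norm_smul, Real.norm_eq_abs, Real.norm_of_nonneg (g0_nonneg z)]
    have h2 := h.2 (x + s • z) (y + s • z)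
    rw [add_sub_add_right_eq_sub] at h2
    exact mul_le_mul_of_nonneg_right h2 (g0_nonneg z)
  rw [integral_const_mul, Real.norm_eq_abs] at h1
  unfold FF
  rw [← mul_sub, abs_mul, abs_of_pos hc]
  calc cn n * |ZZ r (g0 n) s x - ZZ r (g0 n) s y|
      ≤ cn n * (N * ‖x - y‖ ^ a * ∫ z, g0 n z) := mul_le_mul_of_nonneg_left h1 hc.le
    _ = N * ‖x - y‖ ^ a := by rw [cn]; field_simp

theorem FF1_bound {a : ℝ} (ha : 0 < a) (ha1 : a < 1) {r : E n → ℝ} {N : ℝ} (h : HB a N r)
    {s : ℝ} (hs : 0 < s) (x : E n) : ‖FF1 r s x‖ ≤ cn n * mm a (g1 n) * N * s ^ (a - 1) := by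
  have h1 := ZZ_bound ha ha1 h (g1 n) (int_fderiv_zero (g0 n)) hs x
  have hi : 0 < s⁻¹ := by positivity
  have hc := cn_pos n
  have e : s⁻¹ * s ^ a = s ^ (a - 1) := by rw [Real.rpow_sub hs, Real.rpow_one]; field_simp
  unfold FF1
  rw [norm_neg, norm_smul, Real.norm_of_nonneg (by positivity), ← e]
  calc cn n * s⁻¹ * ‖ZZ r (g1 n) s x‖
      ≤ cn n * s⁻¹ * (mm a (g1 n) * N * s ^ a) :=
        mul_le_mul_of_nonneg_left h1 (by positivity)
    _ = _ := by ring

/-- constant of the heat family -/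
noncomputable def KH (n : ℕ) (a : ℝ) : ℝ :=
  cn n * (mm a (g1 n) + mm a (g2 n) + mm a (g3 n))

theorem KH_nonneg (n : ℕ) (a : ℝ) : 0 ≤ KH n a := by
  have h1 := mm_nonneg a (g1 n : E n → _)
  have h2 := mm_nonneg a (g2 n : E n → _)
  have h3 := mm_nonneg a (g3 n : E n → _)
  have hc := cn_pos n
  unfold KH; positivity

/-- the facts `HG` for the heat family -/
theorem HG_heat {a : ℝ} (ha : 0 < a) (ha1 : a < 1) {r : E n → ℝ} {N : ℝ} (h : HB a N r) :
    HG a (KH n a * N) N r (FF r) (FF1 r) (FF2 r) := by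
  have hN : 0 ≤ N := (abs_nonneg _).trans (h.1 0)
  have m1 := mm_nonneg a (g1 n : E n → _)
  have m2 := mm_nonneg a (g2 n : E n → _)
  have m3 := mm_nonneg a (g3 n : E n → _)
  have hc := cn_pos n
  have hcont := h.continuous ha
  refine
  { nn := mul_nonneg (KH_nonneg n a) hN
    nN := hN
    zero := fun x => FF_zero x
    d1 := fun s hs x => FF_deriv hcont h.1 hs x
    d2 := fun s hs x => FF1_deriv hcont h.1 hs x
    b0 := fun s x => FF_bd hcont h.1 s x
    h0 := fun s x y => FF_hol hcont h s x y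
    b1 := fun s hs x => ?_
    b2 := fun s hs x => ?_
    b3 := fun s hs x y => ?_
    cF := continuous_const.mul (ZZ_cont hcont h.1 (g0 n))
    c1 := ?_
    c2 := ?_
    dp := fun x p hp => FF_angle hcont h.1 x hp }
  · refine (FF1_bound ha ha1 h hs x).trans (mul_le_mul_of_nonneg_right ?_
      (Real.rpow_nonneg hs.le _))
    unfold KH
    refine mul_le_mul_of_nonneg_right (mul_le_mul_of_nonneg_left ?_ hc.le) hN
    linarith
  · refine (FF2_bound ha ha1 h hs x).trans (mul_le_mul_of_nonneg_right ?_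
      (Real.rpow_nonneg hs.le _))
    unfold KH
    refine mul_le_mul_of_nonneg_right (mul_le_mul_of_nonneg_left ?_ hc.le) hN
    linarith
  · have h1 := (convex_univ (𝕜 := ℝ) (E := E n)).norm_image_sub_le_of_norm_hasFDerivWithin_le
      (f := FF2 r s) (C := cn n * mm a (g3 n) * N * s ^ (a - 3))
      (fun x _ => (FF2_deriv hcont h.1 hs x).hasFDerivWithinAt)
      (fun x _ => FF3_bound ha ha1 h hs x) (mem_univ y) (mem_univ x)
    refine h1.trans (mul_le_mul_of_nonneg_right (mul_le_mul_of_nonneg_right ?_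
      (Real.rpow_nonneg hs.le _)) (norm_nonneg _))
    unfold KH
    refine mul_le_mul_of_nonneg_right (mul_le_mul_of_nonneg_left ?_ hc.le) hN
    linarith
  · have h1 : ContinuousOn (fun q : ℝ × E n => q.1⁻¹) (Ioi 0 ×ˢ univ) :=
      continuousOn_fst.inv₀ fun q hq => (ne_of_gt hq.1)
    have h2 : ContinuousOn (fun q : ℝ × E n => cn n * q.1⁻¹) (Ioi 0 ×ˢ univ) :=
      continuousOn_const.mul h1
    exact (h2.smul (ZZ_cont hcont h.1 (g1 n)).continuousOn).neg
  · have h1 : ContinuousOn (fun q : ℝ × E n => q.1⁻¹) (Ioi 0 ×ˢ univ) :=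
      continuousOn_fst.inv₀ fun q hq => (ne_of_gt hq.1)
    have h2 : ContinuousOn (fun q : ℝ × E n => cn n * (q.1⁻¹ * q.1⁻¹)) (Ioi 0 ×ˢ univ) :=
      continuousOn_const.mul (h1.mul h1)
    exact h2.smul (ZZ_cont hcont h.1 (g2 n)).continuousOn

theorem HB_mono {a M M' : ℝ} {f : E n → ℝ} (h : HB a M f) (hM : M ≤ M') : HB a M' f :=
  ⟨fun x => (h.1 x).trans hM, fun x y => (h.2 x y).trans
    (mul_le_mul_of_nonneg_right hM (Real.rpow_nonneg (norm_nonneg _) a))⟩

/-- **B1 = SolB**: the solution operator of `L₀ - lam` on all bounded Hölder functions. -/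
theorem solB (n : ℕ) (a lam : ℝ) (ha : 0 < a) (ha1 : a < 1) (hl : 0 < lam) :
    ∃ C : ℝ, 0 < C ∧ ∀ (r : E n → ℝ) (N : ℝ), HB a N r → ∃ v : E n → ℝ, ContDiff ℝ 2 v ∧
      HB a (C * N) v ∧ (∀ i, HB a (C * N) (fun x => fderiv ℝ v x (ee i))) ∧
      (∀ i j, HB a (C * N) (fun x => Hs v x i j)) ∧
      ∀ x, LA (fun _ => (1 : Matrix (Fin n) (Fin n) ℝ)) v x - lam * v x = r x := by
  have hcg := (cg_pos ha ha1).le
  have hcs := HF.cs_nonneg a
  have hcl := cl_nonneg lam
  have hK := KH_nonneg n a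
  have hpi := Real.pi_pos
  have p1 : 0 ≤ KH n a * Real.pi := mul_nonneg hK hpi.le
  have p2 : 0 ≤ KH n a * HF.cs a := mul_nonneg hK hcs
  have p3 : 0 ≤ KH n a * cg a := mul_nonneg hK hcg
  refine ⟨1 + cl lam + KH n a * (Real.pi + HF.cs a + cg a), by nlinarith, ?_⟩
  intro r N h
  have hN : 0 ≤ N := (abs_nonneg _).trans (h.1 0)
  obtain ⟨v, hv1, hv2, hv3, hv4, hv5⟩ := (HG_heat ha ha1 h).sol ha ha1 hl
  refine ⟨v, hv1, HB_mono hv2 ?_, fun i => HB_mono (hv3 i) ?_, fun i j => HB_mono (hv4 i j) ?_,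
    hv5⟩
  · rw [mul_comm]
    exact mul_le_mul_of_nonneg_right (by nlinarith) hN
  · rw [mul_right_comm]
    exact mul_le_mul_of_nonneg_right (by nlinarith) hN
  · rw [mul_right_comm]
    exact mul_le_mul_of_nonneg_right (by nlinarith) hN

end Crest.Agent.R253.Sol706
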