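import Crest.Agent.R253.SolB_706
import Crest.Agent.R253.BrDefs_505

/-!
Row 253, T6 node B1 (helper706): **`solB_706 : SolB`** in the literal form of `BrDefs_505`.
-/

set_option autoImplicit false

namespace Crest.Agent.R253.Br

open Crest.Agent.R238

/-- **B1** -/
theorem solB_706 : SolB := by
  intro n a lam ha ha1 hl
  obtain ⟨C, hC, h⟩ := Sol706.solB n a lam ha ha1 hl
  refine ⟨C, hC, fun r N hr => ?_⟩
  obtain ⟨v, h1, h2, h3, h4, h5⟩ := h r N hr
  exact ⟨v, ⟨h1, h2, h3, h4⟩, h5⟩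

end Crest.Agent.R253.Br
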