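import Crest.Agent.R253.Spine_973

/-!
# R253: the skeleton with weights (helper973)

`spineP`: dual form of `log det X` with the constant matrix `P = Cᵀ C`, multiplier `U (1 - S) U`.
`spineK`: `P = 1 + κ`, `S = κ` (696's form).
-/

set_option autoImplicit false

open MeasureTheory ProbabilityTheory Real Set Filter Topology
open scoped ContDiff

noncomputable section

namespace Crest.Agent.R253.Meh74

open Crest.Agent.R238.Gap Crest.Agent.R238.GapPoinc Crest.Agent.R238.GapPc

variable {n : ℕ}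

/-- left multiplication by a constant matrix -/
def LM (C : Fin n → Fin n → ℝ) (A : Fld n) : Fld n := fun i j x => ∑ p, C i p * A p j x

/-- `tr P A Bᵀ` -/
def wip (P : Fin n → Fin n → ℝ) (A B : Fld n) (x : E n) : ℝ :=
  ∑ p, ∑ q, P p q * ∑ j, A p j x * B q j x

/-- the field of `k`-th derivatives -/
def dk (k : Fin n) (A : Fld n) : Fld n := fun i j => pd k (A i j)

/-- difference of fields -/
def sbf (A B : Fld n) : Fld n := fun i j x => A i j x - B i j x

/-- `CᵀC` -/
def ctc (C : Fin n → Fin n → ℝ) (p q : Fin n) : ℝ := ∑ i, C i p * C i q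

lemma c1_LM {C : Fin n → Fin n → ℝ} {A : Fld n} (hA : ∀ i j, C1 (A i j)) (i j : Fin n) :
    C1 (LM C A i j) := C1.sum fun p _ => (hA p j).smul (C i p)

lemma cg_LM {C : Fin n → Fin n → ℝ} {A : Fld n} (hA : ∀ i j, CG (A i j)) (i j : Fin n) :
    CG (LM C A i j) := CG.sum fun p _ => (hA p j).smul (C i p)

lemma cg_wip {P : Fin n → Fin n → ℝ} {A B : Fld n} (hA : ∀ i j, CG (A i j))
    (hB : ∀ i j, CG (B i j)) : CG (wip P A B) :=
  CG.sum fun p _ => CG.sum fun q _ => (CG.sum fun j _ => (hA p j).mul (hB q j)).smul (P p q)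

lemma ip_LM (C : Fin n → Fin n → ℝ) (A B : Fld n) (x : E n) :
    ip (LM C A) (LM C B) x = wip (ctc C) A B x := by
  unfold ip LM wip ctc
  calc (∑ i, ∑ j, (∑ p, C i p * A p j x) * ∑ q, C i q * B q j x)
      = ∑ i, ∑ j, ∑ p, ∑ q, C i p * C i q * (A p j x * B q j x) := by
        refine Finset.sum_congr rfl fun i _ => Finset.sum_congr rfl fun j _ => ?_
        rw [Finset.sum_mul_sum]
        exact Finset.sum_congr rfl fun p _ => Finset.sum_congr rfl fun q _ => by ring
    _ = ∑ p, ∑ q, ∑ i, ∑ j, C i p * C i q * (A p j x * B q j x) := by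
        rw [Finset.sum_congr rfl fun i _ => Finset.sum_comm]
        rw [Finset.sum_comm]
        refine Finset.sum_congr rfl fun p _ => ?_
        rw [Finset.sum_congr rfl fun i _ => Finset.sum_comm]
        rw [Finset.sum_comm]
    _ = ∑ p, ∑ q, (∑ i, C i p * C i q) * ∑ j, A p j x * B q j x := by
        refine Finset.sum_congr rfl fun p _ => Finset.sum_congr rfl fun q _ => ?_
        rw [Finset.sum_mul]
        exact Finset.sum_congr rfl fun i _ => by rw [Finset.mul_sum]

lemma hs2_LM (C : Fin n → Fin n → ℝ) (A : Fld n) (x : E n) :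
    hs2 (LM C A) x = wip (ctc C) A A x := by
  rw [← ip_LM]
  unfold hs2 ip
  exact Finset.sum_congr rfl fun i _ => Finset.sum_congr rfl fun j _ => by ring

lemma pd_LM {C : Fin n → Fin n → ℝ} {A : Fld n} (hA : ∀ i j, C1 (A i j)) (k i j : Fin n)
    (x : E n) : pd k (LM C A i j) x = LM C (dk k A) i j x := by
  unfold LM dk
  rw [pd_sum' (f := fun p x => C i p * A p j x) fun p _ => (hA p j).smul (C i p)]
  refine Finset.sum_congr rfl fun p _ => ?_
  rw [C1.pd_mul (c1_const (C i p)) (hA p j)]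
  have : pd k (fun _ : E n => C i p) x = 0 := by simp [pd]
  rw [this]; ring

lemma dh2_eq_sum (A : Fld n) (x : E n) : dh2 A x = ∑ k, hs2 (dk k A) x := by
  unfold dh2 hs2 dk
  rw [Finset.sum_congr rfl fun i _ => Finset.sum_comm]
  rw [Finset.sum_comm]

lemma pf2_eq_sum (U : Fld n) (Y : Fin n → Fld n) (x : E n) :
    pf2 U Y x = ∑ k, hs2 (sbf (dk k U) (Y k)) x := by
  unfold pf2 hs2 dk sbf
  rw [Finset.sum_congr rfl fun i _ => Finset.sum_comm]
  rw [Finset.sum_comm]

lemma LM_sbf (C : Fin n → Fin n → ℝ) (A B : Fld n) (i j : Fin n) (x : E n) :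
    LM C (sbf A B) i j x = LM C A i j x - LM C B i j x := by
  unfold LM sbf
  rw [← Finset.sum_sub_distrib]
  exact Finset.sum_congr rfl fun p _ => by ring

lemma dh2_LM {C : Fin n → Fin n → ℝ} {A : Fld n} (hA : ∀ i j, C1 (A i j)) (x : E n) :
    dh2 (LM C A) x = ∑ k, wip (ctc C) (dk k A) (dk k A) x := by
  rw [dh2_eq_sum]
  refine Finset.sum_congr rfl fun k _ => ?_
  rw [← hs2_LM]
  unfold hs2
  refine Finset.sum_congr rfl fun i _ => Finset.sum_congr rfl fun j _ => ?_
  rw [← pd_LM hA]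
  rfl

lemma pf2_LM {C : Fin n → Fin n → ℝ} {U : Fld n} {Y : Fin n → Fld n}
    (hU : ∀ i j, C1 (U i j)) (x : E n) :
    pf2 (LM C U) (fun k => LM C (Y k)) x =
      ∑ k, wip (ctc C) (sbf (dk k U) (Y k)) (sbf (dk k U) (Y k)) x := by
  rw [pf2_eq_sum]
  refine Finset.sum_congr rfl fun k _ => ?_
  rw [← hs2_LM]
  unfold hs2
  refine Finset.sum_congr rfl fun i _ => Finset.sum_congr rfl fun j _ => ?_
  rw [LM_sbf, ← pd_LM hU]
  rfl

lemma Gd_LM {C : Fin n → Fin n → ℝ} {M U : Fld n} {Y : Fin n → Fld n}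
    (hY : ∀ k i j, C1 (Y k i j)) (i j : Fin n) (x : E n) :
    Gd (LM C M) (LM C U) (fun k => LM C (Y k)) i j x = LM C (Gd M U Y) i j x := by
  unfold Gd
  simp_rw [pd_LM (hY _)]
  unfold LM dk
  simp_rw [mul_add, mul_sub, Finset.mul_sum, Finset.sum_add_distrib, Finset.sum_sub_distrib]
  congr 1
  rw [Finset.sum_comm, ← Finset.sum_sub_distrib]
  rw [Finset.sum_comm (f := fun p k => C i p * (pd k (Y k p j) x - x k * Y k p j x))]
  simp_rw [mul_sub, Finset.sum_sub_distrib]
  congr 1
  · rw [Finset.sum_comm]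
  · exact Finset.sum_congr rfl fun k _ => Finset.sum_congr rfl fun p _ => by ring

lemma trX_LM {C : Fin n → Fin n → ℝ} {G : Fin n → E n → ℝ} {M : Fld n} (hd : HD G M) :
    trX (LM C M) = ((Matrix.of C) * covM G * (Matrix.of C).transpose).trace := by
  have e1 : ∀ i j : Fin n, EE (fun x => LM C M i j x * Rs (LM C M i j) x) =
      ∑ p, ∑ q, C i p * C i q * EE (fun x => M p j x * Rs (M q j) x) := by
    intro i j
    have hR : ∀ x, Rs (LM C M i j) x = ∑ q, C i q * Rs (M q j) x := by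
      intro x
      unfold Rs LM
      have h := Rw_sum Real.continuous_sin sin_b Finset.univ
        (g := fun q x => C i q * M q j x) (fun q _ => ((hd.m q j).smul (C i q)).cont)
        (fun q _ => ((hd.m q j).smul (C i q)).g) x
      rw [h]
      exact Finset.sum_congr rfl fun q _ => Rw_smul _ _ _ _
    simp_rw [hR]
    have hp : ∀ p q, CG (fun x => C i p * C i q * (M p j x * Rs (M q j) x)) := fun p q =>
      ((hd.m p j).cg.mul (c1_Rs (hd.m q j)).cg).smul _
    have : (fun x => LM C M i j x * ∑ q, C i q * Rs (M q j) x) = fun x =>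
        ∑ p, ∑ q, C i p * C i q * (M p j x * Rs (M q j) x) := by
      funext x
      unfold LM
      rw [Finset.sum_mul_sum]
      exact Finset.sum_congr rfl fun p _ => Finset.sum_congr rfl fun q _ => by ring
    rw [this, EE_sum fun p _ => CG.sum fun q _ => hp p q]
    refine Finset.sum_congr rfl fun p _ => ?_
    rw [EE_sum fun q _ => hp p q]
    exact Finset.sum_congr rfl fun q _ => EE_smul _ _
  have e2 : ∀ p q : Fin n, covM G p q = ∑ j, EE (fun x => M p j x * Rs (M q j) x) := fun p q => by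
    have := hd.cov p q
    exact this
  unfold trX
  simp_rw [e1]
  rw [Matrix.trace]
  refine Finset.sum_congr rfl fun i _ => ?_
  simp only [Matrix.diag_apply, Matrix.mul_apply, Matrix.of_apply, Matrix.transpose_apply]
  calc (∑ j, ∑ p, ∑ q, C i p * C i q * EE (fun x => M p j x * Rs (M q j) x))
      = ∑ p, ∑ q, ∑ j, C i p * C i q * EE (fun x => M p j x * Rs (M q j) x) := by
        rw [Finset.sum_comm]
        exact Finset.sum_congr rfl fun p _ => Finset.sum_comm
    _ = ∑ p, ∑ q, C i p * covM G p q * C i q := by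
        refine Finset.sum_congr rfl fun p _ => Finset.sum_congr rfl fun q _ => ?_
        rw [← Finset.mul_sum, ← e2]; ring
    _ = ∑ q, (∑ p, C i p * covM G p q) * C i q := by
        rw [Finset.sum_comm]
        exact Finset.sum_congr rfl fun q _ => by rw [Finset.sum_mul]

/-- the dual form of `log det` -/
lemma neg_logdet_ge {X C : Matrix (Fin n) (Fin n) ℝ} (hX : X.PosDef) (hC : C.det ≠ 0) :
    n + Real.log ((C.transpose * C).det) - (C * X * C.transpose).trace ≤ -Real.log X.det := by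
  have h1 : (C * X * C.transpose).PosDef := by
    have hi : Function.Injective C.transpose.mulVec := by
      apply Matrix.mulVec_injective_of_isUnit
      rw [Matrix.isUnit_iff_isUnit_det, Matrix.det_transpose]
      exact isUnit_iff_ne_zero.mpr hC
    have he : (fun v => Matrix.vecMul v C) = C.transpose.mulVec := by
      funext v; rw [Matrix.mulVec_transpose]
    have := hX.mul_mul_conjTranspose_same (B := C) (by rw [he]; exact hi)
    rwa [Matrix.conjTranspose_eq_transpose_of_trivial] at this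
  have h2 := Psi_nonneg h1
  unfold Psi at h2
  have hd : 0 < X.det := hX.det_pos
  have h3 : (C * X * C.transpose).det = (C.transpose * C).det * X.det := by
    rw [Matrix.det_mul, Matrix.det_mul, Matrix.det_mul, Matrix.det_transpose]; ring
  have h4 : (C.transpose * C).det ≠ 0 := by
    rw [Matrix.det_mul, Matrix.det_transpose]; exact mul_ne_zero hC hC
  rw [h3, Real.log_mul h4 hd.ne'] at h2
  linarith

section
variable {G : Fin n → E n → ℝ} {M N : Fld n} {V : E n → ℝ}

/-- **the skeleton with weights** `P = CᵀC` and `S ≤ 1` -/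
theorem spineP (h : MA G M N V) {U Z : Fld n} (hU : ∀ i j, C1 (U i j))
    (hs : ∀ i j, U i j = U j i) (hZ : ∀ i j, C1 (Z i j))
    {Y : Fin n → Fld n} (hY : ∀ k i j, C1 (Y k i j))
    {S : Fin n → Fin n → ℝ} (hS : (Matrix.of fun p q => dl p q - S p q).PosSemidef)
    {C : Fin n → Fin n → ℝ} (hC : (Matrix.of C).det ≠ 0) (hX : (covM G).PosDef)
    (hV : ∀ y, (Matrix.of fun k l => pd l (pd k V) y).PosSemidef)
    (hlog : ∀ x, 2 * Real.log (mt M x).det = 2 * ip U M x - hs2 Z x - n * Real.log (2 * π)) :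
    Real.log (((Matrix.of C).transpose * Matrix.of C).det) +
      2 * EE (ip U M) - EE (hs2 Z) - 2 * EE (wip (ctc C) U M) + EE (wip (ctc C) U U) +
      EE (fun x => ∑ k, wip (ctc C) (dk k U) (dk k U) x) -
      EE (fun x => ∑ k, wip (ctc C) (sbf (dk k U) (Y k)) (sbf (dk k U) (Y k)) x) -
      EE (wip (ctc C) (Gd M U Y) (Gd M U Y)) +
      (EE (trK U S) + (EE (RR M N U dl) - EE (RR M N U S)) - EE (hs2 U)) ≤ DFun G M := by
  have h1 := hs2_ge h hU hs hS hV
  have h2 := trX_le (M := LM C M) (U := LM C U) (Y := fun k => LM C (Y k))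
    (fun i j => c1_LM h.hd.m i j) (fun i j => c1_LM hU i j) (fun k i j => c1_LM (hY k) i j)
  rw [trX_LM h.hd] at h2
  have g1 : EE (ip (LM C U) (LM C M)) = EE (wip (ctc C) U M) := EE_congr fun x => ip_LM C U M x
  have g2 : EE (hs2 (LM C U)) = EE (wip (ctc C) U U) := EE_congr fun x => hs2_LM C U x
  have g3 : EE (dh2 (LM C U)) = EE (fun x => ∑ k, wip (ctc C) (dk k U) (dk k U) x) :=
    EE_congr fun x => dh2_LM hU x
  have g4 : EE (pf2 (LM C U) fun k => LM C (Y k)) =
      EE (fun x => ∑ k, wip (ctc C) (sbf (dk k U) (Y k)) (sbf (dk k U) (Y k)) x) :=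
    EE_congr fun x => pf2_LM hU x
  have g5 : EE (hs2 (Gd (LM C M) (LM C U) fun k => LM C (Y k))) =
      EE (wip (ctc C) (Gd M U Y) (Gd M U Y)) := EE_congr fun x => by
    rw [← hs2_LM]
    unfold hs2
    exact Finset.sum_congr rfl fun i _ => Finset.sum_congr rfl fun j _ => by rw [Gd_LM hY]
  rw [g1, g2, g3, g4, g5] at h2
  have h3 := neg_logdet_ge hX hC
  have cU : CG (ip U M) := cg_ip (fun i j => (hU i j).cg) fun i j => (h.hd.m i j).cg
  have cZ : CG (hs2 Z) := cg_hs2 fun i j => (hZ i j).cg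
  have h4 : 2 * EE (fun x => Real.log (mt M x).det) =
      2 * EE (ip U M) - EE (hs2 Z) - n * Real.log (2 * π) := by
    rw [← EE_smul, ← EE_smul, ← EE_sub (cU.smul 2) cZ]
    have : n * Real.log (2 * π) = EE (fun _ : E n => n * Real.log (2 * π)) := (EE_const _).symm
    rw [this, ← EE_sub ((cU.smul 2).sub cZ) (cg_const _)]
    exact EE_congr hlog
  unfold DFun
  rw [h4]
  linarith

end

lemma wip_sbf_right (K : Fin n → Fin n → ℝ) (A B D : Fld n) (x : E n) :
    wip K A (sbf B D) x = wip K A B x - wip K A D x := by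
  unfold wip sbf
  simp_rw [mul_sub, Finset.sum_sub_distrib, mul_sub, Finset.sum_sub_distrib]

lemma wip_add_weight (K L : Fin n → Fin n → ℝ) (A B : Fld n) (x : E n) :
    wip (fun p q => K p q + L p q) A B x = wip K A B x + wip L A B x := by
  unfold wip
  simp_rw [add_mul, Finset.sum_add_distrib]

lemma wip_dl (A B : Fld n) (x : E n) : wip dl A B x = ip A B x := by
  unfold wip ip dl
  simp only [ite_mul, one_mul, zero_mul, Finset.sum_ite_eq, Finset.mem_univ, if_true]

lemma ip_self (A : Fld n) (x : E n) : ip A A x = hs2 A x := by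
  unfold hs2 ip
  exact Finset.sum_congr rfl fun i _ => Finset.sum_congr rfl fun j _ => by ring

lemma cg_dk {A : Fld n} (hA : ∀ i j, C1 (A i j)) (k i j : Fin n) : CG (dk k A i j) :=
  (hA i j).cgp k

lemma cg_sbf {A B : Fld n} (hA : ∀ i j, CG (A i j)) (hB : ∀ i j, CG (B i j)) (i j : Fin n) :
    CG (sbf A B i j) := (hA i j).sub (hB i j)

/-- `E tr K U M = E tr K (U U + U G + Σ ∂_k U Y_k)` -/
lemma EE_KUM {M U : Fld n} (hM : ∀ i j, C1 (M i j)) (hU : ∀ i j, C1 (U i j)) {Y : Fin n → Fld n}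
    (hY : ∀ k i j, C1 (Y k i j)) (K : Fin n → Fin n → ℝ) :
    EE (wip K U M) = EE (wip K U U) + EE (wip K U (Gd M U Y)) +
      EE (fun x => ∑ k, wip K (dk k U) (Y k) x) := by
  have cG := cg_Gd (Y := Y) (fun i j => (hM i j).cg) (fun i j => (hU i j).cg) hY
  have cd : ∀ k q j, CG (fun x : E n => pd k (Y k q j) x - x k * Y k q j x) := fun k q j =>
    ((hY k q j).cgp k).sub ((cg_coord k).mul (hY k q j).cg)
  have cL : CG (fun x : E n => ∑ p, ∑ q, K p q * ∑ j, ∑ k, U p j x *
      (pd k (Y k q j) x - x k * Y k q j x)) :=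
    CG.sum fun p _ => CG.sum fun q _ => (CG.sum fun j _ => CG.sum fun k _ =>
      (hU p j).cg.mul (cd k q j)).smul (K p q)
  have e1 : ∀ x, wip K U M x = (wip K U U x + wip K U (Gd M U Y) x) -
      ∑ p, ∑ q, K p q * ∑ j, ∑ k, U p j x * (pd k (Y k q j) x - x k * Y k q j x) := by
    intro x
    unfold wip
    rw [← Finset.sum_add_distrib, ← Finset.sum_sub_distrib]
    refine Finset.sum_congr rfl fun p _ => ?_
    rw [← Finset.sum_add_distrib, ← Finset.sum_sub_distrib]
    refine Finset.sum_congr rfl fun q _ => ?_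
    rw [← mul_add, ← mul_sub, ← Finset.sum_add_distrib, ← Finset.sum_sub_distrib]
    congr 1
    refine Finset.sum_congr rfl fun j _ => ?_
    rw [← Finset.mul_sum]
    unfold Gd
    ring
  have e2 : EE (fun x : E n => ∑ p, ∑ q, K p q * ∑ j, ∑ k, U p j x *
      (pd k (Y k q j) x - x k * Y k q j x)) = -EE (fun x => ∑ k, wip K (dk k U) (Y k) x) := by
    have a1 : EE (fun x => ∑ k, wip K (dk k U) (Y k) x) =
        ∑ p, ∑ q, K p q * ∑ j, ∑ k, EE (fun x => pd k (U p j) x * Y k q j x) := by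
      have : ∀ x, (∑ k, wip K (dk k U) (Y k) x) =
          ∑ p, ∑ q, K p q * ∑ j, ∑ k, pd k (U p j) x * Y k q j x := by
        intro x
        unfold wip dk
        rw [Finset.sum_comm]
        refine Finset.sum_congr rfl fun p _ => ?_
        rw [Finset.sum_comm]
        refine Finset.sum_congr rfl fun q _ => ?_
        rw [← Finset.mul_sum, Finset.sum_comm]
      rw [EE_congr this, EE_sum fun p _ => CG.sum fun q _ => (CG.sum fun j _ => CG.sum fun k _ =>
        ((hU p j).cgp k).mul (hY k q j).cg).smul (K p q)]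
      refine Finset.sum_congr rfl fun p _ => ?_
      rw [EE_sum fun q _ => (CG.sum fun j _ => CG.sum fun k _ =>
        ((hU p j).cgp k).mul (hY k q j).cg).smul (K p q)]
      refine Finset.sum_congr rfl fun q _ => ?_
      rw [EE_smul, EE_sum fun j _ => CG.sum fun k _ => ((hU p j).cgp k).mul (hY k q j).cg]
      congr 1
      refine Finset.sum_congr rfl fun j _ => ?_
      rw [EE_sum fun k _ => ((hU p j).cgp k).mul (hY k q j).cg]
    rw [a1, EE_sum fun p _ => CG.sum fun q _ => (CG.sum fun j _ => CG.sum fun k _ =>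
        (hU p j).cg.mul (cd k q j)).smul (K p q), ← Finset.sum_neg_distrib]
    refine Finset.sum_congr rfl fun p _ => ?_
    rw [EE_sum fun q _ => (CG.sum fun j _ => CG.sum fun k _ =>
        (hU p j).cg.mul (cd k q j)).smul (K p q), ← Finset.sum_neg_distrib]
    refine Finset.sum_congr rfl fun q _ => ?_
    rw [EE_smul, EE_sum fun j _ => CG.sum fun k _ => (hU p j).cg.mul (cd k q j), ← mul_neg,
      ← Finset.sum_neg_distrib]
    congr 1
    refine Finset.sum_congr rfl fun j _ => ?_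
    rw [EE_sum fun k _ => (hU p j).cg.mul (cd k q j), ← Finset.sum_neg_distrib]
    exact Finset.sum_congr rfl fun k _ => EE_ibp (hU p j) (hY k q j) k
  have cU : CG (wip K U U) := cg_wip (fun i j => (hU i j).cg) fun i j => (hU i j).cg
  have cUG : CG (wip K U (Gd M U Y)) := cg_wip (fun i j => (hU i j).cg) cG
  rw [EE_congr e1, EE_sub (cU.add cUG) cL, EE_add cU cUG, e2]
  ring

section
variable {G : Fin n → E n → ℝ} {M N : Fld n} {V : E n → ℝ}

/-- **696's form**: `κ` constant symmetric, `1 - κ ≥ 0`, `1 + κ = CᵀC`, `det C ≠ 0`.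
All terms are explicit; `SL = R(1) - |DZ|² + |DU|²`, `ERR_κ = R(κ) - tr κ Σ (∂_k Z)² + tr κ Σ (∂_k U)²`. -/
theorem spineK (h : MA G M N V) {U Z : Fld n} (hU : ∀ i j, C1 (U i j))
    (hs : ∀ i j, U i j = U j i) (hZ : ∀ i j, C1 (Z i j))
    {Y : Fin n → Fld n} (hY : ∀ k i j, C1 (Y k i j))
    {κ : Fin n → Fin n → ℝ} (hκ : (Matrix.of fun p q => dl p q - κ p q).PosSemidef)
    {C : Fin n → Fin n → ℝ} (hC : (Matrix.of C).det ≠ 0)
    (hCκ : ∀ p q, ctc C p q = dl p q + κ p q) (hX : (covM G).PosDef)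
    (hV : ∀ y, (Matrix.of fun k l => pd l (pd k V) y).PosSemidef)
    (hlog : ∀ x, 2 * Real.log (mt M x).det = 2 * ip U M x - hs2 Z x - n * Real.log (2 * π)) :
    Real.log (((Matrix.of C).transpose * Matrix.of C).det) +
      EE (fun x => RR M N U dl x - dh2 Z x + dh2 U x) +
      (EE (dh2 Z) - EE (hs2 Z)) -
      EE (fun x => RR M N U κ x - (∑ k, wip κ (dk k Z) (dk k Z) x) +
        ∑ k, wip κ (dk k U) (dk k U) x) -
      EE (fun x => ∑ k, wip κ (dk k Z) (dk k Z) x) +
      2 * (EE (fun x => ∑ k, wip κ (dk k U) (sbf (dk k U) (Y k)) x) -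
        EE (wip κ U (Gd M U Y))) -
      EE (fun x => ∑ k, wip (ctc C) (sbf (dk k U) (Y k)) (sbf (dk k U) (Y k)) x) -
      EE (wip (ctc C) (Gd M U Y) (Gd M U Y)) ≤ DFun G M := by
  have h1 := spineP h hU hs hZ hY hκ hC hX hV hlog
  refine le_trans (le_of_eq ?_) h1
  have hc : ctc C = fun p q => dl p q + κ p q := by funext p q; exact hCκ p q
  have cU : ∀ i j, CG (U i j) := fun i j => (hU i j).cg
  have cM : ∀ i j, CG (M i j) := fun i j => (h.hd.m i j).cg
  have cdU : ∀ k i j, CG (dk k U i j) := fun k => cg_dk hU k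
  have cdZ : ∀ k i j, CG (dk k Z i j) := fun k => cg_dk hZ k
  have cR : ∀ K, CG (RR M N U K) := fun K => cg_RR h hU K
  have a1 : EE (wip (ctc C) U M) = EE (ip U M) + EE (wip κ U M) := by
    rw [← EE_add (cg_ip cU cM) (cg_wip cU cM), hc]
    exact EE_congr fun x => by rw [wip_add_weight, wip_dl]
  have a2 : EE (wip (ctc C) U U) = EE (hs2 U) + EE (wip κ U U) := by
    rw [← EE_add (cg_hs2 cU) (cg_wip cU cU), hc]
    exact EE_congr fun x => by rw [wip_add_weight, wip_dl, ip_self]
  have cWk : CG (fun x => ∑ k, wip κ (dk k U) (dk k U) x) :=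
    CG.sum fun k _ => cg_wip (cdU k) (cdU k)
  have cWz : CG (fun x => ∑ k, wip κ (dk k Z) (dk k Z) x) :=
    CG.sum fun k _ => cg_wip (cdZ k) (cdZ k)
  have a3 : EE (fun x => ∑ k, wip (ctc C) (dk k U) (dk k U) x) =
      EE (dh2 U) + EE (fun x => ∑ k, wip κ (dk k U) (dk k U) x) := by
    rw [← EE_add (cg_dh2 hU) cWk, hc]
    refine EE_congr fun x => ?_
    rw [dh2_eq_sum, ← Finset.sum_add_distrib]
    exact Finset.sum_congr rfl fun k _ => by rw [wip_add_weight, wip_dl, ip_self]
  have a4 : EE (trK U κ) = EE (wip κ U U) := EE_congr fun x => by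
    unfold trK UKU wip
    rw [Finset.sum_comm]
    refine Finset.sum_congr rfl fun p _ => ?_
    rw [Finset.sum_comm]
    refine Finset.sum_congr rfl fun q _ => ?_
    rw [Finset.mul_sum]
    refine Finset.sum_congr rfl fun i _ => ?_
    rw [hs i p]; ring
  have a5 : EE (fun x => RR M N U dl x - dh2 Z x + dh2 U x) =
      EE (RR M N U dl) - EE (dh2 Z) + EE (dh2 U) := by
    rw [EE_add ((cR dl).sub (cg_dh2 hZ)) (cg_dh2 hU), EE_sub (cR dl) (cg_dh2 hZ)]
  have a6 : EE (fun x => RR M N U κ x - (∑ k, wip κ (dk k Z) (dk k Z) x) +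
        ∑ k, wip κ (dk k U) (dk k U) x) = EE (RR M N U κ) -
        EE (fun x => ∑ k, wip κ (dk k Z) (dk k Z) x) +
        EE (fun x => ∑ k, wip κ (dk k U) (dk k U) x) := by
    rw [EE_add ((cR κ).sub cWz) cWk, EE_sub (cR κ) cWz]
  have cUY : CG (fun x => ∑ k, wip κ (dk k U) (Y k) x) :=
    CG.sum fun k _ => cg_wip (cdU k) fun i j => (hY k i j).cg
  have a7 : EE (fun x => ∑ k, wip κ (dk k U) (sbf (dk k U) (Y k)) x) =
      EE (fun x => ∑ k, wip κ (dk k U) (dk k U) x) -
        EE (fun x => ∑ k, wip κ (dk k U) (Y k) x) := by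
    rw [← EE_sub cWk cUY]
    refine EE_congr fun x => ?_
    rw [← Finset.sum_sub_distrib]
    exact Finset.sum_congr rfl fun k _ => wip_sbf_right _ _ _ _ _
  have a8 := EE_KUM h.hd.m hU hY κ
  rw [a1, a2, a3, a4, a5, a6, a7, a8]
  ring

end

end Crest.Agent.R253.Meh74
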