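import Crest.Agent.R253.MaxB_505
import Crest.Agent.R253.MaDiff_649
import Crest.Agent.R238.MaxPE

/-!
Row 253 (S0391), task T6, node B7 (helper214): the two sup bounds
`lam |v| ≤ sup |P|`, `|∂_e v| ≤ sup |∂_e P|`.
-/

set_option autoImplicit false

open Set Filter
open scoped ContDiff Topology

namespace Crest.Agent.R253.Br.Sup214

open Crest.Agent.R238 Crest.Agent.R238.MaxP Crest.Agent.R253.Br

variable {n : ℕ}

/-- `log det A ≤ tr A - n` -/
theorem log_det_le {A : Matrix (Fin n) (Fin n) ℝ} (hA : A.PosDef) :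
    Real.log A.det ≤ A.trace - n := by
  have hd : IsUnit A.det := hA.isUnit.map Matrix.detMonoidHom
  have h1 := log_det_ge hA.inv one_pos
  rw [Matrix.nonsing_inv_nonsing_inv _ hd, Matrix.det_nonsing_inv, Ring.inverse_eq_inv',
    Real.log_inv] at h1
  simp only [Real.log_one, mul_zero, add_zero, one_mul] at h1
  linarith

theorem gr_bdd {v : E n → ℝ} (hv : NiceB v) : ∃ B : ℝ, ∀ x i, |gr v x i| ≤ B := by
  obtain ⟨C, hC⟩ := hv.bdd 1
  refine ⟨C, fun x i => ?_⟩
  have h1 := hC x
  rw [norm_iteratedFDeriv_one] at h1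
  unfold gr
  have h2 := (fderiv ℝ v x).le_opNorm (ee i)
  rw [norm_ee, mul_one, Real.norm_eq_abs] at h2
  exact h2.trans h1

theorem val_bdd {v : E n → ℝ} (hv : NiceB v) : ∃ B : ℝ, ∀ x, |v x| ≤ B := by
  obtain ⟨C, hC⟩ := hv.bdd 0
  refine ⟨C, fun x => ?_⟩
  have h1 := hC x
  rwa [norm_iteratedFDeriv_zero, Real.norm_eq_abs] at h1

theorem tauf_mul_Hs {v : E n → ℝ} {lo hi : ℝ} (hlo : 0 < lo) {x : E n}
    (hell : Ell lo hi (gm v x)) :
    ∑ i, ∑ j, tauf v x i j * Hs v x i j = n - (tauf v x).trace := by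
  have hpd := Ell.posDef hlo hell
  have hd : IsUnit (gm v x).det := hpd.isUnit.map Matrix.detMonoidHom
  have h1 : tauf v x * gm v x = 1 := Matrix.nonsing_inv_mul _ hd
  have h2 : (tauf v x * gm v x).trace = n := by rw [h1]; simp
  have h3 : (tauf v x * gm v x).trace = ∑ i, ∑ j, tauf v x i j * gm v x i j := by
    rw [Matrix.trace]
    refine Finset.sum_congr rfl fun i _ => ?_
    rw [Matrix.diag_apply, Matrix.mul_apply]
    refine Finset.sum_congr rfl fun j _ => ?_
    rw [hell.1 i j]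
  have h4 : ∑ i, ∑ j, tauf v x i j * gm v x i j
      = (tauf v x).trace + ∑ i, ∑ j, tauf v x i j * Hs v x i j := by
    rw [Matrix.trace, ← Finset.sum_add_distrib]
    refine Finset.sum_congr rfl fun i _ => ?_
    simp only [gm_apply, mul_add, Finset.sum_add_distrib]
    congr 1
    simp [Matrix.one_apply]
  linarith

theorem lamv_le {P v : E n → ℝ} {lam s lo hi M0 : ℝ} (hv : NiceB v) (hlo : 0 < lo)
    (hell : ∀ x, Ell lo hi (gm v x)) (hma : MAb P lam s v) (hlam : 0 < lam) (hs0 : 0 ≤ s)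
    (hs1 : s ≤ 1) (hP : ∀ x, |P x| ≤ M0) : ∀ x, lam * |v x| ≤ M0 := by
  have hv2 : ContDiff ℝ 2 v := by exact_mod_cast contDiff_infty.1 hv.smooth 2
  obtain ⟨S, hS⟩ := val_bdd hv
  obtain ⟨B, hB⟩ := gr_bdd hv
  have hpd : ∀ x, (gm v x).PosDef := fun x => Ell.posDef hlo (hell x)
  have hτ : ∀ x, (tauf v x).PosSemidef := fun x => (hpd x).inv.posSemidef
  have hT : ∀ x, (tauf v x).trace ≤ n / lo := fun x => Ell.trace_inv_le hlo (hell x)
  have hsP : ∀ x, |s * P x| ≤ M0 := by
    intro x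
    rw [abs_mul, abs_of_nonneg hs0]
    calc s * |P x| ≤ 1 * |P x| := mul_le_mul_of_nonneg_right hs1 (abs_nonneg _)
      _ ≤ M0 := by rw [one_mul]; exact hP x
  -- upper bound
  have hup : ∀ x, v x ≤ M0 / lam := by
    refine maxB (τ := fun _ => (1 : Matrix (Fin n) (Fin n) ℝ)) (T := n)
      (b := fun _ _ => (0 : ℝ)) (B := 0) (fun _ => Matrix.PosSemidef.one) (fun _ => by simp)
      (fun _ _ => by simp) hv2 (M := S) (fun x => (le_abs_self _).trans (hS x)) hlam
      (fun x _ => ?_)
    have h1 := hma x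
    have h2 := log_det_le (hpd x)
    have h3 : (gm v x).trace = n + ∑ i, Hs v x i i := by
      rw [Matrix.trace]
      simp [Matrix.diag_apply, gm_apply, Finset.sum_add_distrib]
    have h4 : LA (fun _ => (1 : Matrix (Fin n) (Fin n) ℝ)) v x
        = ∑ i, Hs v x i i - fderiv ℝ v x x := by
      unfold LA
      simp [Matrix.one_apply]
    have h5 : 0 ≤ ∑ i, gr v x i ^ 2 := Finset.sum_nonneg fun i _ => sq_nonneg _
    have h6 := (abs_le.1 (hsP x)).2
    have h7 : lam * (v x - M0 / lam) = lam * v x - M0 := by field_simp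
    rw [h7, h4]
    simp only [zero_mul, Finset.sum_const_zero, sub_zero]
    linarith
  -- lower bound
  have hdn : ∀ x, -v x ≤ M0 / lam := by
    refine maxB (τ := tauf v) (T := n / lo) (b := fun x i => gr v x i / 2) (B := |B|)
      (w := fun y => -v y) hτ hT
      (fun x i => ?_) hv2.neg (M := S) (fun x => (neg_le_abs _).trans (hS x)) hlam
      (fun x _ => ?_)
    · rw [abs_div, abs_two]
      have := (hB x i).trans (le_abs_self B)
      have := abs_nonneg (gr v x i)
      linarith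
    · have h1 := hma x
      have h2 := log_det_ge (hpd x) one_pos
      simp only [Real.log_one, mul_zero, add_zero, one_mul] at h2
      have h3 := tauf_mul_Hs hlo (hell x)
      have h4 : LA (tauf v) v x = ∑ i, ∑ j, tauf v x i j * Hs v x i j - fderiv ℝ v x x := rfl
      rw [LA_neg _ hv2]
      simp only [gr_neg]
      have h5 : ∑ i, gr v x i / 2 * -gr v x i = -((∑ i, gr v x i ^ 2) / 2) := by
        rw [Finset.sum_div, ← Finset.sum_neg_distrib]
        exact Finset.sum_congr rfl fun i _ => by ring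
      rw [h5]
      have h6 := (abs_le.1 (hsP x)).1
      have h7 : lam * (-v x - M0 / lam) = -(lam * v x) - M0 := by field_simp
      rw [h7, h4, h3]
      unfold tauf
      linarith
  intro x
  have h1 : |v x| ≤ M0 / lam := abs_le.2 ⟨by linarith [hdn x], hup x⟩
  rwa [le_div_iff₀ hlam, mul_comm] at h1

theorem gr_le {P v : E n → ℝ} {lam s lo hi M1 : ℝ} (hPs : ContDiff ℝ ∞ P) (hv : NiceB v)
    (hlo : 0 < lo) (hell : ∀ x, Ell lo hi (gm v x)) (hma : MAb P lam s v) (hlam : 0 < lam)
    (hs0 : 0 ≤ s) (hs1 : s ≤ 1) (hP : ∀ x i, |gr P x i| ≤ M1) : ∀ x i, |gr v x i| ≤ M1 := by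
  obtain ⟨B, hB⟩ := gr_bdd hv
  have hpd : ∀ x, (gm v x).PosDef := fun x => Ell.posDef hlo (hell x)
  have hτ : ∀ x, (tauf v x).PosSemidef := fun x => (hpd x).inv.posSemidef
  have hT : ∀ x, (tauf v x).trace ≤ n / lo := fun x => Ell.trace_inv_le hlo (hell x)
  have hg2 : ∀ i, ContDiff ℝ 2 (fun y => gr v y i) := by
    intro i
    have h3 : ContDiff ℝ 3 v := by exact_mod_cast contDiff_infty.1 hv.smooth 3
    have h1 : ContDiff ℝ 2 (fderiv ℝ v) := h3.fderiv_right (by norm_num)
    exact h1.clm_apply contDiff_const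
  intro x i
  have hM1 : 0 ≤ M1 := (abs_nonneg _).trans (hP x i)
  have hsP : ∀ y, |s * gr P y i| ≤ M1 := by
    intro y
    rw [abs_mul, abs_of_nonneg hs0]
    calc s * |gr P y i| ≤ 1 * |gr P y i| := mul_le_mul_of_nonneg_right hs1 (abs_nonneg _)
      _ ≤ M1 := by rw [one_mul]; exact hP y i
  have key : ∀ y, LA (tauf v) (fun z => gr v z i) y - ∑ j, gr v y j * gr (fun z => gr v z i) y j
      = (1 + lam) * gr v y i - s * gr P y i := by
    intro y
    have h1 := BrCal.ma_diffB hPs hv.smooth hlo hell hma i y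
    unfold Lb at h1
    linarith
  rw [abs_le]
  constructor
  · have := maxB hτ hT hB (w := fun y => -gr v y i) (hg2 i).neg (M := B)
      (fun y => (neg_le_abs _).trans (hB y i)) one_pos (a := M1) (fun y hy => ?_) x
    · linarith
    · rw [LA_neg _ (hg2 i)]
      simp only [gr_neg, mul_neg, Finset.sum_neg_distrib]
      have h1 := key y
      have h2 := (abs_le.1 (hsP y)).1
      have h3 : 0 ≤ lam * (-gr v y i) := mul_nonneg hlam.le (by linarith)
      linarith
  · refine maxB hτ hT hB (hg2 i) (M := B) (fun y => (le_abs_self _).trans (hB y i)) one_pos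
      (fun y hy => ?_) x
    have h1 := key y
    have h2 := (abs_le.1 (hsP y)).2
    have h3 : 0 ≤ lam * gr v y i := mul_nonneg hlam.le (by linarith)
    linarith

end Crest.Agent.R253.Br.Sup214
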