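import Crest.Agent.R253.Conv_80

/-!
# Row 253: the scalar ledger with one break of the parabola (helper706)

`b1, b2, AA, rr` with the denominators `13`, `x + 8`, `16 + x`; the inequalities `(Φ)`, `(P)`,
`(H)` of `comb` (AsmR_80) in the letters `nf, nu, nh, ff, fu, fh, gf, gu, gh`.
-/

set_option autoImplicit false

open Set

noncomputable section

namespace Crest.Agent.R253.TabI706

open Crest.Agent.R253.TrC80 Crest.Agent.R253.FinQ214

/-- `log (1 + y) ≤ y (6 + y) / (6 + 4 y)` -/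
theorem log_pade {y : ℝ} (hy : 0 ≤ y) : Real.log (1 + y) ≤ y * (6 + y) / (6 + 4 * y) := by
  have hd : ∀ t ∈ Ici (0 : ℝ), HasDerivAt (fun t => t * (6 + t) / (6 + 4 * t) - Real.log (1 + t))
      (((1 * (6 + t) + t * 1) * (6 + 4 * t) - t * (6 + t) * 4) / (6 + 4 * t) ^ 2 -
        1 / (1 + t)) t := by
    intro t ht
    have ht' : 0 ≤ t := ht
    have h1 : HasDerivAt (fun t : ℝ => t * (6 + t)) (1 * (6 + t) + t * 1) t :=
      (hasDerivAt_id t).mul ((hasDerivAt_id t).const_add 6)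
    have h2 : HasDerivAt (fun t : ℝ => 6 + 4 * t) 4 t := by
      have := ((hasDerivAt_id t).const_mul 4).const_add 6
      simpa using this
    have h3 : HasDerivAt (fun t : ℝ => Real.log (1 + t)) (1 / (1 + t)) t :=
      ((hasDerivAt_id t).const_add 1).log (by simp only [id]; linarith)
    exact (h1.div h2 (by linarith)).sub h3
  have hm : MonotoneOn (fun t => t * (6 + t) / (6 + 4 * t) - Real.log (1 + t)) (Ici 0) := by
    refine monotoneOn_of_hasDerivWithinAt_nonneg (convex_Ici 0)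
      (fun t ht => (hd t ht).continuousAt.continuousWithinAt)
      (fun t ht => (hd t (interior_subset ht)).hasDerivWithinAt) fun t ht => ?_
    rw [interior_Ici] at ht
    have ht' : 0 < t := ht
    rw [sub_nonneg, div_le_div_iff₀ (by linarith) (by positivity)]
    nlinarith [pow_pos ht' 3]
  have h := hm (mem_Ici.2 le_rfl) (mem_Ici.2 hy) hy
  simp only [zero_mul, zero_div, add_zero, Real.log_one, sub_zero] at h
  linarith

/-- the lower bound of `log A` for `1 ≤ x` -/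
lemma log_ge {x : ℝ} (hx : 1 ≤ x) :
    -((x - 1) * (x + 53) / (18 * (2 * x + 25))) ≤ Real.log (9 / (x + 8)) := by
  have h := log_pade (y := (x - 1) / 9) (by linarith)
  have e1 : 9 / (x + 8) = (1 + (x - 1) / 9)⁻¹ := by
    rw [show 1 + (x - 1) / 9 = (x + 8) / 9 by ring, inv_div]
  rw [e1, Real.log_inv, neg_le_neg_iff]
  refine h.trans (le_of_eq ?_)
  have h1 : (2 * x + 25) ≠ 0 := by linarith
  rw [div_eq_div_iff (by linarith) (by positivity)]
  ring

lemma log_ge' {x : ℝ} (hx : x ≤ 1) : (1 - x) / (14 - x) ≤ Real.log ((14 - x) / 13) := by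
  have h := Real.one_sub_inv_le_log_of_pos (x := (14 - x) / 13) (by linarith)
  refine le_trans (le_of_eq ?_) h
  have : 14 - x ≠ 0 := by linarith
  field_simp
  ring

/-! ### the functions -/

/-- near coefficient -/
def b1 (x : ℝ) : ℝ := if x ≤ 1 then -(1 - x) / 13 else if x ≤ 2 then (x - 1) / (x + 8) else 1 / 10
/-- far coefficient -/
def b2 (x : ℝ) : ℝ := if x ≤ 2 then 0 else 9 * (x - 2) / (10 * (x + 8))
/-- `1 - b1 - b2` -/
def AA (x : ℝ) : ℝ := if x ≤ 1 then (14 - x) / 13 else 9 / (x + 8)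
/-- the field of the dual bound -/
def rr (x : ℝ) : ℝ := 17 / (16 + x)
/-- minorant of `hh` : constant term -/
def al (x : ℝ) : ℝ := if x ≤ 26 then 363 / 1000 else 0
/-- minorant of `hh` : linear term -/
def ga (g x : ℝ) : ℝ := if x ≤ 26 then g else 0
/-- minorant of `hh` : quadratic term -/
def ep (x : ℝ) : ℝ := if x ≤ 26 then 136 / 10000 else 0

lemma b1_I {x : ℝ} (h : x ≤ 1) : b1 x = -(1 - x) / 13 := if_pos h
lemma b1_II {x : ℝ} (h : 1 < x) (h' : x ≤ 2) : b1 x = (x - 1) / (x + 8) := by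
  unfold b1; rw [if_neg (not_le.2 h), if_pos h']
lemma b1_III {x : ℝ} (h : 2 < x) : b1 x = 1 / 10 := by
  unfold b1; rw [if_neg (by linarith), if_neg (not_le.2 h)]
lemma b2_I {x : ℝ} (h : x ≤ 2) : b2 x = 0 := if_pos h
lemma b2_III {x : ℝ} (h : 2 < x) : b2 x = 9 * (x - 2) / (10 * (x + 8)) := if_neg (not_le.2 h)
lemma AA_I {x : ℝ} (h : x ≤ 1) : AA x = (14 - x) / 13 := if_pos h
lemma AA_II {x : ℝ} (h : 1 < x) : AA x = 9 / (x + 8) := if_neg (not_le.2 h)

lemma AA_pos {x : ℝ} (hx : 0 ≤ x) : 0 < AA x := by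
  rcases le_or_gt x 1 with h | h
  · rw [AA_I h]; exact div_pos (by linarith) (by norm_num)
  · rw [AA_II h]; positivity

lemma AA_le {x : ℝ} (hx : 0 ≤ x) : AA x ≤ 14 / 13 := by
  rcases le_or_gt x 1 with h | h
  · rw [AA_I h]; linarith
  · rw [AA_II h, div_le_iff₀ (by linarith)]; linarith

lemma one_sub_AA {x : ℝ} (hx : 0 ≤ x) : 1 - AA x = b1 x + b2 x := by
  rcases le_or_gt x 1 with h | h
  · rw [AA_I h, b1_I h, b2_I (by linarith)]; ring
  · have h8 : x + 8 ≠ 0 := by linarith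
    rcases le_or_gt x 2 with h' | h'
    · rw [AA_II h, b1_II h h', b2_I h']; field_simp; ring
    · rw [AA_II h, b1_III h', b2_III h']; field_simp; ring

lemma b1_abs {x : ℝ} (hx : 0 ≤ x) : -(1 / 13) ≤ b1 x ∧ b1 x ≤ 1 / 10 := by
  rcases le_or_gt x 1 with h | h
  · rw [b1_I h]; constructor <;> linarith
  · rcases le_or_gt x 2 with h' | h'
    · rw [b1_II h h']
      constructor
      · have : 0 ≤ (x - 1) / (x + 8) := div_nonneg (by linarith) (by linarith)
        linarith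
      · rw [div_le_iff₀ (by linarith)]; linarith
    · rw [b1_III h']; constructor <;> norm_num

lemma b1_sq {x : ℝ} (hx : 0 ≤ x) : b1 x ^ 2 ≤ (1 / 10) ^ 2 := by
  have h := b1_abs hx
  nlinarith [h.1, h.2]

lemma b1_mul {x : ℝ} (_ : 0 ≤ x) : 0 ≤ b1 x * (x - 1) := by
  rcases le_or_gt x 1 with h | h
  · rw [b1_I h]; nlinarith [sq_nonneg (x - 1)]
  · rcases le_or_gt x 2 with h' | h'
    · rw [b1_II h h']
      exact mul_nonneg (div_nonneg (by linarith) (by linarith)) (by linarith)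
    · rw [b1_III h']; linarith

lemma b2_nonneg {x : ℝ} (_ : 0 ≤ x) : 0 ≤ b2 x := by
  rcases le_or_gt x 2 with h | h
  · rw [b2_I h]
  · rw [b2_III h]; exact div_nonneg (by linarith) (by linarith)

lemma b2_le {x : ℝ} (_ : 0 ≤ x) : b2 x ≤ 9 / 10 := by
  rcases le_or_gt x 2 with h | h
  · rw [b2_I h]; norm_num
  · rw [b2_III h, div_le_iff₀ (by linarith)]; linarith

lemma b2_sq {x : ℝ} (hx : 0 ≤ x) : b2 x ^ 2 ≤ (9 / 10) ^ 2 := by
  have h1 := b2_nonneg hx
  have h2 := b2_le hx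
  nlinarith

/-- `hK` -/
lemma K1_le {x : ℝ} (hx : 0 ≤ x) : AA x * rr x ^ 2 * x ≤ 231 / 100 := by
  unfold rr
  have h16 : 0 < 16 + x := by linarith
  rcases le_or_gt x 1 with h | h
  · rw [AA_I h]
    have e : (14 - x) / 13 * (17 / (16 + x)) ^ 2 * x = 289 * (14 - x) * x / (13 * (16 + x) ^ 2) := by
      field_simp
      norm_num
    rw [e, div_le_iff₀ (by positivity)]
    nlinarith [mul_nonneg hx (sub_nonneg.2 h)]
  · rw [AA_II h]
    have h8 : 0 < x + 8 := by linarith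
    have e : 9 / (x + 8) * (17 / (16 + x)) ^ 2 * x = 2601 * x / ((x + 8) * (16 + x) ^ 2) := by
      field_simp
      norm_num
    rw [e, div_le_iff₀ (by positivity)]
    nlinarith [sq_nonneg (x - 25 / 4), mul_nonneg hx (sq_nonneg (x - 25 / 4))]

/-! ### the margin `(Φ)` -/

lemma PhiI {x : ℝ} (hx : 0 ≤ x) (h : x ≤ 1) : 1 / 200 * mg x ≤ Real.log (AA x) +
    nf b1 al ep (3 / 4) (3 / 25) (7 / 2) 0 (9 / 64) x +
    ff b2 (555 / 1000) (6 / 1000) (1 / 4) (1 / 7) (1 / 2) (7 / 25) x -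
    gf AA rr (1 / 8) (10 / 11) x := by
  have hl := log_ge' h
  unfold nf ff gf mg rr
  rw [AA_I h, b1_I h, b2_I (by linarith), al, ep, if_pos (by linarith), if_pos (by linarith)]
  have h14 : 0 < 14 - x := by linarith
  have h1 : 0 < 1 + x := by linarith
  have h16 : 0 < 16 + x := by linarith
  have hs : 0 ≤ 1 - x := by linarith
  have key : (1 - x) / (14 - x) +
      (-(1 - x) / 13 + -(1 - x) / 13 * (x - 1) * (363 / 1000 - 136 / 10000 * x) -
        (3 / 4 / 2 + 3 / 25 / 2) * ((-(1 - x) / 13) ^ 2 * x) -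
        7 / 2 / 2 * (0 * (-(1 - x) / 13) ^ 2 + 9 / 64 * ((-(1 - x) / 13) ^ 2 * x))) -
      1 / (10 / 11) * (1 / 6 * ((14 - x) / 13 * (1 - 17 / (16 + x)) ^ 2 * x) +
        1 / 8 / 12 * ((14 - x) / 13 * (1 - 17 / (16 + x) * x) ^ 2)) -
      1 / 200 * ((1 - x) ^ 2 / (1 + x)) =
      (1 - x) ^ 2 * (92468480 * (1 - x) ^ 4 + 483029024 * x * (1 - x) ^ 3 +
        821117274 * x ^ 2 * (1 - x) ^ 2 + 560847643 * x ^ 3 * (1 - x) + 130702702 * x ^ 4) /
      (81120000 * ((14 - x) * (1 + x) * (16 + x))) := by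
    field_simp
    ring
  have hpos : 0 ≤ (1 - x) ^ 2 * (92468480 * (1 - x) ^ 4 + 483029024 * x * (1 - x) ^ 3 +
        821117274 * x ^ 2 * (1 - x) ^ 2 + 560847643 * x ^ 3 * (1 - x) + 130702702 * x ^ 4) /
      (81120000 * ((14 - x) * (1 + x) * (16 + x))) := by positivity
  linarith

lemma PhiII {x : ℝ} (h : 1 < x) (h' : x ≤ 2) : 1 / 200 * mg x ≤ Real.log (AA x) +
    nf b1 al ep (3 / 4) (3 / 25) (7 / 2) 0 (9 / 64) x +
    ff b2 (555 / 1000) (6 / 1000) (1 / 4) (1 / 7) (1 / 2) (7 / 25) x -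
    gf AA rr (1 / 8) (10 / 11) x := by
  have hl := log_ge h.le
  unfold nf ff gf mg rr
  rw [AA_II h, b1_II h h', b2_I (by linarith), al, ep, if_pos (by linarith), if_pos (by linarith)]
  have h25 : 0 < 2 * x + 25 := by linarith
  have h8 : 0 < x + 8 := by linarith
  have h1 : 0 < 1 + x := by linarith
  have h16 : 0 < 16 + x := by linarith
  have hs : 0 ≤ 2 - x := by linarith
  have hs' : 0 ≤ x - 1 := by linarith
  have key : -((x - 1) * (x + 53) / (18 * (2 * x + 25))) +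
      ((x - 1) / (x + 8) + (x - 1) / (x + 8) * (x - 1) * (363 / 1000 - 136 / 10000 * x) -
        (3 / 4 / 2 + 3 / 25 / 2) * (((x - 1) / (x + 8)) ^ 2 * x) -
        7 / 2 / 2 * (0 * ((x - 1) / (x + 8)) ^ 2 + 9 / 64 * (((x - 1) / (x + 8)) ^ 2 * x))) -
      1 / (10 / 11) * (1 / 6 * (9 / (x + 8) * (1 - 17 / (16 + x)) ^ 2 * x) +
        1 / 8 / 12 * (9 / (x + 8) * (1 - 17 / (16 + x) * x) ^ 2)) -
      1 / 200 * ((1 - x) ^ 2 / (1 + x)) =
      (x - 1) ^ 2 * (1173173382 * (2 - x) ^ 5 + 5973109569 * (x - 1) * (2 - x) ^ 4 +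
        11787716734 * (x - 1) ^ 2 * (2 - x) ^ 3 + 11199589627 * (x - 1) ^ 3 * (2 - x) ^ 2 +
        5059925268 * (x - 1) ^ 4 * (2 - x) + 848077020 * (x - 1) ^ 5) /
      (1440000 * ((2 * x + 25) * (x + 8) ^ 2 * (16 + x) * (1 + x))) := by
    field_simp
    ring
  have hpos : 0 ≤ (x - 1) ^ 2 * (1173173382 * (2 - x) ^ 5 + 5973109569 * (x - 1) * (2 - x) ^ 4 +
        11787716734 * (x - 1) ^ 2 * (2 - x) ^ 3 + 11199589627 * (x - 1) ^ 3 * (2 - x) ^ 2 +
        5059925268 * (x - 1) ^ 4 * (2 - x) + 848077020 * (x - 1) ^ 5) /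
      (1440000 * ((2 * x + 25) * (x + 8) ^ 2 * (16 + x) * (1 + x))) := by positivity
  linarith

lemma PhiIII {x : ℝ} (h : 2 < x) (h' : x ≤ 26) : 1 / 200 * mg x ≤ Real.log (AA x) +
    nf b1 al ep (3 / 4) (3 / 25) (7 / 2) 0 (9 / 64) x +
    ff b2 (555 / 1000) (6 / 1000) (1 / 4) (1 / 7) (1 / 2) (7 / 25) x -
    gf AA rr (1 / 8) (10 / 11) x := by
  have hl := log_ge (x := x) (by linarith)
  unfold nf ff gf mg rr
  rw [AA_II (by linarith), b1_III h, b2_III h, al, ep, if_pos (by linarith), if_pos (by linarith)]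
  have h25 : 0 < 2 * x + 25 := by linarith
  have h8 : 0 < x + 8 := by linarith
  have h1 : 0 < 1 + x := by linarith
  have h16 : 0 < 16 + x := by linarith
  have hs : 0 ≤ 26 - x := by linarith
  have hs' : 0 ≤ x - 2 := by linarith
  have key : -((x - 1) * (x + 53) / (18 * (2 * x + 25))) +
      (1 / 10 + 1 / 10 * (x - 1) * (363 / 1000 - 136 / 10000 * x) -
        (3 / 4 / 2 + 3 / 25 / 2) * ((1 / 10) ^ 2 * x) -
        7 / 2 / 2 * (0 * (1 / 10) ^ 2 + 9 / 64 * ((1 / 10) ^ 2 * x))) +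
      (555 / 1000 * (9 * (x - 2) / (10 * (x + 8))) +
        (5 / 16 - 6 / 1000 - (1 + 1 / 7) * (1 / 4) ^ 2) * (9 * (x - 2) / (10 * (x + 8)) * x) -
        7 / 25 / 2 * ((9 * (x - 2) / (10 * (x + 8))) ^ 2 * x) -
        (1 + 1 / 7) * (1 / 4) ^ 2 / (4 * (1 / 2)) * ((9 * (x - 2) / (10 * (x + 8))) ^ 2 * x)) -
      1 / (10 / 11) * (1 / 6 * (9 / (x + 8) * (1 - 17 / (16 + x)) ^ 2 * x) +
        1 / 8 / 12 * (9 / (x + 8) * (1 - 17 / (16 + x) * x) ^ 2)) -
      1 / 200 * ((1 - x) ^ 2 / (1 + x)) =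
      (824519325 * (26 - x) ^ 7 + 8126726035 * (x - 2) * (26 - x) ^ 6 +
        624751709297 * (x - 2) ^ 2 * (26 - x) ^ 5 + 10067867972623 * (x - 2) ^ 3 * (26 - x) ^ 4 +
        49945228369111 * (x - 2) ^ 4 * (26 - x) ^ 3 +
        107511431690201 * (x - 2) ^ 5 * (26 - x) ^ 2 +
        95093722332763 * (x - 2) ^ 6 * (26 - x) + 10611817359045 * (x - 2) ^ 7) /
      (6421059993600000 * ((2 * x + 25) * (x + 8) ^ 2 * (16 + x) * (1 + x))) := by
    field_simp
    ring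
  have hpos : 0 ≤ (824519325 * (26 - x) ^ 7 + 8126726035 * (x - 2) * (26 - x) ^ 6 +
        624751709297 * (x - 2) ^ 2 * (26 - x) ^ 5 + 10067867972623 * (x - 2) ^ 3 * (26 - x) ^ 4 +
        49945228369111 * (x - 2) ^ 4 * (26 - x) ^ 3 +
        107511431690201 * (x - 2) ^ 5 * (26 - x) ^ 2 +
        95093722332763 * (x - 2) ^ 6 * (26 - x) + 10611817359045 * (x - 2) ^ 7) /
      (6421059993600000 * ((2 * x + 25) * (x + 8) ^ 2 * (16 + x) * (1 + x))) := by positivity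
  linarith

lemma PhiIV {x : ℝ} (h : 26 < x) : 1 / 200 * mg x ≤ Real.log (AA x) +
    nf b1 al ep (3 / 4) (3 / 25) (7 / 2) 0 (9 / 64) x +
    ff b2 (555 / 1000) (6 / 1000) (1 / 4) (1 / 7) (1 / 2) (7 / 25) x -
    gf AA rr (1 / 8) (10 / 11) x := by
  have hl := log_ge (x := x) (by linarith)
  unfold nf ff gf mg rr
  rw [AA_II (by linarith), b1_III (by linarith), b2_III (by linarith), al, ep,
    if_neg (by linarith), if_neg (by linarith)]
  have h25 : 0 < 2 * x + 25 := by linarith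
  have h8 : 0 < x + 8 := by linarith
  have h1 : 0 < 1 + x := by linarith
  have h16 : 0 < 16 + x := by linarith
  have hs : 0 ≤ x - 26 := by linarith
  have key : -((x - 1) * (x + 53) / (18 * (2 * x + 25))) +
      (1 / 10 + 1 / 10 * (x - 1) * (0 - 0 * x) -
        (3 / 4 / 2 + 3 / 25 / 2) * ((1 / 10) ^ 2 * x) -
        7 / 2 / 2 * (0 * (1 / 10) ^ 2 + 9 / 64 * ((1 / 10) ^ 2 * x))) +
      (555 / 1000 * (9 * (x - 2) / (10 * (x + 8))) +
        (5 / 16 - 6 / 1000 - (1 + 1 / 7) * (1 / 4) ^ 2) * (9 * (x - 2) / (10 * (x + 8)) * x) -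
        7 / 25 / 2 * ((9 * (x - 2) / (10 * (x + 8))) ^ 2 * x) -
        (1 + 1 / 7) * (1 / 4) ^ 2 / (4 * (1 / 2)) * ((9 * (x - 2) / (10 * (x + 8))) ^ 2 * x)) -
      1 / (10 / 11) * (1 / 6 * (9 / (x + 8) * (1 - 17 / (16 + x)) ^ 2 * x) +
        1 / 8 / 12 * (9 / (x + 8) * (1 - 17 / (16 + x) * x) ^ 2)) -
      1 / 200 * ((1 - x) ^ 2 / (1 + x)) =
      (209978042568336 + 95647459061616 * (x - 26) + 12314694185752 * (x - 26) ^ 2 +
        735730858048 * (x - 26) ^ 3 + 23032810353 * (x - 26) ^ 4 + 368692261 * (x - 26) ^ 5 +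
        2390734 * (x - 26) ^ 6) /
      (40320000 * ((2 * x + 25) * (x + 8) ^ 2 * (16 + x) * (1 + x))) := by
    field_simp
    ring
  have hpos : 0 ≤ (209978042568336 + 95647459061616 * (x - 26) + 12314694185752 * (x - 26) ^ 2 +
        735730858048 * (x - 26) ^ 3 + 23032810353 * (x - 26) ^ 4 + 368692261 * (x - 26) ^ 5 +
        2390734 * (x - 26) ^ 6) /
      (40320000 * ((2 * x + 25) * (x + 8) ^ 2 * (16 + x) * (1 + x))) := by positivity
  linarith

/-- **(Φ)** -/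
theorem Phi {x : ℝ} (hx : 0 ≤ x) : 1 / 200 * mg x ≤ Real.log (AA x) +
    nf b1 al ep (3 / 4) (3 / 25) (7 / 2) 0 (9 / 64) x +
    ff b2 (555 / 1000) (6 / 1000) (1 / 4) (1 / 7) (1 / 2) (7 / 25) x -
    gf AA rr (1 / 8) (10 / 11) x := by
  rcases le_or_gt x 1 with h | h
  · exact PhiI hx h
  rcases le_or_gt x 2 with h' | h'
  · exact PhiII h h'
  rcases le_or_gt x 26 with h'' | h''
  · exact PhiIII h' h''
  · exact PhiIV h''

/-! ### the budgets `(P)` and `(H)` -/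

/-- **(P)** -/
theorem hP {x : ℝ} (hx : 0 ≤ x) : 1 / 200 ≤ 1 - nu b1 (3 / 8) (1 / 2) (1 / 10) (3 / 4) (1 / 5) x -
    fu b2 (1 / 4) (1 / 7) (1 / 2) x - gu AA (1 / 8) (10 / 11) (231 / 100) x := by
  unfold nu fu gu
  have h1 : max (b1 x) 0 ≤ 1 / 10 := max_le (b1_abs hx).2 (by norm_num)
  have h2 := b2_nonneg hx
  have h3 := b2_le hx
  have h4 := b2_sq hx
  have h5 := AA_le hx
  nlinarith

/-- **(H)** -/
theorem hH {x : ℝ} (hx : 0 ≤ x) : 2 * (1 / 200) ≤
    2 * (1 - nu b1 (3 / 8) (1 / 2) (1 / 10) (3 / 4) (1 / 5) x -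
      fu b2 (1 / 4) (1 / 7) (1 / 2) x - gu AA (1 / 8) (10 / 11) (231 / 100) x) -
    (1 + nh b1 ep (7 / 2) (9 / 64) (3 / 8) x + fh b2 (6 / 1000) (1 / 4) (1 / 2) (7 / 25) x +
      gh AA (10 / 11) x) := by
  unfold nu fu gu nh fh gh
  have h2 := b2_nonneg hx
  have h3 := b2_le hx
  have h4 : 0 ≤ b2 x * (9 / 10 - b2 x) := mul_nonneg h2 (by linarith)
  rcases le_or_gt x 1 with h | h
  · rw [AA_I h, b1_I h, b2_I (by linarith), ep, if_pos (by linarith),
      max_eq_right (by linarith)]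
    nlinarith [mul_nonneg hx (sub_nonneg.2 h), sq_nonneg (1 - x)]
  rcases le_or_gt x 2 with h' | h'
  · have h1 : max (b1 x) 0 = b1 x := max_eq_left (by
      rw [b1_II h h']; exact div_nonneg (by linarith) (by linarith))
    rw [h1, ep, if_pos (by linarith)]
    have h5 : AA x ≤ 1 := by rw [AA_II h, div_le_one (by linarith)]; linarith
    have h6 := b1_sq hx
    have h7 := b1_abs hx
    have h8 : b1 x * (x - 1) ≤ 1 / 10 * 1 :=
      mul_le_mul h7.2 (by linarith) (by linarith) (by norm_num)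
    rw [b2_I h']
    nlinarith
  · rw [b1_III h', max_eq_left (by norm_num)]
    have h5 : AA x ≤ 9 / 10 := by
      rw [AA_II (by linarith), div_le_div_iff₀ (by linarith) (by norm_num)]; linarith
    have h6 : ep x * (x - 1) ≤ 34 / 100 := by
      unfold ep
      split_ifs with h9
      · linarith
      · linarith
    nlinarith

end Crest.Agent.R253.TabI706
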