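import Crest.Agent.R253.AsmR_80
import Crest.Agent.R253.FinTau_967

/-!
# Row 253, (L7): a closed table with one rational formula on `[1, ∞)` (helper665)

`A = 9/(x+8)`, `b₁ = 4(x-1)/((x+8)(x+3))`, `b₂ = (x-1)²/((x+8)(x+3))` for `x ≥ 1` and
`b₁ = 3(x-1)/40`, `b₂ = 0` for `x ≤ 1`.  All real-variable lines of `AsmR_80.comb`.
-/

set_option autoImplicit false

noncomputable section

namespace Crest.Agent.R253.Tab665

open Crest.Agent.R253.TrC80 (nf nu nh)

/-! ### the functions -/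

def b1 (x : ℝ) : ℝ := if x ≤ 1 then 3 / 40 * (x - 1) else 4 * (x - 1) / ((x + 8) * (x + 3))
def b2 (x : ℝ) : ℝ := if x ≤ 1 then 0 else (x - 1) ^ 2 / ((x + 8) * (x + 3))
def A (x : ℝ) : ℝ := 1 - b1 x - b2 x
def r (x : ℝ) : ℝ := 17 / (16 + x)
/-- parameter of the parabola for `x > 11` -/
def sp (x : ℝ) : ℝ := (x + 28) / 6
def al (x : ℝ) : ℝ := if x ≤ 11 then 3633 / 10000 else (3 * sp x ^ 2 - 8 * sp x + 6) / sp x ^ 3
def ep (x : ℝ) : ℝ := if x ≤ 11 then 136 / 10000 else 2 / sp x ^ 3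

lemma sp_ge {x : ℝ} (hx : 11 < x) : 13 / 2 ≤ sp x := by unfold sp; linarith

lemma b1_le {x : ℝ} (h : x ≤ 1) : b1 x = 3 / 40 * (x - 1) := if_pos h
lemma b1_gt {x : ℝ} (h : 1 < x) : b1 x = 4 * (x - 1) / ((x + 8) * (x + 3)) :=
  if_neg (not_le.2 h)
lemma b2_le {x : ℝ} (h : x ≤ 1) : b2 x = 0 := if_pos h
lemma b2_gt {x : ℝ} (h : 1 < x) : b2 x = (x - 1) ^ 2 / ((x + 8) * (x + 3)) :=
  if_neg (not_le.2 h)

lemma A_le {x : ℝ} (h : x ≤ 1) : A x = 1 + 3 / 40 * (1 - x) := by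
  unfold A; rw [b1_le h, b2_le h]; ring

lemma A_gt {x : ℝ} (h : 1 < x) : A x = 9 / (x + 8) := by
  unfold A; rw [b1_gt h, b2_gt h]
  have h1 : x + 8 ≠ 0 := by linarith
  have h2 : x + 3 ≠ 0 := by linarith
  field_simp
  ring

/-! ### the side conditions (K) -/

theorem A_pos {x : ℝ} (hx : 0 ≤ x) : 0 < A x := by
  rcases le_or_gt x 1 with h | h
  · rw [A_le h]; linarith
  · rw [A_gt h]; positivity

theorem one_sub_A (x : ℝ) : 1 - A x = b1 x + b2 x := by unfold A; ring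

theorem A_max {x : ℝ} (hx : 0 ≤ x) : A x ≤ 43 / 40 := by
  rcases le_or_gt x 1 with h | h
  · rw [A_le h]; linarith
  · rw [A_gt h, div_le_iff₀ (by linarith)]; linarith

theorem A_K1 {x : ℝ} (hx : 0 ≤ x) : A x * r x ^ 2 * x ≤ 231 / 100 := by
  unfold r
  rcases le_or_gt x 1 with h | h
  · rw [A_le h, div_pow, mul_div_assoc', div_mul_eq_mul_div, div_le_iff₀ (by positivity)]
    nlinarith [mul_nonneg hx (sub_nonneg.2 h), mul_nonneg (mul_nonneg hx hx) (sub_nonneg.2 h)]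
  · rw [A_gt h, div_pow, div_mul_div_comm, div_mul_eq_mul_div, div_le_iff₀ (by positivity)]
    have hx0 : 0 < x := by linarith
    nlinarith [mul_nonneg hx0.le (sq_nonneg (x - 7)), sq_nonneg (x - 7), sq_nonneg (x - 8),
      mul_nonneg hx0.le (sq_nonneg (x - 8)), mul_nonneg hx0.le (sq_nonneg (x - 6)),
      sq_nonneg (x * (x - 7))]

theorem b2_nonneg {x : ℝ} (hx : 0 ≤ x) : 0 ≤ b2 x := by
  rcases le_or_gt x 1 with h | h
  · rw [b2_le h]
  · rw [b2_gt h]; positivity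

theorem b2_le_one {x : ℝ} (hx : 0 ≤ x) : b2 x ≤ 1 := by
  rcases le_or_gt x 1 with h | h
  · rw [b2_le h]; norm_num
  · rw [b2_gt h, div_le_one (by positivity)]; nlinarith

theorem b2_sq {x : ℝ} (hx : 0 ≤ x) : b2 x ^ 2 ≤ 1 ^ 2 :=
  pow_le_pow_left₀ (b2_nonneg hx) (b2_le_one hx) 2

theorem b1_nonneg {x : ℝ} (h : 1 < x) : 0 ≤ b1 x := by
  rw [b1_gt h]
  have : 0 ≤ x - 1 := by linarith
  positivity

theorem b1_ub {x : ℝ} (hx : 0 ≤ x) : b1 x ≤ 4 / 25 := by
  rcases le_or_gt x 1 with h | h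
  · rw [b1_le h]; linarith
  · rw [b1_gt h, div_le_iff₀ (by positivity)]
    nlinarith [sq_nonneg (x - 7)]

theorem b1_lb {x : ℝ} (hx : 0 ≤ x) : -(3 / 40) ≤ b1 x := by
  rcases le_or_gt x 1 with h | h
  · rw [b1_le h]; linarith
  · have := b1_nonneg h; linarith

theorem b1_sq {x : ℝ} (hx : 0 ≤ x) : b1 x ^ 2 ≤ (4 / 25) ^ 2 := by
  have h1 := b1_ub hx
  have h2 := b1_lb hx
  nlinarith

theorem b1_x {x : ℝ} (hx : 0 ≤ x) : 0 ≤ b1 x * (x - 1) := by
  rcases le_or_gt x 1 with h | h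
  · rw [b1_le h]; nlinarith [sq_nonneg (x - 1)]
  · exact mul_nonneg (b1_nonneg h) (by linarith)

theorem b1_x_eq {x : ℝ} (h : 1 < x) : b1 x * (x - 1) = 4 * b2 x := by
  rw [b1_gt h, b2_gt h]; ring

theorem ep_nonneg {x : ℝ} : 0 ≤ ep x := by
  unfold ep
  split_ifs with h
  · norm_num
  · have := sp_ge (not_le.1 h)
    positivity

theorem ep_le {x : ℝ} : ep x ≤ 136 / 10000 := by
  unfold ep
  split_ifs with h
  · exact le_rfl
  · have h1 := sp_ge (not_le.1 h)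
    rw [div_le_iff₀ (by positivity)]
    have h2 : (13 / 2 : ℝ) ^ 3 ≤ sp x ^ 3 := pow_le_pow_left₀ (by norm_num) h1 3
    nlinarith

/-! ### the budget of `p2` and `e2` -/

/-- weights of the near part -/
abbrev NU : ℝ → ℝ := nu b1 (3 / 8) (1 / 2) (4 / 25) (7 / 10) (3 / 20)
abbrev NH : ℝ → ℝ := nh b1 ep (17 / 5) (9 / 64) (3 / 8)
abbrev NF : ℝ → ℝ := nf b1 al ep (7 / 10) (1 / 8) (17 / 5) 0 (9 / 64)
/-- weights of the far part, `θ = 2/5`, `θ₁ = 2/7`, `ε = 1/5`, `κ = 1/4`, `(a, e) = (57/100, 1/100)` -/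
def FU (x : ℝ) : ℝ := (1 / 16 + (1 + 1 / 5) * (1 / 4) ^ 2) * b2 x + 2 / 5 / 4 +
  (1 + 1 / 5) * (1 / 4) ^ 2 / (4 * (2 / 5)) * b2 x ^ 2
def FH (x : ℝ) : ℝ := -((3 / 8 - 1 / 100) * b2 x) + (1 / 4) ^ 2 / (2 * (2 / 7)) -
  2 / 5 / 4 * (3 / 2)
def FF2 (x : ℝ) : ℝ := 57 / 100 * b2 x +
  (5 / 16 - 1 / 100 - (1 + 1 / 5) * (1 / 4) ^ 2) * (b2 x * x) -
  (2 / 7 / 2 * (b2 x ^ 2 * x)) - (1 + 1 / 5) * (1 / 4) ^ 2 / (4 * (2 / 5)) * (b2 x ^ 2 * x)
/-- weights of the loss, `1/q₀ = 11/10`, `λ = 1/8`, `K₁ = 231/100` -/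
def LU (x : ℝ) : ℝ := 11 / 10 * (1 / 3 * A x + 1 / 8 / 12 * (231 / 100))
def LH (x : ℝ) : ℝ := -(11 / 10 * (1 / 3 * A x))
def LF (x : ℝ) : ℝ := 11 / 10 * (1 / 6 * (A x * (1 - r x) ^ 2 * x) +
  1 / 8 / 12 * (A x * (1 - r x * x) ^ 2))

theorem budP {x : ℝ} (hx : 0 ≤ x) : 1 / 400 ≤ 1 - NU x - FU x - LU x := by
  unfold NU nu FU LU A
  have h1 := b1_ub hx
  have h2 := b1_lb hx
  have h3 := b2_nonneg hx
  have h4 := b2_le_one hx
  have h5 : max (b1 x) 0 ≤ 4 / 25 := max_le h1 (by norm_num)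
  nlinarith [mul_nonneg h3 (sub_nonneg.2 h4)]

theorem budH {x : ℝ} (hx : 0 ≤ x) :
    2 * (1 / 400) ≤ 2 * (1 - NU x - FU x - LU x) - (1 + NH x + FH x + LH x) := by
  unfold NU nu NH nh FU FH LU LH A
  have h1 := b1_ub hx
  have h2 := b1_lb hx
  have h3 := b2_nonneg hx
  have h4 := b2_le_one hx
  have e0 := ep_nonneg (x := x)
  have e1 := ep_le (x := x)
  rcases le_or_gt x 1 with h | h
  · have hm : max (b1 x) 0 = 0 := max_eq_right (by rw [b1_le h]; linarith)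
    have hp : b1 x * (x - 1) * ep x ≤ 3 / 40 * (136 / 10000) := by
      have : b1 x * (x - 1) ≤ 3 / 40 := by rw [b1_le h]; nlinarith
      exact mul_le_mul this e1 e0 (by norm_num)
    rw [hm, b2_le h]
    have : b1 x ≤ 0 := by rw [b1_le h]; linarith
    nlinarith
  · have hb := b1_nonneg h
    have hm : max (b1 x) 0 = b1 x := max_eq_left hb
    have hp : b1 x * (x - 1) * ep x ≤ 4 * b2 x * (136 / 10000) := by
      rw [b1_x_eq h]
      exact mul_le_mul_of_nonneg_left e1 (by linarith)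
    rw [hm]
    nlinarith [mul_nonneg h3 (sub_nonneg.2 h4), mul_nonneg hb (sub_nonneg.2 h1)]

/-! ### the row inequality -/

/-- `log (1 + u) ≤ u (u + 6) / (2 (2 u + 3))` for `u ≥ 0` -/
lemma log_le_pade {u : ℝ} (hu : 0 ≤ u) :
    Real.log (1 + u) ≤ u * (u + 6) / (2 * (2 * u + 3)) := by
  have hd : ∀ t : ℝ, 0 ≤ t → HasDerivAt
      (fun t : ℝ => t * (t + 6) / (2 * (2 * t + 3)) - Real.log (1 + t))
      ((t ^ 2 + 3 * t + 9) / (2 * t + 3) ^ 2 - 1 / (1 + t)) t := by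
    intro t ht
    have h1 : HasDerivAt (fun t : ℝ => t * (t + 6)) (2 * t + 6) t := by
      have := (hasDerivAt_id t).mul ((hasDerivAt_id t).add_const (6 : ℝ))
      refine this.congr_deriv ?_
      simp only [id]; ring
    have h2 : HasDerivAt (fun t : ℝ => 2 * (2 * t + 3)) 4 t := by
      have := (((hasDerivAt_id t).const_mul (2 : ℝ)).add_const (3 : ℝ)).const_mul (2 : ℝ)
      refine this.congr_deriv ?_
      norm_num
    have h3 : HasDerivAt (fun t : ℝ => Real.log (1 + t)) (1 / (1 + t)) t := by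
      have := ((hasDerivAt_id t).const_add (1 : ℝ)).log (by simp only [id]; linarith)
      simpa using this
    refine ((h1.div h2 (by positivity)).sub h3).congr_deriv ?_
    field_simp
    ring
  have hmono : MonotoneOn (fun t : ℝ => t * (t + 6) / (2 * (2 * t + 3)) - Real.log (1 + t))
      (Set.Ici 0) := by
    refine monotoneOn_of_deriv_nonneg (convex_Ici 0)
      (fun t ht => (hd t ht).continuousAt.continuousWithinAt)
      (fun t ht => (hd t (interior_subset ht)).differentiableAt.differentiableWithinAt)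
      fun t ht => ?_
    have ht0 : 0 ≤ t := interior_subset ht
    rw [(hd t ht0).deriv, sub_nonneg, div_le_div_iff₀ (by positivity) (by positivity)]
    nlinarith [pow_nonneg ht0 3]
  have := hmono (Set.mem_Ici.2 le_rfl) (Set.mem_Ici.2 hu) hu
  simp only [zero_mul, zero_div, add_zero, Real.log_one, sub_zero] at this
  linarith

/-- the rational inequality on `[0, 10]` -/
lemma rat1 {y : ℝ} (h0 : 0 ≤ y) (h1 : y ≤ 10) :
    y ^ 2 / (400 * (y + 2)) ≤ -(y * (y + 54) / (18 * (2 * y + 27))) +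
      4 * y / ((y + 9) * (y + 4)) +
      4 * y / ((y + 9) * (y + 4)) * y * (3633 / 10000 - 136 / 10000 * (y + 1)) -
      417 / 640 * ((4 * y / ((y + 9) * (y + 4))) ^ 2 * (y + 1)) +
      57 / 100 * (y ^ 2 / ((y + 9) * (y + 4))) +
      91 / 400 * (y ^ 2 / ((y + 9) * (y + 4)) * (y + 1)) -
      85 / 448 * ((y ^ 2 / ((y + 9) * (y + 4))) ^ 2 * (y + 1)) -
      11 / 60 * (9 / (y + 9) * y ^ 2 / (y + 17)) := by
  rw [← sub_nonneg]
  have e : -(y * (y + 54) / (18 * (2 * y + 27))) +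
      4 * y / ((y + 9) * (y + 4)) +
      4 * y / ((y + 9) * (y + 4)) * y * (3633 / 10000 - 136 / 10000 * (y + 1)) -
      417 / 640 * ((4 * y / ((y + 9) * (y + 4))) ^ 2 * (y + 1)) +
      57 / 100 * (y ^ 2 / ((y + 9) * (y + 4))) +
      91 / 400 * (y ^ 2 / ((y + 9) * (y + 4)) * (y + 1)) -
      85 / 448 * ((y ^ 2 / ((y + 9) * (y + 4))) ^ 2 * (y + 1)) -
      11 / 60 * (9 / (y + 9) * y ^ 2 / (y + 17)) - y ^ 2 / (400 * (y + 2)) =
      y ^ 2 * (20925103248 + 10205719776 * y + 2229495586 * y ^ 2 + 1410546105 * y ^ 3 +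
        16581332 * y ^ 4 + (6521891 * y ^ 4 + 236426 * y ^ 5) * (10 - y)) /
      (2520000 * ((y + 9) ^ 2 * (y + 4) ^ 2 * (y + 17) * (2 * y + 27) * (y + 2))) := by
    have a1 : y + 9 ≠ 0 := by linarith
    have a2 : y + 4 ≠ 0 := by linarith
    have a3 : y + 17 ≠ 0 := by linarith
    have a4 : 2 * y + 27 ≠ 0 := by linarith
    have a5 : y + 2 ≠ 0 := by linarith
    field_simp
    ring
  rw [e]
  have : 0 ≤ 10 - y := by linarith
  positivity

/-- the rational inequality on `[10, ∞)` -/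
lemma rat2 {z : ℝ} (h0 : 0 ≤ z) :
    (z + 10) ^ 2 / (400 * (z + 12)) ≤ -((z + 10) * (z + 64) / (18 * (2 * z + 47))) +
      4 * (z + 10) / ((z + 19) * (z + 14)) +
      4 * (z + 10) / ((z + 19) * (z + 14)) * (z + 10) *
        ((3 * ((z + 39) / 6) ^ 2 - 8 * ((z + 39) / 6) + 6) / ((z + 39) / 6) ^ 3 -
          2 / ((z + 39) / 6) ^ 3 * (z + 11)) -
      417 / 640 * ((4 * (z + 10) / ((z + 19) * (z + 14))) ^ 2 * (z + 11)) +
      57 / 100 * ((z + 10) ^ 2 / ((z + 19) * (z + 14))) +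
      91 / 400 * ((z + 10) ^ 2 / ((z + 19) * (z + 14)) * (z + 11)) -
      85 / 448 * (((z + 10) ^ 2 / ((z + 19) * (z + 14))) ^ 2 * (z + 11)) -
      11 / 60 * (9 / (z + 19) * (z + 10) ^ 2 / (z + 27)) := by
  rw [← sub_nonneg]
  have e : -((z + 10) * (z + 64) / (18 * (2 * z + 47))) +
      4 * (z + 10) / ((z + 19) * (z + 14)) +
      4 * (z + 10) / ((z + 19) * (z + 14)) * (z + 10) *
        ((3 * ((z + 39) / 6) ^ 2 - 8 * ((z + 39) / 6) + 6) / ((z + 39) / 6) ^ 3 -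
          2 / ((z + 39) / 6) ^ 3 * (z + 11)) -
      417 / 640 * ((4 * (z + 10) / ((z + 19) * (z + 14))) ^ 2 * (z + 11)) +
      57 / 100 * ((z + 10) ^ 2 / ((z + 19) * (z + 14))) +
      91 / 400 * ((z + 10) ^ 2 / ((z + 19) * (z + 14)) * (z + 11)) -
      85 / 448 * (((z + 10) ^ 2 / ((z + 19) * (z + 14))) ^ 2 * (z + 11)) -
      11 / 60 * (9 / (z + 19) * (z + 10) ^ 2 / (z + 27)) - (z + 10) ^ 2 / (400 * (z + 12)) =
      (458323286233190400 + 319658500844423280 * z + 96559829396168544 * z ^ 2 +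
        16600932085914072 * z ^ 3 + 1796298995482356 * z ^ 4 + 127807821861103 * z ^ 5 +
        6068450754155 * z ^ 6 + 190963554716 * z ^ 7 + 3867599018 * z ^ 8 + 47902679 * z ^ 9 +
        348167 * z ^ 10 + 1510 * z ^ 11) /
      (21772800 * ((z + 19) ^ 2 * (z + 14) ^ 2 * (z + 27) * (2 * z + 47) * (z + 12) *
        ((z + 39) / 6) ^ 3)) := by
    have a1 : z + 19 ≠ 0 := by linarith
    have a2 : z + 14 ≠ 0 := by linarith
    have a3 : z + 27 ≠ 0 := by linarith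
    have a4 : 2 * z + 47 ≠ 0 := by linarith
    have a5 : z + 12 ≠ 0 := by linarith
    have a6 : z + 39 ≠ 0 := by linarith
    field_simp
    ring
  rw [e]
  positivity

/-- the loss density -/
lemma LF_eq {x : ℝ} (hx : 0 ≤ x) : LF x = 11 / 60 * (A x * (x - 1) ^ 2 / (16 + x)) := by
  unfold LF r
  have : 16 + x ≠ 0 := by linarith
  field_simp
  ring

/-- **(Phi)** -/
theorem budPhi {x : ℝ} (hx : 0 ≤ x) :
    1 / 400 * ((1 - x) ^ 2 / (1 + x)) ≤ Real.log (A x) + NF x + FF2 x - LF x := by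
  rw [LF_eq hx]
  unfold NF nf FF2
  rcases le_or_gt x 1 with h | h
  · have h1 := FinTau967.row01 (β := 3 / 40) (a := 3633 / 10000) (e := 136 / 10000) (k0 := 0)
      (k1 := 417 / 640) (l := 11 / 60) (c := 1 / 400) (by norm_num) (by norm_num) (by norm_num)
      (by norm_num) (by norm_num) hx h
    have ea : al x = 3633 / 10000 := if_pos (by linarith)
    have ee : ep x = 136 / 10000 := if_pos (by linarith)
    rw [ea, ee, A_le h, b1_le h, b2_le h]
    have e2 : 1 / 400 * ((1 - x) ^ 2 / (1 + x)) = 1 / 400 * (x - 1) ^ 2 / (1 + x) := by ring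
    rw [e2]
    refine h1.trans (le_of_eq ?_)
    ring
  · have hlog : -((x - 1) * (x - 1 + 54) / (18 * (2 * (x - 1) + 27))) ≤ Real.log (A x) := by
      rw [A_gt h]
      have h2 := log_le_pade (u := (x - 1) / 9) (by
        have : 0 ≤ x - 1 := by linarith
        positivity)
      have e1 : (9 : ℝ) / (x + 8) = (1 + (x - 1) / 9)⁻¹ := by
        have : x + 8 ≠ 0 := by linarith
        have : 9 + (x - 1) ≠ 0 := by linarith
        field_simp
        ring
      rw [e1, Real.log_inv, neg_le_neg_iff]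
      refine h2.trans (le_of_eq ?_)
      have : 2 * (x - 1) + 27 ≠ 0 := by linarith
      field_simp
      ring
    rcases le_or_gt x 11 with h' | h'
    · have h3 := rat1 (y := x - 1) (by linarith) (by linarith)
      have ea : al x = 3633 / 10000 := if_pos h'
      have ee : ep x = 136 / 10000 := if_pos h'
      rw [ea, ee, A_gt h, b1_gt h, b2_gt h]
      have q1 : x - 1 + 9 = x + 8 := by ring
      have q2 : x - 1 + 4 = x + 3 := by ring
      have q3 : x - 1 + 1 = x := by ring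
      have q4 : x - 1 + 17 = 16 + x := by ring
      have q5 : x - 1 + 2 = 1 + x := by ring
      rw [q1, q2, q3, q4, q5] at h3
      have e2 : 1 / 400 * ((1 - x) ^ 2 / (1 + x)) = (x - 1) ^ 2 / (400 * (1 + x)) := by
        have : 1 + x ≠ 0 := by linarith
        field_simp
        ring
      rw [e2]
      rw [A_gt h] at hlog
      rw [← sub_nonneg] at h3 hlog ⊢
      refine le_trans (add_nonneg h3 hlog) (le_of_eq ?_)
      ring
    · have h3 := rat2 (z := x - 11) (by linarith)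
      have ea : al x = (3 * sp x ^ 2 - 8 * sp x + 6) / sp x ^ 3 := if_neg (not_le.2 h')
      have ee : ep x = 2 / sp x ^ 3 := if_neg (not_le.2 h')
      rw [ea, ee, A_gt h, b1_gt h, b2_gt h]
      have q1 : x - 11 + 19 = x + 8 := by ring
      have q2 : x - 11 + 14 = x + 3 := by ring
      have q3 : x - 11 + 11 = x := by ring
      have q4 : x - 11 + 27 = 16 + x := by ring
      have q5 : x - 11 + 12 = 1 + x := by ring
      have q6 : x - 11 + 10 = x - 1 := by ring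
      have q7 : x - 11 + 64 = x - 1 + 54 := by ring
      have q8 : 2 * (x - 11) + 47 = 2 * (x - 1) + 27 := by ring
      have q9 : (x - 11 + 39) / 6 = sp x := by unfold sp; ring
      rw [q1, q2, q3, q4, q5, q6, q7, q8, q9] at h3
      have e2 : 1 / 400 * ((1 - x) ^ 2 / (1 + x)) = (x - 1) ^ 2 / (400 * (1 + x)) := by
        have : 1 + x ≠ 0 := by linarith
        field_simp
        ring
      rw [e2]
      rw [A_gt h] at hlog
      rw [← sub_nonneg] at h3 hlog ⊢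
      refine le_trans (add_nonneg h3 hlog) (le_of_eq ?_)
      ring

end Crest.Agent.R253.Tab665
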