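import Crest.Agent.R253.HFn_741

/-!
Row 253 (helper711): a small verified Taylor-model arithmetic (fixed point, scale `2^40`), run by
`decide +kernel`.
-/

set_option autoImplicit false

namespace Crest.Agent.R253.Tube711

open Set

/-- scale -/
abbrev S : ℤ := 1099511627776

/-- real value of the scale -/
noncomputable abbrev SR : ℝ := 1099511627776

lemma S_cast : ((S : ℤ) : ℝ) = SR := by norm_num
lemma SR_pos : (0 : ℝ) < SR := by norm_num

/-- polynomial evaluation -/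
noncomputable def ev : List ℤ → ℝ → ℝ
  | [], _ => 0
  | a :: l, s => (a : ℝ) + s * ev l s

def ab : List ℤ → ℕ
  | [] => 0
  | a :: l => a.natAbs + ab l

def addL : List ℤ → List ℤ → List ℤ
  | [], m => m
  | a :: l, [] => a :: l
  | a :: l, b :: m => (a + b) :: addL l m

def smul (a : ℤ) : List ℤ → List ℤ
  | [] => []
  | b :: l => (a * b) :: smul a l

def negL : List ℤ → List ℤ
  | [] => []
  | b :: l => (-b) :: negL l

def mulL : List ℤ → List ℤ → List ℤ
  | [], _ => []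
  | a :: l, m => addL (smul a m) (0 :: mulL l m)

/-- first `n` coefficients -/
def takeL : ℕ → List ℤ → List ℤ
  | 0, _ => []
  | _ + 1, [] => []
  | n + 1, a :: l => a :: takeL n l

def dropL : ℕ → List ℤ → List ℤ
  | 0, l => l
  | _ + 1, [] => []
  | n + 1, _ :: l => dropL n l

def rdL : List ℤ → List ℤ
  | [] => []
  | a :: l => (a / S) :: rdL l

lemma ev_nil (s : ℝ) : ev [] s = 0 := rfl
lemma ev_cons (a : ℤ) (l : List ℤ) (s : ℝ) : ev (a :: l) s = (a : ℝ) + s * ev l s := rfl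

lemma ev_addL : ∀ (l m : List ℤ) (s : ℝ), ev (addL l m) s = ev l s + ev m s
  | [], m, s => by simp [addL, ev]
  | a :: l, [], s => by simp [addL, ev]
  | a :: l, b :: m, s => by
      simp only [addL, ev, Int.cast_add, ev_addL l m s]; ring

lemma ev_smul (a : ℤ) : ∀ (l : List ℤ) (s : ℝ), ev (smul a l) s = a * ev l s
  | [], s => by simp [smul, ev]
  | b :: l, s => by simp only [smul, ev, Int.cast_mul, ev_smul a l s]; ring

lemma ev_negL : ∀ (l : List ℤ) (s : ℝ), ev (negL l) s = - ev l s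
  | [], s => by simp [negL, ev]
  | b :: l, s => by simp only [negL, ev, Int.cast_neg, ev_negL l s]; ring

lemma ev_mulL : ∀ (l m : List ℤ) (s : ℝ), ev (mulL l m) s = ev l s * ev m s
  | [], m, s => by simp [mulL, ev]
  | a :: l, m, s => by
      simp only [mulL, ev_addL, ev_smul, ev_cons, ev_mulL l m s, Int.cast_zero]; ring

lemma ab_le : ∀ (l : List ℤ) {s : ℝ}, |s| ≤ 1 → |ev l s| ≤ (ab l : ℝ)
  | [], s, _ => by simp [ev, ab]
  | a :: l, s, hs => by
      have h := ab_le l hs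
      have h1 : |s * ev l s| ≤ (ab l : ℝ) := by
        rw [abs_mul]
        calc |s| * |ev l s| ≤ 1 * |ev l s| := mul_le_mul_of_nonneg_right hs (abs_nonneg _)
          _ ≤ _ := by rw [one_mul]; exact h
      have h2 : |((a : ℤ) : ℝ)| = (a.natAbs : ℝ) := by
        rw [Nat.cast_natAbs, Int.cast_abs]
      simp only [ev, ab, Nat.cast_add]
      calc |(a : ℝ) + s * ev l s| ≤ |(a : ℝ)| + |s * ev l s| := abs_add_le _ _
        _ ≤ _ := by rw [h2]; linarith

lemma take_drop : ∀ (n : ℕ) (l : List ℤ) {s : ℝ}, |s| ≤ 1 →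
    |ev l s - ev (takeL n l) s| ≤ (ab (dropL n l) : ℝ)
  | 0, l, s, hs => by simpa [takeL, dropL, ev] using ab_le l hs
  | n + 1, [], s, hs => by simp [takeL, dropL, ev, ab]
  | n + 1, a :: l, s, hs => by
      have h := take_drop n l hs
      simp only [takeL, dropL, ev]
      have e : (a : ℝ) + s * ev l s - (a + s * ev (takeL n l) s) =
        s * (ev l s - ev (takeL n l) s) := by ring
      rw [e, abs_mul]
      calc |s| * |ev l s - ev (takeL n l) s| ≤ 1 * |ev l s - ev (takeL n l) s| :=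
            mul_le_mul_of_nonneg_right hs (abs_nonneg _)
        _ ≤ _ := by rw [one_mul]; exact h

lemma div_err (a : ℤ) : |(a : ℝ) / SR - ((a / S : ℤ) : ℝ)| ≤ 1 := by
  have h0 : (0 : ℤ) < S := by norm_num
  have h1 : (a / S) * S ≤ a := Int.ediv_mul_le a h0.ne'
  have h2 : a < (a / S + 1) * S := Int.lt_ediv_add_one_mul_self a h0
  have h1' : ((a / S : ℤ) : ℝ) * SR ≤ a := by rw [← S_cast]; exact_mod_cast h1
  have h2' : (a : ℝ) ≤ (((a / S : ℤ) : ℝ) + 1) * SR := by rw [← S_cast]; exact_mod_cast h2.le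
  rw [abs_le]
  constructor
  · have : ((a / S : ℤ) : ℝ) ≤ (a : ℝ) / SR := by rw [le_div_iff₀ SR_pos]; exact h1'
    linarith
  · have : (a : ℝ) / SR ≤ ((a / S : ℤ) : ℝ) + 1 := by rw [div_le_iff₀ SR_pos]; exact h2'
    linarith

lemma rd_err : ∀ (l : List ℤ) {s : ℝ}, |s| ≤ 1 →
    |ev l s / SR - ev (rdL l) s| ≤ (l.length : ℝ)
  | [], s, _ => by simp [ev, rdL]
  | a :: l, s, hs => by
      have h := rd_err l hs
      have h1 := div_err a
      simp only [ev, rdL, List.length_cons, Nat.cast_add, Nat.cast_one]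
      have e : ((a : ℝ) + s * ev l s) / SR - (((a / S : ℤ) : ℝ) + s * ev (rdL l) s) =
        ((a : ℝ) / SR - ((a / S : ℤ) : ℝ)) + s * (ev l s / SR - ev (rdL l) s) := by ring
      rw [e]
      have h2 : |s * (ev l s / SR - ev (rdL l) s)| ≤ (l.length : ℝ) := by
        rw [abs_mul]
        calc |s| * |ev l s / SR - ev (rdL l) s| ≤ 1 * |ev l s / SR - ev (rdL l) s| :=
              mul_le_mul_of_nonneg_right hs (abs_nonneg _)
          _ ≤ _ := by rw [one_mul]; exact h
      calc _ ≤ |(a : ℝ) / SR - ((a / S : ℤ) : ℝ)| + |s * (ev l s / SR - ev (rdL l) s)| :=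
            abs_add_le _ _
        _ ≤ _ := by linarith

lemma length_takeL : ∀ (n : ℕ) (l : List ℤ), (takeL n l).length ≤ n
  | 0, l => by simp [takeL]
  | n + 1, [] => by simp [takeL]
  | n + 1, a :: l => by
      have := length_takeL n l
      simp only [takeL, List.length_cons]; omega

/-- Taylor models -/
structure TM where
  c : List ℤ
  e : ℕ

/-- `f` on `[-1, 1]` is in the Taylor model -/
def TM.mem (T : TM) (f : ℝ → ℝ) : Prop := ∀ s : ℝ, |s| ≤ 1 → |f s * SR - ev T.c s| ≤ (T.e : ℝ)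

def TM.add (A B : TM) : TM := ⟨addL A.c B.c, A.e + B.e⟩
def TM.sub (A B : TM) : TM := ⟨addL A.c (negL B.c), A.e + B.e⟩
def TM.mul (A B : TM) : TM :=
  let P := mulL A.c B.c
  ⟨rdL (takeL 7 P), 8 + (ab (dropL 7 P) + ab A.c * B.e + ab B.c * A.e + A.e * B.e) / 1099511627776⟩
def TM.const (n : ℤ) (d : ℕ) : TM := ⟨[n * S / (d : ℤ)], 1⟩

lemma mem_add {A B : TM} {f g : ℝ → ℝ} (ha : A.mem f) (hb : B.mem g) :
    (A.add B).mem (fun s => f s + g s) := by
  intro s hs
  have h1 := ha s hs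
  have h2 := hb s hs
  simp only [TM.add, ev_addL, Nat.cast_add]
  have e : (f s + g s) * SR - (ev A.c s + ev B.c s) =
    (f s * SR - ev A.c s) + (g s * SR - ev B.c s) := by ring
  rw [e]
  exact (abs_add_le _ _).trans (add_le_add h1 h2)

lemma mem_sub {A B : TM} {f g : ℝ → ℝ} (ha : A.mem f) (hb : B.mem g) :
    (A.sub B).mem (fun s => f s - g s) := by
  intro s hs
  have h1 := ha s hs
  have h2 := hb s hs
  simp only [TM.sub, ev_addL, ev_negL, Nat.cast_add]
  have e : (f s - g s) * SR - (ev A.c s + -ev B.c s) =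
    (f s * SR - ev A.c s) + -(g s * SR - ev B.c s) := by ring
  rw [e]
  exact (abs_add_le _ _).trans (add_le_add h1 (by rw [abs_neg]; exact h2))

lemma mem_mul {A B : TM} {f g : ℝ → ℝ} (ha : A.mem f) (hb : B.mem g) :
    (A.mul B).mem (fun s => f s * g s) := by
  intro s hs
  have h1 := ha s hs
  have h2 := hb s hs
  have a1 := ab_le A.c hs
  have b1 := ab_le B.c hs
  set F := f s * SR with hF
  set G := g s * SR with hG
  set p := ev A.c s with hp
  set q := ev B.c s with hq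
  have hP : ev (mulL A.c B.c) s = p * q := ev_mulL _ _ _
  have h3 := take_drop 7 (mulL A.c B.c) hs
  have h4 := rd_err (takeL 7 (mulL A.c B.c)) hs
  have h5 : ((takeL 7 (mulL A.c B.c)).length : ℝ) ≤ 7 := by
    exact_mod_cast length_takeL 7 _
  rw [hP] at h3
  set P7 := ev (takeL 7 (mulL A.c B.c)) s with hP7
  set R7 := ev (rdL (takeL 7 (mulL A.c B.c))) s with hR7
  have e1 : |F * G - p * q| ≤ (ab A.c * B.e + ab B.c * A.e + A.e * B.e : ℝ) := by
    have e : F * G - p * q = p * (G - q) + q * (F - p) + (F - p) * (G - q) := by ring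
    rw [e]
    have t1 : |p * (G - q)| ≤ (ab A.c * B.e : ℝ) := by
      rw [abs_mul]; exact mul_le_mul a1 h2 (abs_nonneg _) (Nat.cast_nonneg _)
    have t2 : |q * (F - p)| ≤ (ab B.c * A.e : ℝ) := by
      rw [abs_mul]; exact mul_le_mul b1 h1 (abs_nonneg _) (Nat.cast_nonneg _)
    have t3 : |(F - p) * (G - q)| ≤ (A.e * B.e : ℝ) := by
      rw [abs_mul]; exact mul_le_mul h1 h2 (abs_nonneg _) (Nat.cast_nonneg _)
    calc _ ≤ |p * (G - q) + q * (F - p)| + |(F - p) * (G - q)| := abs_add_le _ _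
      _ ≤ |p * (G - q)| + |q * (F - p)| + |(F - p) * (G - q)| := by
          have := abs_add_le (p * (G - q)) (q * (F - p)); linarith
      _ ≤ _ := by linarith
  have e2 : |F * G - P7| ≤ ((ab (dropL 7 (mulL A.c B.c)) + ab A.c * B.e + ab B.c * A.e +
      A.e * B.e : ℕ) : ℝ) := by
    have e : F * G - P7 = (F * G - p * q) + (p * q - P7) := by ring
    rw [e]
    push_cast
    calc _ ≤ |F * G - p * q| + |p * q - P7| := abs_add_le _ _
      _ ≤ _ := by linarith
  set M : ℕ := ab (dropL 7 (mulL A.c B.c)) + ab A.c * B.e + ab B.c * A.e + A.e * B.e with hM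
  have e3 : (M : ℝ) / SR ≤ ((M / 1099511627776 : ℕ) : ℝ) + 1 := by
    rw [div_le_iff₀ SR_pos]
    have : M ≤ (M / 1099511627776 + 1) * 1099511627776 := by omega
    have h : (M : ℝ) ≤ (((M / 1099511627776 + 1) * 1099511627776 : ℕ) : ℝ) := by exact_mod_cast this
    push_cast at h
    exact h
  have e4 : |F * G / SR - P7 / SR| ≤ (M : ℝ) / SR := by
    rw [← sub_div, abs_div, abs_of_pos SR_pos]
    exact div_le_div_of_nonneg_right e2 SR_pos.le
  have e5 : f s * g s * SR = F * G / SR := by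
    rw [hF, hG]; field_simp
  simp only [TM.mul]
  rw [← hM, e5]
  have e : F * G / SR - R7 = (F * G / SR - P7 / SR) + (P7 / SR - R7) := by ring
  rw [← hR7, e]
  push_cast
  calc _ ≤ |F * G / SR - P7 / SR| + |P7 / SR - R7| := abs_add_le _ _
    _ ≤ _ := by linarith

lemma mem_const (n : ℤ) {d : ℕ} (hd : d ≠ 0) :
    (TM.const n d).mem (fun _ => (n : ℝ) / (d : ℝ)) := by
  intro s hs
  have hd' : (0 : ℤ) < (d : ℤ) := by positivity
  have hdr : (0 : ℝ) < (d : ℝ) := by positivity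
  have h1 : (n * S / (d : ℤ)) * d ≤ n * S := Int.ediv_mul_le _ hd'.ne'
  have h2 : n * S < (n * S / (d : ℤ) + 1) * d := Int.lt_ediv_add_one_mul_self _ hd'
  have h1' : ((n * S / (d : ℤ) : ℤ) : ℝ) * d ≤ n * SR := by rw [← S_cast]; exact_mod_cast h1
  have h2' : (n : ℝ) * SR ≤ (((n * S / (d : ℤ) : ℤ) : ℝ) + 1) * d := by
    rw [← S_cast]; exact_mod_cast h2.le
  simp only [TM.const, ev, mul_zero, add_zero, Nat.cast_one]
  have e : (n : ℝ) / d * SR = n * SR / d := by ring
  rw [e, abs_le]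
  constructor
  · have : ((n * S / (d : ℤ) : ℤ) : ℝ) ≤ n * SR / d := by rw [le_div_iff₀ hdr]; exact h1'
    linarith
  · have : n * SR / d ≤ ((n * S / (d : ℤ) : ℤ) : ℝ) + 1 := by rw [div_le_iff₀ hdr]; exact h2'
    linarith

lemma mem_congr {A : TM} {f g : ℝ → ℝ} (h : A.mem f) (hg : ∀ s, |s| ≤ 1 → f s = g s) :
    A.mem g := by
  intro s hs
  rw [← hg s hs]
  exact h s hs

/-! ### positivity test -/

/-- `Σ j |c_j|` -/
def lipA : ℕ → List ℤ → ℕ
  | _, [] => 0
  | j, a :: l => j * a.natAbs + lipA (j + 1) l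

/-- numerator and denominator of `ev l (a / m)` -/
def hev (a : ℤ) (m : ℕ) : List ℤ → ℤ × ℕ
  | [] => (0, 1)
  | c :: l => let r := hev a m l
    (c * ((r.2 * m : ℕ) : ℤ) + a * r.1, r.2 * m)

lemma hev_spec (a : ℤ) {m : ℕ} (hm : 0 < m) : ∀ l : List ℤ,
    0 < (hev a m l).2 ∧ ev l ((a : ℝ) / m) = ((hev a m l).1 : ℝ) / ((hev a m l).2 : ℝ)
  | [] => by simp [hev, ev]
  | c :: l => by
      obtain ⟨h1, h2⟩ := hev_spec a hm l
      have h1' : (0 : ℝ) < ((hev a m l).2 : ℝ) := by exact_mod_cast h1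
      have hm' : (0 : ℝ) < (m : ℝ) := by exact_mod_cast hm
      refine ⟨by simp only [hev]; positivity, ?_⟩
      simp only [hev, ev, h2]
      push_cast
      field_simp

lemma pow_sub_le (s t : ℝ) (hs : |s| ≤ 1) (ht : |t| ≤ 1) : ∀ j : ℕ,
    |s ^ j - t ^ j| ≤ j * |s - t|
  | 0 => by simp
  | j + 1 => by
      have h := pow_sub_le s t hs ht j
      have e : s ^ (j + 1) - t ^ (j + 1) = s ^ j * (s - t) + t * (s ^ j - t ^ j) := by ring
      rw [e]
      have h1 : |s ^ j * (s - t)| ≤ |s - t| := by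
        rw [abs_mul, abs_pow]
        calc |s| ^ j * |s - t| ≤ 1 * |s - t| :=
              mul_le_mul_of_nonneg_right (pow_le_one₀ (abs_nonneg _) hs) (abs_nonneg _)
          _ = _ := one_mul _
      have h2 : |t * (s ^ j - t ^ j)| ≤ j * |s - t| := by
        rw [abs_mul]
        calc |t| * |s ^ j - t ^ j| ≤ 1 * |s ^ j - t ^ j| :=
              mul_le_mul_of_nonneg_right ht (abs_nonneg _)
          _ ≤ _ := by rw [one_mul]; exact h
      push_cast
      calc _ ≤ |s ^ j * (s - t)| + |t * (s ^ j - t ^ j)| := abs_add_le _ _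
        _ ≤ _ := by linarith

lemma lip_gen (s t : ℝ) (hs : |s| ≤ 1) (ht : |t| ≤ 1) : ∀ (l : List ℤ) (j : ℕ),
    |s ^ j * ev l s - t ^ j * ev l t| ≤ (lipA j l : ℝ) * |s - t|
  | [], j => by simp [ev, lipA]
  | a :: l, j => by
      have h := lip_gen s t hs ht l (j + 1)
      have h2 : |((a : ℤ) : ℝ)| = (a.natAbs : ℝ) := by
        rw [Nat.cast_natAbs, Int.cast_abs]
      have e : s ^ j * ev (a :: l) s - t ^ j * ev (a :: l) t =
        a * (s ^ j - t ^ j) + (s ^ (j + 1) * ev l s - t ^ (j + 1) * ev l t) := by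
        simp only [ev]; ring
      rw [e]
      have h3 : |(a : ℝ) * (s ^ j - t ^ j)| ≤ (j * a.natAbs : ℝ) * |s - t| := by
        rw [abs_mul, h2]
        have := pow_sub_le s t hs ht j
        calc (a.natAbs : ℝ) * |s ^ j - t ^ j| ≤ (a.natAbs : ℝ) * (j * |s - t|) :=
              mul_le_mul_of_nonneg_left this (Nat.cast_nonneg _)
          _ = _ := by ring
      simp only [lipA]
      push_cast
      calc _ ≤ |(a : ℝ) * (s ^ j - t ^ j)| +
            |s ^ (j + 1) * ev l s - t ^ (j + 1) * ev l t| := abs_add_le _ _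
        _ ≤ (j * a.natAbs : ℝ) * |s - t| + (lipA (j + 1) l : ℝ) * |s - t| := add_le_add h3 h
        _ = _ := by ring

lemma lip_le (l : List ℤ) {s t : ℝ} (hs : |s| ≤ 1) (ht : |t| ≤ 1) :
    |ev l s - ev l t| ≤ (lipA 0 l : ℝ) * |s - t| := by
  simpa using lip_gen s t hs ht l 0

/-- test at the points `(2 i + 1 - m) / m`, `i < n` -/
def posAux (T : TM) (L : ℕ) (m : ℕ) : ℕ → Bool
  | 0 => true
  | i + 1 =>
    let r := hev (2 * (i : ℤ) + 1 - m) m T.c
    decide (((r.2 * (m * T.e + L) : ℕ) : ℤ) < m * r.1) && posAux T L m i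

/-- positivity test with `m` subintervals -/
def TM.pos (m : ℕ) (T : TM) : Bool := decide (0 < m) && posAux T (lipA 0 T.c) m m

lemma posAux_spec {T : TM} {L m : ℕ} : ∀ {n : ℕ}, posAux T L m n = true → ∀ i < n,
    (((hev (2 * (i : ℤ) + 1 - m) m T.c).2 * (m * T.e + L) : ℕ) : ℤ) <
      m * (hev (2 * (i : ℤ) + 1 - m) m T.c).1
  | 0, _, i, hi => by omega
  | n + 1, h, i, hi => by
      simp only [posAux, Bool.and_eq_true, decide_eq_true_eq] at h
      rcases Nat.lt_succ_iff_lt_or_eq.1 hi with h1 | h1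
      · exact posAux_spec h.2 i h1
      · subst h1; exact h.1

/-- every point of `[-1, 1]` is near a test point -/
lemma exists_pt {m : ℕ} (hm : 0 < m) {s : ℝ} (hs : |s| ≤ 1) :
    ∃ i < m, |s - ((2 * (i : ℝ) + 1 - m) / m)| ≤ 1 / m ∧ |((2 * (i : ℝ) + 1 - m) / m)| ≤ 1 := by
  have hm' : (0 : ℝ) < (m : ℝ) := by exact_mod_cast hm
  obtain ⟨h1, h2⟩ := abs_le.1 hs
  -- i = min (m-1) floor((s+1) m / 2)
  set x := (s + 1) * m / 2 with hx
  have hx0 : 0 ≤ x := by rw [hx]; apply div_nonneg _ (by norm_num); apply mul_nonneg _ hm'.le; linarith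
  have hxm : x ≤ m := by rw [hx]; nlinarith
  have key : ∀ i : ℕ, i < m → (i : ℝ) ≤ x → x ≤ i + 1 →
      |s - ((2 * (i : ℝ) + 1 - m) / m)| ≤ 1 / m ∧ |((2 * (i : ℝ) + 1 - m) / m)| ≤ 1 := by
    intro i hi ha hb
    have hi' : (i : ℝ) + 1 ≤ m := by exact_mod_cast hi
    have hi0 : (0 : ℝ) ≤ (i : ℝ) := Nat.cast_nonneg i
    constructor
    · have e : s - ((2 * (i : ℝ) + 1 - m) / m) = (2 * x - (2 * i + 1)) / m := by
        rw [hx]; field_simp; ring
      rw [e, abs_div, abs_of_pos hm']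
      apply div_le_div_of_nonneg_right _ hm'.le
      rw [abs_le]; constructor <;> linarith
    · rw [abs_div, abs_of_pos hm', div_le_one hm', abs_le]
      constructor <;> linarith
  rcases lt_or_ge x m with hlt | hge
  · refine ⟨⌊x⌋₊, (Nat.floor_lt hx0).2 hlt, key _ ((Nat.floor_lt hx0).2 hlt)
      (Nat.floor_le hx0) (Nat.lt_floor_add_one x).le⟩
  · have hxe : x = m := le_antisymm hxm hge
    have h3 : ((m - 1 : ℕ) : ℝ) = m - 1 := by
      rw [Nat.cast_sub (by omega)]; simp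
    refine ⟨m - 1, by omega, key (m - 1) (by omega) ?_ ?_⟩
    · rw [h3, hxe]; linarith
    · rw [h3, hxe]; linarith

theorem pos_of_pos {T : TM} {m : ℕ} {f : ℝ → ℝ} (hf : T.mem f) (h : T.pos m = true) {s : ℝ}
    (hs : |s| ≤ 1) : 0 < f s := by
  simp only [TM.pos, Bool.and_eq_true, decide_eq_true_eq] at h
  obtain ⟨hm, hp⟩ := h
  have hm' : (0 : ℝ) < (m : ℝ) := by exact_mod_cast hm
  obtain ⟨i, hi, h1, h2⟩ := exists_pt hm hs
  have h3 := posAux_spec hp i hi
  set t : ℝ := (2 * (i : ℝ) + 1 - m) / m with ht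
  obtain ⟨h4, h5⟩ := hev_spec (2 * (i : ℤ) + 1 - m) hm T.c
  have e1 : (((2 * (i : ℤ) + 1 - m : ℤ) : ℝ)) / m = t := by rw [ht]; push_cast; ring
  rw [e1] at h5
  set N := (hev (2 * (i : ℤ) + 1 - m) m T.c).1
  set D := (hev (2 * (i : ℤ) + 1 - m) m T.c).2
  have hD : (0 : ℝ) < (D : ℝ) := by exact_mod_cast h4
  have h6 : (D : ℝ) * (m * T.e + lipA 0 T.c) < m * N := by exact_mod_cast h3
  have h7 : (T.e : ℝ) + lipA 0 T.c / m < ev T.c t := by
    rw [h5, lt_div_iff₀ hD]
    have : ((T.e : ℝ) + lipA 0 T.c / m) * D * m < N * m := by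
      have e : ((T.e : ℝ) + lipA 0 T.c / m) * D * m = (D : ℝ) * (m * T.e + lipA 0 T.c) := by
        field_simp
      rw [e]; linarith
    exact lt_of_mul_lt_mul_right this hm'.le
  have h8 := lip_le T.c hs h2
  have h9 : (lipA 0 T.c : ℝ) * |s - t| ≤ lipA 0 T.c / m := by
    have := mul_le_mul_of_nonneg_left h1 (Nat.cast_nonneg (α := ℝ) (lipA 0 T.c))
    calc _ ≤ (lipA 0 T.c : ℝ) * (1 / m) := this
      _ = _ := by ring
  have h10 : (T.e : ℝ) < ev T.c s := by
    have := (abs_le.1 h8).1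
    linarith
  have h11 := (abs_le.1 (hf s hs)).1
  have h12 : 0 < f s * SR := by linarith
  exact pos_of_mul_pos_left h12 SR_pos.le

end Crest.Agent.R253.Tube711
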