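import Crest.Agent.R253.TubeA_711

/-!
Row 253 (helper711): certified Taylor-model table of the curve `z ↦ (ee z, H0 z)` on `[-10, 10]`
(80 cells of width `1/4`), and the checker for polynomial expressions in `(z, ee z, H0 z)`.
-/

set_option autoImplicit false

namespace Crest.Agent.R253.Tube711

open Set Crest.Agent.R253.Mills37

/-- data of a cell with centre `k / 8`, half width `1/8` -/
structure Cell where
  P : List ℤ
  a : ℤ
  b : ℤ
  Q : List ℤ
  a' : ℤ
  b' : ℤ

/-- `z = (k + s) / 8` -/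
def zT (k : ℤ) : TM := ⟨[k * 137438953472, 137438953472], 0⟩

def dL : List ℤ → List ℤ
  | [] => []
  | _ :: l => addL l (0 :: dL l)

lemma ev_hasDerivAt : ∀ (l : List ℤ) (s : ℝ), HasDerivAt (ev l) (ev (dL l) s) s
  | [], s => by
      have : ev [] = fun _ => (0 : ℝ) := by funext t; rfl
      rw [this]; simpa [dL, ev] using hasDerivAt_const s (0 : ℝ)
  | a :: l, s => by
      have h := ((hasDerivAt_id s).mul (ev_hasDerivAt l s)).const_add (a : ℝ)
      refine (h.congr_of_eventuallyEq ?_).congr_deriv ?_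
      · filter_upwards with t
        simp [ev]
      · simp only [dL, ev_addL, ev_cons, id]; push_cast; ring

def ev1 : List ℤ → ℤ
  | [] => 0
  | a :: l => a + ev1 l
def evm : List ℤ → ℤ
  | [] => 0
  | a :: l => a - evm l

lemma ev_one : ∀ l : List ℤ, ev l 1 = (ev1 l : ℝ)
  | [] => by simp [ev, ev1]
  | a :: l => by simp [ev, ev1, ev_one l]
lemma ev_neg_one : ∀ l : List ℤ, ev l (-1) = (evm l : ℝ)
  | [] => by simp [ev, evm]
  | a :: l => by simp only [ev, evm, ev_neg_one l]; push_cast; ring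

lemma mem_zT (k : ℤ) : (zT k).mem (fun s => ((k : ℝ) + s) / 8) := by
  intro s _
  simp only [zT, ev, mul_zero, add_zero]
  push_cast
  have : ((k : ℝ) + s) / 8 * SR - ((k : ℝ) * 137438953472 + s * 137438953472) = 0 := by ring
  rw [this]; simp

lemma mem_poly (l : List ℤ) : (⟨l, 0⟩ : TM).mem (fun s => ev l s / SR) := by
  intro s _
  have : ev l s / SR * SR - ev l s = 0 := by field_simp; simp
  simp only [this]; simp

/-! ### comparison lemmas on `[-1, 1]` -/

lemma fwd_cmp {f f' B B' : ℝ → ℝ} (hf : ∀ s, HasDerivAt f (f' s) s)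
    (hB : ∀ s, HasDerivAt B (B' s) s) (h1 : f (-1) ≤ B (-1))
    (h : ∀ s, |s| ≤ 1 → f s = B s → f' s < B' s) : ∀ s, |s| ≤ 1 → f s ≤ B s := by
  intro s hs
  refine image_le_of_deriv_right_lt_deriv_boundary' (a := -1) (b := 1)
    (fun x _ => (hf x).continuousAt.continuousWithinAt) (fun x _ => (hf x).hasDerivWithinAt) h1
    (fun x _ => (hB x).continuousAt.continuousWithinAt) (fun x _ => (hB x).hasDerivWithinAt)
    (fun x hx => h x (abs_le.2 ⟨hx.1, hx.2.le⟩)) (abs_le.1 hs)

lemma back_cmp {f f' B B' : ℝ → ℝ} (hf : ∀ s, HasDerivAt f (f' s) s)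
    (hB : ∀ s, HasDerivAt B (B' s) s) (h1 : f 1 ≤ B 1)
    (h : ∀ s, |s| ≤ 1 → f s = B s → B' s < f' s) : ∀ s, |s| ≤ 1 → f s ≤ B s := by
  intro s hs
  have hf2 : ∀ x, HasDerivAt (fun x => f (-x)) (-f' (-x)) x := by
    intro x
    have := (hf (-x)).comp x (hasDerivAt_neg x)
    exact (this : HasDerivAt (fun x => f (-x)) _ x).congr_deriv (by ring)
  have hB2 : ∀ x, HasDerivAt (fun x => B (-x)) (-B' (-x)) x := by
    intro x
    have := (hB (-x)).comp x (hasDerivAt_neg x)
    exact (this : HasDerivAt (fun x => B (-x)) _ x).congr_deriv (by ring)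
  have := fwd_cmp hf2 hB2 (by simpa using h1) (fun x hx he => by
    have := h (-x) (by rwa [abs_neg]) he
    linarith) (-s) (by rwa [abs_neg])
  simpa using this

/-! ### cell checks -/

def chkE1 (k : ℤ) (c : Cell) : Bool :=
  let PT : TM := ⟨c.P, 0⟩
  let R := TM.sub ⟨smul 8 (dL c.P), 0⟩
    (TM.sub (TM.mul (TM.add (zT k) PT) PT) (TM.const 1 1))
  let eps : ℕ := ab R.c + R.e
  let dm : ℕ := c.a.natAbs + c.b.natAbs
  decide (c.b.natAbs ≤ c.a.natAbs) && decide (0 ≤ c.a) &&
  TM.pos 8 (TM.sub (TM.mul ⟨[c.a, c.b], 0⟩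
    (TM.add (zT k) (TM.add PT (TM.sub PT ⟨[(dm : ℤ)], 0⟩)))) ⟨[(eps : ℤ) + 8 * c.b], 0⟩)

def chkV1 (k : ℤ) (c : Cell) : Bool :=
  let PT : TM := ⟨c.P, 0⟩
  let QT : TM := ⟨c.Q, 0⟩
  let R := TM.sub ⟨smul 8 (dL c.Q), 0⟩ (TM.sub (TM.const 1 1) (TM.mul PT QT))
  let eps : ℕ := ab R.c + R.e
  let dm : ℕ := c.a.natAbs + c.b.natAbs
  let cost : ℕ := (dm * ab c.Q) / 1099511627776 + 1
  decide (c.b'.natAbs ≤ c.a'.natAbs) && decide (0 ≤ c.a') &&
  TM.pos 8 (TM.sub (TM.mul ⟨[c.a', c.b'], 0⟩ (TM.sub PT ⟨[(dm : ℤ)], 0⟩))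
    ⟨[(eps : ℤ) + cost - 8 * c.b'], 0⟩)

/-- junction of two consecutive cells -/
def chkJ (c d : Cell) : Bool :=
  decide (((evm d.P - ev1 c.P).natAbs : ℤ) + (d.a - d.b) ≤ c.a + c.b) &&
  decide (((ev1 c.Q - evm d.Q).natAbs : ℤ) + (c.a' + c.b') ≤ d.a' - d.b')

def EP (k : ℤ) (c : Cell) : Prop :=
  ∀ s : ℝ, |s| ≤ 1 → |ee (((k : ℝ) + s) / 8) * SR - ev c.P s| ≤ c.a + c.b * s
def VP (k : ℤ) (c : Cell) : Prop :=
  ∀ s : ℝ, |s| ≤ 1 → |H0 (((k : ℝ) + s) / 8) * SR - ev c.Q s| ≤ c.a' + c.b' * s

lemma lin_nonneg {a b : ℤ} (h1 : b.natAbs ≤ a.natAbs) (h2 : 0 ≤ a) {s : ℝ} (hs : |s| ≤ 1) :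
    0 ≤ (a : ℝ) + b * s ∧ (a : ℝ) + b * s ≤ ((a.natAbs + b.natAbs : ℕ) : ℝ) := by
  have hb : |(b : ℝ)| ≤ a := by
    have : (b.natAbs : ℤ) ≤ (a.natAbs : ℤ) := by exact_mod_cast h1
    rw [Int.natCast_natAbs, Int.natCast_natAbs, abs_of_nonneg h2] at this
    exact_mod_cast this
  have h3 : |(b : ℝ) * s| ≤ |(b : ℝ)| := by
    rw [abs_mul]
    calc |(b : ℝ)| * |s| ≤ |(b : ℝ)| * 1 := mul_le_mul_of_nonneg_left hs (abs_nonneg _)
      _ = _ := mul_one _
  have h4 := abs_le.1 h3
  have ha : ((a.natAbs : ℕ) : ℝ) = a := by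
    rw [Nat.cast_natAbs, abs_of_nonneg h2]
  have hbn : ((b.natAbs : ℕ) : ℝ) = |(b : ℝ)| := by
    rw [Nat.cast_natAbs, Int.cast_abs]
  constructor
  · linarith
  · push_cast [ha, hbn]
    linarith

lemma ee_comp (k : ℤ) (s : ℝ) : HasDerivAt (fun s : ℝ => ee (((k : ℝ) + s) / 8))
    (((((k : ℝ) + s) / 8 + ee (((k : ℝ) + s) / 8)) * ee (((k : ℝ) + s) / 8) - 1) / 8) s := by
  have h1 : HasDerivAt (fun s : ℝ => ((k : ℝ) + s) / 8) (1 / 8) s := by
    simpa using ((hasDerivAt_id s).const_add (k : ℝ)).div_const 8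
  have h2 := (ee_hasDerivAt (((k : ℝ) + s) / 8)).comp s h1
  rw [mu_eq] at h2
  exact h2.congr_deriv (by ring)

lemma H0_comp (k : ℤ) (s : ℝ) : HasDerivAt (fun s : ℝ => H0 (((k : ℝ) + s) / 8))
    ((1 - ee (((k : ℝ) + s) / 8) * H0 (((k : ℝ) + s) / 8)) / 8) s := by
  have h1 : HasDerivAt (fun s : ℝ => ((k : ℝ) + s) / 8) (1 / 8) s := by
    simpa using ((hasDerivAt_id s).const_add (k : ℝ)).div_const 8
  have h2 := (H0_hasDerivAt (((k : ℝ) + s) / 8)).comp s h1
  exact h2.congr_deriv (by ring)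

lemma res_bound {T : TM} {f : ℝ → ℝ} (h : T.mem f) {s : ℝ} (hs : |s| ≤ 1) :
    |f s * SR| ≤ ((ab T.c + T.e : ℕ) : ℝ) := by
  have h1 := h s hs
  have h2 := ab_le T.c hs
  push_cast
  have : f s * SR = ev T.c s + (f s * SR - ev T.c s) := by ring
  rw [this]
  exact (abs_add_le _ _).trans (add_le_add h2 h1)

lemma lin_hasDerivAt (a b : ℝ) (s : ℝ) : HasDerivAt (fun s : ℝ => a + b * s) b s := by
  simpa using ((hasDerivAt_id s).const_mul b).const_add a

lemma ub_hasDerivAt (l : List ℤ) (a b : ℝ) (s : ℝ) :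
    HasDerivAt (fun s : ℝ => (ev l s + (a + b * s)) / SR) ((ev (dL l) s + b) / SR) s :=
  ((ev_hasDerivAt l s).add (lin_hasDerivAt a b s)).div_const SR

lemma lb_hasDerivAt (l : List ℤ) (a b : ℝ) (s : ℝ) :
    HasDerivAt (fun s : ℝ => (ev l s - (a + b * s)) / SR) ((ev (dL l) s - b) / SR) s :=
  ((ev_hasDerivAt l s).sub (lin_hasDerivAt a b s)).div_const SR

theorem cellE {k : ℤ} {c : Cell} (h : chkE1 k c = true)
    (h1 : |ee (((k : ℝ) + 1) / 8) * SR - ev c.P 1| ≤ c.a + c.b) : EP k c := by
  simp only [chkE1, Bool.and_eq_true, decide_eq_true_eq] at h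
  obtain ⟨⟨hba, ha⟩, hpos⟩ := h
  set PT : TM := ⟨c.P, 0⟩ with hPT
  set R := TM.sub ⟨smul 8 (dL c.P), 0⟩
    (TM.sub (TM.mul (TM.add (zT k) PT) PT) (TM.const 1 1)) with hR
  set eps : ℕ := ab R.c + R.e with heps
  set dm : ℕ := c.a.natAbs + c.b.natAbs with hdm
  have mz := mem_zT k
  have mp : PT.mem (fun s => ev c.P s / SR) := mem_poly c.P
  have mR := mem_sub (mem_poly (smul 8 (dL c.P)))
    (mem_sub (mem_mul (mem_add mz mp) mp) (mem_const 1 (d := 1) one_ne_zero))
  have md := mem_sub (mem_mul (mem_poly [c.a, c.b])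
    (mem_add mz (mem_add mp (mem_sub mp (mem_poly [(dm : ℤ)])))))
    (mem_poly [(eps : ℤ) + 8 * c.b])
  have key : ∀ s : ℝ, |s| ≤ 1 →
      |(8 * ev (dL c.P) s / SR - ((((k : ℝ) + s) / 8 + ev c.P s / SR) * (ev c.P s / SR) - 1))|
        ≤ eps / SR ∧
      (eps + 8 * c.b) / SR < (c.a + c.b * s) / SR *
        (((k : ℝ) + s) / 8 + (ev c.P s / SR + (ev c.P s / SR - dm / SR))) := by
    intro s hs
    constructor
    · have := res_bound mR hs
      beta_reduce at this
      have e : (ev (smul 8 (dL c.P)) s / SR - ((((k : ℝ) + s) / 8 + ev c.P s / SR) *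
          (ev c.P s / SR) - ((1 : ℤ) : ℝ) / ((1 : ℕ) : ℝ))) = (8 * ev (dL c.P) s / SR -
          ((((k : ℝ) + s) / 8 + ev c.P s / SR) * (ev c.P s / SR) - 1)) := by
        rw [ev_smul]; push_cast; ring
      rw [e, abs_mul, abs_of_pos SR_pos, ← hR, ← heps] at this
      rw [le_div_iff₀ SR_pos]
      exact this
    · have := pos_of_pos md hpos hs
      simp only [ev] at this
      push_cast at this
      have e : (c.a : ℝ) + s * (c.b + s * 0) = c.a + c.b * s := by ring
      rw [e] at this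
      simp only [mul_zero, add_zero] at this
      linarith
  have hlin := fun s hs => lin_nonneg hba ha (s := s) hs
  -- upper barrier
  have up : ∀ s, |s| ≤ 1 → ee (((k : ℝ) + s) / 8) ≤ (ev c.P s + (c.a + c.b * s)) / SR := by
    apply back_cmp (f' := fun s => (((((k : ℝ) + s) / 8 + ee (((k : ℝ) + s) / 8)) *
      ee (((k : ℝ) + s) / 8) - 1) / 8)) (B' := fun s => (ev (dL c.P) s + c.b) / SR)
      (fun s => ee_comp k s)
      (fun s => ub_hasDerivAt c.P _ _ s)
    · rw [le_div_iff₀ SR_pos]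
      have := (abs_le.1 h1).2
      linarith
    · intro s hs he
      simp only [he]
      obtain ⟨k1, k2⟩ := key s hs
      obtain ⟨l1, l2⟩ := hlin s hs
      have k1' := (abs_le.1 k1).2
      set p := ev c.P s / SR
      set dl := (c.a + c.b * s) / SR with hdl
      have hdl0 : 0 ≤ dl := div_nonneg l1 SR_pos.le
      have e1 : (ev c.P s + (c.a + c.b * s)) / SR = p + dl := by rw [add_div]
      rw [e1]
      have e2 : (ev (dL c.P) s + c.b) / SR = (8 * ev (dL c.P) s / SR + 8 * c.b / SR) / 8 := by ring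
      rw [e2]
      apply div_lt_div_of_pos_right _ (by norm_num)
      have hdm0 : (0 : ℝ) ≤ dm / SR := by positivity
      have k3 : (eps : ℝ) / SR + 8 * c.b / SR < dl * ((k + s) / 8 + 2 * p + dl) := by
        have : (eps + 8 * c.b) / SR = (eps : ℝ) / SR + 8 * c.b / SR := by rw [add_div]
        rw [this] at k2
        have : dl * ((k + s) / 8 + (p + (p - dm / SR))) ≤ dl * ((k + s) / 8 + 2 * p + dl) := by
          apply mul_le_mul_of_nonneg_left _ hdl0
          linarith
        linarith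
      nlinarith
  -- lower barrier
  have lo : ∀ s, |s| ≤ 1 → (ev c.P s - (c.a + c.b * s)) / SR ≤ ee (((k : ℝ) + s) / 8) := by
    apply back_cmp (B' := fun s => (((((k : ℝ) + s) / 8 + ee (((k : ℝ) + s) / 8)) *
      ee (((k : ℝ) + s) / 8) - 1) / 8)) (f' := fun s => (ev (dL c.P) s - c.b) / SR)
      (fun s => lb_hasDerivAt c.P _ _ s)
      (fun s => ee_comp k s)
    · rw [div_le_iff₀ SR_pos]
      have := (abs_le.1 h1).1
      linarith
    · intro s hs he
      simp only [← he]
      obtain ⟨k1, k2⟩ := key s hs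
      obtain ⟨l1, l2⟩ := hlin s hs
      have k1' := (abs_le.1 k1).1
      set p := ev c.P s / SR
      set dl := (c.a + c.b * s) / SR with hdl
      have hdl0 : 0 ≤ dl := div_nonneg l1 SR_pos.le
      have hdl1 : dl ≤ dm / SR := div_le_div_of_nonneg_right l2 SR_pos.le
      have e1 : (ev c.P s - (c.a + c.b * s)) / SR = p - dl := by rw [sub_div]
      rw [e1]
      have e2 : (ev (dL c.P) s - c.b) / SR = (8 * ev (dL c.P) s / SR - 8 * c.b / SR) / 8 := by ring
      rw [e2]
      apply div_lt_div_of_pos_right _ (by norm_num)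
      have k3 : (eps : ℝ) / SR + 8 * c.b / SR < dl * ((k + s) / 8 + 2 * p - dl) := by
        have : (eps + 8 * c.b) / SR = (eps : ℝ) / SR + 8 * c.b / SR := by rw [add_div]
        rw [this] at k2
        have : dl * ((k + s) / 8 + (p + (p - dm / SR))) ≤ dl * ((k + s) / 8 + 2 * p - dl) := by
          apply mul_le_mul_of_nonneg_left _ hdl0
          linarith
        linarith
      nlinarith
  intro s hs
  have u := up s hs
  have l := lo s hs
  rw [le_div_iff₀ SR_pos] at u
  rw [div_le_iff₀ SR_pos] at l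
  rw [abs_le]; constructor <;> linarith

theorem cellV {k : ℤ} {c : Cell} (hE1 : chkE1 k c = true) (hE : EP k c) (h : chkV1 k c = true)
    (h1 : |H0 (((k : ℝ) + (-1)) / 8) * SR - ev c.Q (-1)| ≤ c.a' - c.b') : VP k c := by
  simp only [chkE1, Bool.and_eq_true, decide_eq_true_eq] at hE1
  obtain ⟨⟨hba0, ha0⟩, _⟩ := hE1
  simp only [chkV1, Bool.and_eq_true, decide_eq_true_eq] at h
  obtain ⟨⟨hba, ha⟩, hpos⟩ := h
  set PT : TM := ⟨c.P, 0⟩ with hPT
  set QT : TM := ⟨c.Q, 0⟩ with hQT
  set R := TM.sub ⟨smul 8 (dL c.Q), 0⟩ (TM.sub (TM.const 1 1) (TM.mul PT QT)) with hR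
  set eps : ℕ := ab R.c + R.e with heps
  set dm : ℕ := c.a.natAbs + c.b.natAbs with hdm
  set cost : ℕ := (dm * ab c.Q) / 1099511627776 + 1 with hcost
  have mp : PT.mem (fun s => ev c.P s / SR) := mem_poly c.P
  have mq : QT.mem (fun s => ev c.Q s / SR) := mem_poly c.Q
  have mR := mem_sub (mem_poly (smul 8 (dL c.Q)))
    (mem_sub (mem_const 1 (d := 1) one_ne_zero) (mem_mul mp mq))
  have md := mem_sub (mem_mul (mem_poly [c.a', c.b']) (mem_sub mp (mem_poly [(dm : ℤ)])))
    (mem_poly [(eps : ℤ) + cost - 8 * c.b'])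
  have hcost' : (dm : ℝ) / SR * (ab c.Q / SR) ≤ cost / SR := by
    have h0 : dm * ab c.Q ≤ cost * 1099511627776 := by rw [hcost]; omega
    have h0' : (dm : ℝ) * ab c.Q ≤ cost * SR := by
      have := (Nat.cast_le (α := ℝ)).2 h0
      push_cast at this
      exact this
    rw [div_mul_div_comm, div_le_div_iff₀ (by positivity) SR_pos]
    have : (dm : ℝ) * ab c.Q * SR ≤ cost * SR * SR := mul_le_mul_of_nonneg_right h0' SR_pos.le
    linarith
  have key : ∀ s : ℝ, |s| ≤ 1 →
      |(8 * ev (dL c.Q) s / SR - (1 - (ev c.P s / SR) * (ev c.Q s / SR)))| ≤ eps / SR ∧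
      (eps + cost - 8 * c.b') / SR < (c.a' + c.b' * s) / SR * (ev c.P s / SR - dm / SR) := by
    intro s hs
    constructor
    · have := res_bound mR hs
      beta_reduce at this
      have e : (ev (smul 8 (dL c.Q)) s / SR - (((1 : ℤ) : ℝ) / ((1 : ℕ) : ℝ) -
          (ev c.P s / SR) * (ev c.Q s / SR))) = (8 * ev (dL c.Q) s / SR -
          (1 - (ev c.P s / SR) * (ev c.Q s / SR))) := by
        rw [ev_smul]; push_cast; ring
      rw [e, abs_mul, abs_of_pos SR_pos, ← hR, ← heps] at this
      rw [le_div_iff₀ SR_pos]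
      exact this
    · have := pos_of_pos md hpos hs
      simp only [ev] at this
      push_cast at this
      have e : (c.a' : ℝ) + s * (c.b' + s * 0) = c.a' + c.b' * s := by ring
      rw [e] at this
      simp only [mul_zero, add_zero] at this
      linarith
  have hlin := fun s hs => lin_nonneg hba ha (s := s) hs
  have hee : ∀ s, |s| ≤ 1 → |ee (((k : ℝ) + s) / 8) - ev c.P s / SR| ≤ dm / SR := by
    intro s hs
    have h2 := hE s hs
    have h3 := (lin_nonneg hba0 ha0 hs).2
    have e : ee (((k : ℝ) + s) / 8) - ev c.P s / SR =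
      (ee (((k : ℝ) + s) / 8) * SR - ev c.P s) / SR := by field_simp
    rw [e, abs_div, abs_of_pos SR_pos]
    exact div_le_div_of_nonneg_right (h2.trans h3) SR_pos.le
  have hq : ∀ s, |s| ≤ 1 → |ev c.Q s / SR| ≤ ab c.Q / SR := by
    intro s hs
    rw [abs_div, abs_of_pos SR_pos]
    exact div_le_div_of_nonneg_right (ab_le _ hs) SR_pos.le
  have up : ∀ s, |s| ≤ 1 → H0 (((k : ℝ) + s) / 8) ≤ (ev c.Q s + (c.a' + c.b' * s)) / SR := by
    apply fwd_cmp (f' := fun s => ((1 - ee (((k : ℝ) + s) / 8) * H0 (((k : ℝ) + s) / 8)) / 8))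
      (B' := fun s => (ev (dL c.Q) s + c.b') / SR) (fun s => H0_comp k s)
      (fun s => ub_hasDerivAt c.Q _ _ s)
    · rw [le_div_iff₀ SR_pos]
      have := (abs_le.1 h1).2
      linarith
    · intro s hs he
      simp only [he]
      obtain ⟨k1, k2⟩ := key s hs
      obtain ⟨l1, l2⟩ := hlin s hs
      have k1' := (abs_le.1 k1).1
      have h2 := hee s hs
      have h3 := hq s hs
      set p := ev c.P s / SR
      set q := ev c.Q s / SR
      set dl := (c.a' + c.b' * s) / SR with hdl
      set e := ee (((k : ℝ) + s) / 8)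
      have hdl0 : 0 ≤ dl := div_nonneg l1 SR_pos.le
      have e1 : (ev c.Q s + (c.a' + c.b' * s)) / SR = q + dl := by rw [add_div]
      rw [e1]
      have e2 : (ev (dL c.Q) s + c.b') / SR = (8 * ev (dL c.Q) s / SR + 8 * c.b' / SR) / 8 := by
        ring
      rw [e2]
      apply div_lt_div_of_pos_right _ (by norm_num)
      have h4 : |(e - p) * q| ≤ cost / SR := by
        rw [abs_mul]
        exact (mul_le_mul h2 h3 (abs_nonneg _) (by positivity)).trans hcost'
      have h4' := (abs_le.1 h4).1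
      have h5 : dl * (p - dm / SR) ≤ dl * e := by
        apply mul_le_mul_of_nonneg_left _ hdl0
        have := (abs_le.1 h2).1
        linarith
      have e3 : (eps + cost - 8 * c.b') / SR = (eps : ℝ) / SR + cost / SR - 8 * c.b' / SR := by
        ring
      rw [e3] at k2
      nlinarith
  have lo : ∀ s, |s| ≤ 1 → (ev c.Q s - (c.a' + c.b' * s)) / SR ≤ H0 (((k : ℝ) + s) / 8) := by
    apply fwd_cmp (B' := fun s => ((1 - ee (((k : ℝ) + s) / 8) * H0 (((k : ℝ) + s) / 8)) / 8))
      (f' := fun s => (ev (dL c.Q) s - c.b') / SR)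
      (fun s => lb_hasDerivAt c.Q _ _ s)
      (fun s => H0_comp k s)
    · rw [div_le_iff₀ SR_pos]
      have := (abs_le.1 h1).1
      linarith
    · intro s hs he
      simp only [← he]
      obtain ⟨k1, k2⟩ := key s hs
      obtain ⟨l1, l2⟩ := hlin s hs
      have k1' := (abs_le.1 k1).2
      have h2 := hee s hs
      have h3 := hq s hs
      set p := ev c.P s / SR
      set q := ev c.Q s / SR
      set dl := (c.a' + c.b' * s) / SR with hdl
      set e := ee (((k : ℝ) + s) / 8)
      have hdl0 : 0 ≤ dl := div_nonneg l1 SR_pos.le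
      have e1 : (ev c.Q s - (c.a' + c.b' * s)) / SR = q - dl := by rw [sub_div]
      rw [e1]
      have e2 : (ev (dL c.Q) s - c.b') / SR = (8 * ev (dL c.Q) s / SR - 8 * c.b' / SR) / 8 := by
        ring
      rw [e2]
      apply div_lt_div_of_pos_right _ (by norm_num)
      have h4 : |(e - p) * q| ≤ cost / SR := by
        rw [abs_mul]
        exact (mul_le_mul h2 h3 (abs_nonneg _) (by positivity)).trans hcost'
      have h4' := (abs_le.1 h4).2
      have h5 : dl * (p - dm / SR) ≤ dl * e := by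
        apply mul_le_mul_of_nonneg_left _ hdl0
        have := (abs_le.1 h2).1
        linarith
      have e3 : (eps + cost - 8 * c.b') / SR = (eps : ℝ) / SR + cost / SR - 8 * c.b' / SR := by
        ring
      rw [e3] at k2
      nlinarith
  intro s hs
  have u := up s hs
  have l := lo s hs
  rw [le_div_iff₀ SR_pos] at u
  rw [div_le_iff₀ SR_pos] at l
  rw [abs_le]; constructor <;> linarith

/-! ### the whole list -/

def chkAll : ℤ → List Cell → Bool
  | _, [] => true
  | k, c :: l => chkE1 k c && chkV1 k c &&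
    (match l with
      | [] => decide (k = 79) && decide (ev1 c.P - (c.a + c.b) ≤ 107854550946) &&
          decide (107856854917 ≤ ev1 c.P + (c.a + c.b))
      | d :: _ => chkJ c d) && chkAll (k + 2) l

def AllE : ℤ → List Cell → Prop
  | _, [] => True
  | k, c :: l => EP k c ∧ AllE (k + 2) l

def AllV : ℤ → List Cell → Prop
  | _, [] => True
  | k, c :: l => VP k c ∧ AllV (k + 2) l

lemma ee_ten : (107854550946 : ℝ) ≤ ee 10 * SR ∧ ee 10 * SR ≤ 107856854917 := by
  have h1 := ee_lt2 10
  have h2 := ee_gt2 10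
  norm_num at h1 h2 ⊢
  constructor <;> linarith

lemma natAbs_cast_le {x y : ℤ} (h : ((x).natAbs : ℤ) ≤ y) : |(x : ℝ)| ≤ (y : ℝ) := by
  rw [Int.natCast_natAbs] at h
  rw [← Int.cast_abs]
  exact_mod_cast h

theorem allE_of_chk : ∀ (l : List Cell) (k : ℤ), chkAll k l = true → AllE k l
  | [], _, _ => trivial
  | [c], k, h => by
      simp only [chkAll, Bool.and_eq_true, decide_eq_true_eq] at h
      obtain ⟨⟨⟨h1, _⟩, ⟨hk, h2⟩, h3⟩, _⟩ := h
      refine ⟨cellE h1 ?_, trivial⟩
      subst hk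
      have e : (((79 : ℤ) : ℝ) + 1) / 8 = 10 := by norm_num
      rw [e, ev_one]
      have h2' : (ev1 c.P : ℝ) - (c.a + c.b) ≤ 107854550946 := by exact_mod_cast h2
      have h3' : (107856854917 : ℝ) ≤ ev1 c.P + (c.a + c.b) := by exact_mod_cast h3
      obtain ⟨h4, h5⟩ := ee_ten
      rw [abs_le]; constructor <;> linarith
  | c :: d :: l, k, h => by
      rw [chkAll] at h
      simp only [Bool.and_eq_true, chkJ, decide_eq_true_eq] at h
      obtain ⟨⟨⟨h1, _⟩, hj, _⟩, h2⟩ := h
      have ih := allE_of_chk (d :: l) (k + 2) h2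
      refine ⟨cellE h1 ?_, ih⟩
      have h3 := ih.1 (-1) (by simp)
      rw [ev_neg_one] at h3
      rw [ev_one]
      have e : (((k + 2 : ℤ) : ℝ) + (-1)) / 8 = ((k : ℝ) + 1) / 8 := by push_cast; ring
      rw [e] at h3
      have h4 : ((evm d.P - ev1 c.P).natAbs : ℤ) ≤ (c.a + c.b) - (d.a - d.b) := by linarith
      have h5 := natAbs_cast_le h4
      push_cast at h5
      have e2 : ee (((k : ℝ) + 1) / 8) * SR - (ev1 c.P : ℝ) =
        (ee (((k : ℝ) + 1) / 8) * SR - (evm d.P : ℝ)) + ((evm d.P : ℝ) - (ev1 c.P : ℝ)) := by ring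
      rw [e2]
      refine (abs_add_le _ _).trans ?_
      linarith

theorem allV_of_chk : ∀ (l : List Cell) (k : ℤ), chkAll k l = true → AllE k l →
    (∀ c, l.head? = some c →
      |H0 (((k : ℝ) + (-1)) / 8) * SR - ev c.Q (-1)| ≤ c.a' - c.b') → AllV k l
  | [], _, _, _, _ => trivial
  | [c], k, h, hE, h0 => by
      simp only [chkAll, Bool.and_eq_true, decide_eq_true_eq] at h
      obtain ⟨⟨⟨h1, h2⟩, _⟩, _⟩ := h
      exact ⟨cellV h1 hE.1 h2 (h0 c rfl), trivial⟩
  | c :: d :: l, k, h, hE, h0 => by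
      rw [chkAll] at h
      simp only [Bool.and_eq_true, chkJ, decide_eq_true_eq] at h
      obtain ⟨⟨⟨h1, h1v⟩, _, hj⟩, h2⟩ := h
      have hV := cellV h1 hE.1 h1v (h0 c rfl)
      refine ⟨hV, allV_of_chk (d :: l) (k + 2) h2 hE.2 ?_⟩
      intro c' hc'
      simp only [List.head?_cons, Option.some.injEq] at hc'
      subst hc'
      have h3 := hV 1 (by simp)
      rw [ev_one] at h3
      rw [ev_neg_one]
      have e : (((k + 2 : ℤ) : ℝ) + (-1)) / 8 = ((k : ℝ) + 1) / 8 := by push_cast; ring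
      rw [e]
      have h4 : ((ev1 c.Q - evm d.Q).natAbs : ℤ) ≤ (d.a' - d.b') - (c.a' + c.b') := by linarith
      have h5 := natAbs_cast_le h4
      push_cast at h5
      have e2 : H0 (((k : ℝ) + 1) / 8) * SR - (evm d.Q : ℝ) =
        (H0 (((k : ℝ) + 1) / 8) * SR - (ev1 c.Q : ℝ)) + ((ev1 c.Q : ℝ) - (evm d.Q : ℝ)) := by ring
      rw [e2]
      refine (abs_add_le _ _).trans ?_
      linarith

/-! ### expressions -/

/-- polynomial expressions in `z`, `e = ee z`, `v = H0 z` -/
inductive Ex where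
  | c (n : ℤ) (d : ℕ)
  | z
  | e
  | v
  | add (a b : Ex)
  | sub (a b : Ex)
  | mul (a b : Ex)

noncomputable def Ex.val (z e v : ℝ) : Ex → ℝ
  | .c n d => (n : ℝ) / (d : ℝ)
  | .z => z
  | .e => e
  | .v => v
  | .add a b => a.val z e v + b.val z e v
  | .sub a b => a.val z e v - b.val z e v
  | .mul a b => a.val z e v * b.val z e v

def Ex.tm (Z E V : TM) : Ex → TM
  | .c n d => TM.const n d
  | .z => Z
  | .e => E
  | .v => V
  | .add a b => (a.tm Z E V).add (b.tm Z E V)
  | .sub a b => (a.tm Z E V).sub (b.tm Z E V)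
  | .mul a b => (a.tm Z E V).mul (b.tm Z E V)

def Ex.ok : Ex → Bool
  | .c _ d => decide (d ≠ 0)
  | .z => true
  | .e => true
  | .v => true
  | .add a b => a.ok && b.ok
  | .sub a b => a.ok && b.ok
  | .mul a b => a.ok && b.ok

theorem Ex.mem_tm {z e v : ℝ → ℝ} {Z E V : TM} (hz : Z.mem z) (he : E.mem e) (hv : V.mem v) :
    ∀ x : Ex, x.ok = true → (x.tm Z E V).mem (fun s => x.val (z s) (e s) (v s))
  | .c n d, h => by
      simp only [Ex.ok, decide_eq_true_eq] at h
      exact mem_const n h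
  | .z, _ => hz
  | .e, _ => he
  | .v, _ => hv
  | .add a b, h => by
      simp only [Ex.ok, Bool.and_eq_true] at h
      exact mem_add (Ex.mem_tm hz he hv a h.1) (Ex.mem_tm hz he hv b h.2)
  | .sub a b, h => by
      simp only [Ex.ok, Bool.and_eq_true] at h
      exact mem_sub (Ex.mem_tm hz he hv a h.1) (Ex.mem_tm hz he hv b h.2)
  | .mul a b, h => by
      simp only [Ex.ok, Bool.and_eq_true] at h
      exact mem_mul (Ex.mem_tm hz he hv a h.1) (Ex.mem_tm hz he hv b h.2)

def chkG (G : Ex) (m : ℕ) : ℤ → List Cell → Bool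
  | _, [] => true
  | k, c :: l => decide (c.b.natAbs ≤ c.a.natAbs) && decide (0 ≤ c.a) &&
    decide (c.b'.natAbs ≤ c.a'.natAbs) && decide (0 ≤ c.a') &&
    TM.pos m (G.tm (zT k) ⟨c.P, c.a.natAbs + c.b.natAbs⟩ ⟨c.Q, c.a'.natAbs + c.b'.natAbs⟩) &&
    chkG G m (k + 2) l

theorem chkG_spec (G : Ex) (m : ℕ) (hok : G.ok = true) : ∀ (l : List Cell) (k : ℤ),
    AllE k l → AllV k l → chkG G m k l = true →
    ∀ z : ℝ, ((k : ℝ) - 1) / 8 ≤ z → z ≤ ((k : ℝ) - 1) / 8 + l.length / 4 → l ≠ [] →
      0 < G.val z (ee z) (H0 z)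
  | [], _, _, _, _, _, _, _, hl => absurd rfl hl
  | c :: l, k, hE, hV, h, z, h1, h2, _ => by
      simp only [chkG, Bool.and_eq_true, decide_eq_true_eq] at h
      obtain ⟨⟨⟨⟨⟨a1, a2⟩, a3⟩, a4⟩, hp⟩, hr⟩ := h
      have hEm : (⟨c.P, c.a.natAbs + c.b.natAbs⟩ : TM).mem
          (fun s => ee (((k : ℝ) + s) / 8)) := fun s hs =>
        (hE.1 s hs).trans (lin_nonneg a1 a2 hs).2
      have hVm : (⟨c.Q, c.a'.natAbs + c.b'.natAbs⟩ : TM).mem
          (fun s => H0 (((k : ℝ) + s) / 8)) := fun s hs =>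
        (hV.1 s hs).trans (lin_nonneg a3 a4 hs).2
      have hG := Ex.mem_tm (mem_zT k) hEm hVm G hok
      rcases le_or_gt z (((k : ℝ) + 1) / 8) with h3 | h3
      · have hs : |8 * z - k| ≤ 1 := by rw [abs_le]; constructor <;> linarith
        have := pos_of_pos hG hp hs
        have e : ((k : ℝ) + (8 * z - k)) / 8 = z := by ring
        simpa only [e] using this
      · have hl : l ≠ [] := by
          rintro rfl
          simp only [List.length_cons, List.length_nil] at h2
          push_cast at h2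
          linarith
        refine chkG_spec G m hok l (k + 2) hE.2 hV.2 hr z ?_ ?_ hl
        · push_cast; linarith
        · simp only [List.length_cons] at h2
          push_cast at h2 ⊢
          linarith

/-- the table -/
def dat : List Cell := [
  ⟨[10857677324288, -137438953472, 0, 0, 0, 0, 0], 14, 0, [110234597684, 1368121955, 16820025, 204896, 2474, 30, 0], 700751337, -367319139⟩,
  ⟨[10582799417344, -137438953472, 0, 0, 0, 0, 0], 14, 0, [113039801410, 1437942400, 18111224, 225928, 2792, 34, 0], 219633031, -113799167⟩,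
  ⟨[10307921510400, -137438953472, 0, 0, 0, 0, 0], 14, 0, [115989984323, 1513190593, 19536639, 249701, 3160, 40, 0], 70000123, -35833741⟩,
  ⟨[10033043603456, -137438953472, 0, 0, 0, 0, 0], 15, 1, [119096561542, 1594437963, 21113986, 276651, 3588, 46, 1], 22694369, -11472014⟩,
  ⟨[9758165696512, -137438953472, 0, 0, 0, 0, 0], 16, 0, [122372165537, 1682332329, 22863830, 307294, 4086, 54, 1], 7487078, -3735277⟩,
  ⟨[9483287789568, -137438953472, 0, 0, 0, 0, 0], 16, 0, [125830811004, 1777610359, 24810127, 342248, 4668, 63, 1], 2514463, -1237339⟩,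
  ⟨[9208409882624, -137438953472, 0, 0, 0, 0, 0], 16, 0, [129488086972, 1881112424, 26980895, 382252, 5352, 74, 1], 859980, -417144⟩,
  ⟨[8933531975680, -137438953472, 0, 0, 0, 0, 0], 16, 0, [133361381479, 1993800407, 29409024, 428197, 6157, 87, 1], 299659, -143177⟩,
  ⟨[8658654068736, -137438953472, 0, 0, 0, 0, 0], 16, 0, [137470145358, 2116779135, 32133280, 481159, 7110, 104, 1], 106432, -50051⟩,
  ⟨[8383776161792, -137438953472, 0, 0, 0, 0, 0], 17, 1, [141836203205, 2251322292, 35199558, 542444, 8244, 124, 2], 38555, -17828⟩,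
  ⟨[8108898254849, -137438953471, 0, 0, 0, 0, 0], 19, 1, [146484121554, 2398903914, 38662427, 613650, 9598, 148, 2], 14255, -6472⟩,
  ⟨[7834020347908, -137438953468, 2, 0, 0, 0, 0], 21, 1, [151441646740, 2561236844, 42587083, 696735, 11223, 178, 3], 5388, -2396⟩,
  ⟨[7559142440984, -137438953451, 9, 2, 0, 0, 0], 23, 1, [156740228098, 2740319950, 47051804, 794118, 13185, 215, 3], 2090, -903⟩,
  ⟨[7284264534145, -137438953365, 43, 11, 2, 0, 0], 26, 2, [162415646240, 2938496427, 52151058, 908804, 15564, 262, 4], 838, -349⟩,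
  ⟨[7009386627728, -137438952949, 203, 51, 9, 1, 0], 30, 3, [168508771461, 3158526201, 57999489, 1044542, 18468, 321, 5], 352, -137⟩,
  ⟨[6734508723259, -137438951075, 893, 215, 38, 5, 1], 33, 3, [175066484269, 3403676392, 64737015, 1206049, 22032, 395, 7], 160, -55⟩,
  ⟨[6459630827217, -137438943167, 3674, 846, 141, 18, 2], 44, 9, [182142799127, 3677835073, 72535443, 1399292, 26435, 489, 9], 84, -22⟩,
  ⟨[6184752965319, -137438911932, 14142, 3098, 489, 59, 6], 67, 14, [189800244598, 3985655214, 81607038, 1631863, 31908, 610, 11], 53, -9⟩,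
  ⟨[5909875232959, -137438796480, 50914, 10585, 1579, 179, 16], 105, 27, [198111568889, 4332737862, 92215681, 1913464, 38749, 764, 14], 42, -3⟩,
  ⟨[5634997960516, -137438397304, 171365, 33697, 4727, 500, 41], 171, 43, [207161860454, 4725866172, 104691244, 2256495, 47335, 960, 18], 40, 0⟩,
  ⟨[5360122215601, -137437106947, 538940, 99855, 13107, 1285, 96], 267, 62, [217051199038, 5173304286, 119447670, 2676677, 58116, 1204, 22], 45, 0⟩,
  ⟨[5085251214096, -137433209423, 1582773, 275099, 33578, 3023, 204], 397, 83, [227897981531, 5685175477, 137004322, 3193456, 71558, 1491, 25], 48, 0⟩,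
  ⟨[4810393975550, -137422216787, 4337402, 703523, 79247, 6470, 384], 554, 101, [239843091678, 6273928230, 158007809, 3829618, 87990, 1794, 24], 66, 0⟩,
  ⟨[4535574021377, -137393290480, 11081100, 1666889, 171624, 12497, 628], 769, 148, [253055083071, 6954878570, 183246355, 4608945, 107256, 2040, 15], 102, 0⟩,
  ⟨[4260848288347, -137322342943, 26364095, 3650353, 339275, 21499, 857], 1173, 286, [267736479325, 7746768910, 213639941, 5550133, 128116, 2081, -11], 169, 0⟩,
  ⟨[3986344434157, -137160336744, 58340580, 7366390, 607762, 32246, 876], 1952, 493, [284131093358, 8672193080, 250177426, 6654892, 147417, 1682, -60], 298, 0⟩,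
  ⟨[3712326863975, -136816389744, 119902065, 13646801, 976331, 40510, 393], 2882, 507, [302531836444, 9757599852, 293761877, 7889309, 159309, 551, -132], 446, 0⟩,
  ⟨[3439299801519, -136138490895, 228504226, 23101602, 1384680, 38748, -810], 3592, 374, [323287755467, 11032432940, 344929432, 9161281, 155193, -1544, -217], 572, 0⟩,
  ⟨[3168144977579, -134900052953, 403172636, 35532955, 1689944, 18764, -2566], 4015, 292, [346808048437, 12526884663, 403442605, 10303409, 125286, -4567, -280], 622, 0⟩,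
  ⟨[2900269284899, -132805937035, 657729757, 49322779, 1689365, -21962, -4086], 4774, 673, [373559855676, 14267885049, 467835997, 11077192, 62389, -8012, -279], 900, 0⟩,
  ⟨[2637708970200, -129531651541, 991437900, 61278033, 1212654, -73654, -4210], 6440, 1004, [404056311843, 16273459255, 535091654, 11213890, -33014, -10870, -180], 1595, 0⟩,
  ⟨[2383118429646, -124798421029, 1381366881, 67412192, 251965, -114606, -2283], 7601, 427, [438832422010, 18546437240, 600677877, 10492954, -149055, -11957, 10], 2171, 0⟩,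
  ⟨[2139586598194, -118465453877, 1782317897, 64602323, -968183, -122731, 1032], 7569, 0, [478409186793, 21069346883, 659114746, 8832687, -263600, -10512, 228], 2443, 0⟩,
  ⟨[1910282459274, -110601448785, 2137285419, 52245516, -2068176, -91283, 3996], 5501, 0, [523250463455, 23802571999, 705007526, 6347509, -351323, -6708, 389], 2406, -59⟩,
  ⟨[1698010929117, -101498017115, 2394867474, 32759228, -2707901, -34434, 5107], 5097, 768, [573720607564, 26687070853, 734221775, 3334183, -393529, -1646, 433], 2368, 0⟩,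
  ⟨[1504812334767, -91613872986, 2524887673, 10519437, -2755883, 22922, 4167], 5975, 235, [630051988060, 29651325399, 744752390, 187571, -385019, 3197, 358], 3451, 0⟩,
  ⟨[1331725184439, -81473702082, 2524608149, -10019002, -2314805, 61183, 2133], 5930, 0, [692329112693, 32620585480, 736972689, -2712755, -334274, 6662, 214], 4193, 0⟩,
  ⟨[1178761098792, -71564335331, 2414243425, -25833297, -1616809, 74464, 168], 4720, 0, [760491349416, 35525795392, 713250321, -5092528, -257949, 8299, 62], 4208, -7⟩,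
  ⟨[1045059245846, -62263159121, 2226364536, -35822131, -891140, 68189, -1073], 2450, 0, [834351342408, 38310103599, 677176923, -6819398, -173775, 8305, -53], 4085, -132⟩,
  ⟨[929139657279, -53810856458, 1995209031, -40421859, -286148, 51913, -1525], 886, 57, [913623183285, 40932069193, 632737580, -7889150, -95480, 7224, -118], 3754, -208⟩,
  ⟨[829172390215, -46320381143, 1749594876, -40880005, 141172, 33725, -1443], 977, 44, [997953854380, 43365848439, 583659056, -8384264, -30951, 5640, -139], 3402, -147⟩,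
  ⟨[743206215475, -39805614448, 1510068066, -38621108, 397698, 18237, -1118], 978, 0, [1086952789702, 45599307484, 533028408, -8428525, 17136, 3994, -131], 3163, -93⟩,
  ⟨[669333168554, -34214813017, 1289094560, -34874125, 520385, 7034, -753], 871, 0, [1180216483866, 47631122117, 483157489, -8151878, 49609, 2546, -109], 3011, -61⟩,
  ⟨[605789433872, -29459843144, 1092736985, -30536975, 552068, -83, -447], 643, 0, [1277347011524, 49467700665, 435615688, -7669504, 69076, 1401, -82], 2894, -60⟩,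
  ⟨[551005203875, -25437757098, 922662882, -26185366, 529278, -4034, -226], 425, 0, [1377964664604, 51120436940, 391350093, -7072971, 78668, 567, -58], 2772, -65⟩,
  ⟨[503619184698, -22044753881, 777884270, -22142188, 478548, -5829, -84], 267, 0, [1481715628440, 52603514048, 350832891, -6429291, 81312, 2, -37], 2642, -69⟩,
  ⟨[462471542272, -19184088848, 656034458, -18556585, 417085, -6299, -2], 157, 0, [1588275852595, 53932289633, 314200628, -5784034, 79414, -352, -22], 2504, -72⟩,
  ⟨[426585521892, -16769785896, 554203132, -15470109, 354981, -6037, 41], 93, 0, [1697352220162, 55122192969, 281369459, -5165880, 74793, -551, -12], 2366, -68⟩,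
  ⟨[395144491088, -14727729677, 469429950, -12864313, 297495, -5425, 58], 59, 0, [1808681935259, 56188027516, 252122679, -4591140, 68737, -645, -5], 2235, -64⟩,
  ⟨[367468427180, -12995284282, 398964377, -10691700, 246887, -4690, 62], 49, 0, [1922030830787, 57143571807, 226173062, -4067576, 62113, -670, 0], 2113, -58⟩,
  ⟨[342991986627, -11520190038, 340379179, -8894286, 203690, -3957, 59], 47, 2, [2037191098433, 58001387245, 203204852, -3597357, 55471, -653, 3], 2007, -49⟩,
  ⟨[321245105129, -10259192065, 291599367, -7413833, 167541, -3287, 52], 49, 0, [2153978780310, 58772761791, 182900520, -3179203, 49137, -611, 4], 1915, -43⟩,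
  ⟨[301836386568, -9176652397, 250886634, -6196888, 137668, -2703, 45], 40, 1, [2272231239250, 59467737732, 164956712, -2809870, 43286, -558, 5], 1838, -35⟩,
  ⟨[284439172191, -8243271034, 216803476, -5196802, 113175, -2210, 37], 39, 0, [2391804737626, 60095187564, 149092859, -2485138, 37993, -500, 5], 1772, -31⟩,
  ⟨[268780012017, -7434966999, 188170708, -4374091, 93184, -1801, 31], 38, 1, [2512572195277, 60662914026, 135054995, -2200439, 33276, -443, 5], 1716, -25⟩,
  ⟨[254629203345, -6731929744, 164025589, -3695975, 76903, -1466, 25], 37, 0, [2634421158314, 61177758971, 122616605, -1951240, 29113, -390, 4], 1669, -24⟩,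
  ⟨[241793063497, -6117830837, 143583898, -3135580, 63650, -1194, 20], 36, 0, [2757251986360, 61645711753, 111577704, -1733257, 25465, -341, 4], 1626, -20⟩,
  ⟨[230107634239, -5579177131, 126207205, -2671036, 52853, -973, 16], 35, 0, [2880976251402, 62072011827, 101762965, -1542565, 22282, -297, 3], 1593, -14⟩,
  ⟨[219433556041, -5104784240, 111375405, -2284634, 44044, -795, 13], 26, 0, [3005515333624, 62461242831, 93019405, -1375645, 19513, -258, 3], 1561, -18⟩,
  ⟨[209651892193, -4685349963, 98664115, -1962062, 36839, -651, 11], 27, 1, [3130799195903, 62817417088, 85213943, -1229380, 17110, -224, 3], 1533, -12⟩,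
  ⟨[200660721485, -4313109497, 87726264, -1691761, 30930, -535, 9], 27, 0, [3256765317578, 63144050419, 78231023, -1101040, 15025, -194, 2], 1510, -11⟩,
  ⟨[192372351765, -3981556988, 78277233, -1464393, 26069, -441, 7], 27, 1, [3383357768516, 63444227729, 71970389, -988249, 13216, -168, 2], 1490, -11⟩,
  ⟨[184711035006, -3685220530, 70082886, -1272402, 22056, -364, 6], 26, 0, [3510526405731, 63720660114, 66345075, -888948, 11646, -146, 2], 1471, -9⟩,
  ⟨[177611087860, -3419480115, 62949980, -1109662, 18732, -302, 5], 24, 0, [3638226176449, 63975734353, 61279609, -801358, 10283, -127, 1], 1455, -7⟩,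
  ⟨[171015340583, -3180420034, 56718463, -971192, 15969, -252, 4], 24, 1, [3766416513290, 64211555675, 56708443, -723945, 9098, -111, 1], 1448, -3⟩,
  ⟨[164873852512, -2964708917, 51255299, -852934, 13664, -211, 3], 24, 0, [3895060808961, 64429984635, 52574576, -655387, 8065, -96, 1], 1441, -4⟩,
  ⟨[159142844478, -2769501951, 46449504, -751569, 11734, -177, 3], 24, 0, [4024125959477, 64632668896, 48828379, -594546, 7165, -84, 1], 1433, -5⟩,
  ⟨[153783808284, -2592360942, 42208159, -664374, 10112, -149, 2], 26, 2, [4153581966430, 64821070600, 45426564, -540441, 6379, -74, 1], 1587, 0⟩,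
  ⟨[148762761199, -2431188733, 38453181, -589108, 8743, -126, 2], 32, 4, [4283401590116, 64996489953, 42331315, -492226, 5690, -64, 1], 1932, 0⟩,
  ⟨[144049619573, -2284175247, 35118725, -523920, 7585, -107, 1], 47, 11, [4413560046498, 65160085564, 39509534, -449172, 5086, -57, 1], 2817, 0⟩,
  ⟨[139617670664, -2149752910, 32149066, -467277, 6602, -91, 1], 89, 32, [4544034741997, 65312891993, 36932196, -410647, 4556, -50, 1], 5032, 0⟩,
  ⟨[135443125702, -2026559727, 29496883, -417901, 5764, -77, 1], 213, 92, [4674805040927, 65455834922, 34573802, -376107, 4089, -44, 0], 11843, 0⟩,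
  ⟨[131504740382, -1913408564, 27121855, -374730, 5047, -66, 1], 573, 268, [4805852061177, 65589744281, 32411901, -345076, 3677, -39, 0], 32604, 0⟩,
  ⟨[127783491525, -1809261529, 24989509, -336871, 4433, -57, 1], 1637, 796, [4937158494357, 65715365621, 30426694, -317145, 3313, -34, 0], 97502, 0⟩,
  ⟨[124262300681, -1713208518, 23070281, -303576, 3904, -49, 1], 4828, 2396, [5068708447150, 65833370000, 28600679, -291956, 2991, -30, 0], 303783, 0⟩,
  ⟨[120925797094, -1624449190, 21338736, -274214, 3448, -42, 1], 14565, 7342, [5200487301113, 65944362569, 26918359, -269198, 2705, -27, 0], 968018, 0⟩,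
  ⟨[117760113787, -1542277783, 19772923, -248250, 3053, -37, 0], 44786, 22879, [5332481588525, 66048890060, 25365982, -248600, 2450, -24, 0], 3143912, 0⟩,
  ⟨[114752711603, -1466070271, 18353844, -225233, 2710, -32, 0], 140126, 72461, [5464678882226, 66147447323, 23931324, -229922, 2224, -21, 0], 10379197, 0⟩,
  ⟨[111892226926, -1395273472, 17065007, -204777, 2411, -28, 0], 445778, 233191, [5597067697701, 66240483041, 22603497, -212957, 2021, -19, 0], 34797954, 0⟩,
  ⟨[109168339499, -1329395782, 15892058, -186553, 2151, -24, 0], 1441269, 762300, [5729637405858, 66328404738, 21372784, -197522, 1841, -17, 0], 118429256, 0⟩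
  ]

set_option maxRecDepth 20000 in
theorem dat_ok : chkAll (-79) dat = true := by decide +kernel

theorem allE : AllE (-79) dat := allE_of_chk dat (-79) dat_ok

theorem allV : AllV (-79) dat := by
  refine allV_of_chk dat (-79) dat_ok allE ?_
  intro c hc
  have h0 : dat.head? = some ⟨[10857677324288, -137438953472, 0, 0, 0, 0, 0], 14, 0, [110234597684, 1368121955, 16820025, 204896, 2474, 30, 0], 700751337, -367319139⟩ := rfl
  rw [h0] at hc
  simp only [Option.some.injEq] at hc
  subst hc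
  have e : ((((-79 : ℤ) : ℝ)) + (-1)) / 8 = -10 := by norm_num
  rw [e, ev_neg_one]
  have h1 : 10 < ee (-10) := by
    have := mu_pos (-10)
    unfold ee; linarith
  have h2 := H0_deriv_pos (-10)
  have h3 : 0 < ww (-10) * H0 (-10) - ee (-10) := H0_deriv2_pos (-10)
  have h4 := H0_pos (-10)
  unfold ww at h3
  simp only [evm]
  have h5 : H0 (-10) < 1 / 10 := by nlinarith
  have h6 : 10 / 101 < H0 (-10) := by
    by_contra hcon
    push Not at hcon
    have : (1 - -10 * ee (-10)) * H0 (-10) ≤ (1 + 10 * ee (-10)) * (10 / 101) := by nlinarith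
    nlinarith
  rw [abs_le]
  norm_num at h5 h6 ⊢
  constructor <;> linarith

lemma AllE.drop : ∀ (j : ℕ) (l : List Cell) (k : ℤ), AllE k l → AllE (k + 2 * j) (l.drop j)
  | 0, l, k, h => by simpa using h
  | j + 1, [], k, h => by simp [AllE]
  | j + 1, c :: l, k, h => by
      have := AllE.drop j l (k + 2) h.2
      have e : k + 2 * ((j + 1 : ℕ) : ℤ) = k + 2 + 2 * (j : ℤ) := by push_cast; ring
      rw [e]; simpa using this

lemma AllV.drop : ∀ (j : ℕ) (l : List Cell) (k : ℤ), AllV k l → AllV (k + 2 * j) (l.drop j)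
  | 0, l, k, h => by simpa using h
  | j + 1, [], k, h => by simp [AllV]
  | j + 1, c :: l, k, h => by
      have := AllV.drop j l (k + 2) h.2
      have e : k + 2 * ((j + 1 : ℕ) : ℤ) = k + 2 + 2 * (j : ℤ) := by push_cast; ring
      rw [e]; simpa using this

lemma AllE.take : ∀ (n : ℕ) (l : List Cell) (k : ℤ), AllE k l → AllE k (l.take n)
  | 0, l, k, _ => by simp [AllE]
  | n + 1, [], k, _ => by simp [AllE]
  | n + 1, c :: l, k, h => ⟨h.1, AllE.take n l (k + 2) h.2⟩

lemma AllV.take : ∀ (n : ℕ) (l : List Cell) (k : ℤ), AllV k l → AllV k (l.take n)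
  | 0, l, k, _ => by simp [AllV]
  | n + 1, [], k, _ => by simp [AllV]
  | n + 1, c :: l, k, h => ⟨h.1, AllV.take n l (k + 2) h.2⟩

/-- check `0 < G` on the cells `j, …, j + n - 1`, i.e. for `-10 + j/4 ≤ z ≤ -10 + (j+n)/4` -/
def chk (G : Ex) (m j n : ℕ) : Bool :=
  G.ok && decide (0 < n) && decide (j + n ≤ 80) &&
    chkG G m (-79 + 2 * j) ((dat.drop j).take n)

/-- **the user lemma**: `chk G m j n = true` (by `decide +kernel`) gives `0 < G(z, ee z, H0 z)` for
`-10 + j/4 ≤ z ≤ -10 + (j+n)/4`. -/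
theorem pos_of_chk {G : Ex} {m j n : ℕ} (h : chk G m j n = true) {z : ℝ}
    (h1 : -10 + (j : ℝ) / 4 ≤ z) (h2 : z ≤ -10 + ((j : ℝ) + n) / 4) :
    0 < G.val z (ee z) (H0 z) := by
  simp only [chk, Bool.and_eq_true, decide_eq_true_eq] at h
  obtain ⟨⟨⟨hok, hn⟩, hjn⟩, hc⟩ := h
  have hlen : ((dat.drop j).take n).length = n := by
    have : dat.length = 80 := rfl
    simp only [List.length_take, List.length_drop, this]
    omega
  refine chkG_spec G m hok _ _ (AllE.take n _ _ (AllE.drop j _ _ allE))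
    (AllV.take n _ _ (AllV.drop j _ _ allV)) hc z ?_ ?_ ?_
  · push_cast; linarith
  · rw [hlen]; push_cast; linarith
  · intro h0
    rw [h0] at hlen
    simp at hlen
    omega

end Crest.Agent.R253.Tube711
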