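import Crest.Agent.R253.TubeB_711

/-!
Row 253 (helper711): user interface of the tube checker.
-/

set_option autoImplicit false

namespace Crest.Agent.R253.Tube711

open Set Crest.Agent.R253.Mills37 Crest.Agent.R253.HFn741 Crest.Agent.R253.Slack688

instance : Add Ex := ⟨Ex.add⟩
instance : Sub Ex := ⟨Ex.sub⟩
instance : Mul Ex := ⟨Ex.mul⟩

/-- `w = 1 - z e` -/
def Ex.w : Ex := Ex.c 1 1 - Ex.z * Ex.e
/-- `k = (z + e) v` -/
def Ex.k : Ex := (Ex.z + Ex.e) * Ex.v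
/-- `v' = 1 - e v` -/
def Ex.v1 : Ex := Ex.c 1 1 - Ex.e * Ex.v
/-- `v'' = w v - e` -/
def Ex.v2 : Ex := Ex.w * Ex.v - Ex.e
/-- `h = v' + v v''` -/
def Ex.h : Ex := Ex.v1 + Ex.v * Ex.v2

@[simp] lemma val_add (a b : Ex) (z e v : ℝ) : (a + b).val z e v = a.val z e v + b.val z e v := rfl
@[simp] lemma val_sub (a b : Ex) (z e v : ℝ) : (a - b).val z e v = a.val z e v - b.val z e v := rfl
@[simp] lemma val_mul (a b : Ex) (z e v : ℝ) : (a * b).val z e v = a.val z e v * b.val z e v := rfl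
@[simp] lemma val_c (n : ℤ) (d : ℕ) (z e v : ℝ) : (Ex.c n d).val z e v = (n : ℝ) / d := rfl
@[simp] lemma val_z (z e v : ℝ) : Ex.z.val z e v = z := rfl
@[simp] lemma val_e (z e v : ℝ) : Ex.e.val z e v = e := rfl
@[simp] lemma val_v (z e v : ℝ) : Ex.v.val z e v = v := rfl

@[simp] lemma val_w (z : ℝ) : Ex.w.val z (ee z) (H0 z) = ww z := by
  simp [Ex.w, ww]
@[simp] lemma val_k (z : ℝ) : Ex.k.val z (ee z) (H0 z) = kk z := by
  have := mu_H0 z
  rw [mu_eq] at this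
  simpa [Ex.k] using this
@[simp] lemma val_v1 (z : ℝ) : Ex.v1.val z (ee z) (H0 z) = aa z := by
  simp [Ex.v1, aa]
@[simp] lemma val_v2 (z : ℝ) : Ex.v2.val z (ee z) (H0 z) = bb2 z := by
  simp [Ex.v2, bb2]
@[simp] lemma val_h (z : ℝ) : Ex.h.val z (ee z) (H0 z) = hh z := by
  simp [Ex.h, hh, bb2]

set_option maxRecDepth 20000 in
theorem bb2_sq_chk : chk (Ex.c 32 1000 * Ex.h - Ex.v2 * Ex.v2) 8 8 64 = true := by decide +kernel

/-- example of use: `v''² < .032 h` on `[-8, 8]` -/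
theorem bb2_sq {z : ℝ} (h1 : -8 ≤ z) (h2 : z ≤ 8) : bb2 z ^ 2 < 32 / 1000 * hh z := by
  have := pos_of_chk bb2_sq_chk (z := z) (by norm_num; linarith) (by norm_num; linarith)
  simp at this
  nlinarith

end Crest.Agent.R253.Tube711
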