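import Mathlib.Analysis.SpecialFunctions.Trigonometric.DerivHyp
import Mathlib.Analysis.SpecialFunctions.Log.Basic
import Mathlib.Analysis.SpecialFunctions.Sqrt
import Mathlib.Tactic

/-!
# R253, (L7) for the unified form (UF, helper588 #32379): the row inequality (helper626)

`A(τ) = 8/(τ+7)`, `b = 1 - A = (τ-1)/(τ+7)`, field multiplier `r = 17/(16+τ)`.
-/

set_option autoImplicit false

namespace Crest.Agent.R253.UF7626

/-- `log x ≤ (x - 1/x)/2` for `1 ≤ x` -/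
lemma log_le_half {x : ℝ} (hx : 1 ≤ x) : Real.log x ≤ (x - x⁻¹) / 2 := by
  have h0 : 0 < x := by linarith
  have h := Real.self_le_sinh_iff.2 (Real.log_nonneg hx)
  rwa [Real.sinh_log h0] at h

/-- `log x ≤ -4 (1-x)/(3+x)` for `0 < x` (used for `x ≤ 1`) -/
lemma log_le_low {x : ℝ} (h0 : 0 < x) (h1 : x ≤ 1) : Real.log x ≤ -(4 * (1 - x) / (3 + x)) := by
  obtain ⟨r, hr0, hr⟩ : ∃ r : ℝ, 0 < r ∧ x = r ^ 2 :=
    ⟨√x, Real.sqrt_pos.2 h0, (Real.sq_sqrt h0.le).symm⟩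
  have hl : Real.log x = 2 * Real.log r := by
    rw [hr, Real.log_pow]; norm_num
  have h2 := Real.log_le_sub_one_of_pos hr0
  have hr1 : r ≤ 1 := by nlinarith
  have h3 : 4 * (1 - x) / (3 + x) ≤ 2 * (1 - r) := by
    rw [div_le_iff₀ (by linarith), hr]
    nlinarith [mul_nonneg (sub_nonneg.2 hr1) (sq_nonneg (1 - r))]
  rw [hl]
  linarith

/-- the row inequality in `s = (τ+7)/8` -/
lemma row_s {s k k5 l : ℝ} (hs : 7 / 8 ≤ s) (hk : k ≤ 17 / 100) (h5 : k5 ≤ 1 / 10)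
    (hl : l ≤ 11 / 10) :
    2 / 25 * ((s - 1) ^ 2 / s) ≤
      -Real.log s + (s - 1) / s + 2 * ((s - 1) ^ 2 / s) -
        l * (32 / 3 * ((s - 1) ^ 2 / s) / (8 * s + 9)) -
        k * ((s - 1) ^ 2 / s * (8 * s - 7) / s) - k5 * ((s - 1) ^ 2 / s / s) := by
  have s0 : 0 < s := by linarith
  set q := (s - 1) ^ 2 / s with hq
  have q0 : 0 ≤ q := by positivity
  have e9 : 0 < 8 * s + 9 := by linarith
  have a1 : l * (32 / 3 * q / (8 * s + 9)) ≤ 11 / 10 * (32 / 3 * q / (8 * s + 9)) :=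
    mul_le_mul_of_nonneg_right hl (by positivity)
  have a2 : k * (q * (8 * s - 7) / s) ≤ 17 / 100 * (q * (8 * s - 7) / s) := by
    refine mul_le_mul_of_nonneg_right hk ?_
    have : 0 ≤ 8 * s - 7 := by linarith
    positivity
  have a3 : k5 * (q / s) ≤ 1 / 10 * (q / s) := mul_le_mul_of_nonneg_right h5 (by positivity)
  suffices h : 2 / 25 * q ≤ -Real.log s + (s - 1) / s + 2 * q -
      11 / 10 * (32 / 3 * q / (8 * s + 9)) - 17 / 100 * (q * (8 * s - 7) / s) -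
      1 / 10 * (q / s) by linarith
  rcases le_total 1 s with h1 | h1
  · have hlog := log_le_half h1
    have e1 : -((s - s⁻¹) / 2) + (s - 1) / s = -(q / 2) := by
      rw [hq]; field_simp; ring
    have key : 0 ≤ q * (3 / 2 - 2 / 25 - 176 / 15 / (8 * s + 9) - 17 / 100 * (8 - 7 / s) -
        1 / 10 / s) := by
      refine mul_nonneg q0 ?_
      have e2 : 3 / 2 - 2 / 25 - 176 / 15 / (8 * s + 9) - 17 / 100 * (8 - 7 / s) - 1 / 10 / s =
          (3 / 50 * (s * (8 * s + 9)) + 109 / 100 * (8 * s + 9) - 176 / 15 * s) /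
            (s * (8 * s + 9)) := by
        field_simp
        ring
      rw [e2]
      refine div_nonneg ?_ (by positivity)
      nlinarith [sq_nonneg (s - 5 / 2)]
    have e3 : q * (3 / 2 - 2 / 25 - 176 / 15 / (8 * s + 9) - 17 / 100 * (8 - 7 / s) -
        1 / 10 / s) = 3 / 2 * q - 2 / 25 * q - 11 / 10 * (32 / 3 * q / (8 * s + 9)) -
        17 / 100 * (q * (8 * s - 7) / s) - 1 / 10 * (q / s) := by
      field_simp
      ring
    rw [e3] at key
    linarith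
  · have hlog := log_le_low s0 h1
    have e1 : 4 * (1 - s) / (3 + s) + (s - 1) / s = -(q * (3 / (3 + s))) := by
      rw [hq]; field_simp; ring
    have key : 0 ≤ q * (2 - 2 / 25 - 3 / (3 + s) - 176 / 15 / (8 * s + 9) -
        17 / 100 * (8 - 7 / s) - 1 / 10 / s) := by
      refine mul_nonneg q0 ?_
      have b1 : 3 / (3 + s) ≤ 4 / 5 := by
        rw [div_le_div_iff₀ (by linarith) (by norm_num)]; linarith
      have b2 : 176 / 15 / (8 * s + 9) ≤ 11 / 15 := by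
        rw [div_le_iff₀ e9]; linarith
      have b3 : 1 ≤ 1 / s := by rw [le_div_iff₀ s0]; linarith
      have b4 : 1 / s ≤ 8 / 7 := by rw [div_le_div_iff₀ s0 (by norm_num)]; linarith
      have e4 : 7 / s = 7 * (1 / s) := by ring
      have e5 : 1 / 10 / s = 1 / 10 * (1 / s) := by ring
      rw [e4, e5]
      linarith
    have e3 : q * (2 - 2 / 25 - 3 / (3 + s) - 176 / 15 / (8 * s + 9) - 17 / 100 * (8 - 7 / s) -
        1 / 10 / s) = 2 * q - 2 / 25 * q - q * (3 / (3 + s)) -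
        11 / 10 * (32 / 3 * q / (8 * s + 9)) -
        17 / 100 * (q * (8 * s - 7) / s) - 1 / 10 * (q / s) := by
      field_simp
      ring
    rw [e3] at key
    linarith

/-- **(L7)** for `A = 8/(τ+7)`, `b = (τ-1)/(τ+7)`, all `τ ≥ 0` -/
theorem row_ge {τ k k5 l : ℝ} (hτ : 0 ≤ τ) (hk : k ≤ 17 / 100) (h5 : k5 ≤ 1 / 10)
    (hl : l ≤ 11 / 10) :
    1 / 100 * ((τ - 1) ^ 2 / (τ + 7)) ≤
      Real.log (8 / (τ + 7)) + (τ - 1) / (τ + 7) + 1 / 4 * ((τ - 1) / (τ + 7)) * (τ - 1) -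
        l * (8 / (τ + 7) * ((τ - 1) ^ 2 / (6 * (16 + τ)))) -
        k * (((τ - 1) / (τ + 7)) ^ 2 * τ) - k5 * ((τ - 1) / (τ + 7)) ^ 2 := by
  have h := row_s (s := (τ + 7) / 8) (k := k) (k5 := k5) (l := l) (by linarith) hk h5 hl
  have p7 : 0 < τ + 7 := by linarith
  have p16 : 0 < 16 + τ := by linarith
  have e0 : Real.log (8 / (τ + 7)) = -Real.log ((τ + 7) / 8) := by
    rw [← Real.log_inv]; congr 1; rw [inv_div]
  have e1 : ((τ + 7) / 8 - 1) ^ 2 / ((τ + 7) / 8) = (τ - 1) ^ 2 / (τ + 7) / 8 := by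
    field_simp; ring
  have e2 : ((τ + 7) / 8 - 1) / ((τ + 7) / 8) = (τ - 1) / (τ + 7) := by
    field_simp; ring
  rw [e1, e2] at h
  have e3 : l * (32 / 3 * ((τ - 1) ^ 2 / (τ + 7) / 8) / (8 * ((τ + 7) / 8) + 9)) =
      l * (8 / (τ + 7) * ((τ - 1) ^ 2 / (6 * (16 + τ)))) := by
    have : 8 * ((τ + 7) / 8) + 9 = 16 + τ := by ring
    rw [this]
    field_simp
    ring
  have e4 : k * ((τ - 1) ^ 2 / (τ + 7) / 8 * (8 * ((τ + 7) / 8) - 7) / ((τ + 7) / 8)) =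
      k * (((τ - 1) / (τ + 7)) ^ 2 * τ) := by
    have : 8 * ((τ + 7) / 8) - 7 = τ := by ring
    rw [this]
    field_simp
  have e5 : k5 * ((τ - 1) ^ 2 / (τ + 7) / 8 / ((τ + 7) / 8)) =
      k5 * ((τ - 1) / (τ + 7)) ^ 2 := by
    field_simp
  have e6 : 2 * ((τ - 1) ^ 2 / (τ + 7) / 8) = 1 / 4 * ((τ - 1) / (τ + 7)) * (τ - 1) := by
    field_simp
    ring
  rw [e3, e4, e5, e6] at h
  rw [e0]
  linarith

/-- `K1 = sup A r² τ ≤ 9/4` -/
lemma K1_le {τ : ℝ} (hτ : 0 ≤ τ) : 8 / (τ + 7) * (17 / (16 + τ)) ^ 2 * τ ≤ 9 / 4 := by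
  have p7 : 0 < τ + 7 := by linarith
  have p16 : 0 < 16 + τ := by linarith
  have e : 8 / (τ + 7) * (17 / (16 + τ)) ^ 2 * τ = 2312 * τ / ((τ + 7) * (16 + τ) ^ 2) := by
    field_simp
    ring
  rw [e, div_le_div_iff₀ (by positivity) (by norm_num)]
  nlinarith [mul_nonneg hτ (sq_nonneg (τ - 6)), sq_nonneg (τ - 6)]

/-- the truncated loss bracket: `(1-r)² τ/6 + (1 - r τ)²/96 = (τ-1)²/(6 (16+τ))` -/
lemma loss_eq {τ : ℝ} (hτ : 0 ≤ τ) :
    (1 - 17 / (16 + τ)) ^ 2 * τ / 6 + (1 - 17 / (16 + τ) * τ) ^ 2 / 96 =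
      (τ - 1) ^ 2 / (6 * (16 + τ)) := by
  have p16 : (16 + τ) ≠ 0 := by linarith
  field_simp
  ring

end Crest.Agent.R253.UF7626
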