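import Mathlib

/-!
Row 253 (S0391), helper759: the one-variable row inequality of 588's form (UF)
(`A(τ) = 8/(τ+7)`, `b = (τ-1)/(τ+7)`, field multiplier `17/(16+τ)`), with rational weights.
-/

set_option autoImplicit false

open Real Set

noncomputable section

namespace Crest.Agent.R253.UFRow759

/-- Padé upper bound of the logarithm, valid for all `u > -1` -/
theorem log_pade {u : ℝ} (hu : -1 < u) : Real.log (1 + u) ≤ u * (6 + u) / (6 + 4 * u) := by
  set g : ℝ → ℝ := fun u => u * (6 + u) / (6 + 4 * u) - Real.log (1 + u) with hg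
  have hd : ∀ x : ℝ, -1 < x → HasDerivAt g (x ^ 3 / ((3 + 2 * x) ^ 2 * (1 + x))) x := by
    intro x hx
    have h1 : (6 + 4 * x) ≠ 0 := by linarith
    have h2 : (1 + x) ≠ 0 := by linarith
    have h3 : (3 + 2 * x) ≠ 0 := by linarith
    have e1 : HasDerivAt (fun u : ℝ => u * (6 + u)) (1 * (6 + x) + x * 1) x :=
      (hasDerivAt_id x).mul ((hasDerivAt_id x).const_add 6)
    have e2 : HasDerivAt (fun u : ℝ => 6 + 4 * u) (4 * 1) x :=
      ((hasDerivAt_id x).const_mul 4).const_add 6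
    have e3 : HasDerivAt (fun u : ℝ => Real.log (1 + u)) (1 / (1 + x)) x :=
      ((hasDerivAt_id x).const_add 1).log h2
    refine ((e1.div e2 h1).sub e3).congr_deriv ?_
    have h4 : (6 + 4 * x) ^ 2 ≠ 0 := pow_ne_zero 2 h1
    have h5 : (3 + 2 * x) ^ 2 * (1 + x) ≠ 0 := mul_ne_zero (pow_ne_zero 2 h3) h2
    rw [div_sub_div _ _ h4 h2, div_eq_div_iff (mul_ne_zero h4 h2) h5]
    ring
  have h0 : g 0 = 0 := by simp [hg]
  have key : 0 ≤ g u := by
    rcases le_total 0 u with h | h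
    · have hm : MonotoneOn g (Ici 0) := by
        apply monotoneOn_of_deriv_nonneg (convex_Ici 0)
        · intro x hx
          exact (hd x (by have := mem_Ici.1 hx; linarith)).continuousAt.continuousWithinAt
        · intro x hx
          rw [interior_Ici] at hx
          exact (hd x (by have := mem_Ioi.1 hx; linarith)).differentiableAt.differentiableWithinAt
        · intro x hx
          rw [interior_Ici] at hx
          have hx' := mem_Ioi.1 hx
          rw [(hd x (by linarith)).deriv]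
          positivity
      have := hm (mem_Ici.2 le_rfl) (mem_Ici.2 h) h
      rwa [h0] at this
    · have hm : AntitoneOn g (Icc u 0) := by
        apply antitoneOn_of_deriv_nonpos (convex_Icc u 0)
        · intro x hx
          exact (hd x (by linarith [hx.1])).continuousAt.continuousWithinAt
        · intro x hx
          rw [interior_Icc] at hx
          exact (hd x (by linarith [hx.1])).differentiableAt.differentiableWithinAt
        · intro x hx
          rw [interior_Icc] at hx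
          rw [(hd x (by linarith [hx.1])).deriv]
          have hx3 : x ^ 3 ≤ 0 := by
            have : 0 ≤ x ^ 2 := sq_nonneg x
            nlinarith [hx.2]
          have hp : 0 < (3 + 2 * x) ^ 2 * (1 + x) := by
            have : 0 < 1 + x := by linarith [hx.1]
            have : 0 < 3 + 2 * x := by linarith [hx.1]
            positivity
          exact div_nonpos_of_nonpos_of_nonneg hx3 hp.le
      have := hm (left_mem_Icc.2 h) (right_mem_Icc.2 h) h
      rwa [h0] at this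
  have := key
  simp only [hg] at this
  linarith

/-- lower bound of `log A`, `A = 8/(τ+7)` -/
theorem log_A {τ : ℝ} (h : 0 ≤ τ) :
    - ((τ - 1) * (τ + 47) / (32 * (τ + 11))) ≤ Real.log (8 / (τ + 7)) := by
  have h7 : 0 < τ + 7 := by linarith
  have h11 : 0 < τ + 11 := by linarith
  have hu : -1 < (τ - 1) / 8 := by linarith
  have hp := log_pade hu
  have e : Real.log (8 / (τ + 7)) = - Real.log (1 + (τ - 1) / 8) := by
    rw [← Real.log_inv]
    congr 1
    have h8 : 1 + (τ - 1) / 8 = (τ + 7) / 8 := by ring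
    rw [h8, inv_div]
  rw [e]
  have e2 : (τ - 1) / 8 * (6 + (τ - 1) / 8) / (6 + 4 * ((τ - 1) / 8)) =
      (τ - 1) * (τ + 47) / (32 * (τ + 11)) := by
    have h6 : 6 + 4 * ((τ - 1) / 8) = (τ + 11) / 2 := by ring
    rw [h6]
    field_simp
    ring
  rw [e2] at hp
  linarith

/-- **row inequality of (UF)**, general budgets `T ≤ .1552`, `c₂ ≤ .064`, `ε ≤ .05`:
`ψ(τ) ≥ (1/80) (τ-1)²/(1+τ)` for every `τ ≥ 0` -/
theorem row_UF {τ T c₂ ε : ℝ} (h : 0 ≤ τ) (hT : T ≤ 97 / 625) (hc : c₂ ≤ 8 / 125)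
    (hε : ε ≤ 1 / 20) :
    1 / 80 * (τ - 1) ^ 2 / (1 + τ) ≤
      1 / 4 * ((τ - 1) / (τ + 7)) * (τ - 1) + (τ - 1) / (τ + 7) + Real.log (8 / (τ + 7))
        - (1 + ε) * (8 / (τ + 7)) * (τ - 1) ^ 2 / (6 * (16 + τ))
        - T * ((τ - 1) / (τ + 7)) ^ 2 * τ - c₂ * ((τ - 1) / (τ + 7)) ^ 2 := by
  have h7 : 0 < τ + 7 := by linarith
  have h11 : 0 < τ + 11 := by linarith
  have h16 : 0 < 16 + τ := by linarith
  have h1 : 0 < 1 + τ := by linarith
  have hl := log_A h
  have hT' : T * ((τ - 1) / (τ + 7)) ^ 2 * τ ≤ 97 / 625 * ((τ - 1) / (τ + 7)) ^ 2 * τ := by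
    have : 0 ≤ ((τ - 1) / (τ + 7)) ^ 2 * τ := by positivity
    nlinarith
  have hc' : c₂ * ((τ - 1) / (τ + 7)) ^ 2 ≤ 8 / 125 * ((τ - 1) / (τ + 7)) ^ 2 := by
    have : 0 ≤ ((τ - 1) / (τ + 7)) ^ 2 := by positivity
    nlinarith
  have hε' : (1 + ε) * (8 / (τ + 7)) * (τ - 1) ^ 2 / (6 * (16 + τ)) ≤
      (21 / 20) * (8 / (τ + 7)) * (τ - 1) ^ 2 / (6 * (16 + τ)) := by
    apply div_le_div_of_nonneg_right _ (by positivity)
    have : 0 ≤ (8 / (τ + 7)) * (τ - 1) ^ 2 := by positivity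
    nlinarith
  have main : 0 ≤ 1 / 4 * ((τ - 1) / (τ + 7)) * (τ - 1) + (τ - 1) / (τ + 7)
        - ((τ - 1) * (τ + 47) / (32 * (τ + 11)))
        - (21 / 20) * (8 / (τ + 7)) * (τ - 1) ^ 2 / (6 * (16 + τ))
        - 97 / 625 * ((τ - 1) / (τ + 7)) ^ 2 * τ - 8 / 125 * ((τ - 1) / (τ + 7)) ^ 2
        - 1 / 80 * (τ - 1) ^ 2 / (1 + τ) := by
    have e : 1 / 4 * ((τ - 1) / (τ + 7)) * (τ - 1) + (τ - 1) / (τ + 7)
        - ((τ - 1) * (τ + 47) / (32 * (τ + 11)))
        - (21 / 20) * (8 / (τ + 7)) * (τ - 1) ^ 2 / (6 * (16 + τ))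
        - 97 / 625 * ((τ - 1) / (τ + 7)) ^ 2 * τ - 8 / 125 * ((τ - 1) / (τ + 7)) ^ 2
        - 1 / 80 * (τ - 1) ^ 2 / (1 + τ) =
        (τ - 1) ^ 2 * (636 / 1000 + 7807405 / 100000 * τ + 1084615 / 100000 * τ ^ 2
          + 95915 / 100000 * τ ^ 3 + 5105 / 100000 * τ ^ 4) /
          ((τ + 7) ^ 2 * (τ + 11) * (16 + τ) * (1 + τ)) := by
      field_simp
      ring
    rw [e]
    positivity
  linarith

end Crest.Agent.R253.UFRow759
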