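import Crest.Agent.R253.V3Base_37

/-! # Row 253, helper37: barrier theorems for `v'' ≤ β e`, `|v'''| ≤ λ e` -/

open MeasureTheory Set Filter Topology Real

namespace Crest.Agent.R253.Mills37

noncomputable section

/-- level 1 : `v'' < β e` -/
theorem v2_lt_of {β : ℝ} (hβ : 0 < β)
    (h : ∀ z, 0 < rr z * (β * ee z - bb z) - β * cc z) (z : ℝ) : v2 z < β * ee z := by
  have := pos_of_ode_all (s := fun z => β * ee z - v2 z) (c := rr)
    (N := fun z => rr z * (β * ee z - bb z) - β * cc z) (z0 := -1) (K := 1)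
    (fun z => by
      refine (((ee_hasDerivAt z).const_mul β).sub (v2_hasDerivAt z)).congr_deriv ?_
      unfold v3 cc; ring)
    (fun z hz => by have := rr_ge_neg z; linarith) h
    (fun z hz => by
      have h1 := v2_lt_of_le hz
      have h2 := mul_pos hβ (ee_pos z)
      linarith) z
  linarith

/-- the function `r² bb'` -/
def Bf (z : ℝ) : ℝ :=
  (-(ee z) + z * cc z - mu z * ss z) * rr z - ww z * rr z ^ 2 + (ww z + cc z) * (3 - z * rr z)

def e1f (z : ℝ) : ℝ := (ee z * (3 - z * rr z) - cc z * rr z) / rr z ^ 2 - ee z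

lemma er_hasDerivAt (z : ℝ) : HasDerivAt (fun z => ee z / rr z) (e1f z) z := by
  have hr := (rr_pos z).ne'
  refine ((ee_hasDerivAt z).div (rr_hasDerivAt z) hr).congr_deriv ?_
  unfold e1f cc
  field_simp
  ring

lemma bb_hasDerivAt (z : ℝ) : HasDerivAt bb (Bf z / rr z ^ 2) z := by
  have hr := (rr_pos z).ne'
  refine ((((ww_hasDerivAt z).add (cc_hasDerivAt z)).div (rr_hasDerivAt z) hr).sub
    (ee_hasDerivAt z)).congr_deriv ?_
  have h3 : mu z * ee z - 1 = -cc z := by unfold cc; ring
  rw [h3]
  unfold Bf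
  simp only [Pi.add_apply]
  field_simp
  ring

/-- level 2, upper : `v''' < λ e` -/
theorem v3_lt_of {l : ℝ} (hl : 0 < l)
    (h : ∀ z, 0 < l * (ee z * (3 - z * rr z) - cc z * rr z) - Bf z) (z : ℝ) :
    v3 z < l * ee z := by
  have hD := pos_of_ode_all (s := fun z => l * (ee z / rr z) - bb z + v2 z) (c := rr)
    (N := fun z => (l * (ee z * (3 - z * rr z) - cc z * rr z) - Bf z) / rr z ^ 2) (z0 := -1) (K := 2)
    (fun z => by
      have hr := (rr_pos z).ne'
      refine ((((er_hasDerivAt z).const_mul l).sub (bb_hasDerivAt z)).add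
        (v2_hasDerivAt z)).congr_deriv ?_
      unfold e1f v3
      field_simp
      ring)
    (fun z hz => by have := rr_ge_neg z; linarith)
    (fun z => div_pos (h z) (pow_pos (rr_pos z) 2))
    (fun z hz => by
      have h1 := bb_le hz
      have h2 := v2_pos z
      have h3 := mul_pos hl (div_pos (ee_pos z) (rr_pos z))
      linarith) z
  have hr := rr_pos z
  have h4 : rr z * (l * (ee z / rr z) - bb z + v2 z) = l * ee z - v3 z := by
    unfold v3; field_simp; ring
  have h5 := mul_pos hr hD
  rw [h4] at h5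
  linarith

/-- level 2, lower : `-λ e < v'''` -/
theorem v3_gt_of {l : ℝ} (hl : 0 < l)
    (h : ∀ z, 0 < l * (ee z * (3 - z * rr z) - cc z * rr z) + Bf z) (z : ℝ) :
    -(l * ee z) < v3 z := by
  have hD := pos_of_ode_all (s := fun z => l * (ee z / rr z) + bb z - v2 z) (c := rr)
    (N := fun z => (l * (ee z * (3 - z * rr z) - cc z * rr z) + Bf z) / rr z ^ 2) (z0 := -1) (K := 5)
    (fun z => by
      have hr := (rr_pos z).ne'
      refine ((((er_hasDerivAt z).const_mul l).add (bb_hasDerivAt z)).sub
        (v2_hasDerivAt z)).congr_deriv ?_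
      unfold e1f v3
      field_simp
      ring)
    (fun z hz => by have := rr_ge_neg z; linarith)
    (fun z => div_pos (h z) (pow_pos (rr_pos z) 2))
    (fun z hz => by
      have h1 := bb_ge hz
      have h2 := v2_lt_of_le hz
      have h3 := mul_pos hl (div_pos (ee_pos z) (rr_pos z))
      linarith) z
  have hr := rr_pos z
  have h4 : rr z * (l * (ee z / rr z) + bb z - v2 z) = l * ee z + v3 z := by
    unfold v3; field_simp; ring
  have h5 := mul_pos hr hD
  rw [h4] at h5
  linarith

/-! ### The two-sided Riccati enclosure (backward stable) -/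

/-- `f' = f² + z f - κ`, `q` an approximate solution: `|f - q| ≤ ε` propagates to the left. -/
theorem riccati_left {f q q' : ℝ → ℝ} {κ ε a b : ℝ} (hε : 0 ≤ ε)
    (hf : ∀ z, HasDerivAt f (f z ^ 2 + z * f z - κ) z)
    (hq : ∀ z, a ≤ z → z ≤ b → HasDerivAt q (q' z) z)
    (hres : ∀ z, a ≤ z → z ≤ b → |q z ^ 2 + z * q z - κ - q' z| < ε * (2 * q z + z - ε))
    (hb : |f b - q b| ≤ ε) : ∀ z, a ≤ z → z ≤ b → |f z - q z| ≤ ε := by
  intro z hz hzb
  have hd : ∀ x, -b ≤ x → x ≤ -a → HasDerivAt (fun x => f (-x) - q (-x))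
      (-((f (-x) ^ 2 + (-x) * f (-x) - κ) - q' (-x))) x := by
    intro x hx hx2
    have h1 := (hf (-x)).sub (hq (-x) (by linarith) (by linarith))
    have h2 := h1.comp x (hasDerivAt_neg x)
    refine h2.congr_deriv ?_
    ring
  have hup : f z - q z ≤ ε := by
    have := image_le_of_deriv_right_lt_deriv_boundary (f := fun x => f (-x) - q (-x))
      (f' := fun x => (-((f (-x) ^ 2 + (-x) * f (-x) - κ) - q' (-x))))
      (a := -b) (b := -z) (B := fun _ => ε) (B' := fun _ => 0)
      (fun x hx => (hd x hx.1 (by linarith [hx.2])).continuousAt.continuousWithinAt)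
      (fun x hx => (hd x hx.1 (by linarith [hx.2])).hasDerivWithinAt)
      (by simpa using (abs_le.mp hb).2) (fun x => hasDerivAt_const x _)
      (fun x hx hxe => by
        have h1 := (abs_lt.mp (hres (-x) (by linarith [hx.2]) (by linarith [hx.1]))).1
        have h2 : f (-x) = q (-x) + ε := by linarith
        show (-((f (-x) ^ 2 + (-x) * f (-x) - κ) - q' (-x))) < 0
        rw [h2]
        nlinarith)
    have h5 := this (x := -z) ⟨by linarith, le_rfl⟩
    simpa using h5
  have hlo : -(f z - q z) ≤ ε := by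
    have := image_le_of_deriv_right_lt_deriv_boundary (f := fun x => -(f (-x) - q (-x)))
      (f' := fun x => -(-((f (-x) ^ 2 + (-x) * f (-x) - κ) - q' (-x))))
      (a := -b) (b := -z) (B := fun _ => ε) (B' := fun _ => 0)
      (fun x hx => (hd x hx.1 (by linarith [hx.2])).neg.continuousAt.continuousWithinAt)
      (fun x hx => (hd x hx.1 (by linarith [hx.2])).neg.hasDerivWithinAt)
      (by have := (abs_le.mp hb).1; simp only [neg_neg]; linarith) (fun x => hasDerivAt_const x _)
      (fun x hx hxe => by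
        have h1 := (abs_lt.mp (hres (-x) (by linarith [hx.2]) (by linarith [hx.1]))).2
        have h2 : f (-x) = q (-x) - ε := by linarith
        show -(-((f (-x) ^ 2 + (-x) * f (-x) - κ) - q' (-x))) < 0
        rw [h2]
        nlinarith)
    have h5 := this (x := -z) ⟨by linarith, le_rfl⟩
    simpa using h5
  rw [abs_le]; constructor <;> linarith

end

end Crest.Agent.R253.Mills37
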