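import Crest.Agent.R253.Mills_37

/-! # Row 253, helper37: barriers for `v''`, `v'''` (`v = H0`) in the Riccati variables `e`, `r = M3/M2` -/

open MeasureTheory Set Filter Topology Real

namespace Crest.Agent.R253.Mills37

noncomputable section

/-- comparison lemma at `-∞`, bounded version -/
lemma pos_of_ode_bot_bdd {s c N : ℝ → ℝ} {z0 K : ℝ}
    (hs : ∀ z, z ≤ z0 → HasDerivAt s (-(c z * s z) + N z) z)
    (hc : ∀ z, z ≤ z0 → 1 ≤ c z) (hN : ∀ z, z ≤ z0 → 0 < N z)
    (hb : ∀ z, z ≤ z0 → -K ≤ s z) : ∀ z, z ≤ z0 → 0 < s z := by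
  -- f = s e^z  satisfies f' = -(c-1) f + N e^z, and liminf f ≥ 0 at -∞
  have hf : ∀ z, z ≤ z0 → HasDerivAt (fun z => s z * rexp z)
      (-((c z - 1) * (s z * rexp z)) + N z * rexp z) z := by
    intro z hz
    refine ((hs z hz).mul (Real.hasDerivAt_exp z)).congr_deriv ?_
    ring
  intro z1 hz1
  by_contra hneg
  have hneg : s z1 ≤ 0 := not_lt.mp hneg
  have key : ∀ a, a ≤ z0 → s a * rexp a ≤ 0 → ∀ b, b ≤ a → s b * rexp b ≤ s a * rexp a := by
    intro a ha hsa b hb'
    have hd : ∀ x, -a ≤ x → HasDerivAt (fun x => s (-x) * rexp (-x))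
        (-(-((c (-x) - 1) * (s (-x) * rexp (-x))) + N (-x) * rexp (-x))) x := by
      intro x hx
      have h1 := hf (-x) (by linarith)
      have h2 := h1.comp x (hasDerivAt_neg x)
      refine h2.congr_deriv ?_
      ring
    have := image_le_of_deriv_right_lt_deriv_boundary (f := fun x => s (-x) * rexp (-x))
      (f' := fun x => (-(-((c (-x) - 1) * (s (-x) * rexp (-x))) + N (-x) * rexp (-x))))
      (a := -a) (b := -b) (B := fun _ => s a * rexp a) (B' := fun _ => 0)
      (fun x hx => (hd x hx.1).continuousAt.continuousWithinAt)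
      (fun x hx => (hd x hx.1).hasDerivWithinAt)
      (by simp) (fun x => hasDerivAt_const x _)
      (fun x hx hxe => by
        have h1 := hc (-x) (by linarith [hx.1])
        have h2 := hN (-x) (by linarith [hx.1])
        have h3 : (c (-x) - 1) * (s (-x) * rexp (-x)) ≤ 0 :=
          mul_nonpos_of_nonneg_of_nonpos (by linarith) (by rw [hxe]; exact hsa)
        have h4 : 0 < N (-x) * rexp (-x) := mul_pos h2 (exp_pos _)
        show (-(-((c (-x) - 1) * (s (-x) * rexp (-x))) + N (-x) * rexp (-x))) < 0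
        linarith)
    have h5 := this (x := -b) ⟨by linarith, le_rfl⟩
    simpa using h5
  obtain ⟨z2, hz2, hlt⟩ : ∃ z2, z2 ≤ z1 ∧ s z2 * rexp z2 < 0 := by
    by_contra hcon
    push Not at hcon
    have h0 : ∀ z, z ≤ z1 → s z * rexp z = 0 := fun z hz =>
      le_antisymm ((key z1 hz1 (mul_nonpos_of_nonpos_of_nonneg hneg (exp_pos _).le) z hz).trans
        (mul_nonpos_of_nonpos_of_nonneg hneg (exp_pos _).le)) (hcon z hz)
    have hd := hf (z1 - 1) (by linarith)
    have hd0 : HasDerivAt (fun z => s z * rexp z) 0 (z1 - 1) := by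
      refine (hasDerivAt_const (z1 - 1) (0:ℝ)).congr_of_eventuallyEq ?_
      filter_upwards [eventually_le_nhds (show z1 - 1 < z1 by linarith)] with x hx
      exact h0 x hx
    have h1 := hd.unique hd0
    rw [h0 (z1 - 1) (by linarith)] at h1
    have h2 := mul_pos (hN (z1 - 1) (by linarith)) (exp_pos (z1 - 1))
    linarith
  -- now s e^z ≤ s z2 e^{z2} < 0 for all z ≤ z2, but s e^z ≥ -K e^z → 0
  have hlim : Tendsto (fun z => -K * rexp z) atBot (𝓝 (-K * 0)) :=
    tendsto_const_nhds.mul Real.tendsto_exp_atBot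
  rw [mul_zero] at hlim
  have : (0:ℝ) ≤ s z2 * rexp z2 := by
    refine le_of_tendsto hlim ?_
    filter_upwards [eventually_le_atBot z2] with x hx
    refine le_trans ?_ (key z2 (hz2.trans hz1) hlt.le x hx)
    exact mul_le_mul_of_nonneg_right (hb x (hx.trans (hz2.trans hz1))) (exp_pos _).le
  linarith

/-- global version: positivity on the left, then propagation to the right -/
lemma pos_of_ode_all {s c N : ℝ → ℝ} {z0 K : ℝ}
    (hs : ∀ z, HasDerivAt s (-(c z * s z) + N z) z)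
    (hc : ∀ z, z ≤ z0 → 1 ≤ c z) (hN : ∀ z, 0 < N z)
    (hb : ∀ z, z ≤ z0 → -K ≤ s z) (z : ℝ) : 0 < s z := by
  have h1 := pos_of_ode_bot_bdd (fun z _ => hs z) hc (fun z _ => hN z) hb
  rcases le_or_gt z z0 with h | h
  · exact h1 z h
  · refine pos_right_of_ode (c := fun z => -c z) (a := z0) (fun z _ => ?_) (fun z _ => hN z)
      (h1 z0 le_rfl).le z h
    refine (hs z).congr_deriv ?_
    ring

/-! ### the ratio `r = M3/M2` -/

def rr (z : ℝ) : ℝ := M3 z / M2 z
def GG (z : ℝ) : ℝ := z ^ 2 + z * rr z + 2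
/-- `v''` -/
def v2 (z : ℝ) : ℝ := ww z * H0 z - ee z
/-- `v'' ` relaxes to `bb` at rate `rr` -/
def bb (z : ℝ) : ℝ := (ww z + cc z) / rr z - ee z
/-- `v'''` -/
def v3 (z : ℝ) : ℝ := rr z * (bb z - v2 z)

lemma rr_pos (z : ℝ) : 0 < rr z := div_pos (M3_pos z) (M2_pos z)
lemma rr_hasDerivAt (z : ℝ) : HasDerivAt rr (rr z ^ 2 + z * rr z - 3) z := by
  have h2 := (M2_pos z).ne'
  refine ((M3_hasDerivAt z).div (M2_hasDerivAt z) h2).congr_deriv ?_
  unfold rr
  field_simp
  unfold M3
  ring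
lemma ww_mul_GG (z : ℝ) : ww z * GG z = 2 := by
  have hq := (Q_pos z).ne'
  have h2 := (M2_pos z).ne'
  unfold GG rr
  rw [ww_eq]
  field_simp
  unfold M3
  have : M2 z = Q z - z * M1 z := rfl
  have hq2 : Q z = M2 z + z * M1 z := by rw [this]; ring
  rw [hq2]; ring
lemma GG_pos (z : ℝ) : 0 < GG z := by
  have h := ww_mul_GG z
  have h1 := ww_pos z
  by_contra hn
  have : ww z * GG z ≤ 0 := mul_nonpos_of_nonneg_of_nonpos h1.le (not_lt.mp hn)
  linarith
lemma ee_mul_GG (z : ℝ) : ee z * GG z = z + rr z := by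
  have hq := (Q_pos z).ne'
  have h2 := (M2_pos z).ne'
  unfold GG rr
  rw [ee_eq]
  field_simp
  unfold M3
  have hq2 : Q z = M2 z + z * M1 z := by unfold M2; ring
  rw [hq2]; ring
/-- `r w = 2 e - z w` -/
lemma rr_mul_ww (z : ℝ) : rr z * ww z = 2 * ee z - z * ww z := by
  have h1 := ww_mul_GG z
  have h2 := ee_mul_GG z
  have h3 := (GG_pos z).ne'
  have hw : ww z = 2 / GG z := by rw [eq_div_iff h3]; exact h1
  have he : ee z = (z + rr z) / GG z := by rw [eq_div_iff h3]; exact h2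
  rw [hw, he]; field_simp; ring
lemma z_add_rr_pos (z : ℝ) : 0 < z + rr z := by
  rw [← ee_mul_GG]; exact mul_pos (ee_pos z) (GG_pos z)
lemma ww_add' (z : ℝ) : cc z = ww z - ee z ^ 2 := by
  have := ww_add z; unfold cc; linarith

lemma v2_hasDerivAt (z : ℝ) : HasDerivAt v2 (v3 z) z := by
  have := ((ww_hasDerivAt z).mul (H0_hasDerivAt z)).sub (ee_hasDerivAt z)
  refine this.congr_deriv ?_
  have hr := (rr_pos z).ne'
  have h1 : rr z * ww z = 2 * ee z - z * ww z := rr_mul_ww z
  have h2 : cc z = ww z - ee z ^ 2 := ww_add' z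
  have h3 : mu z * ee z - 1 = -cc z := by unfold cc; ring
  have h4 : v3 z = ww z + cc z - rr z * ww z * H0 z := by
    unfold v3 bb v2; field_simp; ring
  rw [h4, h3, h1, h2]
  have h5 : ww z = 1 - z * ee z := rfl
  rw [h5]; ring

lemma v2_pos (z : ℝ) : 0 < v2 z := H0_deriv2_pos z
lemma v2_lt_of_le {z : ℝ} (hz : z ≤ -1) : v2 z < 1 := by
  have h1 := H0_deriv_pos z
  have h2 := ee_pos z
  have hw := ww_pos z
  have he : 1 ≤ ee z := by have := mu_pos z; rw [mu_eq] at this; linarith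
  -- w v - e < w/e - e = cc/e < 1/e ≤ 1
  have h3 : ww z * H0 z < ww z * (1 / ee z) := by
    apply mul_lt_mul_of_pos_left _ hw
    rw [lt_div_iff₀ h2]; linarith
  have h4 : ww z * (1 / ee z) - ee z = cc z / ee z := by
    rw [ww_add']; field_simp
  have h5 : cc z / ee z ≤ 1 := by
    rw [div_le_one h2]
    have : cc z < 1 := by unfold cc; have := mu_ee_pos z; linarith
    linarith
  unfold v2; linarith

lemma rr_ge_neg (z : ℝ) : -z < rr z := by have := z_add_rr_pos z; linarith
lemma bb_le {z : ℝ} (hz : z ≤ -1) : bb z ≤ 2 := by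
  have hr := rr_ge_neg z
  have hr1 : 1 ≤ rr z := by linarith
  have hc : cc z < 1 := by unfold cc; have := mu_ee_pos z; linarith
  have he := ee_pos z
  unfold bb
  rw [sub_le_iff_le_add, div_le_iff₀ (rr_pos z)]
  have hw : ww z = 1 - z * ee z := rfl
  rw [hw]
  have : -z * ee z ≤ rr z * ee z := mul_le_mul_of_nonneg_right hr.le he.le
  nlinarith
lemma ee_le_of_le {z : ℝ} (hz : z ≤ -1) : ee z ≤ -z + 1 := by
  have h1 : mu z ≤ 1 := by
    have h2 := mu_ee_lt_one z
    have he : 1 ≤ ee z := by have := mu_pos z; rw [mu_eq] at this; linarith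
    have := mu_pos z
    nlinarith
  rw [mu_eq] at h1; linarith
lemma bb_ge {z : ℝ} (hz : z ≤ -1) : -4 ≤ bb z := by
  have hr := rr_pos z
  have hc := cc_pos z
  have he := ee_pos z
  have hw := ww_pos z
  have h1 := rr_mul_ww z
  have h2 := ee_le_of_le hz
  have h5 : ww z = 1 - z * ee z := rfl
  -- bb ≥ w/r - e ; w^2 - e (2e - z w) = w - 2 e²
  have h3 : ee z - 4 ≤ ww z / rr z := by
    rw [le_div_iff₀ hr]
    have h6 : (ee z - 4) * rr z * ww z ≤ ww z * ww z := by
      have : (ee z - 4) * rr z * ww z = (ee z - 4) * (2 * ee z - z * ww z) := by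
        rw [← h1]; ring
      rw [this]
      have h7 : 0 ≤ -z * ww z := mul_nonneg (by linarith) hw.le
      rw [h5]
      nlinarith [mul_nonneg (show (0:ℝ) ≤ -z - 1 by linarith) he.le, mul_pos he he,
        mul_nonneg (mul_nonneg (show (0:ℝ) ≤ -z - 1 by linarith) he.le) he.le,
        mul_nonneg (show (0:ℝ) ≤ -z - 1 by linarith) (show (0:ℝ) ≤ -z by linarith)]
    exact le_of_mul_le_mul_right (by linarith) hw
  have h4 : ww z / rr z ≤ (ww z + cc z) / rr z := by gcongr; linarith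
  unfold bb; linarith

end

end Crest.Agent.R253.Mills37
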