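import Crest.Agent.R253.V3Enc_37

/-! # Row 253, helper37: interval certificates (generated) -/

set_option maxRecDepth 100000

namespace Crest.Agent.R253.Mills37

open Crest.Agent.R307.IChk

theorem chk_q3sp0 : chk1 (q3sI true) css0 (-1) 5000 20 (-536870912) 536870912 = true := by decide +kernel

theorem chk_q3sp1 : chk1 (q3sI true) css1 (-3) 5100 20 (-536870912) 536870912 = true := by decide +kernel

theorem chk_q3sp2 : chk1 (q3sI true) css2 (-5) 5200 20 (-536870912) 536870912 = true := by decide +kernel

theorem chk_q3sp3 : chk1 (q3sI true) css3 (-7) 5300 20 (-536870912) 536870912 = true := by decide +kernel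

end Crest.Agent.R253.Mills37
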