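import Crest.Agent.R253.V3Enc_37

/-! # Row 253, helper37: interval certificates (generated) -/

set_option maxRecDepth 100000

namespace Crest.Agent.R253.Mills37

open Crest.Agent.R307.IChk

theorem chk_q3rp0 : chk1 (q3rI true) csr0 (7) 3000 20 (-536870912) 536870912 = true := by decide +kernel

theorem chk_q3rp1 : chk1 (q3rI true) csr1 (5) 3100 20 (-536870912) 536870912 = true := by decide +kernel

theorem chk_q3rp2 : chk1 (q3rI true) csr2 (3) 3200 20 (-536870912) 536870912 = true := by decide +kernel

theorem chk_q3rp3 : chk1 (q3rI true) csr3 (1) 3300 20 (-536870912) 536870912 = true := by decide +kernel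

theorem chk_q3rm0 : chk1 (q3rI false) csr0 (7) 3000 20 (-536870912) 536870912 = true := by decide +kernel

theorem chk_q3rm1 : chk1 (q3rI false) csr1 (5) 3100 20 (-536870912) 536870912 = true := by decide +kernel

theorem chk_q3rm2 : chk1 (q3rI false) csr2 (3) 3200 20 (-536870912) 536870912 = true := by decide +kernel

end Crest.Agent.R253.Mills37
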