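import Crest.Agent.R253.V3Mn_37

/-! # Row 253, helper37: enclosures of `r` on `[0,4]` and `e` on `[-4,0]` (generated) -/

set_option maxRecDepth 100000

open MeasureTheory Set Filter Topology Real

namespace Crest.Agent.R253.Mills37

open Crest.Agent.R307.IChk

noncomputable section

lemma rn_four : (312225647/500000000:ℝ) ≤ rn 2 4 ∧ rn 2 4 ≤ 19514103/31250000 := by
  have h21 : (0:ℝ) ≤ rn 21 4 ∧ rn 21 4 ≤ 22/4 := by
    refine ⟨(rn_pos _ _).le, ?_⟩
    have := rn_le (z := 4) (by norm_num) 21
    norm_num at this ⊢; exact this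
  have h20 : (442105263/200000000:ℝ) ≤ rn 20 4 ∧ rn 20 4 ≤ 21/4 :=
    rn_step (by norm_num) h21 (by norm_num) (by norm_num) (by norm_num) (by norm_num)
  have h19 : (1081081081/500000000:ℝ) ≤ rn 19 4 ∧ rn 19 4 ≤ 402542373/125000000 :=
    rn_step (by norm_num) h20 (by norm_num) (by norm_num) (by norm_num) (by norm_num)
  have h18 : (1315727699/500000000:ℝ) ≤ rn 18 4 ∧ rn 18 4 ≤ 1541666667/500000000 :=
    rn_step (by norm_num) h19 (by norm_num) (by norm_num) (by norm_num) (by norm_num)
  have h17 : (254117647/100000000:ℝ) ≤ rn 17 4 ∧ rn 17 4 ≤ 678584071/250000000 :=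
    rn_step (by norm_num) h18 (by norm_num) (by norm_num) (by norm_num) (by norm_num)
  have h16 : (158243489/62500000:ℝ) ≤ rn 16 4 ∧ rn 16 4 ≤ 81216277/31250000 :=
    rn_step (by norm_num) h17 (by norm_num) (by norm_num) (by norm_num) (by norm_num)
  have h15 : (484927773/200000000:ℝ) ≤ rn 15 4 ∧ rn 15 4 ≤ 306189819/125000000 :=
    rn_step (by norm_num) h16 (by norm_num) (by norm_num) (by norm_num) (by norm_num)
  have h14 : (581438749/250000000:ℝ) ≤ rn 14 4 ∧ rn 14 4 ≤ 1167380791/500000000 :=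
    rn_step (by norm_num) h15 (by norm_num) (by norm_num) (by norm_num) (by norm_num)
  have h13 : (88401117/40000000:ℝ) ≤ rn 13 4 ∧ rn 13 4 ≤ 553293639/250000000 :=
    rn_step (by norm_num) h14 (by norm_num) (by norm_num) (by norm_num) (by norm_num)
  have h12 : (1046164073/500000000:ℝ) ≤ rn 12 4 ∧ rn 12 4 ≤ 2093388333/1000000000 :=
    rn_step (by norm_num) h13 (by norm_num) (by norm_num) (by norm_num) (by norm_num)
  have h11 : (39386953/20000000:ℝ) ≤ rn 11 4 ∧ rn 11 4 ≤ 1969690357/1000000000 :=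
    rn_step (by norm_num) h12 (by norm_num) (by norm_num) (by norm_num) (by norm_num)
  have h10 : (368528327/200000000:ℝ) ≤ rn 10 4 ∧ rn 10 4 ≤ 57585857/31250000 :=
    rn_step (by norm_num) h11 (by norm_num) (by norm_num) (by norm_num) (by norm_num)
  have h9 : (855761791/500000000:ℝ) ≤ rn 9 4 ∧ rn 9 4 ≤ 427888643/250000000 :=
    rn_step (by norm_num) h10 (by norm_num) (by norm_num) (by norm_num) (by norm_num)
  have h8 : (1575753131/1000000000:ℝ) ≤ rn 8 4 ∧ rn 8 4 ≤ 1575761681/1000000000 :=
    rn_step (by norm_num) h9 (by norm_num) (by norm_num) (by norm_num) (by norm_num)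
  have h7 : (89673847/62500000:ℝ) ≤ rn 7 4 ∧ rn 7 4 ≤ 1434783753/1000000000 :=
    rn_step (by norm_num) h8 (by norm_num) (by norm_num) (by norm_num) (by norm_num)
  have h6 : (80499983/62500000:ℝ) ≤ rn 6 4 ∧ rn 6 4 ≤ 1288000251/1000000000 :=
    rn_step (by norm_num) h7 (by norm_num) (by norm_num) (by norm_num) (by norm_num)
  have h5 : (141830553/125000000:ℝ) ≤ rn 5 4 ∧ rn 5 4 ≤ 1134644537/1000000000 :=
    rn_step (by norm_num) h6 (by norm_num) (by norm_num) (by norm_num) (by norm_num)
  have h4 : (486888621/500000000:ℝ) ≤ rn 4 4 ∧ rn 4 4 ≤ 194755453/200000000 :=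
    rn_step (by norm_num) h5 (by norm_num) (by norm_num) (by norm_num) (by norm_num)
  have h3 : (804217757/1000000000:ℝ) ≤ rn 3 4 ∧ rn 3 4 ≤ 402108881/500000000 :=
    rn_step (by norm_num) h4 (by norm_num) (by norm_num) (by norm_num) (by norm_num)
  have h2 : (312225647/500000000:ℝ) ≤ rn 2 4 ∧ rn 2 4 ≤ 19514103/31250000 :=
    rn_step (by norm_num) h3 (by norm_num) (by norm_num) (by norm_num) (by norm_num)
  exact h2

def csr0 : List ℤ := [735835652, -141532256, 23244273, -3221002, 357075, -25903, -445, 562, -112]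
def csr1 : List ℤ := [904215035, -199234048, 35286802, -4872593, 450932, -3582, -8610, 1923, -209]
def csr2 : List ℤ := [1144052258, -286180348, 52470947, -6461900, 259566, 97860, -25848, 2217, 351]
def csr3 : List ℤ := [1489299532, -410890038, 72015266, -5957885, -651850, 259559, -17051, -7061, 1831]
def css0 : List ℤ := [1083577765, -522026899, 145486716, -15778232, -4983510, 2341843, -142273, -180846, 59122]
def css1 : List ℤ := [1759637096, -829522230, 142547689, 21572398, -9839056, -2064344, 1234652, 160273, -154474]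
def css2 : List ℤ := [2703293031, -1026061616, 50972005, 27888547, 6064804, -1525561, -1121889, -9570, 134211]
def css3 : List ℤ := [3759033638, -1070460616, 5276349, 5068362, 3126072, 1187839, 182973, -73507, -46359]

lemma rr_ode (z : ℝ) : HasDerivAt rr (rr z ^ 2 + z * rr z - ((3 : ℤ) : ℝ)) z := by
  have := rr_hasDerivAt z; push_cast; exact this
lemma ee_ode (z : ℝ) : HasDerivAt ee (ee z ^ 2 + z * ee z - ((1 : ℤ) : ℝ)) z := by
  refine (ee_hasDerivAt z).congr_deriv ?_
  rw [mu_eq]; push_cast; ring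

theorem enc_r0 : ∀ z : ℝ, (3 : ℝ) ≤ z → z ≤ 4 → |rr z - qP csr0 (7) z| ≤ ((3000 : ℤ) : ℝ) / SC := by
  have h := enclose rr_ode csr0 (7) 3000 (by decide +kernel) (by
    have h4 := rn_four
    rw [rn_two] at h4
    have e : ((7 : ℤ) : ℝ) / 2 + 1 / 2 = 4 := by norm_num
    rw [e]
    have hq : qP csr0 (7) 4 = 21455983095/34359738368 := by
      unfold qP csr0; simp only [evI]; norm_num
    rw [hq]
    have hS : ((SC : ℤ) : ℝ) = 1073741824 := by norm_num
    rw [hS, abs_le]; constructor <;> push_cast <;> linarith [h4.1, h4.2]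
    )
  intro z h1 h2
  exact h z (by push_cast; linarith) (by push_cast; linarith)

theorem enc_r1 : ∀ z : ℝ, (2 : ℝ) ≤ z → z ≤ 3 → |rr z - qP csr1 (5) z| ≤ ((3100 : ℤ) : ℝ) / SC := by
  have h := enclose rr_ode csr1 (5) 3100 (by decide +kernel) (by
    have h4 := enc_r0 3 (by norm_num) (by norm_num)
    have e : ((5 : ℤ) : ℝ) / 2 + 1 / 2 = 3 := by norm_num
    rw [e]
    have hq : qP csr1 (5) 3 = 208086678621/274877906944 := by
      unfold qP csr1; simp only [evI]; norm_num
    have hq0 : qP csr0 (7) 3 = 6502708707/8589934592 := by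
      unfold qP csr0; simp only [evI]; norm_num
    rw [hq]; rw [hq0] at h4
    have hS : ((SC : ℤ) : ℝ) = 1073741824 := by norm_num
    rw [hS, abs_le] at *; push_cast at *; constructor <;> linarith [h4.1, h4.2]
    )
  intro z h1 h2
  exact h z (by push_cast; linarith) (by push_cast; linarith)

theorem enc_r2 : ∀ z : ℝ, (1 : ℝ) ≤ z → z ≤ 2 → |rr z - qP csr2 (3) z| ≤ ((3200 : ℤ) : ℝ) / SC := by
  have h := enclose rr_ode csr2 (3) 3200 (by decide +kernel) (by
    have h4 := enc_r1 2 (by norm_num) (by norm_num)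
    have e : ((3 : ℤ) : ℝ) / 2 + 1 / 2 = 2 := by norm_num
    rw [e]
    have hq : qP csr2 (3) 2 = 259402490641/274877906944 := by
      unfold qP csr2; simp only [evI]; norm_num
    have hq0 : qP csr1 (5) 2 = 259402490481/274877906944 := by
      unfold qP csr1; simp only [evI]; norm_num
    rw [hq]; rw [hq0] at h4
    have hS : ((SC : ℤ) : ℝ) = 1073741824 := by norm_num
    rw [hS, abs_le] at *; push_cast at *; constructor <;> linarith [h4.1, h4.2]
    )
  intro z h1 h2
  exact h z (by push_cast; linarith) (by push_cast; linarith)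

theorem enc_r3 : ∀ z : ℝ, (0 : ℝ) ≤ z → z ≤ 1 → |rr z - qP csr3 (1) z| ≤ ((3300 : ℤ) : ℝ) / SC := by
  have h := enclose rr_ode csr3 (1) 3300 (by decide +kernel) (by
    have h4 := enc_r2 1 (by norm_num) (by norm_num)
    have e : ((1 : ℤ) : ℝ) / 2 + 1 / 2 = 1 := by norm_num
    rw [e]
    have hq : qP csr3 (1) 1 = 333076646409/274877906944 := by
      unfold qP csr3; simp only [evI]; norm_num
    have hq0 : qP csr2 (3) 1 = 333076646701/274877906944 := by
      unfold qP csr2; simp only [evI]; norm_num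
    rw [hq]; rw [hq0] at h4
    have hS : ((SC : ℤ) : ℝ) = 1073741824 := by norm_num
    rw [hS, abs_le] at *; push_cast at *; constructor <;> linarith [h4.1, h4.2]
    )
  intro z h1 h2
  exact h z (by push_cast; linarith) (by push_cast; linarith)

theorem enc_s0 : ∀ z : ℝ, (-1 : ℝ) ≤ z → z ≤ 0 → |ee z - qP css0 (-1) z| ≤ ((5000 : ℤ) : ℝ) / SC := by
  have h := enclose ee_ode css0 (-1) 5000 (by decide +kernel) (by
    have h4 := enc_r3 0 (by norm_num) (by norm_num)
    have e : ((-1 : ℤ) : ℝ) / 2 + 1 / 2 = 0 := by norm_num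
    rw [e]
    have hq : qP css0 (-1) 0 = 109660419045/137438953472 := by
      unfold qP css0; simp only [evI]; norm_num
    have hq0 : qP csr3 (1) 0 = 438641676077/274877906944 := by
      unfold qP csr3; simp only [evI]; norm_num
    have hs : ee 0 = rr 0 / 2 := by rw [ee_G]; unfold GG; ring
    rw [hq, hs]; rw [hq0] at h4
    have hS : ((SC : ℤ) : ℝ) = 1073741824 := by norm_num
    rw [hS, abs_le] at *; push_cast at *; constructor <;> linarith [h4.1, h4.2]
    )
  intro z h1 h2
  exact h z (by push_cast; linarith) (by push_cast; linarith)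

theorem enc_s1 : ∀ z : ℝ, (-2 : ℝ) ≤ z → z ≤ -1 → |ee z - qP css1 (-3) z| ≤ ((5100 : ℤ) : ℝ) / SC := by
  have h := enclose ee_ode css1 (-3) 5100 (by decide +kernel) (by
    have h4 := enc_s0 (-1) (by norm_num) (by norm_num)
    have e : ((-3 : ℤ) : ℝ) / 2 + 1 / 2 = -1 := by norm_num
    rw [e]
    have hq : qP css1 (-3) (-1) = 44241598125/34359738368 := by
      unfold qP css1; simp only [evI]; norm_num
    have hq0 : qP css0 (-1) (-1) = 176966392489/137438953472 := by
      unfold qP css0; simp only [evI]; norm_num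
    rw [hq]; rw [hq0] at h4
    have hS : ((SC : ℤ) : ℝ) = 1073741824 := by norm_num
    rw [hS, abs_le] at *; push_cast at *; constructor <;> linarith [h4.1, h4.2]
    )
  intro z h1 h2
  exact h z (by push_cast; linarith) (by push_cast; linarith)

theorem enc_s2 : ∀ z : ℝ, (-3 : ℝ) ≤ z → z ≤ -2 → |ee z - qP css2 (-5) z| ≤ ((5200 : ℤ) : ℝ) / SC := by
  have h := enclose ee_ode css2 (-5) 5200 (by decide +kernel) (by
    have h4 := enc_s1 (-2) (by norm_num) (by norm_num)
    have e : ((-5 : ℤ) : ℝ) / 2 + 1 / 2 = -2 := by norm_num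
    rw [e]
    have hq : qP css2 (-5) (-2) = 564942230803/274877906944 := by
      unfold qP css2; simp only [evI]; norm_num
    have hq0 : qP css1 (-3) (-2) = 141235557705/68719476736 := by
      unfold qP css1; simp only [evI]; norm_num
    rw [hq]; rw [hq0] at h4
    have hS : ((SC : ℤ) : ℝ) = 1073741824 := by norm_num
    rw [hS, abs_le] at *; push_cast at *; constructor <;> linarith [h4.1, h4.2]
    )
  intro z h1 h2
  exact h z (by push_cast; linarith) (by push_cast; linarith)

theorem enc_s3 : ∀ z : ℝ, (-4 : ℝ) ≤ z → z ≤ -3 → |ee z - qP css3 (-7) z| ≤ ((5300 : ℤ) : ℝ) / SC := by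
  have h := enclose ee_ode css3 (-7) 5300 (by decide +kernel) (by
    have h4 := enc_s2 (-3) (by norm_num) (by norm_num)
    have e : ((-7 : ℤ) : ℝ) / 2 + 1 / 2 = -3 := by norm_num
    rw [e]
    have hq : qP css3 (-7) (-3) = 825853584783/274877906944 := by
      unfold qP css3; simp only [evI]; norm_num
    have hq0 : qP css2 (-5) (-3) = 825853584747/274877906944 := by
      unfold qP css2; simp only [evI]; norm_num
    rw [hq]; rw [hq0] at h4
    have hS : ((SC : ℤ) : ℝ) = 1073741824 := by norm_num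
    rw [hS, abs_le] at *; push_cast at *; constructor <;> linarith [h4.1, h4.2]
    )
  intro z h1 h2
  exact h z (by push_cast; linarith) (by push_cast; linarith)

end

end Crest.Agent.R253.Mills37
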