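import Crest.Agent.R253.V3Bar_37
import Crest.Agent.R307.IntervalChk

/-! # Row 253, helper37: verified enclosures of the Riccati functions `e`, `r` by polynomials with
integer coefficients, and a bisection checker along the curve. -/

open MeasureTheory Set Filter Topology Real

namespace Crest.Agent.R253.Mills37

open Crest.Agent.R307.IChk

/-- value of an integer polynomial -/
def evI : List ℤ → ℝ → ℝ
  | [], _ => 0
  | c :: cs, t => (c : ℝ) + t * evI cs t
/-- derivative -/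
def dvI : List ℤ → ℝ → ℝ
  | [], _ => 0
  | _ :: cs, t => evI cs t + t * dvI cs t

lemma evI_hasDerivAt : ∀ (cs : List ℤ) (t : ℝ), HasDerivAt (evI cs) (dvI cs t) t
  | [], t => hasDerivAt_const t (0:ℝ)
  | c :: cs, t => by
      have := ((hasDerivAt_id t).mul (evI_hasDerivAt cs t)).const_add (c : ℝ)
      refine this.congr_deriv ?_
      simp [dvI]

def addL : List ℤ → List ℤ → List ℤ
  | [], b => b
  | a, [] => a
  | a :: as, b :: bs => (a + b) :: addL as bs
def smulL (k : ℤ) : List ℤ → List ℤ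
  | [] => []
  | a :: as => (k * a) :: smulL k as
def mulL : List ℤ → List ℤ → List ℤ
  | [], _ => []
  | a :: as, b => addL (smulL a b) (0 :: mulL as b)
/-- derivative list, with counter -/
def derL : ℤ → List ℤ → List ℤ
  | _, [] => []
  | k, a :: as => (k * a) :: derL (k + 1) as

lemma evI_addL : ∀ (a b : List ℤ) (t : ℝ), evI (addL a b) t = evI a t + evI b t
  | [], b, t => by simp [addL, evI]
  | a :: as, [], t => by simp [addL, evI]
  | a :: as, b :: bs, t => by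
      simp only [addL, evI, Int.cast_add]
      rw [evI_addL as bs t]; ring
lemma evI_smulL (k : ℤ) : ∀ (a : List ℤ) (t : ℝ), evI (smulL k a) t = k * evI a t
  | [], t => by simp [smulL, evI]
  | a :: as, t => by
      simp only [smulL, evI, Int.cast_mul]
      rw [evI_smulL k as t]; ring
lemma evI_mulL : ∀ (a b : List ℤ) (t : ℝ), evI (mulL a b) t = evI a t * evI b t
  | [], b, t => by simp [mulL, evI]
  | a :: as, b, t => by
      simp only [mulL, evI_addL, evI_smulL, evI, Int.cast_zero]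
      rw [evI_mulL as b t]; ring
/-- `derL k a` evaluates to `(k-1) * (a)/… `: `evI (derL k a) t = k * evI a t + t * dvI a t` -/
lemma evI_derL : ∀ (k : ℤ) (a : List ℤ) (t : ℝ), evI (derL k a) t = k * evI a t + t * dvI a t
  | k, [], t => by simp [derL, evI, dvI]
  | k, a :: as, t => by
      simp only [derL, evI, dvI, Int.cast_mul]
      rw [evI_derL (k + 1) as t]
      push_cast; ring
lemma dvI_eq (cs : List ℤ) (t : ℝ) : dvI cs t = evI (derL 1 cs.tail) t := by
  cases cs with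
  | nil => simp [dvI, derL, evI]
  | cons c cs =>
    simp only [dvI, List.tail_cons]
    rw [evI_derL]; push_cast; ring

/-- upper bound for `|evI l t|` on `|t| ≤ 1/2` -/
def hbL : List ℤ → ℤ
  | [] => 0
  | c :: cs => |c| + (hbL cs + 1) / 2

lemma hbL_nonneg : ∀ l : List ℤ, 0 ≤ hbL l
  | [] => le_rfl
  | c :: cs => by
      have := hbL_nonneg cs
      have h1 := abs_nonneg c
      unfold hbL; omega
lemma abs_evI_le : ∀ (l : List ℤ) (t : ℝ), |t| ≤ 1 / 2 → |evI l t| ≤ (hbL l : ℝ)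
  | [], t, _ => by simp [evI, hbL]
  | c :: cs, t, ht => by
      have h1 := abs_evI_le cs t ht
      have h2 : |t * evI cs t| ≤ 1 / 2 * (hbL cs : ℝ) := by
        rw [abs_mul]
        exact mul_le_mul ht h1 (abs_nonneg _) (by norm_num)
      have h3 : (hbL cs : ℝ) / 2 ≤ (((hbL cs + 1) / 2 : ℤ) : ℝ) := by
        have : hbL cs ≤ 2 * ((hbL cs + 1) / 2) := by omega
        have : (hbL cs : ℝ) ≤ 2 * (((hbL cs + 1) / 2 : ℤ) : ℝ) := by exact_mod_cast this
        linarith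
      calc |evI (c :: cs) t| ≤ |(c : ℝ)| + |t * evI cs t| := abs_add_le _ _
        _ ≤ |(c : ℝ)| + (((hbL cs + 1) / 2 : ℤ) : ℝ) := by linarith
        _ = (hbL (c :: cs) : ℝ) := by
          rw [show hbL (c :: cs) = |c| + (hbL cs + 1) / 2 from rfl]; push_cast; rfl

/-- the residual of the Riccati equation, scaled by `2 SC²`; `z = M/2 + t` -/
def resL (cs : List ℤ) (M κ : ℤ) : List ℤ :=
  addL (addL (smulL 2 (mulL cs cs)) (addL (smulL (SC * M) cs) (0 :: smulL (2 * SC) cs)))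
    (addL [-(2 * κ * SC * SC)] (smulL (-(2 * SC)) (derL 1 cs.tail)))

/-- lower bound for `SC (2 q + z - ε)` -/
def lowL (cs : List ℤ) (M E : ℤ) : ℤ :=
  2 * cs.headD 0 + SC * M / 2 - (hbL (addL [SC] (smulL 2 cs.tail)) + 1) / 2 - E

def okRes (cs : List ℤ) (M κ E : ℤ) : Bool :=
  decide (0 < lowL cs M E ∧ hbL (resL cs M κ) < 2 * E * lowL cs M E ∧ 0 < E)

noncomputable section

/-- the polynomial `q` on the piece with midpoint `M/2` -/
def qP (cs : List ℤ) (M : ℤ) (z : ℝ) : ℝ := evI cs (z - M / 2) / (SC : ℝ)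

lemma qP_hasDerivAt (cs : List ℤ) (M : ℤ) (z : ℝ) :
    HasDerivAt (qP cs M) (dvI cs (z - M / 2) / (SC : ℝ)) z := by
  have h1 : HasDerivAt (fun z : ℝ => z - (M:ℝ) / 2) 1 z := (hasDerivAt_id z).sub_const _
  have := ((evI_hasDerivAt cs (z - M / 2)).comp z h1).div_const (SC : ℝ)
  refine this.congr_deriv ?_
  ring

lemma res_eq (cs : List ℤ) (M κ : ℤ) (z : ℝ) :
    qP cs M z ^ 2 + z * qP cs M z - κ - dvI cs (z - M / 2) / (SC : ℝ) =
      evI (resL cs M κ) (z - M / 2) / (2 * (SC : ℝ) ^ 2) := by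
  have hS : (SC : ℝ) ≠ 0 := SC_pos.ne'
  unfold qP resL
  simp only [evI_addL, evI_smulL, evI_mulL, evI, ← dvI_eq]
  generalize evI cs (z - M / 2) = q
  generalize dvI cs (z - M / 2) = d
  push_cast
  field_simp
  ring

lemma low_le (cs : List ℤ) (M E : ℤ) (z : ℝ) (hz : |z - M / 2| ≤ 1 / 2) :
    (lowL cs M E : ℝ) ≤ (SC : ℝ) * (2 * qP cs M z + z - (E : ℝ) / SC) := by
  have hS : (SC : ℝ) ≠ 0 := SC_pos.ne'
  have h1 := abs_evI_le (addL [SC] (smulL 2 cs.tail)) (z - M / 2) hz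
  set t := z - (M:ℝ) / 2 with ht
  set h := hbL (addL [SC] (smulL 2 cs.tail)) with hh
  have hnn : 0 ≤ h := hbL_nonneg _
  have h2 : (SC : ℝ) * (2 * qP cs M z + z - (E : ℝ) / SC) =
      2 * (cs.headD 0 : ℝ) + SC * M / 2 + t * evI (addL [SC] (smulL 2 cs.tail)) t - E := by
    unfold qP
    rw [← ht, evI_addL, evI_smulL]
    have hz' : z = t + M / 2 := by rw [ht]; ring
    have e1 : evI cs t = (cs.headD 0 : ℝ) + t * evI cs.tail t := by
      cases cs with
      | nil => simp [evI]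
      | cons c cs => simp [evI]
    rw [e1, hz']
    simp only [evI]
    field_simp
    push_cast
    ring
  have h3 : |t * evI (addL [SC] (smulL 2 cs.tail)) t| ≤ 1 / 2 * (h : ℝ) := by
    rw [abs_mul]
    exact mul_le_mul hz h1 (abs_nonneg _) (by norm_num)
  have h4 := (abs_le.mp h3).1
  have h5 : (h : ℝ) / 2 ≤ (((h + 1) / 2 : ℤ) : ℝ) := by
    have : h ≤ 2 * ((h + 1) / 2) := by omega
    have : (h : ℝ) ≤ 2 * (((h + 1) / 2 : ℤ) : ℝ) := by exact_mod_cast this
    linarith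
  have h6 : ((SC * M / 2 : ℤ) : ℝ) = (SC : ℝ) * M / 2 := by
    have : SC * M / 2 * 2 = SC * M := by
      unfold SC; omega
    have h7 : ((SC * M / 2 : ℤ) : ℝ) * 2 = (SC : ℝ) * M := by exact_mod_cast this
    linarith
  rw [h2]
  unfold lowL
  push_cast at h6 ⊢
  rw [h6]
  linarith

/-- enclosure on one unit piece `[M/2-1/2, M/2+1/2]` -/
theorem enclose {f : ℝ → ℝ} {κ : ℤ} (hf : ∀ z, HasDerivAt f (f z ^ 2 + z * f z - κ) z)
    (cs : List ℤ) (M E : ℤ) (hok : okRes cs M κ E = true)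
    (hb : |f (M / 2 + 1 / 2) - qP cs M (M / 2 + 1 / 2)| ≤ (E : ℝ) / SC) :
    ∀ z, (M : ℝ) / 2 - 1 / 2 ≤ z → z ≤ M / 2 + 1 / 2 → |f z - qP cs M z| ≤ (E : ℝ) / SC := by
  simp only [okRes, decide_eq_true_eq] at hok
  obtain ⟨hl, hr, hE⟩ := hok
  have hS := SC_pos
  have hE' : (0:ℝ) < (E : ℝ) := by exact_mod_cast hE
  refine riccati_left (q' := fun z => dvI cs (z - M / 2) / (SC : ℝ)) (div_pos hE' hS).le hf
    (fun z _ _ => qP_hasDerivAt cs M z) ?_ hb
  intro z h1 h2
  have hz : |z - (M:ℝ) / 2| ≤ 1 / 2 := by rw [abs_le]; constructor <;> linarith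
  rw [res_eq, abs_div, abs_of_pos (by positivity : (0:ℝ) < 2 * (SC : ℝ) ^ 2),
    div_lt_iff₀ (by positivity)]
  have h3 := abs_evI_le (resL cs M κ) (z - M / 2) hz
  have h4 := low_le cs M E z hz
  have h5 : (hbL (resL cs M κ) : ℝ) < 2 * E * (lowL cs M E : ℝ) := by exact_mod_cast hr
  have h6 : 2 * (E:ℝ) * (lowL cs M E : ℝ) ≤
      2 * E * ((SC : ℝ) * (2 * qP cs M z + z - (E : ℝ) / SC)) :=
    mul_le_mul_of_nonneg_left h4 (by positivity)
  have h7 : (E : ℝ) / SC * (2 * qP cs M z + z - (E : ℝ) / SC) * (2 * (SC : ℝ) ^ 2) =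
      2 * E * ((SC : ℝ) * (2 * qP cs M z + z - (E : ℝ) / SC)) := by
    field_simp
  rw [h7]; linarith

end

/-- interval value of the polynomial -/
def qIv (T : Iv) : List ℤ → Iv
  | [] => ⟨0, 0⟩
  | c :: cs => (T.mul (qIv T cs)).add ⟨c, c⟩

lemma qIv_mem {T : Iv} {t : ℝ} (ht : T.mem t) : ∀ cs : List ℤ, (qIv T cs).mem (evI cs t / (SC : ℝ))
  | [] => by
      simp [qIv, evI, Iv.mem]
  | c :: cs => by
      have h := mem_mul ht (qIv_mem ht cs)
      have hc : Iv.mem ((c : ℝ) / (SC : ℝ)) ⟨c, c⟩ := by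
        have hS : (SC : ℝ) ≠ 0 := SC_pos.ne'
        unfold Iv.mem
        constructor <;> (rw [div_mul_cancel₀ _ hS])
      have := mem_add h hc
      have e : evI (c :: cs) t / (SC : ℝ) = t * (evI cs t / (SC : ℝ)) + (c : ℝ) / (SC : ℝ) := by
        simp only [evI]; ring
      rw [e]; exact this

/-- bisection along the curve -/
def chk1 (F : Iv → Iv → Iv) (cs : List ℤ) (M E : ℤ) : ℕ → ℤ → ℤ → Bool
  | 0, _, _ => false
  | n + 1, lo, hi =>
    decide (0 < (F ⟨lo + SC / 2 * M, hi + SC / 2 * M⟩ ((qIv ⟨lo, hi⟩ cs).add ⟨-E, E⟩)).lo) ||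
      (chk1 F cs M E n lo ((lo + hi) / 2) && chk1 F cs M E n ((lo + hi) / 2) hi)

theorem chk1_sound {F : Iv → Iv → Iv} {f : ℝ → ℝ → ℝ}
    (hF : ∀ (Z S : Iv) (z s : ℝ), Z.mem z → S.mem s → (F Z S).mem (f z s))
    (cs : List ℤ) (M E : ℤ) :
    ∀ (n : ℕ) (lo hi : ℤ), chk1 F cs M E n lo hi = true → ∀ z s : ℝ,
      (lo : ℝ) ≤ (z - M / 2) * (SC : ℝ) → (z - M / 2) * (SC : ℝ) ≤ hi →
      |s - qP cs M z| ≤ (E : ℝ) / SC → 0 < f z s := by
  intro n
  induction n with
  | zero => intro lo hi h; simp [chk1] at h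
  | succ n ih =>
    intro lo hi h z s h1 h2 hs
    simp only [chk1, Bool.or_eq_true, Bool.and_eq_true, decide_eq_true_eq] at h
    rcases h with h | h
    · have hT : Iv.mem (z - (M:ℝ) / 2) ⟨lo, hi⟩ := ⟨h1, h2⟩
      have hZ : Iv.mem z ⟨lo + SC / 2 * M, hi + SC / 2 * M⟩ := by
        have e : ((SC / 2 * M : ℤ) : ℝ) = (M:ℝ) / 2 * (SC : ℝ) := by
          have : (SC / 2 : ℤ) = 536870912 := by decide
          rw [this]; push_cast; norm_num; ring
        constructor
        · show (((lo + SC / 2 * M : ℤ)) : ℝ) ≤ z * (SC : ℝ)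
          rw [Int.cast_add, e]; linarith
        · show z * (SC : ℝ) ≤ (((hi + SC / 2 * M : ℤ)) : ℝ)
          rw [Int.cast_add, e]; linarith
      have hq := qIv_mem hT cs
      have hd : Iv.mem (s - qP cs M z) ⟨-E, E⟩ := by
        have hS := SC_pos
        obtain ⟨a1, a2⟩ := abs_le.mp hs
        rw [le_div_iff₀ hS] at a2
        rw [← neg_div, div_le_iff₀ hS] at a1
        exact ⟨by push_cast; exact a1, a2⟩
      have hS := mem_add hq hd
      have e2 : evI cs (z - M / 2) / (SC : ℝ) + (s - qP cs M z) = s := by unfold qP; ring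
      rw [e2] at hS
      exact pos_of_lo (hF _ _ z s hZ hS) h
    · rcases le_total ((z - M / 2) * (SC : ℝ)) (((lo + hi) / 2 : ℤ) : ℝ) with hc | hc
      · exact ih _ _ h.1 z s h1 hc hs
      · exact ih _ _ h.2 z s hc h2 hs

/-- one full unit piece -/
theorem chk1_piece {F : Iv → Iv → Iv} {f : ℝ → ℝ → ℝ}
    (hF : ∀ (Z S : Iv) (z s : ℝ), Z.mem z → S.mem s → (F Z S).mem (f z s))
    {cs : List ℤ} {M E : ℤ} {n : ℕ} (h : chk1 F cs M E n (-536870912) 536870912 = true)
    {z s : ℝ} (h1 : (M:ℝ) / 2 - 1 / 2 ≤ z) (h2 : z ≤ M / 2 + 1 / 2)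
    (hs : |s - qP cs M z| ≤ (E : ℝ) / SC) : 0 < f z s := by
  refine chk1_sound hF cs M E n _ _ h z s ?_ ?_ hs
  · have : (SC : ℝ) = 1073741824 := by norm_num
    rw [this]; push_cast; nlinarith
  · have : (SC : ℝ) = 1073741824 := by norm_num
    rw [this]; push_cast; nlinarith

end Crest.Agent.R253.Mills37
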