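import Crest.Agent.R253.V3Eng_37

/-! # Row 253, helper37: the polynomial functions of the barriers, interval versions -/

open MeasureTheory Set Filter Topology Real

namespace Crest.Agent.R253.Mills37

open Crest.Agent.R307.IChk

def kI (n : ℤ) (d : ℕ) : Iv := Iv.const n d
lemma kI_mem (n : ℤ) (d : ℕ) (hd : d ≠ 0) : (kI n d).mem ((n : ℝ) / (d : ℝ)) := mem_const n hd

/-- real `Q2` in `(z,s)` : `(1+β)(sE - cc w) - w²`, β = 11/100 -/
noncomputable def q2s (z s : ℝ) : ℝ :=
  let w := 1 - z * s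
  let cc := w - s * s
  let w1 := z * cc - s
  let E := s * w - w1
  111 / 100 * (s * E - cc * w) - w * w
def q2sI (z s : Iv) : Iv :=
  let w := (kI 1 1).sub (z.mul s)
  let cc := w.sub (s.mul s)
  let w1 := (z.mul cc).sub s
  let E := (s.mul w).sub w1
  ((kI 111 100).mul ((s.mul E).sub (cc.mul w))).sub (w.mul w)

lemma q2s_mem (Z S : Iv) (z s : ℝ) (hz : Z.mem z) (hs : S.mem s) : (q2sI Z S).mem (q2s z s) := by
  have h1 : (kI 1 1).mem (1:ℝ) := by simpa using kI_mem 1 1 (by norm_num)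
  have h111 : (kI 111 100).mem (111 / 100 : ℝ) := by simpa using kI_mem 111 100 (by norm_num)
  have hw := mem_sub h1 (mem_mul hz hs)
  have hcc := mem_sub hw (mem_mul hs hs)
  have hw1 := mem_sub (mem_mul hz hcc) hs
  have hE := mem_sub (mem_mul hs hw) hw1
  exact mem_sub (mem_mul h111 (mem_sub (mem_mul hs hE) (mem_mul hcc hw))) (mem_mul hw hw)

/-- the two parts of `Q3` in `(z,s)` -/
noncomputable def q3s (sg : Bool) (z s : ℝ) : ℝ :=
  let w := 1 - z * s
  let s2 := s * s
  let cc := w - s2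
  let css := (z + s) * ((s2 + s2) - w)
  let w1 := z * cc - s
  let E := s * w - w1
  let F := 3 * w - z * E
  let L := 1 / 20 * (s * F - cc * E)
  let B := (w1 - css - E) * E + (w + cc) * F
  if sg then L - B else L + B
def q3sI (sg : Bool) (z s : Iv) : Iv :=
  let w := (kI 1 1).sub (z.mul s)
  let s2 := s.mul s
  let cc := w.sub s2
  let css := (z.add s).mul ((s2.add s2).sub w)
  let w1 := (z.mul cc).sub s
  let E := (s.mul w).sub w1
  let F := ((kI 3 1).mul w).sub (z.mul E)
  let L := (kI 1 20).mul ((s.mul F).sub (cc.mul E))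
  let B := (((w1.sub css).sub E).mul E).add ((w.add cc).mul F)
  if sg then L.sub B else L.add B

lemma q3s_mem (sg : Bool) (Z S : Iv) (z s : ℝ) (hz : Z.mem z) (hs : S.mem s) :
    (q3sI sg Z S).mem (q3s sg z s) := by
  have h1 : (kI 1 1).mem (1:ℝ) := by simpa using kI_mem 1 1 (by norm_num)
  have h3 : (kI 3 1).mem (3:ℝ) := by simpa using kI_mem 3 1 (by norm_num)
  have h20 : (kI 1 20).mem (1 / 20 : ℝ) := by simpa using kI_mem 1 20 (by norm_num)
  have hw := mem_sub h1 (mem_mul hz hs)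
  have hs2 := mem_mul hs hs
  have hcc := mem_sub hw hs2
  have hcss := mem_mul (mem_add hz hs) (mem_sub (mem_add hs2 hs2) hw)
  have hw1 := mem_sub (mem_mul hz hcc) hs
  have hE := mem_sub (mem_mul hs hw) hw1
  have hF := mem_sub (mem_mul h3 hw) (mem_mul hz hE)
  have hL := mem_mul h20 (mem_sub (mem_mul hs hF) (mem_mul hcc hE))
  have hB := mem_add (mem_mul (mem_sub (mem_sub hw1 hcss) hE) hE) (mem_mul (mem_add hw hcc) hF)
  unfold q3sI q3s
  cases sg
  · simp only [Bool.false_eq_true, if_false]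
    exact mem_add hL hB
  · simp only [if_true]
    exact mem_sub hL hB

/-- `Q2` in `(z,r)` : `(1+β)(r(z+r)G - C) - 2G` -/
noncomputable def q2r (z r : ℝ) : ℝ :=
  let G := (z * z + z * r) + 2
  let C := (z * z + 4) - r * r
  111 / 100 * ((r * (z + r)) * G - C) - 2 * G
def q2rI (z r : Iv) : Iv :=
  let G := ((z.mul z).add (z.mul r)).add (kI 2 1)
  let C := ((z.mul z).add (kI 4 1)).sub (r.mul r)
  ((kI 111 100).mul (((r.mul (z.add r)).mul G).sub C)).sub ((kI 2 1).mul G)

lemma q2r_mem (Z S : Iv) (z r : ℝ) (hz : Z.mem z) (hr : S.mem r) : (q2rI Z S).mem (q2r z r) := by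
  have h2 : (kI 2 1).mem (2:ℝ) := by simpa using kI_mem 2 1 (by norm_num)
  have h4 : (kI 4 1).mem (4:ℝ) := by simpa using kI_mem 4 1 (by norm_num)
  have h111 : (kI 111 100).mem (111 / 100 : ℝ) := by simpa using kI_mem 111 100 (by norm_num)
  have hG := mem_add (mem_add (mem_mul hz hz) (mem_mul hz hr)) h2
  have hC := mem_sub (mem_add (mem_mul hz hz) h4) (mem_mul hr hr)
  exact mem_sub (mem_mul h111 (mem_sub (mem_mul (mem_mul hr (mem_add hz hr)) hG) hC)) (mem_mul h2 hG)

/-- `Q3` in `(z,r)` -/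
noncomputable def q3r (sg : Bool) (z r : ℝ) : ℝ :=
  let zr := z * r
  let A := z + r
  let G := (z * z + zr) + 2
  let C := (z * z + 4) - r * r
  let W1 := 2 * ((z - r) - zr * A)
  let S2 := 2 * ((zr + r * r) - 2)
  let F := 3 - zr
  let c := z * G + A
  let L := 1 / 20 * (G * ((A * F) * G - C * r))
  let B := ((W1 * G - c * S2) * r) + G * ((2 * G + C) * F - 2 * (G * (r * r)))
  if sg then L - B else L + B
def q3rI (sg : Bool) (z r : Iv) : Iv :=
  let zr := z.mul r
  let A := z.add r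
  let G := ((z.mul z).add zr).add (kI 2 1)
  let C := ((z.mul z).add (kI 4 1)).sub (r.mul r)
  let W1 := (kI 2 1).mul ((z.sub r).sub (zr.mul A))
  let S2 := (kI 2 1).mul ((zr.add (r.mul r)).sub (kI 2 1))
  let F := (kI 3 1).sub zr
  let c := (z.mul G).add A
  let L := (kI 1 20).mul (G.mul (((A.mul F).mul G).sub (C.mul r)))
  let B := (((W1.mul G).sub (c.mul S2)).mul r).add
    (G.mul (((((kI 2 1).mul G).add C).mul F).sub ((kI 2 1).mul (G.mul (r.mul r)))))
  if sg then L.sub B else L.add B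

lemma q3r_mem (sg : Bool) (Z S : Iv) (z r : ℝ) (hz : Z.mem z) (hr : S.mem r) :
    (q3rI sg Z S).mem (q3r sg z r) := by
  have h2 : (kI 2 1).mem (2:ℝ) := by simpa using kI_mem 2 1 (by norm_num)
  have h3 : (kI 3 1).mem (3:ℝ) := by simpa using kI_mem 3 1 (by norm_num)
  have h4 : (kI 4 1).mem (4:ℝ) := by simpa using kI_mem 4 1 (by norm_num)
  have h20 : (kI 1 20).mem (1 / 20 : ℝ) := by simpa using kI_mem 1 20 (by norm_num)
  have hzr := mem_mul hz hr
  have hA := mem_add hz hr
  have hG := mem_add (mem_add (mem_mul hz hz) hzr) h2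
  have hC := mem_sub (mem_add (mem_mul hz hz) h4) (mem_mul hr hr)
  have hW1 := mem_mul h2 (mem_sub (mem_sub hz hr) (mem_mul hzr hA))
  have hS2 := mem_mul h2 (mem_sub (mem_add hzr (mem_mul hr hr)) h2)
  have hF := mem_sub h3 hzr
  have hc := mem_add (mem_mul hz hG) hA
  have hL := mem_mul h20 (mem_mul hG (mem_sub (mem_mul (mem_mul hA hF) hG) (mem_mul hC hr)))
  have hB := mem_add (mem_mul (mem_sub (mem_mul hW1 hG) (mem_mul hc hS2)) hr)
    (mem_mul hG (mem_sub (mem_mul (mem_add (mem_mul h2 hG) hC) hF) (mem_mul h2 (mem_mul hG (mem_mul hr hr)))))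
  unfold q3rI q3r
  cases sg
  · simp only [Bool.false_eq_true, if_false]
    exact mem_add hL hB
  · simp only [if_true]
    exact mem_sub hL hB

noncomputable section

/-! ### relations with the barrier functions -/

lemma cc_es (z : ℝ) : cc z = (1 - z * ee z) - ee z * ee z := by rw [ww_add']; unfold ww; ring
lemma mu_ss (z : ℝ) : mu z * ss z = (z + ee z) * ((ee z * ee z + ee z * ee z) - (1 - z * ee z)) := by
  rw [mu_eq]; unfold ss; ring
/-- `E = r w` -/
lemma rw_E (z : ℝ) : rr z * ww z =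
    ee z * (1 - z * ee z) - (z * ((1 - z * ee z) - ee z * ee z) - ee z) := by
  rw [rr_mul_ww]; unfold ww; ring

/-- `H2` in terms of `q2s` -/
lemma H2_s (z : ℝ) : (rr z * (11 / 100 * ee z - bb z) - 11 / 100 * cc z) * ww z = q2s z (ee z) := by
  have hr := (rr_pos z).ne'
  have h1 : rr z * (11 / 100 * ee z - bb z) - 11 / 100 * cc z =
      111 / 100 * (rr z * ee z - cc z) - ww z := by
    unfold bb; field_simp; ring
  have h2 := rw_E z
  unfold q2s
  simp only
  rw [h1, ← h2, ← cc_es]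
  unfold ww
  ring
lemma H3_s (z : ℝ) (sg : Bool) :
    ((1 / 20) * (ee z * (3 - z * rr z) - cc z * rr z) + (if sg then -1 else 1) * Bf z) * ww z =
      q3s sg z (ee z) := by
  have h2 := rw_E z
  have hE : rr z * ww z = rr z * ww z := rfl
  have h3 : Bf z * ww z = (-(ee z) + z * cc z - mu z * ss z - rr z * ww z) * (rr z * ww z)
      + (ww z + cc z) * (3 * ww z - z * (rr z * ww z)) := by
    unfold Bf; ring
  have h4 : (ee z * (3 - z * rr z) - cc z * rr z) * ww z =
      ee z * (3 * ww z - z * (rr z * ww z)) - cc z * (rr z * ww z) := by ring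
  have h5 : ((1 / 20) * (ee z * (3 - z * rr z) - cc z * rr z) + (if sg then -1 else 1) * Bf z) * ww z
      = (1 / 20) * ((ee z * (3 - z * rr z) - cc z * rr z) * ww z)
        + (if sg then -1 else 1) * (Bf z * ww z) := by ring
  rw [h5, h3, h4, h2, mu_ss, cc_es]
  unfold q3s ww
  cases sg
  · simp only [Bool.false_eq_true, if_false]
    ring
  · simp only [if_true]
    ring

/-- in terms of `r` -/
lemma ww_G (z : ℝ) : ww z = 2 / GG z := by
  rw [eq_div_iff (GG_pos z).ne']; exact ww_mul_GG z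
lemma ee_G (z : ℝ) : ee z = (z + rr z) / GG z := by
  rw [eq_div_iff (GG_pos z).ne']; exact ee_mul_GG z

lemma H2_r (z : ℝ) : (rr z * (11 / 100 * ee z - bb z) - 11 / 100 * cc z) * GG z ^ 2 =
    q2r z (rr z) := by
  have hr := (rr_pos z).ne'
  have hG := (GG_pos z).ne'
  have h1 : rr z * (11 / 100 * ee z - bb z) - 11 / 100 * cc z =
      111 / 100 * (rr z * ee z - cc z) - ww z := by
    unfold bb; field_simp; ring
  rw [h1, ww_add', ww_G, ee_G]
  unfold q2r
  simp only
  have hG2 : GG z = (z * z + z * rr z) + 2 := by unfold GG; ring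
  rw [← hG2]
  field_simp
  rw [hG2]; ring
lemma H3_r (z : ℝ) (sg : Bool) :
    ((1 / 20) * (ee z * (3 - z * rr z) - cc z * rr z) + (if sg then -1 else 1) * Bf z) * GG z ^ 3 =
      q3r sg z (rr z) := by
  have hG := (GG_pos z).ne'
  have hG2 : GG z = (z * z + z * rr z) + 2 := by unfold GG; ring
  have h6 : Bf z * GG z ^ 3 =
      ((2 * ((z - rr z) - z * rr z * (z + rr z)) * GG z - (z * GG z + (z + rr z)) *
        (2 * ((z * rr z + rr z * rr z) - 2))) * rr z) +
      GG z * ((2 * GG z + ((z * z + 4) - rr z * rr z)) * (3 - z * rr z)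
        - 2 * (GG z * (rr z * rr z))) := by
    unfold Bf
    rw [mu_ss, ww_add', ww_G, ee_G]
    field_simp
    rw [hG2]; ring
  have h7 : (ee z * (3 - z * rr z) - cc z * rr z) * GG z ^ 3 =
      GG z * (((z + rr z) * (3 - z * rr z)) * GG z - ((z * z + 4) - rr z * rr z) * rr z) := by
    rw [ww_add', ww_G, ee_G]
    field_simp
    rw [hG2]; ring
  have h5 : ((1 / 20) * (ee z * (3 - z * rr z) - cc z * rr z) + (if sg then -1 else 1) * Bf z) * GG z ^ 3
      = (1 / 20) * ((ee z * (3 - z * rr z) - cc z * rr z) * GG z ^ 3)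
        + (if sg then -1 else 1) * (Bf z * GG z ^ 3) := by ring
  rw [h5, h6, h7]
  unfold q3r
  simp only
  rw [← hG2]
  cases sg
  · simp only [Bool.false_eq_true, if_false]
    ring
  · simp only [if_true]
    ring

lemma pos_of_mul_pos' {a b : ℝ} (hb : 0 < b) (h : 0 < a * b) : 0 < a :=
  (mul_pos_iff_of_pos_right hb).mp h

end

end Crest.Agent.R253.Mills37
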