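import Crest.Agent.R253.V3Fun_37
open MeasureTheory Set Filter Topology Real
namespace Crest.Agent.R253.Mills37
noncomputable section

/-- the moments `M_n` -/
def Mn : ℕ → ℝ → ℝ
  | 0 => Q
  | 1 => M1
  | (n + 2) => fun z => ((n : ℝ) + 1) * Mn n z - z * Mn (n + 1) z

lemma Mn_succ2 (n : ℕ) (z : ℝ) : Mn (n + 2) z = ((n : ℝ) + 1) * Mn n z - z * Mn (n + 1) z := rfl
lemma Mn_two (z : ℝ) : Mn 2 z = M2 z := by
  rw [Mn_succ2]; unfold M2; simp [Mn]
lemma Mn_three (z : ℝ) : Mn 3 z = M3 z := by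
  rw [Mn_succ2, Mn_two]; unfold M3; simp [Mn]; norm_num

lemma Mn_hasDerivAt : ∀ (n : ℕ) (z : ℝ), HasDerivAt (Mn (n + 1)) (-(((n : ℝ) + 1) * Mn n z)) z
  | 0, z => by
      refine (M1_hasDerivAt z).congr_deriv ?_
      simp [Mn]
  | 1, z => by
      have h : HasDerivAt (Mn 2) (-(2 * M1 z)) z := by
        refine (M2_hasDerivAt z).congr_of_eventuallyEq (Eventually.of_forall fun y => Mn_two y)
      refine h.congr_deriv ?_
      simp [Mn]; norm_num
  | (n + 2), z => by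
      have h1 := Mn_hasDerivAt n z
      have h2 := Mn_hasDerivAt (n + 1) z
      have := (h1.const_mul (((n + 1 : ℕ) : ℝ) + 1)).sub ((hasDerivAt_id z).mul h2)
      have e : Mn (n + 2 + 1) = fun z => (((n + 1 : ℕ) : ℝ) + 1) * Mn (n + 1) z - z * Mn (n + 2) z := rfl
      rw [e]
      refine this.congr_deriv ?_
      simp only [id]
      rw [Mn_succ2]
      push_cast
      ring

lemma pow_mul_Mn_tendsto : ∀ (n k : ℕ), Tendsto (fun z : ℝ => z ^ k * Mn n z) atTop (𝓝 0)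
  | 0, k => pow_mul_Q_tendsto k
  | 1, k => pow_mul_M1_tendsto k
  | (n + 2), k => by
      have h := ((pow_mul_Mn_tendsto n k).const_mul ((n : ℝ) + 1)).sub
        (pow_mul_Mn_tendsto (n + 1) (k + 1))
      simp only [mul_zero, sub_zero] at h
      refine h.congr fun z => ?_
      rw [Mn_succ2]; ring

lemma Mn_pos : ∀ (n : ℕ) (z : ℝ), 0 < Mn n z
  | 0, z => Q_pos z
  | (n + 1), z => by
      refine pos_of_deriv_neg (Mn_hasDerivAt n) (fun z => ?_) ?_ z
      · have := Mn_pos n z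
        have : 0 < ((n : ℝ) + 1) * Mn n z := by positivity
        linarith
      · simpa using pow_mul_Mn_tendsto (n + 1) 0

def rn (n : ℕ) (z : ℝ) : ℝ := Mn (n + 1) z / Mn n z
lemma rn_pos (n : ℕ) (z : ℝ) : 0 < rn n z := div_pos (Mn_pos _ _) (Mn_pos _ _)
lemma rn_two (z : ℝ) : rn 2 z = rr z := by unfold rn rr; rw [Mn_two, Mn_three]
/-- `r_n (z + r_{n+1}) = n+1` -/
lemma rn_rec (n : ℕ) (z : ℝ) : rn n z * (z + rn (n + 1) z) = (n : ℝ) + 1 := by
  have h1 := (Mn_pos n z).ne'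
  have h2 := (Mn_pos (n + 1) z).ne'
  unfold rn
  field_simp
  rw [Mn_succ2]; ring
lemma rn_step {n : ℕ} {z l u l' u' : ℝ} (hz : 0 < z) (h : l ≤ rn (n + 1) z ∧ rn (n + 1) z ≤ u)
    (hl : 0 ≤ l) (hl' : l' * (z + u) ≤ (n : ℝ) + 1) (hu' : (n : ℝ) + 1 ≤ u' * (z + l)) (h0 : 0 ≤ l') :
    l' ≤ rn n z ∧ rn n z ≤ u' := by
  have hr := rn_rec n z
  have hp := rn_pos n z
  have hp1 := rn_pos (n + 1) z
  obtain ⟨h1, h2⟩ := h
  constructor
  · by_contra hc
    have hc := not_le.mp hc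
    have : rn n z * (z + rn (n + 1) z) < l' * (z + u) := by
      have a1 : rn n z * (z + rn (n + 1) z) < l' * (z + rn (n + 1) z) :=
        mul_lt_mul_of_pos_right hc (by linarith)
      have a2 : l' * (z + rn (n + 1) z) ≤ l' * (z + u) :=
        mul_le_mul_of_nonneg_left (by linarith) h0
      linarith
    linarith
  · by_contra hc
    have hc := not_le.mp hc
    have : u' * (z + l) < rn n z * (z + rn (n + 1) z) := by
      have a1 : u' * (z + l) < rn n z * (z + l) := mul_lt_mul_of_pos_right hc (by linarith)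
      have a2 : rn n z * (z + l) ≤ rn n z * (z + rn (n + 1) z) :=
        mul_le_mul_of_nonneg_left (by linarith) hp.le
      linarith
    linarith
/-- upper bound `r_n ≤ (n+1)/z` -/
lemma rn_le {z : ℝ} (hz : 0 < z) (n : ℕ) : rn n z ≤ ((n : ℝ) + 1) / z := by
  rw [le_div_iff₀ hz]
  have hr := rn_rec n z
  have hp := rn_pos n z
  have hp1 := rn_pos (n + 1) z
  nlinarith [mul_pos hp hp1]

end
end Crest.Agent.R253.Mills37
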