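import Crest.Agent.R253.V3Mn_37

/-! # Row 253, helper37: the tails `|z| ≥ 4` of the barriers -/

open MeasureTheory Set Filter Topology Real

set_option linter.unusedSimpArgs false

namespace Crest.Agent.R253.Mills37
noncomputable section

/-- common structure for `z ≥ 4` -/
lemma rr_tail {z : ℝ} (hz : 4 ≤ z) : ∃ a b : ℝ, 0 ≤ a ∧ 0 ≤ b ∧ a + b = 2 ∧
    rr z * (z * z * (z * z + (4 + a) + 5) + 4 * (z * z + (4 + a))) =
      3 * z * (z * z + (4 + a) + 5) := by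
  have hz0 : 0 < z := by linarith
  have h5 := rn_rec 5 z
  have h4 := rn_rec 4 z
  have h3 := rn_rec 3 z
  have h2 := rn_rec 2 z
  have p6 := rn_pos 6 z
  have p5 := rn_pos 5 z
  have p4 := rn_pos 4 z
  have p3 := rn_pos 3 z
  have u6 := rn_le hz0 6
  have u5 := rn_le hz0 5
  rw [le_div_iff₀ hz0] at u6 u5
  norm_num at h5 h4 h3 h2 u6 u5
  rw [rn_two] at h2
  refine ⟨z * rn 5 z - 4, 6 - z * rn 5 z, ?_, by linarith, by ring, ?_⟩
  · -- z r5 ≥ 4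
    have e1 : z * rn 5 z * (z * z + z * rn 6 z) = 6 * (z * z) := by
      have : z * rn 5 z * (z * z + z * rn 6 z) = z * z * (rn 5 z * (z + rn 6 z)) := by ring
      rw [this, h5]; ring
    by_contra hc
    have hc := not_le.mp hc
    have e2 : z * rn 5 z < 4 := by linarith
    have e3 : 0 < z * z + z * rn 6 z := by positivity
    have e4 : z * rn 5 z * (z * z + z * rn 6 z) < 4 * (z * z + z * rn 6 z) :=
      mul_lt_mul_of_pos_right e2 e3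
    have e5 : z * rn 6 z ≤ 7 := by linarith
    nlinarith
  · set p := z * rn 5 z with hp
    have e1 : rn 4 z * (z * z + p) = 5 * z := by
      have : rn 4 z * (z * z + p) = z * (rn 4 z * (z + rn 5 z)) := by rw [hp]; ring
      rw [this, h4]; ring
    have e2 : rn 3 z * (z * (z * z + p + 5)) = 4 * (z * z + p) := by
      have : rn 3 z * (z * (z * z + p + 5)) = rn 3 z * (z * (z * z + p) + 5 * z) := by ring
      rw [this, ← e1]
      have : rn 3 z * (z * (z * z + p) + rn 4 z * (z * z + p)) =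
        (z * z + p) * (rn 3 z * (z + rn 4 z)) := by ring
      rw [this, h3]; ring
    have e3 : rr z * (z * z * (z * z + p + 5) + 4 * (z * z + p)) = 3 * z * (z * z + p + 5) := by
      rw [← e2]
      have : rr z * (z * z * (z * z + p + 5) + rn 3 z * (z * (z * z + p + 5))) =
        z * (z * z + p + 5) * (rr z * (z + rn 3 z)) := by ring
      rw [this, h2]; ring
    have e4 : (4 + (p - 4)) = p := by ring
    rw [e4]; exact e3

/-- numerator of `q2r` -/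
def nq2 (X N D : ℝ) : ℝ :=
  111 / 100 * (3 * X * N * (D + 3 * N) * (D * (X + 2) + 3 * X * N) - (X + 4) * D ^ 3
    + 9 * X * N ^ 2 * D) - 2 * (D * (X + 2) + 3 * X * N) * D ^ 2
lemma q2r_eq (z N D : ℝ) (hD : D ≠ 0) : q2r z (3 * z * N / D) * D ^ 3 = nq2 (z * z) N D := by
  unfold q2r nq2
  simp only
  field_simp
  ring

/-- the `λ`-part of `q3r` -/
def nL (X N D : ℝ) : ℝ :=
  (D * (X + 2) + 3 * X * N) * ((D + 3 * N) * 3 * (D - X * N) * (D * (X + 2) + 3 * X * N)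
    - ((X + 4) * D ^ 2 - 9 * X * N ^ 2) * 3 * N)
def nB (X N D : ℝ) : ℝ :=
  2 * (3 * X * N * D ^ 2 - 9 * X * N ^ 2 * D - (3 * X * N) ^ 2 * D - 3 * X * N * (9 * X * N ^ 2))
    * (D * (X + 2) + 3 * X * N)
  - 2 * (3 * X * N * (D * (X + 2) + 3 * X * N) + 3 * X * N * D + 9 * X * N ^ 2)
    * (3 * X * N * D + 9 * X * N ^ 2 - 2 * D ^ 2)
  + (D * (X + 2) + 3 * X * N) * ((2 * (D * (X + 2) + 3 * X * N) * D
    + ((X + 4) * D ^ 2 - 9 * X * N ^ 2)) * 3 * (D - X * N)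
    - 2 * (D * (X + 2) + 3 * X * N) * (9 * X * N ^ 2))
lemma q3r_eq_t (z N D : ℝ) (hD : D ≠ 0) :
    q3r true z (3 * z * N / D) * D ^ 4 = z / 20 * nL (z * z) N D - nB (z * z) N D := by
  unfold q3r nL nB
  simp only [if_true]
  field_simp
  ring
lemma q3r_eq_f (z N D : ℝ) (hD : D ≠ 0) :
    q3r false z (3 * z * N / D) * D ^ 4 = z / 20 * nL (z * z) N D + nB (z * z) N D := by
  unfold q3r nL nB
  simp only [Bool.false_eq_true, if_false]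
  field_simp
  ring

set_option maxHeartbeats 4000000 in
lemma nq2_pos (t a b : ℝ) (ht : 0 ≤ t) (ha : 0 ≤ a) (hb : 0 ≤ b) (hab : a + b = 2) :
    0 < nq2 (16+t) (16+t+(4+a)+5) ((16+t)*(16+t+(4+a)+5)+4*(16+t+(4+a))) := by
  have h : 400 * (nq2 (16+t) (16+t+(4+a)+5) ((16+t)*(16+t+(4+a)+5)+4*(16+t+(4+a)))) = 400 +
    (16642799950*b^3 + 52641201450*a^1*b^2 + 55460543850*a^2*b^1 
    + 19461812878*a^3 + 5804929800*t^1*b^3 + 18407407500*t^1*a^1*b^2 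
    + 19455103152*t^1*a^2*b^1 + 6853677308*t^1*a^3 + 859551975*t^2*b^3 
    + 2719022331*t^2*a^1*b^2 + 2867068341*t^2*a^2*b^1 + 1007741481*t^2*a^3 
    + 70228881*t^3*b^3 + 220769355*t^3*a^1*b^2 + 231311991*t^3*a^2*b^1 
    + 80777757*t^3*a^3 + 3424812*t^4*b^3 + 10667988*t^4*a^1*b^2 + 11074200*t^4*a^2*b^1 
    + 3831112*t^4*a^3 + 99732*t^5*b^3 + 307176*t^5*a^1*b^2 + 315288*t^5*a^2*b^1 
    + 107844*t^5*a^3 + 1605*t^6*b^3 + 4881*t^6*a^1*b^2 + 4947*t^6*a^2*b^1 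
    + 1671*t^6*a^3 + 11*t^7*b^3 + 33*t^7*a^1*b^2 + 33*t^7*a^2*b^1 + 11*t^7*a^3 ) := by
    have : b = 2 - a := by linarith
    subst this
    simp only [nq2, nL, nB]
    ring
  have h2 : 0 ≤ 16642799950*b^3 + 52641201450*a^1*b^2 + 55460543850*a^2*b^1 
    + 19461812878*a^3 + 5804929800*t^1*b^3 + 18407407500*t^1*a^1*b^2 
    + 19455103152*t^1*a^2*b^1 + 6853677308*t^1*a^3 + 859551975*t^2*b^3 
    + 2719022331*t^2*a^1*b^2 + 2867068341*t^2*a^2*b^1 + 1007741481*t^2*a^3 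
    + 70228881*t^3*b^3 + 220769355*t^3*a^1*b^2 + 231311991*t^3*a^2*b^1 
    + 80777757*t^3*a^3 + 3424812*t^4*b^3 + 10667988*t^4*a^1*b^2 + 11074200*t^4*a^2*b^1 
    + 3831112*t^4*a^3 + 99732*t^5*b^3 + 307176*t^5*a^1*b^2 + 315288*t^5*a^2*b^1 
    + 107844*t^5*a^3 + 1605*t^6*b^3 + 4881*t^6*a^1*b^2 + 4947*t^6*a^2*b^1 
    + 1671*t^6*a^3 + 11*t^7*b^3 + 33*t^7*a^1*b^2 + 33*t^7*a^2*b^1 + 11*t^7*a^3  := by positivity
  linarith

set_option maxHeartbeats 4000000 in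
lemma nL_pos (t a b : ℝ) (ht : 0 ≤ t) (ha : 0 ≤ a) (hb : 0 ≤ b) (hab : a + b = 2) :
    0 < nL (16+t) (16+t+(4+a)+5) ((16+t)*(16+t+(4+a)+5)+4*(16+t+(4+a))) := by
  have h : 16 * (nL (16+t) (16+t+(4+a)+5) ((16+t)*(16+t+(4+a)+5)+4*(16+t+(4+a)))) = 16 +
    (9562885919999*b^4 + 41649856991996*a^1*b^3 + 68023113350394*a^2*b^2 
    + 49374680613116*a^3*b^1 + 13439119587839*a^4 + 4053924936000*t^1*b^4 
    + 17500598348400*t^1*a^1*b^3 + 28328207284080*t^1*a^2*b^2 + 20377930218960*t^1*a^3*b^1 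
    + 5496537264912*t^1*a^4 + 759944292975*t^2*b^4 + 3251136735540*t^2*a^1*b^3 
    + 5214987529290*t^2*a^2*b^2 + 3717246982164*t^2*a^3*b^1 + 993465449727*t^2*a^4 
    + 82671028515*t^3*b^4 + 350438863140*t^3*a^1*b^3 + 556951702338*t^3*a^2*b^2 
    + 393327912132*t^3*a^3*b^1 + 104144691123*t^3*a^4 + 5750848215*t^4*b^4 
    + 24150751956*t^4*a^1*b^3 + 38024626770*t^4*a^2*b^2 + 26602394820*t^4*a^3*b^1 
    + 6977687103*t^4*a^4 + 265249107*t^5*b^4 + 1103396652*t^5*a^1*b^3 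
    + 1720848690*t^5*a^2*b^2 + 1192541196*t^5*a^3*b^1 + 309840195*t^5*a^4 
    + 8110773*t^6*b^4 + 33416604*t^6*a^1*b^3 + 51618222*t^6*a^2*b^2 + 35430012*t^6*a^3*b^1 
    + 9117621*t^6*a^4 + 158529*t^7*b^4 + 646812*t^7*a^1*b^3 + 989478*t^7*a^2*b^2 
    + 672636*t^7*a^3*b^1 + 171441*t^7*a^4 + 1797*t^8*b^4 + 7260*t^8*a^1*b^3 
    + 10998*t^8*a^2*b^2 + 7404*t^8*a^3*b^1 + 1869*t^8*a^4 + 9*t^9*b^4 + 36*t^9*a^1*b^3 
    + 54*t^9*a^2*b^2 + 36*t^9*a^3*b^1 + 9*t^9*a^4 ) := by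
    have : b = 2 - a := by linarith
    subst this
    simp only [nq2, nL, nB]
    ring
  have h2 : 0 ≤ 9562885919999*b^4 + 41649856991996*a^1*b^3 + 68023113350394*a^2*b^2 
    + 49374680613116*a^3*b^1 + 13439119587839*a^4 + 4053924936000*t^1*b^4 
    + 17500598348400*t^1*a^1*b^3 + 28328207284080*t^1*a^2*b^2 + 20377930218960*t^1*a^3*b^1 
    + 5496537264912*t^1*a^4 + 759944292975*t^2*b^4 + 3251136735540*t^2*a^1*b^3 
    + 5214987529290*t^2*a^2*b^2 + 3717246982164*t^2*a^3*b^1 + 993465449727*t^2*a^4 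
    + 82671028515*t^3*b^4 + 350438863140*t^3*a^1*b^3 + 556951702338*t^3*a^2*b^2 
    + 393327912132*t^3*a^3*b^1 + 104144691123*t^3*a^4 + 5750848215*t^4*b^4 
    + 24150751956*t^4*a^1*b^3 + 38024626770*t^4*a^2*b^2 + 26602394820*t^4*a^3*b^1 
    + 6977687103*t^4*a^4 + 265249107*t^5*b^4 + 1103396652*t^5*a^1*b^3 
    + 1720848690*t^5*a^2*b^2 + 1192541196*t^5*a^3*b^1 + 309840195*t^5*a^4 
    + 8110773*t^6*b^4 + 33416604*t^6*a^1*b^3 + 51618222*t^6*a^2*b^2 + 35430012*t^6*a^3*b^1 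
    + 9117621*t^6*a^4 + 158529*t^7*b^4 + 646812*t^7*a^1*b^3 + 989478*t^7*a^2*b^2 
    + 672636*t^7*a^3*b^1 + 171441*t^7*a^4 + 1797*t^8*b^4 + 7260*t^8*a^1*b^3 
    + 10998*t^8*a^2*b^2 + 7404*t^8*a^3*b^1 + 1869*t^8*a^4 + 9*t^9*b^4 + 36*t^9*a^1*b^3 
    + 54*t^9*a^2*b^2 + 36*t^9*a^3*b^1 + 9*t^9*a^4  := by positivity
  linarith

set_option maxHeartbeats 4000000 in
lemma nt_pos (t a b : ℝ) (ht : 0 ≤ t) (ha : 0 ≤ a) (hb : 0 ≤ b) (hab : a + b = 2) :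
    0 < 4/20 * nL (16+t) (16+t+(4+a)+5) ((16+t)*(16+t+(4+a)+5)+4*(16+t+(4+a))) - nB (16+t) (16+t+(4+a)+5) ((16+t)*(16+t+(4+a)+5)+4*(16+t+(4+a))) := by
  have h : 80 * (4/20 * nL (16+t) (16+t+(4+a)+5) ((16+t)*(16+t+(4+a)+5)+4*(16+t+(4+a))) - nB (16+t) (16+t+(4+a)+5) ((16+t)*(16+t+(4+a)+5)+4*(16+t+(4+a)))) = 80 +
    (13097466719995*b^4 + 52741543391980*a^1*b^3 + 79187655686370*a^2*b^2 
    + 52488174731500*a^3*b^1 + 12942943257595*a^4 + 5508571536000*t^1*b^4 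
    + 22353992204400*t^1*a^1*b^3 + 33905744077680*t^1*a^2*b^2 + 22772380201680*t^1*a^3*b^1 
    + 5711752508112*t^1*a^4 + 1014995493225*t^2*b^4 + 4141063172340*t^2*a^1*b^3 
    + 6324757580430*t^2*a^2*b^2 + 4285393464804*t^2*a^3*b^1 + 1086684174897*t^2*a^4 
    + 107614570815*t^3*b^4 + 440493130620*t^3*a^1*b^3 + 675621474498*t^3*a^2*b^2 
    + 460192722252*t^3*a^3*b^1 + 117449381943*t^3*a^4 + 7241370525*t^4*b^4 
    + 29679521436*t^4*a^1*b^3 + 45604768230*t^4*a^2*b^2 + 31136441100*t^4*a^3*b^1 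
    + 7969826133*t^4*a^4 + 321032187*t^5*b^4 + 1314975132*t^5*a^1*b^3 
    + 2019737970*t^5*a^2*b^2 + 1378697916*t^5*a^3*b^1 + 352903035*t^5*a^4 
    + 9388443*t^6*b^4 + 38356524*t^6*a^1*b^3 + 58763322*t^6*a^2*b^2 + 40011132*t^6*a^3*b^1 
    + 10215891*t^6*a^4 + 174909*t^7*b^4 + 711252*t^7*a^1*b^3 + 1084518*t^7*a^2*b^2 
    + 734916*t^7*a^3*b^1 + 186741*t^7*a^4 + 1887*t^8*b^4 + 7620*t^8*a^1*b^3 
    + 11538*t^8*a^2*b^2 + 7764*t^8*a^3*b^1 + 1959*t^8*a^4 + 9*t^9*b^4 + 36*t^9*a^1*b^3 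
    + 54*t^9*a^2*b^2 + 36*t^9*a^3*b^1 + 9*t^9*a^4 ) := by
    have : b = 2 - a := by linarith
    subst this
    simp only [nq2, nL, nB]
    ring
  have h2 : 0 ≤ 13097466719995*b^4 + 52741543391980*a^1*b^3 + 79187655686370*a^2*b^2 
    + 52488174731500*a^3*b^1 + 12942943257595*a^4 + 5508571536000*t^1*b^4 
    + 22353992204400*t^1*a^1*b^3 + 33905744077680*t^1*a^2*b^2 + 22772380201680*t^1*a^3*b^1 
    + 5711752508112*t^1*a^4 + 1014995493225*t^2*b^4 + 4141063172340*t^2*a^1*b^3 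
    + 6324757580430*t^2*a^2*b^2 + 4285393464804*t^2*a^3*b^1 + 1086684174897*t^2*a^4 
    + 107614570815*t^3*b^4 + 440493130620*t^3*a^1*b^3 + 675621474498*t^3*a^2*b^2 
    + 460192722252*t^3*a^3*b^1 + 117449381943*t^3*a^4 + 7241370525*t^4*b^4 
    + 29679521436*t^4*a^1*b^3 + 45604768230*t^4*a^2*b^2 + 31136441100*t^4*a^3*b^1 
    + 7969826133*t^4*a^4 + 321032187*t^5*b^4 + 1314975132*t^5*a^1*b^3 
    + 2019737970*t^5*a^2*b^2 + 1378697916*t^5*a^3*b^1 + 352903035*t^5*a^4 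
    + 9388443*t^6*b^4 + 38356524*t^6*a^1*b^3 + 58763322*t^6*a^2*b^2 + 40011132*t^6*a^3*b^1 
    + 10215891*t^6*a^4 + 174909*t^7*b^4 + 711252*t^7*a^1*b^3 + 1084518*t^7*a^2*b^2 
    + 734916*t^7*a^3*b^1 + 186741*t^7*a^4 + 1887*t^8*b^4 + 7620*t^8*a^1*b^3 
    + 11538*t^8*a^2*b^2 + 7764*t^8*a^3*b^1 + 1959*t^8*a^4 + 9*t^9*b^4 + 36*t^9*a^1*b^3 
    + 54*t^9*a^2*b^2 + 36*t^9*a^3*b^1 + 9*t^9*a^4  := by positivity
  linarith

set_option maxHeartbeats 4000000 in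
lemma nf_pos (t a b : ℝ) (ht : 0 ≤ t) (ha : 0 ≤ a) (hb : 0 ≤ b) (hab : a + b = 2) :
    0 < 4/20 * nL (16+t) (16+t+(4+a)+5) ((16+t)*(16+t+(4+a)+5)+4*(16+t+(4+a))) + nB (16+t) (16+t+(4+a)+5) ((16+t)*(16+t+(4+a)+5)+4*(16+t+(4+a))) := by
  have h : 80 * (4/20 * nL (16+t) (16+t+(4+a)+5) ((16+t)*(16+t+(4+a)+5)+4*(16+t+(4+a))) + nB (16+t) (16+t+(4+a)+5) ((16+t)*(16+t+(4+a)+5)+4*(16+t+(4+a)))) = 80 +
    (6028305119995*b^4 + 30558170591980*a^1*b^3 + 56858571014370*a^2*b^2 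
    + 46261186494700*a^3*b^1 + 13935295918075*a^4 + 2599278336000*t^1*b^4 
    + 12647204492400*t^1*a^1*b^3 + 22750670490480*t^1*a^2*b^2 + 17983480236240*t^1*a^3*b^1 
    + 5281322021712*t^1*a^4 + 504893092725*t^2*b^4 + 2361210298740*t^2*a^1*b^3 
    + 4105217478150*t^2*a^2*b^2 + 3149100499524*t^2*a^3*b^1 + 900246724557*t^2*a^4 
    + 57727486215*t^3*b^4 + 260384595660*t^3*a^1*b^3 + 438281930178*t^3*a^2*b^2 
    + 326463102012*t^3*a^3*b^1 + 90840000303*t^3*a^4 + 4260325905*t^4*b^4 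
    + 18621982476*t^4*a^1*b^3 + 30444485310*t^4*a^2*b^2 + 22068348540*t^4*a^3*b^1 
    + 5985548073*t^4*a^4 + 209466027*t^5*b^4 + 891818172*t^5*a^1*b^3 
    + 1421959410*t^5*a^2*b^2 + 1006384476*t^5*a^3*b^1 + 266777355*t^5*a^4 
    + 6833103*t^6*b^4 + 28476684*t^6*a^1*b^3 + 44473122*t^6*a^2*b^2 + 30848892*t^6*a^3*b^1 
    + 8019351*t^6*a^4 + 142149*t^7*b^4 + 582372*t^7*a^1*b^3 + 894438*t^7*a^2*b^2 
    + 610356*t^7*a^3*b^1 + 156141*t^7*a^4 + 1707*t^8*b^4 + 6900*t^8*a^1*b^3 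
    + 10458*t^8*a^2*b^2 + 7044*t^8*a^3*b^1 + 1779*t^8*a^4 + 9*t^9*b^4 + 36*t^9*a^1*b^3 
    + 54*t^9*a^2*b^2 + 36*t^9*a^3*b^1 + 9*t^9*a^4 ) := by
    have : b = 2 - a := by linarith
    subst this
    simp only [nq2, nL, nB]
    ring
  have h2 : 0 ≤ 6028305119995*b^4 + 30558170591980*a^1*b^3 + 56858571014370*a^2*b^2 
    + 46261186494700*a^3*b^1 + 13935295918075*a^4 + 2599278336000*t^1*b^4 
    + 12647204492400*t^1*a^1*b^3 + 22750670490480*t^1*a^2*b^2 + 17983480236240*t^1*a^3*b^1 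
    + 5281322021712*t^1*a^4 + 504893092725*t^2*b^4 + 2361210298740*t^2*a^1*b^3 
    + 4105217478150*t^2*a^2*b^2 + 3149100499524*t^2*a^3*b^1 + 900246724557*t^2*a^4 
    + 57727486215*t^3*b^4 + 260384595660*t^3*a^1*b^3 + 438281930178*t^3*a^2*b^2 
    + 326463102012*t^3*a^3*b^1 + 90840000303*t^3*a^4 + 4260325905*t^4*b^4 
    + 18621982476*t^4*a^1*b^3 + 30444485310*t^4*a^2*b^2 + 22068348540*t^4*a^3*b^1 
    + 5985548073*t^4*a^4 + 209466027*t^5*b^4 + 891818172*t^5*a^1*b^3 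
    + 1421959410*t^5*a^2*b^2 + 1006384476*t^5*a^3*b^1 + 266777355*t^5*a^4 
    + 6833103*t^6*b^4 + 28476684*t^6*a^1*b^3 + 44473122*t^6*a^2*b^2 + 30848892*t^6*a^3*b^1 
    + 8019351*t^6*a^4 + 142149*t^7*b^4 + 582372*t^7*a^1*b^3 + 894438*t^7*a^2*b^2 
    + 610356*t^7*a^3*b^1 + 156141*t^7*a^4 + 1707*t^8*b^4 + 6900*t^8*a^1*b^3 
    + 10458*t^8*a^2*b^2 + 7044*t^8*a^3*b^1 + 1779*t^8*a^4 + 9*t^9*b^4 + 36*t^9*a^1*b^3 
    + 54*t^9*a^2*b^2 + 36*t^9*a^3*b^1 + 9*t^9*a^4  := by positivity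
  linarith

theorem q_tail_right {z : ℝ} (hz : 4 ≤ z) : 0 < q2r z (rr z) ∧ ∀ sg, 0 < q3r sg z (rr z) := by
  obtain ⟨a, b, ha, hb, hab, h⟩ := rr_tail hz
  have ht : 0 ≤ z * z - 16 := by nlinarith
  have e : z * z = 16 + (z * z - 16) := by ring
  generalize z * z - 16 = t at ht e
  have hN : (z * z + (4 + a) + 5) = (16+t+(4+a)+5) := by rw [e]
  have hDe : z * z * (z * z + (4 + a) + 5) + 4 * (z * z + (4 + a)) =
    ((16+t)*(16+t+(4+a)+5)+4*(16+t+(4+a))) := by rw [e]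
  have hD : 0 < ((16+t)*(16+t+(4+a)+5)+4*(16+t+(4+a))) := by positivity
  rw [hDe, hN] at h
  have hr : rr z = 3 * z * (16+t+(4+a)+5) / ((16+t)*(16+t+(4+a)+5)+4*(16+t+(4+a))) := by
    rw [eq_div_iff hD.ne']; exact h
  have hL := nL_pos t a b ht ha hb hab
  rw [hr]
  refine ⟨?_, ?_⟩
  · refine pos_of_mul_pos' (pow_pos hD 3) ?_
    rw [q2r_eq _ _ _ hD.ne', e]
    exact nq2_pos t a b ht ha hb hab
  · intro sg
    refine pos_of_mul_pos' (pow_pos hD 4) ?_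
    cases sg
    · rw [q3r_eq_f _ _ _ hD.ne', e]
      have := nf_pos t a b ht ha hb hab
      have h4 : 4 / 20 * nL (16+t) (16+t+(4+a)+5) ((16+t)*(16+t+(4+a)+5)+4*(16+t+(4+a))) ≤
        z / 20 * nL (16+t) (16+t+(4+a)+5) ((16+t)*(16+t+(4+a)+5)+4*(16+t+(4+a))) :=
        mul_le_mul_of_nonneg_right (by linarith) hL.le
      linarith
    · rw [q3r_eq_t _ _ _ hD.ne', e]
      have := nt_pos t a b ht ha hb hab
      have h4 : 4 / 20 * nL (16+t) (16+t+(4+a)+5) ((16+t)*(16+t+(4+a)+5)+4*(16+t+(4+a))) ≤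
        z / 20 * nL (16+t) (16+t+(4+a)+5) ((16+t)*(16+t+(4+a)+5)+4*(16+t+(4+a))) :=
        mul_le_mul_of_nonneg_right (by linarith) hL.le
      linarith

/-! ### the left tail -/

lemma q2s_left {y c : ℝ} (hy : 4 ≤ y) (hc : 0 ≤ c) : 0 < q2s (-y) (y + c) := by
  have h : q2s (-y) (y + c) = 11 / 100 * y ^ 4 + 22 / 100 * y ^ 2 - 211 / 100
    + (133 / 100 * y ^ 3 + 355 / 100 * y) * c + (233 / 100 * y ^ 2 + 333 / 100) * c ^ 2
    + 111 / 100 * y * c ^ 3 := by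
    unfold q2s; simp only; ring
  rw [h]
  have h1 : 0 ≤ (133 / 100 * y ^ 3 + 355 / 100 * y) * c := by positivity
  have h2 : 0 ≤ (233 / 100 * y ^ 2 + 333 / 100) * c ^ 2 := by positivity
  have h3 : 0 ≤ 111 / 100 * y * c ^ 3 := by positivity
  have h4 : 16 ≤ y ^ 2 := by nlinarith
  have h5 : 0 ≤ y ^ 4 := by positivity
  linarith

lemma q3s_left {y c : ℝ} (hy : 4 ≤ y) (hc : 0 ≤ c) (hc1 : c ≤ 1 / 100) (sg : Bool) :
    0 < q3s sg (-y) (y + c) := by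
  have h2 : 16 ≤ y ^ 2 := by nlinarith
  have h3 : 64 ≤ y ^ 3 := by nlinarith
  have h5 : 1024 ≤ y ^ 5 := by nlinarith
  cases sg
  · have h : q3s false (-y) (y + c) = 1 / 20 * (y ^ 5 + 5 * y ^ 3 + (3 * y ^ 4 + 13 * y ^ 2 + 1) * c
      + (3 * y ^ 3 + 10 * y) * c ^ 2 + (y ^ 2 + 2) * c ^ 3)
      + (6 - (y ^ 5 + 5 * y ^ 3 + 6 * y) * c - (4 * y ^ 4 + 16 * y ^ 2 + 7) * c ^ 2
        - (5 * y ^ 3 + 15 * y) * c ^ 3 - 2 * (y ^ 2 + 2) * c ^ 4) := by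
      unfold q3s; simp only [Bool.false_eq_true, if_false]; ring
    rw [h]
    have c2 : c ^ 2 ≤ 1 / 100 * c := by nlinarith
    have c3 : c ^ 3 ≤ 1 / 10000 * c := by nlinarith [mul_nonneg hc hc]
    have c4 : c ^ 4 ≤ 1 / 1000000 * c := by
      have : c ^ 4 = c * c ^ 3 := by ring
      nlinarith [mul_nonneg hc hc, pow_nonneg hc 3]
    have y0 : 0 < y := by linarith
    have b1 : (y ^ 5 + 5 * y ^ 3 + 6 * y) * c ≤ (y ^ 5 + 5 * y ^ 3 + 6 * y) * (1 / 100) :=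
      mul_le_mul_of_nonneg_left hc1 (by positivity)
    have b2 : (4 * y ^ 4 + 16 * y ^ 2 + 7) * c ^ 2 ≤ (4 * y ^ 4 + 16 * y ^ 2 + 7) * (1 / 10000) :=
      mul_le_mul_of_nonneg_left (by nlinarith) (by positivity)
    have b3 : (5 * y ^ 3 + 15 * y) * c ^ 3 ≤ (5 * y ^ 3 + 15 * y) * (1 / 1000000) :=
      mul_le_mul_of_nonneg_left (by nlinarith) (by positivity)
    have b4 : 2 * (y ^ 2 + 2) * c ^ 4 ≤ 2 * (y ^ 2 + 2) * (1 / 100000000) :=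
      mul_le_mul_of_nonneg_left (by nlinarith) (by positivity)
    have g1 : 0 ≤ (3 * y ^ 4 + 13 * y ^ 2 + 1) * c := by positivity
    have g2 : 0 ≤ (3 * y ^ 3 + 10 * y) * c ^ 2 := by positivity
    have g3 : 0 ≤ (y ^ 2 + 2) * c ^ 3 := by positivity
    have k1 : 4 * y ^ 4 ≤ y ^ 5 := by
      have : y ^ 5 = y * y ^ 4 := by ring
      rw [this]; exact mul_le_mul_of_nonneg_right hy (by positivity)
    have k2 : 4 * y ^ 2 ≤ y ^ 3 := by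
      have : y ^ 3 = y * y ^ 2 := by ring
      rw [this]; exact mul_le_mul_of_nonneg_right hy (by positivity)
    have k3 : 16 * y ≤ y ^ 3 := by
      have : y ^ 3 = y ^ 2 * y := by ring
      rw [this]; exact mul_le_mul_of_nonneg_right h2 (by positivity)
    nlinarith
  · have h : q3s true (-y) (y + c) = 1 / 20 * (y ^ 5 + 5 * y ^ 3 + (3 * y ^ 4 + 13 * y ^ 2 + 1) * c
      + (3 * y ^ 3 + 10 * y) * c ^ 2 + (y ^ 2 + 2) * c ^ 3)
      - (6 - (y ^ 5 + 5 * y ^ 3 + 6 * y) * c - (4 * y ^ 4 + 16 * y ^ 2 + 7) * c ^ 2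
        - (5 * y ^ 3 + 15 * y) * c ^ 3 - 2 * (y ^ 2 + 2) * c ^ 4) := by
      unfold q3s; simp only [if_true]; ring
    rw [h]
    have g1 : 0 ≤ (3 * y ^ 4 + 13 * y ^ 2 + 1) * c := by positivity
    have g2 : 0 ≤ (3 * y ^ 3 + 10 * y) * c ^ 2 := by positivity
    have g3 : 0 ≤ (y ^ 2 + 2) * c ^ 3 := by positivity
    have g4 : 0 ≤ (y ^ 5 + 5 * y ^ 3 + 6 * y) * c := by positivity
    have g5 : 0 ≤ (4 * y ^ 4 + 16 * y ^ 2 + 7) * c ^ 2 := by positivity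
    have g6 : 0 ≤ (5 * y ^ 3 + 15 * y) * c ^ 3 := by positivity
    have g7 : 0 ≤ 2 * (y ^ 2 + 2) * c ^ 4 := by positivity
    linarith

end
end Crest.Agent.R253.Mills37
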