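import Crest.Agent.R253.V3ChkA_37
import Crest.Agent.R253.V3ChkB_37
import Crest.Agent.R253.V3ChkC_37
import Crest.Agent.R253.V3ChkD_37
import Crest.Agent.R253.V3ChkE_37
import Crest.Agent.R253.V3Tail_37

/-! # Row 253, helper37: `v'' < (11/100) e`, `|v'''| < e/20` (`v = H0`, `e = ee`) -/

open MeasureTheory Set Filter Topology Real

namespace Crest.Agent.R253.Mills37
open Crest.Agent.R307.IChk
noncomputable section

lemma mu_mono : Monotone mu := by
  refine monotone_of_deriv_nonneg (fun z => (mu_hasDerivAt z).differentiableAt) (fun z => ?_)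
  rw [(mu_hasDerivAt z).deriv]
  exact (mul_pos (mu_pos z) (ee_pos z)).le

lemma mu_left {z : ℝ} (hz : z ≤ -4) : mu z ≤ 1 / 100 := by
  have h4 := enc_s3 (-4) (by norm_num) (by norm_num)
  have hq : |ee (-4) - 4| ≤ 1 / 100 := by
    have e1 : |qP css3 (-7) (-4) - 4| ≤ 1 / 200 := by
      unfold qP css3; simp only [evI]; norm_num [abs_le]
    have hS : ((SC : ℤ) : ℝ) = 1073741824 := by norm_num
    rw [hS] at h4
    rw [abs_le] at *
    push_cast at h4
    constructor <;> linarith [h4.1, h4.2, e1.1, e1.2]
  have h := mu_mono hz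
  rw [mu_eq (-4)] at h
  linarith [(abs_le.mp hq).2]

/-- the level-2 (β) polynomial inequality, everywhere -/
theorem H2_pos (z : ℝ) : 0 < rr z * (11 / 100 * ee z - bb z) - 11 / 100 * cc z := by
  rcases le_or_gt z 0 with hz | hz
  · refine pos_of_mul_pos' (ww_pos z) ?_
    rw [H2_s]
    rcases le_or_gt z (-4) with h4 | h4
    · have := q2s_left (y := -z) (c := mu z) (by linarith) (mu_pos z).le
      have e : -z + mu z = ee z := by rw [mu_eq z]; ring
      rwa [neg_neg, e] at this
    rcases le_or_gt z (-3) with h3 | h3
    · exact chk1_piece q2s_mem chk_q2s3 (by push_cast; linarith) (by push_cast; linarith)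
        (enc_s3 z h4.le h3)
    rcases le_or_gt z (-2) with h2 | h2
    · exact chk1_piece q2s_mem chk_q2s2 (by push_cast; linarith) (by push_cast; linarith)
        (enc_s2 z h3.le h2)
    rcases le_or_gt z (-1) with h1 | h1
    · exact chk1_piece q2s_mem chk_q2s1 (by push_cast; linarith) (by push_cast; linarith)
        (enc_s1 z h2.le h1)
    · exact chk1_piece q2s_mem chk_q2s0 (by push_cast; linarith) (by push_cast; linarith)
        (enc_s0 z h1.le hz)
  · refine pos_of_mul_pos' (pow_pos (GG_pos z) 2) ?_
    rw [H2_r]
    rcases le_or_gt 4 z with h4 | h4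
    · exact (q_tail_right h4).1
    rcases le_or_gt 3 z with h3 | h3
    · exact chk1_piece q2r_mem chk_q2r0 (by push_cast; linarith) (by push_cast; linarith)
        (enc_r0 z h3 h4.le)
    rcases le_or_gt 2 z with h2 | h2
    · exact chk1_piece q2r_mem chk_q2r1 (by push_cast; linarith) (by push_cast; linarith)
        (enc_r1 z h2 h3.le)
    rcases le_or_gt 1 z with h1 | h1
    · exact chk1_piece q2r_mem chk_q2r2 (by push_cast; linarith) (by push_cast; linarith)
        (enc_r2 z h1 h2.le)
    · exact chk1_piece q2r_mem chk_q2r3 (by push_cast; linarith) (by push_cast; linarith)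
        (enc_r3 z hz.le h1.le)

theorem H3_pos (z : ℝ) (sg : Bool) : 0 < (1 / 20) * (ee z * (3 - z * rr z) - cc z * rr z)
    + (if sg then -1 else 1) * Bf z := by
  rcases le_or_gt z 0 with hz | hz
  · refine pos_of_mul_pos' (ww_pos z) ?_
    rw [H3_s]
    rcases le_or_gt z (-4) with h4 | h4
    · have := q3s_left (y := -z) (c := mu z) (by linarith) (mu_pos z).le (mu_left h4) sg
      have e : -z + mu z = ee z := by rw [mu_eq z]; ring
      rwa [neg_neg, e] at this
    rcases le_or_gt z (-3) with h3 | h3
    · cases sg
      · exact chk1_piece (q3s_mem false) chk_q3sm3 (by push_cast; linarith) (by push_cast; linarith)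
          (enc_s3 z h4.le h3)
      · exact chk1_piece (q3s_mem true) chk_q3sp3 (by push_cast; linarith) (by push_cast; linarith)
          (enc_s3 z h4.le h3)
    rcases le_or_gt z (-2) with h2 | h2
    · cases sg
      · exact chk1_piece (q3s_mem false) chk_q3sm2 (by push_cast; linarith) (by push_cast; linarith)
          (enc_s2 z h3.le h2)
      · exact chk1_piece (q3s_mem true) chk_q3sp2 (by push_cast; linarith) (by push_cast; linarith)
          (enc_s2 z h3.le h2)
    rcases le_or_gt z (-1) with h1 | h1
    · cases sg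
      · exact chk1_piece (q3s_mem false) chk_q3sm1 (by push_cast; linarith) (by push_cast; linarith)
          (enc_s1 z h2.le h1)
      · exact chk1_piece (q3s_mem true) chk_q3sp1 (by push_cast; linarith) (by push_cast; linarith)
          (enc_s1 z h2.le h1)
    · cases sg
      · exact chk1_piece (q3s_mem false) chk_q3sm0 (by push_cast; linarith) (by push_cast; linarith)
          (enc_s0 z h1.le hz)
      · exact chk1_piece (q3s_mem true) chk_q3sp0 (by push_cast; linarith) (by push_cast; linarith)
          (enc_s0 z h1.le hz)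
  · refine pos_of_mul_pos' (pow_pos (GG_pos z) 3) ?_
    rw [H3_r]
    rcases le_or_gt 4 z with h4 | h4
    · exact (q_tail_right h4).2 sg
    rcases le_or_gt 3 z with h3 | h3
    · cases sg
      · exact chk1_piece (q3r_mem false) chk_q3rm0 (by push_cast; linarith) (by push_cast; linarith)
          (enc_r0 z h3 h4.le)
      · exact chk1_piece (q3r_mem true) chk_q3rp0 (by push_cast; linarith) (by push_cast; linarith)
          (enc_r0 z h3 h4.le)
    rcases le_or_gt 2 z with h2 | h2
    · cases sg
      · exact chk1_piece (q3r_mem false) chk_q3rm1 (by push_cast; linarith) (by push_cast; linarith)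
          (enc_r1 z h2 h3.le)
      · exact chk1_piece (q3r_mem true) chk_q3rp1 (by push_cast; linarith) (by push_cast; linarith)
          (enc_r1 z h2 h3.le)
    rcases le_or_gt 1 z with h1 | h1
    · cases sg
      · exact chk1_piece (q3r_mem false) chk_q3rm2 (by push_cast; linarith) (by push_cast; linarith)
          (enc_r2 z h1 h2.le)
      · exact chk1_piece (q3r_mem true) chk_q3rp2 (by push_cast; linarith) (by push_cast; linarith)
          (enc_r2 z h1 h2.le)
    · cases sg
      · exact chk1_piece (q3r_mem false) chk_q3rm3 (by push_cast; linarith) (by push_cast; linarith)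
          (enc_r3 z hz.le h1.le)
      · exact chk1_piece (q3r_mem true) chk_q3rp3 (by push_cast; linarith) (by push_cast; linarith)
          (enc_r3 z hz.le h1.le)

/-- **`v'' < (11/100) e`** -/
theorem v2_lt (z : ℝ) : v2 z < 11 / 100 * ee z := v2_lt_of (by norm_num) H2_pos z
/-- **`v''' < e/20`** -/
theorem v3_lt (z : ℝ) : v3 z < 1 / 20 * ee z := by
  refine v3_lt_of (by norm_num) (fun z => ?_) z
  have := H3_pos z true
  simp only [if_true] at this
  linarith
theorem v3_gt (z : ℝ) : -(1 / 20 * ee z) < v3 z := by
  refine v3_gt_of (by norm_num) (fun z => ?_) z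
  have := H3_pos z false
  simp only [Bool.false_eq_true, if_false] at this
  linarith
theorem abs_v3_lt (z : ℝ) : |v3 z| < 1 / 20 * ee z := abs_lt.mpr ⟨v3_gt z, v3_lt z⟩
theorem abs_v2_le (z : ℝ) : |v2 z| ≤ 11 / 100 * ee z := by
  rw [abs_of_pos (v2_pos z)]; exact (v2_lt z).le

end
end Crest.Agent.R253.Mills37
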