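import Crest.Agent.R253.HamT_741
import Crest.Agent.R253.HFn_741

/-!
# Row 253: the sharp one-variable constant `v'' ≤ (93/1000) e` (helper718)

True supremum of `v''/e` : `.0924` (at `z = .65`).
-/

set_option autoImplicit false

open Set

noncomputable section

namespace Crest.Agent.R253.V3s718

open Crest.Agent.R253.Mills37 Crest.Agent.R253.HFn741 Crest.Agent.R253.V2451
  Crest.Agent.R253.Slack688

lemma mid {z : ℝ} (h1 : -(9 / 8) ≤ z) (h2 : z < 65 / 8) :
    0 < 1093 * (z * ee z) + 1093 * ee z ^ 2 - 1000 * kk z + 1000 * (z * (ee z * kk z)) := by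
  have h := Ham741.ham (fuel := 8) (n := 3)
    (G := [(1093, 1, 1, 0), (1093, 0, 2, 0), (-1000, 0, 0, 1), (1000, 1, 1, 1)])
    (lo := -18) (hi := 130) (by decide +kernel) (by decide +kernel) (by norm_num) (by norm_num)
    (z := z) (by push_cast; linarith) (by push_cast; linarith)
  simp only [Ham741.evG] at h
  push_cast at h
  nlinarith [h]

lemma at8 : H0 8 < 87 / 20 := by
  have h := Ham741.ham (fuel := 8) (n := 2)
    (G := [(7, 1, 0, 0), (7, 0, 1, 0), (10, 2, 0, 0), (10, 1, 1, 0), (-20, 0, 0, 1)])
    (lo := 128) (hi := 129) (by decide +kernel) (by decide +kernel) (by norm_num) (by norm_num)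
    (z := 8) (by norm_num) (by norm_num)
  simp only [Ham741.evG] at h
  push_cast at h
  have hm := mu_pos 8
  unfold H0
  rw [div_lt_iff₀ hm, mu_eq]
  linarith

lemma H0_le {z : ℝ} (hz : 8 ≤ z) : H0 z ≤ 87 / 20 + (z - 8) / 2 := by
  have hm : AntitoneOn (fun t => H0 t - t / 2) (Ici 8) := by
    apply antitoneOn_of_deriv_nonpos (convex_Ici 8)
    · exact fun t _ => ((H0_hasDerivAt t).sub ((hasDerivAt_id t).div_const 2)).continuousAt.continuousWithinAt
    · exact fun t _ => ((H0_hasDerivAt t).sub
        ((hasDerivAt_id t).div_const 2)).differentiableAt.differentiableWithinAt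
    · intro t _
      have h := ((H0_hasDerivAt t).sub ((hasDerivAt_id t).div_const 2)).deriv
      have e : deriv (fun t => H0 t - t / 2) t = 1 - ee t * H0 t - 1 / 2 := h
      rw [e]
      have := H0_deriv_lt t
      linarith
  have h := hm (mem_Ici.2 le_rfl) (mem_Ici.2 hz) hz
  simp only at h
  have := at8
  linarith

/-- **`v'' ≤ (93/1000) e`** -/
theorem bb2_le (z : ℝ) : bb2 z ≤ 93 / 1000 * ee z := by
  have he := ee_pos z
  have hm := mu_pos z
  rcases lt_or_ge z (-(9 / 8)) with h1 | h1
  · have h2 := bb2_lt z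
    have h3 : -z < ee z := by have := mu_eq z; linarith
    linarith
  · rcases lt_or_ge z (65 / 8) with h2 | h2
    · have h := mid h1 h2
      have h3 : mu z * bb2 z = kk z - z * (ee z * kk z) - ee z * mu z := by
        unfold bb2 ww
        have := mu_H0 z
        linear_combination (1 - z * ee z) * this
      have h4 : mu z * bb2 z ≤ mu z * (93 / 1000 * ee z) := by
        rw [h3]
        have := mu_eq z
        rw [this]
        nlinarith
      exact le_of_mul_le_mul_left h4 hm
    · have hz : (8 : ℝ) ≤ z := by linarith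
      have h3 := H0_le hz
      have h4 := ww_lt (z := z) (by linarith)
      have h5 := ee_gt z
      have h6 := H0_pos z
      have h7 := ww_pos z
      -- `(2 + z²) bb2 ≤ 2 v - z ≤ 93/1000 z ≤ 93/1000 (2 + z²) e`
      have h8 : (2 + z ^ 2) * bb2 z ≤ (2 + z ^ 2) * (93 / 1000 * ee z) := by
        unfold bb2
        have a1 : ww z * (2 + z ^ 2) * H0 z ≤ 2 * H0 z := mul_le_mul_of_nonneg_right h4.le h6.le
        nlinarith
      exact le_of_mul_le_mul_left h8 (by positivity)

end Crest.Agent.R253.V3s718
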